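import Mathlib.Init

/-! R079 (S0106), STEP I: NOTE ON THE WINDOWS (helper110, 07:33Z). Comment only.

TRAP (helper934, message 28745).  Graded windows (doc 2541 (5), GLA_110 / GradV_653) have one uniform
exit depth and weighted count, but in windows of top grade |e| is only O(1), and these windows have
total length O(1) at every generation.  (O2) (PIter_110 `final`) needs |e_1|_u |e_2|_u <= t^Gamma at
EVERY window u, because the static price of the tops is t^(-CS) |u|.  Restarting at the finest
threshold with a uniform depth inside the stops loses the count: self similar cascades, the same
future drift is charged at every nest level.  RelW / RelV windows (653) have pointwise smallness and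
count C / delta but ragged exits, where 28031 (3) ((C C*)_P on I_2(q) = average over all x_3 of own
C_q C_q*) fails.

CURE (helper110, message 28820): ALMOST UNIFORM WINDOWS, typed in AU_110 (`almost_uniform`).
Stop rule of the own top: dev(P, p) = 1/2 |f_P - f_p|_p^2 + acc(P -> p) <= delta at every node p (this
compares own-node minimisers, it does not depend on the exit set).  Cut at ONE level d_P = the smallest
level such that the stops of level >= d_P have total length <= mu |P|.
Window W_P = good nodes of level >= d_P.  Exits = nodes of level d_P outside the stops, and SPOTS =
stops above d_P at their own level, total length <= mu |P|; g = own minimisers glued on these exits.
(1) Count: if d_P > 0, the stops of level >= d_P - 1 have total length > mu |P| and each pays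
    delta / 2 by drift AT NODES OF W_P (never inside a spot); these node sets are disjoint for
    different windows.  Hence Sum |P| <= |J| (2 + 2 P0 / (mu delta)).  (AU_110.almost_uniform)
(2) |e|_p^2 <= C delta at EVERY node p of EVERY window (RelV_653.el_win / exists_elwin use only the
    leafwise condition dev(P, L) <= delta, any shape of the window).
(3) Frames: (C C*)_P on I_2(q) is an average over x_3; the positions outside the spots are tiled by
    exits of level d_P (own op <= s, four blocks glue), so they give the averages of own C_q C_q*
    (ExA_999 / ExB_999).  The positions in spots K of larger scale contribute pointwise at most
    (1 / |P|) Sum_K Int_K |X|^2 <= mu (line letter, av_K X <= 1 at every K in R), so the kernel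
    k = M C C* / (4 s_i) gets k_spot <= M mu / (4 s_i) pointwise.  With mu = t^(C'), C' larger than twice
    the exponents of M and 1 / s_i, the exit S4 cost is unchanged.  This is a bound of a cost per
    window, NOT an error to be summed over the windows (the sum of mu |P| over the windows is only
    <= C / delta: do not try to throw the spots away).
(4) (G): the exit letter has small own op at a spot K only on the scale of K, so the corner has to
    be used with RAGGED leaves (doc 2540 of 416); 59's cylinder subtraction is not available.
Open for Step I after this: the signed ragged corner (4), the labelled (S) word with these costs, and
the tall dictionary (931's ReadMe_931, section 6).  (3) has not been refereed. -/
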