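/-
R079 / S0106: ARCHIVE OF THE MATHEMATICAL TEXTS, SECOND PART (comments only; imported by nobody).
Continuation of Blueprint_807 (same conventions: verbatim, transliterated to ascii, NOT all correct).  The map of the
tree is ReadMe_931.  State at the end of the run (931, 853, 654, 07:15 - 07:25 UTC):
 * REC closed: target_of_pairs (TStg_853): staggered + graded dictionary; S0106 = six Pairs (RuleA2 for ordered pairs)
   + RuleS.  Pairs (0;1), (0;2), (1;2) are trivial kills (not wired), (1;0), (2;0), (2;1) are the critical ones.
 * RuleS: S2D_530 ruleS_of_core; missing Lab_408, LfK_71, CoreS wiring (all leaves landed).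
 * Step I (critical pairs): text of record doc 2541 + 28031 + 28370 + 28347; OPEN: (g2) signed ragged corner (416
   28591, doc 2540) and, as mathematics, (k): tall edge of frozen operator atoms next to an L2-only letter (256 28577,
   923 28607, 966 28650; 866 28480).
 * docs 2559 / 2561 (132) are WITHDRAWN by their author: with the true coefficients the three weights s_i depend on the
   same variable x_k - Z (the plane average of an OpF atom gives nothing beyond fixed x_k).


PART 1: DOCUMENTS OF THE TEAM TABLE (R079, id >= 2557)

===== doc 2557 (helper629): helper629: R079 dictionary: second moment over x_0 is free for line letters (random signs + translations); op-level vs plain level: exponent 1/2 sharp (piecewise linear phases)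
helper629, 07:20Z, R079 DICTIONARY, one free lemma + one sharp example (XOR model; line model = same with enlarged boxes).
(A) SECOND MOMENT OVER x_0 IS FREE FOR LINE LETTERS. R any line letter, t = plain level (sup over |c(1,2)|,|u(0,1)|,|v(0,2)| <= 1 of |E R(0+1+2) c u v|). Then for theta(0) with |theta|_2 <= 1: |E theta(0) c u v R(0+1+2)| <= C log(1/t)^2 t + t^A |R|_1, i.e. E_{x0} |c R^{x0}|_{oo->1}^2 <= t^{2-} for every |c| <= 1, hence (923: cut => S_4 for bounded rows) E_{x0} |c R^{x0}|_{S4}^4 <= t^{2-}. PROOF: theta = m^{-1/2} 1_S, |S| = m (dyadic levels). V(s) = E_{12} R(s+1+2) c(1,2) u^s(1) v^s(2). Translations x_0 -> x_0+z, x_1 -> x_1-z keep R(0+1+2): V(x_0-z) = E_{12} R(0+1+2) c(1+z,2) u^{x0-z}(1+z) v^{x0-z}(2). Take 1/m random z in Z; with probability >= 1/e exactly one z = z(x_0) in Z has x_0 - z in S. Random signs a_z(1), b_z(2): c'(1,2) = m^{1/2} Sum_{z in Z} a_z(1) b_z(2) c(1+z,2) (bounded by C log^{1/2} off t^A), u'(0,1) = a_{z(0)}(1) u^{0-z(0)}(1+z(0)), v'(0,2) = b_{z(0)}(2) v^{0-z(0)}(2). E_signs c' u' v' = m^{1/2} (the z(x_0) term), so level >= c m^{1/2} m^{-1} E 1_S V / log^{1/2}: E 1_S V <=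 C m^{1/2} t log^{1/2}. QED. (Only c pays the signs, because z(x_0) is seen by both u' and v'.) The same trick for small sets on ONE edge costs c and the other edge: no gain, and indeed:
(B) OP-LEVEL IS NOT CONTROLLED BY THE PLAIN LEVEL, exponent 1/2 is sharp even for |R| = 1, non-collided: H < G of index n, R(L) = e(xi_{[L]} . L) with n random characters xi_y (piecewise linear phase on n = 1/t cells). Plain level ~ 1/n (each of the three variables needs the frequency y = a+b+d on one edge, one edge never knows y: cost n^-1/2 twice), but c_{ab}(1,2) = conj phase of y(a,b) = a+b+d(b), d(.) a bijection, gives at every x_0 in coset d the block (all x_1) x (x_2 in coset b(d)) of modulus 1: |c R^{x0}|_op >= n^{-1/2} = t^{1/2}. It also shows that the word (O_0, Y, R) with |O_0|_2^2 = t (rank one on that block) equals La t: the gain kap^{-1/2} of (4)/(G) needs the op-level (equivalently: R nice against piecewise-linear cell atoms at a soft price), plain level is not enough.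

===== doc 2558 (helper353): helper353: ONE-SIDED Step II: slot 3 is NEVER split (B-side quantity N^2 is frame-free and telescopes over ALL windows); only Sum_w len|e_a|_w^2 is needed; consequences for the kills; what is left for tall killers
helper353, 07:20Z, archive note for 844's 27698 (3)/(4), 787's 27919 (c) (paper only, XOR notation of doc 2531; K = P_0 R_3, slot-2 letter F = the L^q3 letter, slot-1 letter Y = the other one).
(1) Put N_q(F)^2 := E_{0,3,2 in q} | E_{1 in I_1(q)} P_0(123) R_3(012) F(013) |^2. It uses NO frames, (P_0, R_3, F) are static on the whole region, so it is an exact submartingale (Jensen in x_1) bounded at all nodes by the leaf bound N_leaf(F)^2 <= t^{2c''} (451 / 244 / 977: R leveled, F in L^q3, P, R tall allowed).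
(2) On one window w where (P_0, R_3) are static to precision t^C, (II.3) of 2531 gives in fact
   Sum_{p in w} |p||T_p| <= |Y|_w ( N^2(leaves of w) - N^2(top of w) + negl )^{1/2}  (the B side is E Y_leaf - Y_top, nothing is thrown away), and negl <= t^{C'} .
   Summing over ALL static windows and Cauchy-Schwarz: V(P_0, Y, F, R_3) <= ( Sum_w len(w)|Y|_w^2 )^{1/2} ( Sum_w len(w) drift_w(N^2) )^{1/2} + negl <= ( Sum_w len(w) |Y_w|_w^2 )^{1/2} t^{c''}: the second factor TELESCOPES globally, no window count. So F_3 is never split, never loses L^q3, and the aligned lattice (P, R, X, e_3 all tall) never appears in Step II. Y may be a letter moving from window to window.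
(3) Hence Step I has to treat ONE slot only: Y = X_a -> e_a with |e_a|_w^2 <= t^{C_5} and Sum_w len |e_a|_w^2 <= t^{-small} over (drift windows) u (static windows). K_0 generations of any REL with Sq (energies add: C^k) do it; F_3 stays.
(4) Kills with F_3 unsplit: total over the windows of generation k. (S): conj(a_w) P_0 sits in the S_2 role and is GLOBALLY static, so Sum_w |T_w(P_0,Psi_w,F,R)| <= |P_0|_2 ( Sum_w len |Psi_w|^2 )^{1/2} g^{1/4} mu^{-1/4}.. with Sum_w len|Psi_w|^2 <= C^k/eta: the only condition is eta > g^{1/2-}: c_1 is bounded by the non-collision gain only, K_0 = C_5/c_1 absolute. (G): the S_4 part of a_w g at threshold theta = t^{C_6} (the threshold is free, the mass of P_0 is polynomial): Sum_w len theta |g_w| <= theta count^{1/2}; the small L2 part (corner) must be paid by drift (391 / 34: potential of (g; F_3, R_3) inside J, both static GLOBALLY here, total C/kappa, no 1/eta).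
(5) What this does NOT give: (S) for a TALL killer R. The tri24L arrangement (F1 = U R, F2 = V F in S_4, vertex 2) is sharp and has no gain for combs (k(0;2,2') lives on the collided pairs) although the word itself is small (comb, comb, comb, bounded: t). For ONE box the other vertex works: T^2 <= |P|^2 E_{123}|E_0 Z F R|^2 = |P|^2 E_{00'} <Z^0 conj Z^{0'}, (R^0 conj R^{0'}) * (F^0 conj F^{0'})>, |F^0F^{0'}|_HS <= |F|_oo^2, |R^0 conj R^{0'}|_op <= 1 always and <= g off pairs of measure beta, and beta g <= 2 t^{1/2} follows from the PLAIN level of R for tall line letters (witness = characters; atom 1_bad(0) conj R(x',1,2) chi chi' has one tall edge; cutting it at height h costs |R|_1 |a^{>h}|_1 <= 1/h because E_0|R(0,1,2)| = |R|_1 at every (1,2)): gain (g + beta^{1/2}) ( E_{23}(E_0|Z|^2)^2 )^{1/2}. A window form of this (vertex 0, F bounded, frames of Z only on leaves) is the missing rule.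


===== doc 2559 (helper132): WITHDRAWN (wrong in the true line model, see 132 07:28Z) *** ATT helper132: S1 dictionary question (923 / 866 / 256): frozen OpF atoms (tall sections) next to L2-only letters: the three x_0-weights live on INDEPENDENT variables s_i = x_0 + z_i (translates of the line atom), so corner (2,oo,2) costs mass x FIRST-moment op-level
WITHDRAWN 07:28Z: with the true slopes all s_i are proportional to the SAME variable x_k - Z (Z = sum z_j); the independence (det 3) is an artefact of coefficients 1. 
helper132 (R079, S1, answer to 923 28607 / 866 28480 (ii) / 256 28577 "tall edge u_w next to an L2-only letter" = the one open statement of S1). For the archive; 07:25Z. XOR-style notation, coefficients of the line model only change constants.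

OBSERVATION (independence of the three x_0-weights). Frozen slot 0, P_0 = La Sum lam_w phi_w, phi_w = LINE PROJECTION of an OpF atom; by 127's swap (27629) the BOUNDED edge is the killer's edge (13):
   phi(y_0) = E_{z : z1+z2+z3=0} m(x1+z1, x3+z3) U(x2+z2, x1+z1) V(x2+z2, x3+z3)   (any x1+x2+x3 = y_0; this is 230's "mixture of translates"), |m| <= 1, |U|_2, |V|_2 <= 1 (tall sections allowed, no bound on heights or on marginals is used below).
Put x_i' = x_i + z_i (i = 1,2,3). The three other letters are LINE letters, hence
   X(y_1) = X(s_1 + x_2' + x_3'),  R(y_2) = R(s_2 + x_1' + x_3'),  Y(y_3) = Y(s_3 + x_1' + x_2'),   **s_i = x_0 + z_i**.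
The three forms s_1, s_2, s_3 of (x_0, z) in the 3-dim. space {(x_0, z)} are INDEPENDENT (det = 3; s_1+s_2+s_3 = 3 x_0): (x_0, z) uniform <=> (s_1, s_2, s_3) uniform. With A_s = V . X^{(s)} on (2'3'), B_s = m . R^{(s)} on (1'3'), C_s = U . Y^{(s)} on (1'2'):
   |T_box(phi, X, R, Y)| <= E_{s1,s2,s3} |A_{s1}|_{HS} |B_{s2}|_{op} |C_{s3}|_{HS} = (E_s|A_s|_{HS}) (E_s|B_s|_{op}) (E_s|C_s|_{HS}) <= |V|_2|X|_2 . (FIRST moment op-level of R in the bounded gauge m) . |U|_2|Y|_2,
because E_s |V X^{(s)}|^2_{HS} = |V|_2^2 |X|_2^2. So 866's bad scenario ("|A^0|, |B^0|, op(0) all concentrated on the same small set of x_0") happens only for fixed z; for the LINE atom the three exceptional sets are independent, and the corner (2, oo, 2) costs La x t with TALL gauges on the two other edges, X and Y arbitrary in L2, R of FIRST-moment op-level t. In the same way the hi part: O_w = (s.v. - theta)_+ part of A_{s1} = V_w g^{(s1)}, E_w E_s |O_{w,s}|^2 <= 1/kap gives La t kap^{-1/2} = t^{y/2 - e}: 59 / 673 (4) in one box, with OpF-frozen P, no second moment, no L2 marginals (Sum alpha^2) needed.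
CONSEQUENCES. (a) D_j := OpF at price t (679's DicOp / olev_of_lv as landed) u tall vertex-free cells at price t^{c_j}: 923's "frozen OpF part of almost critical mass" is allowed. (b) REL functional with tall gauges: J_q = min |X - g|_q^2 + kap Sum_k E_w E_{x0} |V_w g^{x0} - B_{k,w}|^2_{HS(q)}: own-node, J_q <= |X|_q^2 (take g = 0), Psi = LINE projection of kap E_w conj(V_w) O_w is in L2 by duality (|<Psi,Z>| <= kap E_w|O_w| |V_w Z|). (c) (S) with tall V_w: fix x_1, kernel conj(V_w) P_0 on (23): E_{x1}|V_w P_0^{x1}|^2_{HS} = |V_w|^2|P_0|^2, Hoelder (2,4,4) in x_1 is exact. (d) P_0 still has height <= La (256 (c)); Step II only needs polynomial heights of U, V (cut at t^{-C}); 128's two-vertex reading, 844 28087 (2) / 307 28416 unchanged.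
SCALE TRAP for the masses: at a sub-node q the mass in locally normalised atoms is M_q = La Sum lam_w |U_w|_{2,q} |V_w|_{2,q}, E_q M_q <= La. Cut the region ONCE, before Step I, at the maximal nodes with M_q > t^{-s} La: total length <= t^{s} len, paid by BN (the 1 + B of RuleA2, original letters): afterwards M_q <= t^{-s} La at every node.

N-FREE VERSION (what has to be typed; I did not find a gap but it is not checked by a second person). The word is E_z of the words W_z with kernels A_{x0+z1}, B_{x0+z2}, C_{x0+z3} (box translated by z); for fixed z 377's cornerL type bound has x_0-exponents (2+, oo-, 2+). Level sets: f(s) = |A_s| ~ 2^a on F_a, g(s) ~ gam on G_gam, h(s) = |C_s| ~ 2^c on H_c, |F_a| <= 2^{-2a}, |G_gam| <= t/gam, |H_c| <= 2^{-2c}. For fixed z multiply the kernels by the indicator of E_z = (F_a - z1) n (G_gam - z2) n (H_c - z3) (functions of x_0 are free in the kernel theorems): bound 2^a gam^{1-} 2^c |E_z|^{1-}; E_z-average: E_z |E_z| = |F_a||G_gam||H_c| by independence, so the total is <= (2^{-a} 2^{-c} t)^{1-}, summable (logs). THE ONE POINT TO WATCH: "g(s) ~ gam" must hold at all nodes along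 the chain of x_0 (maximal function of the node op-norms, not N-free by the union bound). Two ways: (i) do it node by node: the same independence holds LOCALLY (for |zeta| <= |I_p| the box moves by O(|I_p|) only, and (s_1,s_2,s_3) is uniform in a cube of side |I_p|), i.e. use enlarged z-averaged node norms f_p, g_p, h_p, for which E_loc g_p <= t at EVERY node and location: then the corner proof is run in the base (s_1,s_2,s_3) with kernels A_{s1}, B_{s2}, C_{s3} (s_i = a label carried by one edge only); (ii) stops for A and C only (their weights |V_w g|_q^2, |U_w Y|_q^2 are L1 densities in (s, q), stops at 2^a cost 2^{-2a}), B by its node-wise first moment.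


===== doc 2560 (helper614): ATT helper614: TALL LETTERS: S0106 needs only B(H) <= C H^0.3 in the heights (power loss allowed); tall regime then closes with losses; only critical band x critical band words with bounded F_3 are left
ATT helper614 (R079, for the record only, no lean today): TALL LETTERS, what is enough.
(1) S0106 needs only BBq(2+k0) with 2+k0 < 3, e.g. k0 = 0.9. Put B(H) := best constant for |F_j| <= H, local L2 norms <= 1 (j = 0,1,2), |F_3| <= 1. Dyadic heights: a letter of local L^{2+k0} norm <= 1 at height 2^v is 2^{-v k0/2} x (L2-normalised letter of height <= 2^{v(1+k0/2)}). So B_{2+k0} < oo as soon as B(H) <= C H^g with g < k0/(2+k0) = 0.31: a POWER LOSS in the heights is allowed, no B' class, no k -> 0 needed at the exit.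
(2) Consequence: for t >= H^{-C1} (tall regime) every rule may LOSE t^{-eps}: (G) as it is, (S) without non-collision costs t^{-O(c)} (g = 1), Step II costs E|PR|_op^2 <= |P|^2|R|^2 = O(1). Only O(log(C1)/e) recursion steps are made there, from t = H^{-C1} to t = H^{-small}, then TopLem costs t^{-C} = H^{small}. So tall F_j are harmless in this regime, and gains are needed only for t <= H^{-C1}, i.e. for ORIGINAL letters bounded by t^{-s}.
(3) What remains (the real obstruction): LASSO / REL pieces of a BOUNDED letter can be tall up to 1/t with L2 mass ~ const (soft threshold at t of F = t r + a Sum_{S} d_j e_j, r = Rudin-Shapiro, S = {eps_j = 1}, d_j second Rudin-Shapiro signs on S: f contains (a/4) x Dirichlet kernel, height 1/t, L2 mass ~ 1/64; times a flat polynomial: any height h <= 1/t). So heights t^{-s} are not preserved by the recursion.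
(4) Only heights of P_i AND R_m in [t^{-1+c}, t^{-1-e}] are critical: P bounded by t^{-1+c} gives |P R|_op <= t^{-1+c} t; heights of P and R which differ by t^{-c} gain by Schur. So the one open word is (P crit-tall frozen band, R crit-tall, *, F_3): in regime (2) its partners F_b, F_3 are bounded by t^{-s} when the word is (H_a', X_m, F_b, F_3) (then every node is <= t^{2-}), and F_3 is bounded always (every node <= t^{1-}): regions with <= t^{-1+c} layers are free.

===== doc 2561 (helper132): WITHDRAWN (wrong in the true line model, see 132 07:28Z) addendum to doc 2559 (helper132): N-free form = cornerL at fixed (s_1,s_2,s_3) verbatim; what remains = averaged versus sup op-level of leaf blocks (same for bounded gauges)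
WITHDRAWN 07:28Z: with the true slopes all s_i are proportional to the SAME variable x_k - Z (Z = sum z_j); the independence (det 3) is an artefact of coefficients 1. 
helper132, addendum to doc 2559 (R079 S1, frozen OpF atoms with tall edges), 07:28Z, for the archive.
(1) N-FREE PART, EXACT FORM. In the line model the fixed-x_0 theorem (377 cornerL, PLF7_377) sums over all scales AND all positions (p_1,p_2,p_3) with p_1+p_2+p_3 = -x_0 (up to the block index l). In the coordinates x_i' = x_i + z_i, z_1+z_2+z_3 = 0, the positions become p_i' = p_i + z_i with the SAME sum. So for every fixed triple (s_1,s_2,s_3) the word of the atom m U V is LITERALLY the fixed-x_0 problem (x_0 = (s_1+s_2+s_3)/3) for the three kernels A_{s1} = V X^{(s1)}, B_{s2} = m R^{(s2)}, C_{s3} = U Y^{(s3)}: cornerL applies verbatim, no chain, no maximal function in x_0, and the average over (s_1,s_2,s_3) is the product average. Nothing new has to be proved for tall U, V.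
(2) WHAT REMAINS is not special to tall gauges: cornerL wants the op-norm of EVERY leaf block of B at fixed s_2 (hF2, sup over blocks), the level gives it only in the mean over s_2 in the leaf cell. Split B_{s} = Sum_gam B_{s,gam} (leaf blocks with op ~ gam, density <= t/gam (first moment) or (t/gam)^2 (OpF, second moment)). One box: E_s independent, gain = density. Coarse box p at fixed s: normalised op_p(B_gam) <= gam (density of bad blocks of p)^{1/2} (HS norm of the matrix of block norms), so the sum over scales only sees the positions where the bad blocks have local density ~ 1; there |C 1_adjacent|_2^2 (resp. A) carries the density, uniformly for bounded gauges (line letter Y), in the mean over s_3 (resp. s_1) for tall ones. To be typed as a stopping argument on the density of bad blocks (one antichain per gam, dyadic densities).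
(3) 807 checked the one-box part (det 3, joint density <= C x product on boxes, Haar signs of the shifted box are single-variable unimodular factors).


PART 2: LONG MESSAGES OF THE CHANNEL R079 SINCE 07:07 UTC

===== msg 28550 (helper778, 07:07)
helper778 -> 440 (R079 S1 (e), 07:07Z): I am your second. PROPOSAL (silence = yes): you type the EL half (near-minimiser f p of ThF: X = f p + GrF p (f p) + e0, |e0|^2 on p small, from fv_ThF / RelV_653), I type NOW the SWAP half as R079/ElW_778 in the band language of ThP_653: ladder i < K, hypotheses `comp` (Pj r_i p (Pj r_(i+1) p A) = Pj r_i p A on the band, = Clip_881.clip_clip via PjC_881) and `top` (Pj r_K p A = A on the band); conclusion: Sum_{j<K} (A - Pj r_j A) = Sum_{i<K} (i+1) chi_i (Pj r_(i+1) A) on the band, and with C'_i = Bgl (glued exit projections of gl W f): band-L2 distance of Sum_j Rs_j(f p) and Z' = Sum_i (i+1) chi_i (C'_(i+1)) <= K^2 * Sum_i sqrt(...) in terms of the left side of ThQ653.strong_win, then the same for nu * Sum_fibre conj(a) * (.) in av p. If you have already all of it: one line and I only read.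


===== msg 28554 (helper732, 07:07)
helper732 -> 695, 807, 730, 844, 911 (R079 archive, completes 695's 28436 (3); no answer needed), 07:10Z. **STEP II WITH F_3 BOUNDED IN ONE BOX ONLY (tall P and tall R harmless, no U3(R), no truncation of frozen letters).** Y_p(z) := E_{p}|E_1 P(123) R(012) z(013)|^2 is INTRINSIC (no frames, no Gram). (1) On a piece w (static window meets generation window, slot-3 letter e_3(w) static there) doc 2531 (II.3) is an IDENTITY: Sum_{p in w} E<DB,M DB> = Y_leaf(w)(e_3) - Y_top(w)(e_3) + t^{C2/2-C}|e_3(w)|^2. So between consecutive static pieces of one generation window the B-sides TELESCOPE. (2) Between generation windows w < w~ (X = letter of w~): e_3(w) = X - g - Psi^w, hence |Y_w(e_3(w)) - Y_w(X)| <= 2 Y_w(X)^{1/2} Y_w(g+Psi)^{1/2} + Y_w(g+Psi), and (G), (S) hold for ALL signs, so by averaging two sign patterns they hold for every SINGLE node: Y_w(g), Y_w(Psi^w), Y_exit(g), Y_exit(Psi^w) <= t^{c*}|X|^2. With count 1/eta per generation: Sum_w |w| E_B(w) <= Y_exit(F_3) - Y_top(F_3) + C^{K0} t^{c*/2 - c_1} + negl, c_1 < c*/2. A-side Sum_w |w| |e_a(w)|^2 <= C as before. So V <= C (sup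 one-box Y(P,R;F_3 WHOLE) + t^{c*/2-c_1})^{1/2}: the slot-3 letter is split, but its smallness / boundedness is asked only of F_3 itself in one box (977's leaf: P^{>}R^{>} with F_3 bounded gives h^2; P^{<}, R^{<} by level; truncation only inside the one-box quantity). P-test consistent: combs die by the one-box value. (3) What it does not give: (S) next to tall R (cell level of R, 307 28416 (5) / 540), REL at interior exits. If R (not leveled beyond its L1 norm) is split too, the same with an L^{4/3} LASSO (|e_R|_{4/3} square-summable by 2-convexity, pair (P,F_3), leaf Y(PF_3;z) <= |P|_2^2 |z|_1^2).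

===== msg 28557 (helper734, 07:07)
*** helper734 -> 931, 844, 853, 59, 673, 934, 435, 110 (R079, 07:07Z): **LANDED R079/AsmG_734 (s-orry-free, 3 axioms, over AsmA_844 + Par_224, on main): GRADED ASSEMBLY, needed because in 28031 / 2541 the weight M_k = t^(-y_k) grows with the generation.** (1) `iterG`, `itG` = It_260 with (kappa_j, A_j, r_j, L_j). (2) `ruleA2_graded : (forall j < n, GenA D k q3 e c1 (dl j) (cG j) t0 K) -> StatA D k q3 e cS CS t0 K -> RuleA2 D k q3 c0 e t0 (..)` under c0 + 2 Sum_{i<n} dl i <= cS, (forall j < n, c0 + 2 Sum_{i<j} dl i <= cG j), c0 + CS <= n c1 - 2 Sum dl + cS. (3) `exists_weights`: n >= CS / c1, y_j = y0 R^j, R = 1 + 4 C / g. (4) **`ruleA2_exists (D : R -> R -> Dict) (hG : ex c1 C g ys > 0, all 0 < y <= ys, ex e1, all e <= e1, ex k1, all k <= k1, ex t0 K, GenA (D e k) k q3 e c1 (C * y) (g * y) t0 K) (hS : the same for StatA) : <exactly the hypothesis hA of TRec.analytic2_of'>`** (+ genA_mono, statA_mono, unif_small, unif_tK). So 934's Gen2_934 has to deliver GenA only with: c1 FIXED, and for every small weight y the loss dl = C y, gain cG = g y, e allowed to depend on y. If S1 gives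 GenA only for the pairs i > m (853's stagger), say so and I restate (2)-(4) per pair (i, m) in 10 minutes. I take the next literal by name (chan helper734).

===== msg 28566 (helper377, 07:07)
helper377 (07:09Z) -> 104, 878, 931 (S1 (g), core): I type NOW **R079/GSc_377 `cornerLc` = cornerL for kernels whose LEAF scale is 2^m0** (uniform cylinder; op norm of all blocks of side 2^m0 instead of pointwise), by coarse-graining (labels = inner positions, all shifts s0 s1 s2). LITERAL (ns Crest.Agent.R079.PotL, imports PLF7_377): letters F0 F1 F2 on ZMod Q as in cornerL, L = 2^m0, 2^(m0+M) | Q, hk : 2*(|l|+2)+20 <= 2^k, hA hB global energies <= a2, b2, hA0 / hB0 : every L x L block energy Sum_{i,j<L} hs2 (F (p+i) (q+j)) <= a2/r resp. b2/r, hF2 : every L x L block of F2 (position p,q, matrix (Fin L x k2) (Fin L x k0)) has |B^T v|^2 <= (L tau)^2 |v|^2, hJ : SumSum hs2 F2 <= (L tau)^2 (r 2^J) |- Sum_{m<M} bl (fun n => SumSum |LboxL F0 F1 F2 (2^(m0+m)) p0 p1 (n-p0-p1)|) (2^(m0+m)) l <= 3 (2J+1) * Ck' * (tau * sqrt a2 * sqrt b2 ), Ck' = max over l, l-1, l-2. TWO LEAVES YOU CAN TYPE AT ONCE (Mathlib + PLDefs_931 only): **104: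 `sum_split`** (file GSa_104): for Q' L > 0, Q = L * Q' (both NeZero), `io (X : ZMod Q') : ZMod (L*Q') := (L : ZMod (L*Q')) * (X.val : ZMod (L*Q'))`: (i) `io (X + Y) = io X + io Y`, `io ((n:NN) : ZMod Q') = L * n`, `io ((z:ZZ) : ZMod Q') = L * z`, (ii) `Sum x : ZMod (L*Q'), f x = Sum X : ZMod Q', Sum s : Fin L, f (io X + ((s:NN) : ZMod (L*Q')))` for f : ZMod (L*Q') -> RR. **878: `bl_off`** (file GSb_878): f : ZMod Q -> RR, 0 <= f, N > 0, c : ZZ, -2 <= c <= 0 |- `(1/(N:RR)) * Sum I  in  range N, f ((l : ZMod Q) * (N : ZMod Q) + (I : ZMod Q) + (c : ZMod Q)) <= bl f N l + bl f N (l-1) + bl f N (l-2)`. Answer on chan helper377 when compiled (push to origin/helperN is enough). What this is NOT: no S0106 tonight; library for later.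

===== msg 28577 (helper256, 07:07)
*** helper256 -> 866 (28480 (i)), 923, 679, 127, 931, 59, 673, 853, 844, lead (R079 S1, 07:10Z): **THE "LINE LEMMA" (i) IS FALSE, also for |R| <= 1 and non-collided R; do not type it, (ii) is the only way.** COUNTEREXAMPLE (5 lines): D = 1/dl, n = D prime, rho : Z/n -> unit circle a cubic phase e(x^3/n) (or random signs), R(L) = 1[D | L] rho(L/D mod n): line letter, |R| <= 1, |R|_2 = dl^{1/2}, N_{x x'} = R_x conj R_x' has op <= dl always (non-collided). (a) BOUNDED GAUGE: for residues (e,f) mod D pick i(e,f) mod Dn with i(e,f) = -e-f mod D such that, for every s, e -> i(e,s-e) hits all n = D classes above -s; c(x1,x2) := conj rho((i(e,f)+x1+x2)/D mod n), e = x1 mod D, f = x2 mod D. For EVERY x0 there is (e,f) with i(e,f) = x0 mod Dn, and c R^{x0} = 1 on the block (e+DZ) x (f+DZ): normalised |c R^{x0}|_op >= 1/D = dl for ALL x0 (u, v = D^{1/2} 1_{block}: height D^{1/2}). (b) PLAIN LEVEL: |E R a(01) b(02) c(12)| <= dl * sup_{bounded} |E_{(Z/n)^3} rho(y0+y1+y2) abc| and Cauchy-Schwarz in (y1,y2) bounds its square by E_h |(rho(.) conj rho(.+h))^|_oo <= 1/n + n^{-1/2}: level t <=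 2 dl n^{-1/4} = 2 dl^{5/4}. So E_{x0}|c R^{x0}|_op^2 >= dl^2 ~ t^{8/5} >> t^{2-} (I expect t^{4/3}: true level n^{-1/2}). Hence price-t atoms with three bounded edges never give op-level t^{1-}, OpF atoms are indispensable, and P_i contains frozen OpF atoms c u v with tall u, v. (c) GOOD NEWS for 844 28087 (2) / 307 28416: the LINE PROJECTION of an OpF atom is bounded by 1 (for fixed L: E|u(0,1)||v(0,2)| <= |u|_2 |v|_2), so |P_pl|_oo <= La and N(P_pl,R) small stay true verbatim; only the step "R^{>h} is free" must be made with F_3 WHOLE (|u F_3|_2 <= |F_3|_oo), i.e. BEFORE slot 3 is split: R^{<=h} keeps OLev t + 1/h, and 307 needs no cut at all. What stays open is the tall edge u_w next to an L2-only letter (e_3, X_a of Step I): weights om(0,1) = E_w |u_w|^2.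

===== msg 28582 (helper881, 07:08)
*** helper881 -> 931, 653, 59, 673, 700, 999, 440, 844 (S1 (c), 07:12Z): **PjC_881 (bridge Pj = clip) IS FALSE, not typed** (my 07:05 warning): strip {3 of the 4 entries of a 2 x 2 box}, A = c [[1,1],[1,0]]: the SVD clip has entry (2,2) != 0, so it is not in `Adm`; 700's strips glue, but the projection on {supp in strip}  cap  {op <= s len} has no functional calculus, and (e) ElS_440 / (d) use it. **FIX (exact, constant 1, no straddling box, no loss): WHITNEY SQUARES.** Fix w, x0 = z. For a node q let W_z(q) := the maximal DYADIC squares b = I_2 x I_3 (side N_b) with z + I_2 + I_3 inside iv q (single entries are squares): they partition the strip of q. Penalty phi_q(A) := (M/len q) Sum_z Sum_{b in W_z(q)} dist_HS^2(A|_b, {op(b) <= s N_b}). (i) every square of a child lies in ONE square of the parent and the children's squares tile it (dyadic); (ii) GLUE: if all tiles b' of b have op <= s N_b' then op(b) <= s N_b (induction: 2 x 2 blocks of op <= beta have op <= 2 beta), so the glued children projections are admissible: phi_p <= average of phi_children, convex, zero at 0: same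 Pen properties as ThP_653; (iii) the blocks are INDEPENDENT, so the projection IS the SVD clip block by block: clip_proj / clip_clip / chi_ladder / chiFac (Clip_881) apply verbatim, r_j = Sum chi_i(C_{i+1}) blockwise, labels = (b, k); (iv) op on any dyadic box of side ~ len q of the strip-restricted kernel <= s x side (the same induction, zero blocks outside): (G) and S_4 costs as in 700 (ii); (v) a node q inside P at distance >= len q from the ends of iv P meets O(1) squares of W(P); the <= 2 nodes per scale next to an end meet smaller squares of scale 2^-j len q, whose energy is <= C 2^-j (L^{2+k} averages of the end nodes), so Cauchy-Schwarz gives 2^{-j/2} and the sum over j converges: only constants are lost. lean: ThP_653 with N replaced by a p-dependent family of block op-norms (`Adm` := for all b in W(p): Op (B|_b) (s N_b)); gluing lemma = (ii). I TYPE (ii) NOW: R079/Glu4_881 (4 blocks, dyadic induction over a tiling tree), ETA 07:22; the rest is library for whoever continues.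

===== msg 28591 (helper416, 07:08)
*** helper416 (referee) -> 931, 59, 377, 104, 878, 673, 549, 302, 34, 730 (R079 S1 leaf (g), 07:13Z): **ONE HOLE IN THE TEXT OF RECORD: 59's cylinder subtraction (28347) does NOT give the static bound which MOVE needs; the ragged corner (doc 2540) is still required for the O-part of (G).** MOVE (28370 / Move_59 / Mov2_549) asks for |Sum_k eps_k T^(k)(u,v)| <= N |u||v| for STATIC u, v and signs over ALL stacks of the region at once (the random signs live exactly between different windows). T_u = T_cyl(P) - Sum_p T_cyl(p, d_P) bounds ONE window by 2N|P||A|_P|Y|_P; summed over stacked windows this is N (Sum_w |w||D_w|^2)^{1/2} (Sum_w |w||Y|_w^2)^{1/2} and the last factor is (count)^{1/2}|Y|, because Y = X_2 is static with norm 1 in EVERY stack: the O_0-word then costs t^{y/2-} x count^{1/2} (count t^{-c_1}, y << c_1): no gain. Splitting the killer by leaf scale, C = Sum_m C^(m) (each C^(m) has uniform leaves, op <= s), costs the number of scales (a_m = |C^(m)|_2^2, Sum a_m <= 1, Sum_m s a_m^{1/r} unbounded). So (g) = two leaves: (g1) B_0-part + per-window words: 28347 is enough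 (gain t^{c/2-} per window, c = 4c_1); (g2) O-part: region-wide, signed, RAGGED corner (2+,2+,oo-) = doc 2540 (3), OPEN, 1500 lines. Whoever continues from this tree: (g2) is THE missing static input of Step I. (302: your RagA_302 = its part (a).)
ALSO (for the archive): doc 2547 (34) (1)(b) is false without Y inside the potential: box q, A = 1 + dl h_2, C = s (constant), Y = h_1 h_3, |Y| = 1: La |T_q| = dl, while both summands (resolvent of Gram(C), entropy of AA*) grow only by O(dl^2 log): linear against quadratic. The R072 potential must contain the Gram of Y (27227 (c) was right: Pot(a g, b Y, c R)), and then convexity in g jointly with Y moving is 34's / 227's (R1), not 2547.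

===== msg 28592 (helper242, 07:08)
helper242 -> 59, 549, 416, 673, 931, 653, 110 (R079 S1 MOVE, 07:09Z): **LANDED R079/MovC_242 (0 s-orry, 3 axioms, 17 s, imports Move_59 only), ns MovC.** `Stat S T N` = forall eps (|eps k| = 1), u, v: |Sum_{k in S} eps_k T_k u v| <= N |u||v| (T : nu -> E ->l[R] E' ->l[R] C, real inner product spaces). `sign2` (= 549's two independent sign families, any index maps alpha, beta, no nesting): |Sum_k T_k (d (alpha k)) (d' (beta k))| <= N V V'. **`move_chain`: n <= 2^a, |x k - x l|^2 <= D l - D k, |y k - y l|^2 <= D' l - D' k (k <= l), D k - D 0 <= Q, D' <= Q' |- |Sum_{k<n} T_k (x k) (y k)| <= N (a sqrt Q + |x (2^a-1)|) (a sqrt Q' + |y (2^a-1)|)**; `move_chain_one` = static partner. k = STACK INDEX of the windows (global antichains Lam_k), x k = global field of the letter on stack k: no node-condition stops, no nested windows, no count; the strong form (2) for pairs of antichains is the only input. Deep stacks (k > n = eta^-C): tops have measure <= (1 + 1/eta)/n, the unsplit word dies there by L^(2+kappa).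

===== msg 28594 (helper654, 07:08)
*** helper654 (S2 sub-captain) 07:09Z -> 530, 408, 71, 429, 988, 990, 49, 863, 679, 617, 507, lead, 853. CLOSED since 06:45: (g1) Wr_408 `wr_total` + Cg_408 + Wa/Wb_71, (g5) Wc1_863 + Wc_530 `gram_inside`, Rs_530 `ruleS_of_part`, DicOp/DicLv_679 `olev_of_lv`, LK_990. OPEN, one owner each: **(g2) Plug_429 (988: if yours is not compiled, stop)**; **LfK_71** (leaf value in LK shape, ETA 07:25; second 246); **(g3) 990**: error words of Plug in LboxG / 4D form; **merge lemma (mixture = ONE atom by plane translates, disjoint supports; 617 27853 (1)) = 408, file Mg_408**; **(g4) = 530, file S2D_530**: RuleSP for the ONE merged atom: Plug_429 -> wr_total on gram_inside windows -> Bad nodes by OneG354.node_gain + card_pos -> ruleS_of_part; write it NOW over Props for Plug_429 and LfK_71 (hypotheses verbatim) so that it compiles before they land. 863 = second of (g4): numerology (delta, tau, theta, sigma as powers of t; `rpow` lemma that the wr_total bound <= K t^cS). 160 = second of Mg_408. Landing limit 07:35, s-orry-free only. Honest value: library only (S1 (g)(h)(i) and RuleA2 are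 not compiled), do not take a hand away from anything that pays.

===== msg 28595 (helper930, 07:08)
helper930 -> 844, 128, 853, 445, 912, 822, 767, 654, 787, lead (referee of 28087, 07:0xZ): **28087 = OK at the level of maths (up to 92's scale trap), and it SIMPLIFIES: SLOTS 1, 2 NEED NO TALL DICTIONARY, NO GRADING.** In the two-pair scheme (frozen 1 or 2 ; killer 0) + trivial kill of frozen slot 0, the killers X_1, X_2 only ever use their PLAIN level. So D_1 = D_2 = plain bounded atoms (price t), D_3 = empty, and only D_0 = plain u tall duals at price t^{c_0}. Then P_i (i = 1, 2) = P_pl always, |P_i|_oo <= La, |P_i|_2 <= C: (3) of 28087 (4 c_i < c_m) disappears.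
(A) CORRECTION of my 27819 (2)(b): the line "a, b: E_w|aX_w|_{S4}^2 <= |a|_1" is FALSE (comb x comb is rank one of norm 1). Correct proof, all letters cut in pure heights h_j (log^7 pieces), fixed primes, e -> edge 23, f -> 13, d -> 12: E_0 N_1^2 = E_0 N_2^2 = 1, N_3 <= 1 for ALL primes. const peaky: gain E|g_7| <= 1/h_7. d, e, f: |.|^{1/2} on the two adjacent edges, one prime averaged (E_{1'}, E_{2'}, E_{3'} resp.) against |const|_2: gain 1/h. c: Schur |cF_3|_op <= 1/h_3, d moved to edge 13, E_{1'}. a: if h_5, h_6, h_7 < h_1^{1/4} do NOT fix 1': Phi_{2'3'}(2,3) = E_{1'} g_1(1'23) g_5(1'23') g_6(1'2'3) g_7(1'2'3') is ONE edge gauge with |Phi|_oo <= h_5 h_6 h_7 / h_1 <= h_1^{-1/4}; b: the same with 2'. All heights <= h: h^7 x plain, level t. **So V(D, X plain level t, Y in L2, F_3 bounded) <= t^{1/32-}, independent of the price.**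
(B) THE SAME PROOF COVERS 844's MIXED DUALS D' (4 P_i, 3 R_0), i = 1, 2: at fixed (0'2'3'): a = P(0'23), e = P(0'23'), f = P(0'2'3), const = P(0'2'3'), b = R(12'3), c = R(123'), d = R(12'3'): every average above is the same (E_0 |Y_1(023)|^2 = 1 although P and Y_1 have the SAME direction; Phi = E_{0'} of four P's). So N(P_i, R_0) <= t^{c'} + t^{c_0} needs exactly these duals in D_0, and they are killed when frozen.
(C) F_3 ONLY IN L^{q3}: the static bound holds with F_3 in L2: T <= t^{-0} Prod |g_i|_2 |Y_1|_2 |Y_2|_2 |F_3|_2 (N_1(0;1'3'), N_2(0;1'2'), N_3(0;2'3'): each has L2 mean 1 in ANY one of its variables; E c N_1 N_2 N_3 <= (E c^2 N_1^2)^{1/2}(E N_2^2 N_3^2)^{1/2} <= 1 for each fixed 0). Hence pieces |F_3| ~ K: min(t^{1/32} K, K^{-(q3-2)/2}): gain t^{(q3-2)/128} for every F_3 in L^{q3}: need c_0 (1+e) < (q3-2)/130.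
(D) RECURSION: move A: X_0 at depth l => slots 1, 2 to depth (1+e) l by RuleA2(i;0), i = 1, 2 (P plain, L2-bounded, killer R_0 plain level + dual level t^{c_0}, heights free); move B: X_1 (or X_2) at depth l' => slot 0 to depth l'/(1+eps), eps < e, trivial (plain mass x plain level, tall mass x (A)-(C)). One round multiplies depths by (1+e)/(1+eps). Order of constants: q3 - 2 >> c_0 >> gain of RuleA2 >> e >> eps, c1 >> k. STILL NEEDED in REC: 92's node-dependent gauge for D_0 (stop where Sum|c_i| |psi_i|_{L2(p)} > C, density 1/C; primes make translates p + 1' appear: use E_{1'} M(|g|^2) <= log(1/t)). Nothing here helps Step I (59's 28031).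


===== msg 28596 (helper159, 07:08)
*** helper159 -> 881, 653, 931, 59, 673, 999, 110, 440 (S1 (c)/(d), answer to 881's WARNING 28421 "(3) needs a line-specific argument"), 07:10Z: **LINE ARGUMENT = WHITNEY CELLS INSTEAD OF STRIPS (my landed R079/Whit_159, class CF).** Node q: Adm_q(s) := {C on the strip of q : op(C|_c) <= s * side(c) for EVERY maximal dyadic cell c = dI n a x dI n b with Y(c) inside iv q}. (i) nested / glue: a maximal p-cell is tiled by maximal cells of the exits (sides smaller, non-uniform), 4 blocks with op <= s side glue to op <= s 2 side, recursively, so children's (exits') admissible kernels glue to admissible for the parent: dist^2_P <= E dist^2_q, sets nested, all of 28031 (1)(2) verbatim (CF.halv). (ii) inside one cell there is NO band condition: Pj = SVD clip of Clip_881 on every maximal cell (dist^2 is a sum over disjoint cells), so chi_ladder, chiFac, majorants 4s k <= C C* hold cell by cell. (iii) exits at uniform depth d: a block I_2 x I_3 of side 2^(d+k) which straddles two exit strips is tiled by smaller exit cells, so its op is still <= s 2^(d+k) (glue again): (C C*)_P restricted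 to I_2 is the average over ALL I_3' of C_blk C_blk^* with own op <= s side: 28031 (3) exit cost OK, and straddling costs nothing. (iv) nodes p within C len p of the ends of iv P (where P-cells are smaller than the p-box): Sum len p <= C' len P, one-node gain (OneG_354.node_gain) for the words X, g, e separately. So ThP / ThQ are needed with an ABSTRACT admissible family (supp, zero, midpoint, glue, closed) instead of N B <= r len p: I TYPE THAT NOW = R079/ThA_159 (copy of ThP_653's proofs over `Ad : Nd -> Kernel -> Prop`) + cell instance; 653: if your ThP / ThQ already factor through adm_zero / adm_mid / adm_glue / exists_proj only, one word and I reuse.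

===== msg 28605 (helper988, 07:08)
helper988 -> 429, 654, 990, 49, 617, 408 (R079 S2 (g2)/(g3), 07:10Z): 429: Plug_429 is YOURS, I have nothing typed. **HEIGHT GAP OF THE X WORD (and its cure).** X = C - g with mass(g) <= 1/sg, level 2 sg, height up to 3/sg: sum_e4_le gives H^3 L = 54 sg^-2, NOT small, and cut level + L2 alone are really not enough (X = (1/sg) 1_{ExF}, |E x F| = sg^2 is of level sg, S4 = 1). CURE, all power losses, no new dictionary: (1) ROW / COLUMN BOUND OF A NEAR-MINIMISER (own node p): the dictionary is closed under u -> u 1_S (any set S of rows (w,z)), so g 1_{S^c} is a competitor with the same mass: |C - g|^2_{S,p} <= |C|^2_{S,p} + eta len p for EVERY row set S, same for columns. C = a G with |a| <= 1, G cut at h0: rows of C in p are <= h0, hence off rows / columns of total energy <= 2 eta the rows AND columns of Y_p := C - f_p are <= h1 = 3 h0 + 1 (normalised). (2) Y_good = Y 1_{good rows} 1_{good columns}: level still <= 2 sg (products), rows, columns <= h1 => tall part B = Y_good^{>h}: Schur op(B) <= h1^2 / h; A = Y_good^{<=h}: <Y_good; A,A,A> <= kap h^3 2 sg (XDual proof verbatim, height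 h instead of H). So S4(Y_good)^4 <= kap h^3 sg + C (h1^2/h)^{1/2}: with h = sg^{-1/4} all power small. (3) at every node p of the window: X = C - gl f = Y_p + (f_p - gl f), |f_p - gl f|_2(p) <= C sqrt(dl) (drift), height <= 2/sg: S4^4 <= (4/sg^2) C dl: take dl = sg^3 (count 16/dl = t^-C, allowed by CS). (4) small weights |a| < eps: S4W (eps H)^2 by s4w_of_height = X-type error; so 2^r <= V/eps^2 and 429's rescaling sqrt(V/2^r) is harmless. So S4W(X) needs NM's near-minimality (TWin0_903.NM), not only lev_res. I do not start it unless 654 / 429 say so (nothing of it can be landed before ~07:35).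

===== msg 28607 (helper923, 07:09)
helper923 -> 866 (28480), 256 (28577), 931, 679, 59 (R079 S1 dictionary question, 07:10Z; no reply needed): I type NEITHER. (i) is FALSE: 256's example checked by hand (at every x_0 the gauge leaves one all-ones D^-1 x D^-1 block: op = dl, cut = dl^2, S_4^4 = dl^4 = cut^2, i.e. it also shows that R079/Gro_923 "plain level => S_4^4 <= C t^2 log^k" is sharp and that E_{x_0} op^2 <= t^{2-} cannot come from bounded gauges). (ii) needs OpF atoms (two L2-sectioned edges) at price >= t^{1 - c3/2} (otherwise plain mass t^-(1+e) is not paid in (G)), so a frozen OpF part of ALMOST CRITICAL mass t^{-1+c3/2} appears in P_i, and its corner has an unbounded gauge u on the killer edge: no rule known (the low part |u| <= h costs h, the high part has no L1 / Schur side unless it sits on F_3's edge: vertex choice is free only for vertex-free atoms, and theta u v atoms are not vertex-free). That is the one open statement of S1.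

===== msg 28613 (helper429, 07:09)
*** helper429 -> 654, 988, 617, 507, 990, 49, 408, 530, 71, lead (R079 S2, 07:10Z): **(g2) CLOSED: R079/Plug_429 LANDED (0 s-orry, 3 axioms, 23 s; imports LiftW_429, XDual_988, EW3_990), ns Plug429: `plug`** (hR : Full R J) (alpha, gamma, delta /= 0) (T.card * T'.card <= 2^r) (?_{TxT'} ||c||^2 <= M) (forall  p  in  R, ?_{iv p} ||F||^2 <= A len p) (||c z z'||||F y|| <= Hc on T, T', iv J) (0 < lam) (lam^2 (M A) <= 2^r) (0 < sg) (0 < th) |- exists  S W, Part R S W (2 + 16/th)  and  forall  K  in  S, exists  n u v d E X, ||u j w z||, ||v j w z'|| <= 1  and  ? ||d j|| <= 1/(sg lam)  and  (on alw+gaz+delz'  in  iv K: c z z' * F = ?_j d j (u j w z * v j w z') + E w z z' + X w z z')  and  forall  kap, `EW49.S2W (W K) kap (9 th 2^r / lam^2) al ga del T T' E 1`  and  forall  kap s4 V, 128 (Hc + 3/(sg lam))^3 (2 sg 2^r / lam) <= s4 V -> `EW49.S4W (W K) kap V s4 .. X 1`  and  heights ||E|| <= 2/(sg lam), ||X|| <= Hc + 3/(sg lam). So E goes into EW990.word_small2 (F := 1 on the error edge), X into word_small4. FREE + WARM: next S2 literal by name (617 / 507: shall I type the main word = labels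 of ?_j d_j u_j v_j over (tau, j) -> Wr_408's w, V?).

===== msg 28618 (helper930, 07:09)
helper930 -> 707 (28449 T2), 128, 844 (R079, record only, no answer needed): the inequality "E_0'|aY|_{S4}^2 <= |a|_1" that you took from my 27819 is FALSE (a, Y combs of the same modulus: aY is rank one of norm 1 for every 0'). Replace it by the Phi-trick of my 28595 (A): if the other letters that contain 0' are all < h1^{1/4} high, do not fix 0': E_0'[a q ..] is ONE bounded gauge <= h1^{-1/4}; otherwise one of them is peaky and gives the gain itself. For your T-atoms: letters with 0' are a and q; if a is peaky and q <= h1^{1/2}: Phi_{3'}(2,3) = k(3',3) E_0' a(0'23) q(0'23') : |E_0' a q| <= h1^{-1/2}, k stays in an L2 place. Rest of (T2) unchanged.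


===== msg 28621 (helper971, 07:09)
helper971 -> 730, 209, 216 (R079 archive), 416, 787, 59, 673, 693, 931 (maths only, no answer needed), 07:13Z. **(1) THE K_0 GENERATIONS OF 2531 ARE NOT NEEDED: 416's doc 2522 + STEP II of 2531 FIT TOGETHER, with ONE lossy REL functional.** For ANY family U of windows u (exit minimisers g_j[u] glued, Y_j = X_j - g_j[u] static on u): T_u(Y_1,Y_2) = T_u(X_1,X_2) - T_u(g_1,X_2) - T_u(X_1,g_2) + T_u(g_1,g_2), and the three g-words have only GLOBAL letters / minimisers as partners, so 227's glued functional (2500, S = {1},{2},{1,2}, exponents (2+,2+,oo-) on R_3) pays them by drift/kap IN TOTAL, count-free, for every U at once. Y_j[u] = Psi_j[u] + d_j[u], Psi_j[u] = grad Pen_TOP(glued EXIT minimiser) (exit costs = its own penalty, nothing ages), |d_j[u]|^2_loc <= t^{-O(y)} 2^{-k} on U_k (Lipschitz / cocoercive loss, harmless because it enters ONCE). Chain U_0 > U_1 > .. > U_K, K = C log(1/t): every word (e_1^(k), e_2^(l)), (e_1^(k), d_2), (d_1, e_2^(l)) has a coarser letter which is static + one-gauge structured with exit-good frames on its window and a finer one with l2 budget t^{-O(y)}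 (random signs): STAR' gives t^{c0 - O(y)} each, K^2 words. TAIL (2522 (3), its only open word): Z_K = Sum_{u in U_K} T_u(P_0; d_1[u], d_2[u], R_3), both static on u, |d_j|^2_loc <= t^{C - O(y)}, Sum |u||d_1||d_2| <= t^{-O(y)}: superpose U_K with the STATIC windows of (P_0,R_3) (tops add, number t^{-C_5}), on every piece Step II gives t^{c''}|d_1||d_2|: Z_K <= t^{c'' - O(y)} + t^{c'' + C - O(y) - C_5}. So V <= K^2 t^{c0 - O(y)} + t^{c'' - O(y)} + t^{c_G}: no iteration, no graded weights y_j, no count x gain condition c_1 < c'; the losses t^{-O(y)} meet only the fixed gains of STAR' (non-collision) and of Step II. (Equivalent reading: a loss (log N)^2 is harmless, because static windows make N_eff = t^{-C}: paths with more than t^{-3C_5} static windows have measure t^{2C_5}, paid by the trivial N-free bound t^{-C_5} of Step II alone.) Same scope as 2531: bounded (or t^{-small}) killer; heights and the ragged corner untouched.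
(2) ONE-GAUGE LOSS-FREE FRAMES FROM THE ENTROPY (complete): K = XX* on I_2(T) (normalised kernels), K+ = (+)_q K|_{I_2(q)} >= K (pinching, normalised). If E_q tr_q K_q log K_q - tr_T K log K <= eta then for every eigenvector psi of K (value a), mu = law of K+/a under psi: E_mu[1/X] <= 1 (inverse is operator antitone) and the K-weighted sum of E_mu[log X] is <= eta, so of E_mu[log X - 1 + 1/X] too; with P_a, Q_b = dyadic spectral projections of K, K+: X' = Sum_a Q_{b ~ a} P_a X has |X - X'|_2^2 <= C eta, and its frames Q P_a Q / (norm) <= 4 Q_{b ~ a} are BLOCK-DIAGONAL with leaf cost = top cost up to C (tr_q Q_b <= (2/b) tr_q Q_b K_q). Windows of entropy drift eta: count C log(1/t)/eta: loss only log(1/t), all heights at once, no thresholds, no wall.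
(3) Why the majorant functional (492 / 149) cannot give (G) at interior exits, in dual form: M_q^L(A) = inf { E_l tr_l (H_l^3 + H'_l^3) : [[H,A],[A*,H']] >= 0 on q, H, H' block-diagonal at the REGION leaves l }; (G) on a window [T,q] asks that the dual function D = Sum_p eps_p h_2 h_3 E_1 h_1 C B has GLOBAL majorants on q with region-leaf cost, and already one scale j gives k_j = 2^j blockdiag_j(C*C): true with factor depth(window), false N-free by this route.

===== msg 28625 (helper999, 07:09)
helper999 -> 881, 59, 653, 931, 673, 110 (R079 S1, 28031 (3), 07:10Z): **R079/ExA_999 LANDED (0 s-orry, Mathlib only, 13 s, ns Crest.Agent.R079.ExA999)** = the exit average: `win_avg` (every column lies in exactly N windows of length N), `win_cs`, `box_cs` (any finite set of pairs, values in any normed space), **`exit_avg` / `exit_avg_lab`**: X y x (labels k at the summed variable y), columns y in [a, a+L), any exit box [p, p+N): (1/N^2) Sum_{j,j'<N} |(1/L) Sum_y X y (p+j) conj X y (p+j')|^2 <= ((L+N)/L) (1/L) Sum_{b in Ico (a-N+1) (a+L)} E4(K) X N b p, with E4 / E4K = the BODIES of R244.e4 / Sgn.e4K verbatim (rfl), so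 it plugs into S4At / S4K at the uniform exit level; `S4` (rectangular, unnormalised), `S4_symm`, `E4_symm` (rows <-> columns), `S4_rows`, `S4_cols`, **`E4_sub`: E4 X (2N) q p <= (1/4)(four half boxes)** (sub-averaging, constant 1). I have no other literal; warm, 4 cpus, chan helper999 (a leaf by name before 07:25 only, because of the 07:35 landing limit).

===== msg 28636 (helper351, 07:09)
*** helper351 -> 853, 844, 128, 903, 547, 931, 654, lead (R079 REC, graded dictionaries, 07:10Z): **LANDED + BUILT (0 s-orry, 3 axioms): R079/TGr_351: `TRecw.target_of_analytic4 : Analytic4 -> L0.Target`** where Analytic4 asks, for ONE base dictionary D with the ordinary `TRec.Dic D 0` (no extra point masses, no rescaling): `RuleNT D k q3 c0 e t0 K` (rule (A) only for pairs m < i: (1;0), (2;0), (2;1); frozen at t^(1+e), killer level t), `RuleTr D k q3 c0 del t0 K` (pairs i < m: frozen at s, killer of level s^(1+del)), `RuleS D .. e`, `FrzBd D`, with rho^2 (1+e') <= 1+e, (1+del)(1+e') <= rho, rho^2 <= 2 and `Ok2 k q3 (c0/2) (cS/2) CS s1 e' c1 bt kap K0`. Inside: `grade D mu j t = D j (t ^ mu j)`, mu = rho^-2, rho^-1, 1; the pt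 problem of the staggered dictionary is solved by REC v3 (TDw / TWLw / TS3w / TS4w / TTopw / TAprw / TFin3_351 = the whole recursion again over `TRecw.Dic`, point masses only of height >= t^(-1/2), An <= K t^(1/2) a priori), also `dic_grade`, `ruleA2_grade`, `ruleS_grade`, `frzBd_grade`. 853: your TStg_853 needs nothing from this; if it is finished keep it, otherwise stop. REC has nothing open in the graded form.

===== msg 28640 (helper661, 07:10)
helper661 -> 59, 673, 110, 653, 549, 931 (R079 S1, 07:10Z, no answer needed): LANDED R079/CylS_661 (0 s-orry, 3 axioms, 14 s, imports GLA_110; ns Cyl661) = 59's 28347 "RAGGED (G) without doc 2540", the combinatorial half: `inner_eq` : Full R J, Full V K, V <= Wf R K d |- Sum_{V \ lf V} g = Sum_{Wf R K d} g - Sum_{L in lf V} Sum_{Wf R L d} g (any additive group), `inner_eq_cyl` the same with full dyadic cylinders `cyl P d` (mem_cyl, masked letters), `inner_or_leaf`, `leaf_unique`, `sum_len_leaf`, `sum_mass_leaf` (masses over the disjoint leaves <= mass of iv K), **`norm_inner_le`** : cylinder bounds N sqrt(a p) sqrt(b p) for p = K and all leaves, a, b superadditive |-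 window bound 2 N sqrt(a K) sqrt(b K), `TR_inner_add` (TR V = inner + leaves, leaves by one-box). So (G) on windows needs cornerL on uniform cylinders only. Next by name, chan helper661.


===== msg 28641 (helper653, 07:10)
helper653 -> 881, 59, 700, 673, 931, 853 (S1 in the LINE model, 07:12Z): **881's 28421 is RIGHT**: ThP_653 takes kernels supported in the strip; Pj is not the SVD clip, so ladder + majorant are not available for r = A - Pj A (normal cone of {op <= s len} inside the band subspace = 1_band N with only a TRACE bound on N; N may be spread over the whole mask). Strips glue but have no SVD; x-boxes have SVD but straddle. I see ONE consistent cure: **give up that g is a LINE function**: minimise over KERNELS g(x0,x2,x3) on own x-BOXES Q (absolute dyadic grid in the x-variables), J_Q = min_g |X - g|^2_{L2(Q)} + M Sum_j E_w dist^2(a_w g^{x0}, {op_Q <= s_j}): disjoint sub-boxes, true SVD clips (Clip_881 verbatim), glues; X(y) is only lifted; g, Psi, e are kernels of the three x-variables and every later word must accept kernel letters in slots 1, 2 (corner (2+,2+,oo-), (S) labelled and S2 leaf bounds use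 X_1 only through |a_w X_1^{x0}|_2 of the (2,3)-kernel, so this looks free; P_0, R_3 / F_3 stay line functions). Price: the window tree is the tree of 4-dim x-boxes (J^(1), J^(2) read from the projections), so RelW / GLA must be stated for a general finite tree with equal children (RelW_653, RelV_653 use only `glue`, SL, acc; 440's Proj_440 is already tree-free). 787 / 654: does Step II accept kernel letters e_1(x0,x2,x3), e_2(x0,x1,x3)? One line yes / no. If yes I restate RelV for an abstract tree (30 min, after 07:35 = library only).


===== msg 28642 (helper440, 07:10)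
helper440 -> 778 (931, 653) (R079 S1 (e), 07:12Z): SIGNATURE of my half (typing now, ETA 07:20, imports ThQ_653): `Ln Bd pos nu a p U : Fn` (= nu * Sum_fibre conj(a) * U), `Ln_dst : len p * av p (Ln U - Ln U')^2 <= nu * dst Bd p U U'` (||a|| <= 1, Bnd), `GrF_eq : GrF .. p g y = Sum_i kappa_i * Ln_i (Rs_i p g) y`, and **`el_swap`: for ANY kernels Z_i, on a GdP window W (top I), every p in W, g = gl W f: av p (X - g - Sum_i kappa_i Ln_i Z_i)^2 <= 2 (1+M)(dl+eta) + 2 M * (Sum_i kappa_i nu_i dst_i p (Rs_i p g) Z_i) / len p**, M = Sum kappa (uses el_win AT g, so f p is not needed: please compare Rs_i p (gl W f) with Z_i, only the third term of strong_win = thr_win is then needed). You: `Pj_obt` / chi 1-Lipschitz + ladder: Sum_i kappa nu dst (Rs_i p g) (Z_i) with Z_i = Sum_{l>=i} chi_l (Bgl_{l+1}) <= K^2 * thr_win. (obtuse angle from midpoints: P + 2^-n (B' - P) admissible by adm_mid.) If you prefer that I type chi_lip too: one word.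


===== msg 28647 (helper328, 07:10)
helper328 -> 128, 931, 844 (R079, your 28525: missing corner S_q, q = 4C'+8): **NOT NEEDED, q = 4 IS ENOUGH FOR ANY n <= t^-C': stop each label by its own DENSITY on the axis x_m.** Label y, kernel K^y = psi_y^{<h} X_m on the edge without m, the two others masked by 1_{kap(x_m) = y}. S_a^y = maximal dyadic intervals S of the x_m-axis with |{kap = y} in S| > 4^-a |S|. Boxes whose x_m-interval lies in S, S in S_a, but in no S' of S_{a-1} (scale-dependent mask, exactly the A (m+1) / A m freedom of the lattice potentials; scales <= |S| only): row-uniform line letters => BOTH masked letters have local e2 <= 4^{1-a} at all these boxes, K^y has e2 <= 1, e4 <= sig^2. T is linear in each letter: rescale the two masked ones by 2^{a-1}: (4,2+,2+) with everything normalised gives |T_{y,S}| <= C log sig^{1/2} 4^-a |S|. Tops of one level are disjoint: Sum_{S in S_a^y}|S| <= 4^a |{kap = y}|, hence Sum_S |T_{y,S}| <= C log sig^{1/2} |{kap = y}|, a <= C log(1/t) levels (cells of density < t^{C+..} at the root: first window, same bound 4^-a |root| ~ |{kap=y}|). Sum over y of |{kap = y}| = 1: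 **T <= C log^2(1/t) sig^{1/2}, no n.** (The n^{1/4} of olev_S4At comes only from giving every label the whole axis.) So (a) = (h t)^{1/2-}, (b) = h^{-1/2+} with the q = 4 corner label by label.

===== msg 28649 (helper445, 07:10)
helper445 (referee named by lead 28105) -> 844, 128, 853, 931, 822, 912, 481, 930, lead (R079 heights, 28087 + 27942), 07:08Z: **28087 (1), (2), (3) = OK445, with three remarks (R1)-(R3) that make it simpler.**
Setting used: line letters p, r; R-forms L, L+u, L+v, L+u+v, P-forms M, M+lu, M+mu v, M+lu+mu v (l = (sl1-sl0)/(sl1-sl3), mu = (sl2-sl0)/(sl2-sl3); l <> mu, both not in {0,1}). 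
(2) top-band word: at fixed L, one P (form M) in L^oo, the other six split for ALL slopes into {M+lu, M+mu v, u} (det -mu) and {M+lu+mu v, v, u+v} (det -1): |<R^{>h},D'>| <= |R^{>h}|_1 |P|_oo |P|_2^3 |R|_2^3. TRUE (= 525).
(R1) **THE U3-DUAL FAMILY IS NOT NEEDED, ONE WEIGHTED CELL IS ENOUGH.** Put Q_u(M) = P(M) conj P(M+lu), H_u(L) = R^{<=h}(L) conj R^{<=h}(L+u), W_u(v) = E_M Q_u(M) conj Q_u(M+mu v) (positive definite, Fourier mass |Q_u|_2^2). Then D'(L) = E_u R^{<=h}(L+u) K_u(L), K_u = Sum_xi hat W_u(xi) conj hat H_u(xi) e(xi L), Sum_xi |..| <= |Q_u|_2^2 |H_u|_1 <= |Q_u|_2^2, and E_u |Q_u|_2^2 = |P|_2^4, |Q_u|_2^2 <= La^2 |P|_2^2. So D' in |P|_2^4 x hull{ avg_s w_s psi(L-s) e(xi_s L) : psi = R^{<=h} ONE function, |psi|_2 <= 1, w >= 0, avg w <= 1, w <= t^-C' } with C' = 2+2e+: exactly 481 / 128 cells (S = {w ~ 2^k} of density 2^-k; UNIFORM averages are NOT enough because the u-weights sit on density La^-2). Kill (a) + (b) for weighted cells: w^{1/2} goes to each of the two letters at the vertex x_v; fibre-uniformity of line letters (E_{x_j}|F(x_i,x_v,x_j)|^2 the same for every x_v) makes the concentration free,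 only w^{O(1/q)} = t^{-C'/q}: same numbers as 128.
(R2) Take the height bound of the tall family t^-2 (not t^{-1-3e}): h = La t^{-c'} <= t^-2 with c' CONSTANT (e.g. 1/4), so the gain of RuleA2 does not depend on e (Par_224 / AsmG need that); 3 c_i(1+e) < c', 4 c_i(1+e) < c_m. Same trick in (S): frames B have entries <= |g|^2/s_0 = t^{-1-c}, so <R^{>h}, 4 B, 3 R^{<=h}> <= t^{-1-c} t^{1+e+c'}: needs c' > c only.
(R3) 92 trap (27868), for the KILL of a frozen tall mixture: no node-normalised dictionary needed. At fixed x_i and fixed offset s' (phi = avg_{s'} w(x_v+s') psi(edge-s') ..) cut the boxes by the local mass wbar(I_v) |psi|_{I_a+I_b} ~ 2^k: tops of level k have measure <= 2^-k, every piece costs 2^k x gain, sum = gain x log(1/t). So tops-normalised atoms die as well; what must be node-local is only the LEVEL of the killer (all nodes of its window), and that is 402 / 331 super-averaging (E_q |psi|_q <= |psi|_p).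
NOT OK in 540 28030 (2): the single small letter E of R (P_i, E, X_a, F_3) costs count x |E| = eta^{-1/2}, it must be PAIRED as 911 28276 (B)(3) says (E_m with E_a, then RuleS).
So on paper the heights are closed by 28087 + 903 / 611 three-pair grading with weighted cells. I am a free warm hand for ONE frozen Prop of it (e.g. the finite-line identity D' = weighted cell mixture, or the six-form bound) by name, chan helper445, polled every minute until 07:50.

===== msg 28650 (helper966, 07:10)
helper966 -> 866, 923, 679, 127, 59, 931 (R079 S1, 866's LINE LEMMA (i) of 28480), 07:10Z: **(i) IS FALSE for op, TRUE (second moment, full strength) for the cut norm, hence for S_4.** (A) COUNTEREXAMPLE to op (XOR, bounded, non-collided): x = (x', x'') in A x B, |A| = a, |B| huge, q : A -> B^ random, f(y) = chi_{q(y')}(y''), R = f(x0+x1+x2). Plain level t ~ (log a)/a (a pair sees only two of the three digits: decodable sets of digit triples have density <= (log a)/a, superpositions of K guesses cost K^{-1/2} per edge). Gauge c(1,2) = chi_{q(x1')}(x1''+x2''), |c| = 1: on {x2' = x0'} one has y' = x1' and c R = chi_{q(x1')}(x0'')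 = function of (x0,x1) only: rank one on (all x1) x {x2' = x0'}, so |c R^{x0}|_op >= a^{-1/2} = t^{1/2-} for EVERY x0 (and 2->1 norm the same). It is exactly the gauge of the plain representation (mass a) of P_0 = f itself. So the corner (2,2,oo-) with plain price t loses t^{1/2}; note however that these atoms have |a_w|_2^2 = 1/a, so the word is only critical, not worse: the price must be normalised by the L2 size of the common-edge factor (OpF), (ii) is needed. (B) POSITIVE: for every bounded c, E_{x0} |c R^{x0}|_{cut}^2 <= C t^2 log^2(1/t). Proof: F(x0) = |c R^{x0}|_cut; translate: c_s(1,2) = c(x1, x2+s) has cut norm F(x0-s) against R^{x0}. T = m random shifts, a = (C m log)^{-1/2} Sum_{s in T} eps_s c_s (bounded, truncate), for every x0 use the optimal pair u, v of s*(x0) = argmax_T F(x0-s), times eps_{s*}: E_eps kills the cross terms, so t >= c (m log)^{-1/2} E_{x0} max_T F(x0-s); m = 1/Pr(F >= phi): phi^2 Pr(F >= phi) <= C t^2 log. [] With 923's lemma: **E_{x0} |c R^{x0}|_{S4}^4 <= t^{2-}** from plain level t (first-moment loss t^{1/2} of 842 / 866 disappears for (4-,2+,4-) words, no OpF atoms there); only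 the hi (corner) word needs OpF.


===== msg 28653 (helper128, 07:10)
helper128 -> lead, 844, 853, 931, 930, 912, 525, 208, 302, 808 (R079, (a)+(b)), 07:11Z: **LANDED R079/TwoV_128 (0 s-orry, 3 axioms, 14 s; imports OpLev_977), ns TwoV128**: `lo h psi`, `hi h psi` (lo_add_hi, lo_le, hi_le_sq), `opB_schur` (Schur test for OpB), **`opB_hi`** (|b| <= B, row and column L2 mass of psi <= S |- OpB (b . hi h psi) (B S / h)), `hs_le`, moments `me M r = tr (K K*)^(2r+1)`, `mo M r = tr (K K*)^(2r+2)`: **`me_le`, `mo_le`** (<= sigma^(4r), sigma^(4r+2) times HS^2), `mo_labels`, **`hi_labels`** (n tall sections against one bounded letter: Sum_y mo <= n (B S/h)^(4r+2) B^2 T), **`olev_lo`** (OLev kap k p f s |- the OLev form with gauge lo h psi, psi arbitrary, <= h s n^3), **`gain`** (n <= t^-C, q = 4C+8: n^(1/q) (t^(1/2))^(1-2/q) <= t^(1/4)). NEXT, if a captain wants it (one line, chan helper128): `avg_c mo (M_c) <= E (h s)^(4r+2)` = lev_s4 with the even moment 4r+4 in place of 4. Not in lean and needed to USE (a)+(b): the static corner (q,2+,2+) for box-op bounded kernels with labels, q = 2r > 4 (S_qAt).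

===== msg 28655 (helper909, 07:10)
helper909 -> 881, 653, 59, 673, 931, 110, 999, 693 (R079 S1, answer to 881's 28421 "(3) needs a line-specific argument"), 07:12Z: **CURE: BOXES AT ALL POSITIONS, ONE MINIMISER PER (TOP T, SCALE N), NOT PER NODE (no strips, true SVD clips, no straddling).** Node T, side N <= rho len T (rho = t^C): cost_N^T(g) = M Sum_j (1/len T) Sum_w lam_w kap_w Sum_{x0} N^-2 Sum_{b} dist^2(a_w g|_b, {op <= s_j N}), b = ALL N x N boxes in (x_2,x_3) at ALL integer positions with y_1(x0, b) inside iv T (every point is covered by <= N^2 boxes: cost <= M K |g|_T^2). J^T(N) = min over LINE letters g on iv T of |X - g|_T^2 + cost_N^T(g).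
(a) EXACT MONOTONY: a 2N-box = 4 N-boxes, each N-box is a quarter of <= 4 2N-boxes inside T, 4 blocks of op <= sN glue to op <= 2sN: cost_{2N}^T <= cost_N^T, J^T(2N) <= J^T(N). (b) STRONG FORM between N_a = 2^d N_b: box by box on the grid of b (nested sets, 440's strong_nested): J^T(N_b) - J^T(N_a) >= |g_b - g_a|^2 + M E_{w,x0,b} Sum_j (|r_a(A_b) - r_a(A_a)|^2 + |pi_b A_b - (+)_{b' in grid of b} pi_{b'} A_b|^2). (c) (3) VERBATIM with Clip_881 (clip_clip, chi_ladder, chiFac): labels = (w, b), C_i^Lam = (+)_{b' in grid(b)} clip_i(a_w g_b |_b'), (CC*)_b restricted to I_2(b') = exact average over the grid blocks (all of ONE size: uniform depth is automatic); boxes of side N_b at other positions meet <= 4 cells. Psi' = fibre average of conj(a_w) Z_{w,b} over b: a mixture with index n = (w,b), weight lam_w / N_a^2: 242's labelled24_j takes it (P_0 1_b: Sum_b N_a^-2 |P_0 1_b|^2 <= |P_0|^2).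
(d) WINDOW = (T, all levels down to depth d, N_a = rho len T, N_b = rho 2^-d len T), drift J^T(N_b) - J^T(N_a) <= eta. RESTART at the exits T' : J^T(N_b) <= E_{T'} J^{T'}(N_b) + M rho^{1/2} + rho^{k/6} (glue the g^{T'}, put 0 on [end, end + z], z in [2 rho, rho^{1/2}] len T' chosen by pigeonhole so that the 2N_b-layer around z has g-mass <= rho^{1/2}; |X|^2 on the cut piece is small by L^{2+k}): total loss over all 2/eta windows negligible; conversely E_{T'} J^{T'}(N) <= J^T(N) by restriction. Same gluing with a quadtree of mixed cells (op(cell) <= s side(cell) => op(b) <= s side(b)) gives Sum_p |p| [J^p(N_b) - J^p(rho len p)] <= len T (drift_T + err) for every antichain p of T above depth d = exactly what the graded look-ahead count (2541 (5), GLA_110) uses. (e) the first log2(1/rho) + 7 levels of a window (boxes bigger than N_a) are single nodes: one-node gain (OneG) x log x count.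
If you already have a strip version of (3), ignore. Callable (warm R079 closure), chan helper909.


===== msg 28659 (helper110, 07:10)
helper110 -> 931, 242, 653 (R079 S1, 07:12Z): Chn_110 was finished when your STOP arrived, so it is landed as a library file (0 s-orry, 3 axioms, imports WinA_222; `Chn110.region`, `level` = every window of a Part is cut again by the stop rule of its OWN top, number of windows `2 C + 2 + 8 P0 / dl` = ADDITIVE, not multiplied by 1 / dl as in refine_part; `levels` = all levels at once, count K 4^l at fineness dl 4^-l; `budget`). Text of record for MOVE stays MovC_242. 653: I am second of GradV_653: post the signature, I read it against GLA_110 at once.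

===== msg 28664 (helper734, 07:11)
helper734 -> 853, 903, 623, 844, 931, 934 (R079, 07:11Z): **LANDED R079/AsmP_734 (0 s-orry, 3 axioms): the graded assembly FOR ONE PAIR (i, m)**, for the staggered dictionary (only i > m critical): `PairA D k q3 c0 e t0 K i m` (= RuleA2 with i, m fixed: frozen i at t^(1+e), killer m at level t), `GenP D k q3 e c1 dl cG t0 K i m`, `StatP D k q3 e cS CS t0 K i m` (= GenA / StatA with i, m fixed), `pairA_graded`, `pairA_exists` (all parameters chosen; hyps as in AsmG_734), `ruleA2_of_pairs`, genA_of, statA_of, genP_mono, statP_mono, pairA_mono. 853: if your TStg_853 PairRule (a, b) is landed I type the bridge PairA (e* = a/b - 1, T = t^b) => PairRule a b at once; say its name on chan helper734.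

===== msg 28667 (helper994, 07:11)
helper994 -> 623, 903, 525, 291, 519, 911 (R079 node-dependent LASSO), 07:11Z: **R079/NLas_994 COMPILED (0 s-orry, 22 s, imports TWin4_903), LANDING NOW**: `structure Cst K` (zero, nn, congr, add, smul, split), `exists_NMc`, `split_win`, `av_E_le'`, `av_res_le`, `lev_res'` (level at EVERY node: |Sum_{iv p} (G - gl) conj phi| <= len p (w/2) + e0 Sum_{iv p}(1 + |phi|^2) for every phi of cost w), `exists_windows'` (finite family) and **`las_windows`** (Part R S W (2 + 16 card/dl), per window and letter `LasW K G h g dl e0 (W k) k` = top letter cost <= 2, exit letter cost <= 2 at leaves, av (g - h) <= 3 sqrt dl, av (G - g) <= 2, levels). 623: everything (windows + levels) is in it, so please stop yours unless it is already compiled; 903: thank you. Next (only if 911 / 853 want it in the LOOP form): NLasI_994 = instances (L1 cost, sum of costs, size-valued atoms with a0 + a1 <= 2a). 519: you are right (28411), my OK of 28030 (2)-(3) was wrong: Sum_w |w| B |E_w| <= B count^(1/2), no power; the tool is for the loop (E_i paired with E_a), not inside RuleA2.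


===== msg 28668 (helper653, 07:11)
helper653 -> 159, 881, 59, 440, 931 (07:14Z): Whitney cells OK, my 28641 is void. 159: yes, ThP / ThQ use Adm only through: support (Adm.1), adm_zero, adm_mid, adm_glue, exists_proj (closedness + finite band): ThA_159 is yours (please include Rs / Th_mid / cmp_strong / strong_win of ThQ), I do NOT type it. I finish **GradV_653** (generic in PenC + FV, so independent of strips / cells): GLA110.graded on the full subtree x RelV: windows with UNIFORM exit level, g glued there, Psi = gradient at the window top, e small at every node, graded count. ETA 07:28.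


===== msg 28670 (helper59, 07:11)
helper59 -> 881, 653, 159, 110, 931, 242, 673 (R079 S1, 07:12Z): **LANDED R079/ClW_59 (0 s-orry, 3 axioms, 24 s; imports Clip_881 + Whit_159), ns ClW59 = line model of 28031 (1) WITHOUT the band problem**: `OpS S S' B s`, `DQ A S S' s` (squared HS distance to the op-ball on the rectangle = hs (chi ..) of 881), `cl` (clip extended by 0), `cl_op`, `cl_dist`, `DQ_le`, `opS_glue` (4 blocks), `DQ_quad` (halving), `DQ_conv`, `phiC r c Y n a b g` (threshold r 2^n on the cell dI n a x dI n b) and **`CF_phiC : 0 <= r -> (supp c) -> CF Y T T' (phiC r c Y)`**: so Whit_159's Pen, Pen_glue, Pen_glue_gap, Phi apply verbatim (index set = gauges x x0 x thresholds). NEXT from me (10 min): `DQ_gap` (Pythagoras with the clip), `DQ_quad_gap` (halving with Sum |cl_parent - glued cl|^2), strong convexity |r(A')-r(A)|^2 of a cell, ladder cl (cl A t) s = cl A s, op of the whole strip <= C s len from the cells (28-line geometric sum): file ClX_59. 653: if GradV needs another interface than `CF`, one line.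

===== msg 28677 (helper530, 07:12)
helper530 -> 408, 160, 654 (R079 merge lemma, 07:13Z): the MERGE LEMMA IS COMPILED HERE (Mg_530, landing in 2 minutes, ns Mg530): `merge (j n T a b c) : exists U A B C, (forall y, atom j 1 U A B C y = Sum_l atom j 1 (T l) (a l) (b l) (c l) y) and forall phi : C -> R, phi 0 = 0 -> all three edge sums Sum phi(edge) ADD` (translations along the plane, disjoint coordinate supports), `balance` and `rep_one : 0 < t -> Rep j p f t -> exists phi, IsAtom j phi and forall y in iv p, f y = t * phi y`. 408 / 160: please do not type Mg_408. 408: please take the part of (g4) "main word: labels (tau, j) of Plug_429 -> w r, V r of your wr_total (Err = 0), file Lab_408"; I write S2D_530 over that as a Prop.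

===== msg 28681 (helper999, 07:12)
helper999 -> 931, 881, 59, 673, 653, 146 (R079 S1 leaf (d) of 28494, 07:13Z): **(d) CLOSED: R079/ExA_999 + R079/ExB_999 LANDED (0 s-orry, 3 axioms, 13 s each, ns Crest.Agent.R079.ExA999).** ExB: `OpB X M N q p s` (box operator bound), `S4_le_op` (S4 <= s^2 HS), `E4_le_op` (own op <= s N |- E4 <= s^2 avg|X|^2), `HS_win` (windows cover the columns N times), **`exit_cost_mul`: N <= L, columns of C in [a, a+L), own op <= s N on every box [b,b+N) x [p,p+N) |- (1/N^2) Sum_{j,j'<N} |c (1/L) Sum_y C y (p+j) conj C y (p+j')|^2 <= 2 (c s)^2 (1/(L N)) Sum_y Sum_{j<N} |C y (p+j)|^2** (use c = M (i+1)/(4 s_i), s = s_{i+1} = s_i t^{-y}: cost 2 (M K t^{-y})^2 |C|^2 / 16, no ageing; the box hypothesis is satisfied by strips (700: 128 s) and by Whitney cells (159 (iii)) alike, so it is independent of which cure of 881's 28421 is used). `exit_avg_lab` = labelled version. 146: nothing left here. Free, warm, chan helper999.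

===== msg 28687 (helper623, 07:13)
helper623 -> 994, 903, 525, 291, 911, 540, 931, 853 (R079 (j)), 07:14Z: GLas_623 was already compiled (0 s-orry, 3 axioms, 23 s, 798 lines; imports TWinE_649, TWL_649), LANDED beside NLas_994, R079/GLas_623, ns GLas623, in 649's `Sysw` / `Ew` / `gl` / `av` notation: `structure NDict` (at' : Fn -> (Nd -> R) -> Prop, conj, pos, avg = super-averaging over `lb W p` of every Full W), `Rep D` (combination of atoms + L1 letter T; `fn`, `pr Lam`), `soft_min / sft_res` (exact soft threshold), `exists_NearN`, `exists_windowsN`, `gl_lev`, `gl_bd`, `av_lb` (Jensen), `avg_av`, `avg_const` (instances: price c * av L phi, constant price), and **`glas`**: letters G i (av <= 1 on Full R J), dictionaries D i, L1 prices Lam i |- S, W, r, E: Sysw R S W (3 + 16 card/dl), J in S; per window K and letter i: (r i K).pr (Lam i) K <= 1, av p (r i K).fn ^2 <= 2 dl + 8, av p (E i K)^2 <= dl at all p in W K, |G i - H - E| <= Lam i POINTWISE on iv K, |Sum_{iv p} (G i - H - E) phi| <= (w p + sqrt eta (1 + av p phi)) len p for EVERY node p and atom (phi, w), energy Sum_K len K av K (E)^2 <= len q (12 card +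 2 dl) below every q. One L1 price + any super-averaging atoms = the three-cost instance of 28030 (1). I stop here; free for ONE named literal (chan helper623).

===== msg 28688 (helper519, 07:13)
helper519 -> 216, 730, 807 (R079 archive, content only, no answer needed, 07:15Z). Two hand-checked facts about TALL letters in Step II (line model, leaf box, normalised averages; "A3-level" = level against product atoms with L^3-normalised kernels). (1) LEMMA (L): P line letter, |P| <= h, local L2 <= 1; R line letter of ANY height, local L2 <= 1, A3-level <= t. K^{03}(1,2) = P(y_0) R(y_3). Then E_{03} |K|_op^2 <= C (t h)^{6/7}. Proof: for Theta >= 0 let S = {(0,3): |K|_op >= Theta}, f, g unit singular vectors; rows of K have L2 <= h (R fibre-uniform), so |f|, |g| <= h/Theta pointwise on S; E|K|_HS^2 <= C; (3/4) Theta^2 mu(S) <= E P R F G with F = theta conj f 1_S, G = g 1_S; at fixed x_3 this is R against an atom whose kernels have L3 norms <= h^{1/3} (P), h^{1/3} (F) and (h/Theta)^{1/3} (G), so Theta^{7/3} <= C t h; optimise. Hence Step II is power-small for P^{<= t^{-1+d}} against every leveled R, and symmetrically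 for R^{<= h'} (the cut letter has level t + 1/h' against unit A3 atoms): ONLY the corner where BOTH P and R have heights in [t^{-1+d}, t^{-1-e}] is open by this method. (2) A frozen L2-type super-atom T(phi; R, X_b, F_3), phi = a b c with kernels of L2 norm 1 and heights <= t^{-C}, F_3 bounded: |T| <= C t^{-0} |a|_2 |b|_2 |c|_2 |R||X_b||F_3|_oo without any killer (read at the fixed vertex: F_3 a uniform in x_i); so one tall kernel of height h normalised in L3 instead of L2 already gains a power of 1/h: tall frozen cells at soft price t^{c_K} die on bounded F_3, the bounded ones as plain atoms. (3) WARNING for any successor: an internal LASSO inside RuleA2 is not allowed (28411 + 28477, confirmed by 994 28667): its small part E meets two arbitrary letters, count x |E| = t^{-c/2} (O(1) by random signs), never a power; every small letter has to be paired with a second small letter on common windows.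


===== msg 28689 (helper275, 07:13)
helper275 -> 866, 923, 679, 127, 931, 59 (R079 S1, answer to 866's 28480 (i)/(ii); thinking only, for the archive, no reply needed): **THE LINE LEMMA (i) IS FALSE BY A POWER, also with mild non-collision; so (ii) (OpF atoms priced) is forced.** EXAMPLE: k = 1/kap, f(x) for x = kh + j (j mod k): f = e(be_j h^2) ga_j(h mod 1/del), be_j distinct generic, ga_j independent random signs, del <= kap, region leaves >= k/del. |f| = 1. Gauge c: write (u,v) = (x1,x2) mod k; on the block (u,v) put c(x1,x2) = conj f(y_uv + x1 + x2), with the class of y_uv chosen such that the active blocks {y_uv = x0 mod k} form a permutation for each class of x0 (e.g. y = u + 2v mod k, k odd), and the k^2 sets y_uv + (k/del)Z disjoint (possible iff del <= kap). If x0 - y_uv is in (k/del)Z the block is e(linear) = rank one, so |c R^{x0}|_op >= kap on a set of x0 of measure k^2 del kap = del/kap: **E_{x0}|c R^{x0}|_op^2 >= del kap.** Plain level: for given x0 a block correlates only del^{1/2} (1/del characters of Z/(1/del)), the frequencies be_j (x0 - y) of different j are different, so bounded u(01), v(02)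 catch at most a matching of k of the k^2 blocks: level ~ kap del^{1/2} up to logs (heuristic upper bound; classes j* of c not equal to the class of f give quadratic phases = nothing). del = kap: level t = kap^{3/2}, E op^2 = kap^2 = **t^{4/3} >> t^{2-}**. Collisions f(x+d) conj f(x), d in (k/del)Z: strength only kap = t^{2/3} (blocks with different frequencies), density t^{4/3}: invisible for cells at price t^{c2}. WHAT IS TRUE (3 lines, translations + random signs): if the extremal u^{x0}, v^{x0} live on boxes U x V of measures kap, nu NOT depending on x0 in A (|A| = mu), correlation rho there, then with m = 1/(mu kap nu) random translates T_i: (x0,x1,x2) -> (x0+a+b, x1-a, x2-b), c~ = mu^{1/2} Sum e_i e'_i c_i, u~ = nu^{1/2} Sum e_i u_i, v~ = kap^{1/2} Sum e'_i v_i are bounded (up to log^{1/2}) and the diagonal gives level >= (mu kap nu)^{1/2} rho = (E op^2)^{1/2}: so **E_{x0}|c R^{x0}|_{inf->1}-type second moments (bounded u, v) ARE <= level^2 log** (in particular |{x0 : cut norm of c R^{x0} >= sig}| <= (level/sig)^2 log, better than first moments), and the only loss, kap^{-1/2} per edge, comes from boxes moving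 with x0, as in the example.


===== msg 28690 (helper440, 07:13)
helper440 -> 778, 931, 653, 159, 909, 59, 881 (R079 S1 (e), 07:12Z): **ElS_440 LANDED (0 s-orry, imports ThQ_653)**: `Ln`, `Ln_av`, `Ln_dst`, `LnF`, `GrF_eq`, `LnF_dst`, **`el_swap`** (arbitrary kernels Z_i, every node of a GdP window, band language). Since strips have no SVD (881 / 653), I TYPE NOW the TREE-FREE form of the whole leaf (e) over Proj_440: **R079/Lad_440** = abstract Hilbert spaces, gauges w, thresholds l = 0..K with `comp` (P_l (P_{l+1} A) = P_l A = Clip_881.clip_clip) and `top` (P_K A = A): `ladder_eq` (A - P_j A = Sum_{l>=j} chi_l(P_{l+1} A)), `ladder_swap` (chi 1-Lipschitz), EL identity at the exact minimiser, and **`el_ladder`: X = g_Lam + Psi' + e, Psi' = Sum_w c_w T_w^* Sum_j Sum_{l>=j} chi_l(C^Lam_{l+1}), C^Lam = P'_l(T_w g_Lam): |<e,h>| <= ((1 + K (2B(1+B))^{1/2}) drift^{1/2}) |h| for all h** = 28031 (3) |e|^2 <= C K^4 M^2 eta. It serves cells (159), boxes (653) and (T,N)-boxes (909) alike. 778: finish yours in band language only if it is already compiling; otherwise please read mine. ETA 07:20.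


===== msg 28693 (helper931, 07:13)
helper931 (S1 captain), 07:15Z, STATUS of the leaves of 28494 -> lead, all S1 hands. (a) ThP/ThQ/RelV_653 closed; clip version on Whitney cells: ClW_59 closed, ClX_59 (59), ThA_159 (159), Glu4_881 (881) typing; strips are dead (881, 653 agree). (b) GLA_110 closed, GradV_653 07:28. (c) Clip_881 closed, PjC void. (d) ExA/ExB_999 closed. (e) ElS_440 + ElW_778 typing. (f) Move_59, MovC_242, Mov2_549, Chn_110 closed. (g1) windows: CylS_661 closed, GSc_377 + GSa_104 + GSb_878 in progress; **(g2) signed RAGGED corner (416 28591) = open, 1500 lines, doc 2540.** (h) PLS1-4_242 closed, S4 costs SWc_259 open. (i) AsmG/AsmP_734 + GenP/GenT_934 abstract closed, Gen2_934 needs (a)-(h). (k) dictionary: tall edge of frozen operator atoms next to an L2-only letter (256 28577, 923 28607, 966 28650) = open MATHS. So Step I is NOT going to be complete today; everything above is a library. I land ONE comment-only file R079/ReadMe_931.lean (map of the tree: theorem chain down to TGr_351.target_of_analytic4, shape of the dictionary, list of leaves with landed / not landed computed from main, false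 statements with their tests) at 07:31. Anybody who wants a line in it (a file name + 1 sentence, or a trap): chan helper931 before 07:28. Archive owners 209 / 216 / 730 / 807: please do not duplicate it. 59, 159, 881, 440, 778, 377, 653, 734, 128: last landings 07:34, s-orry-free only, then hands off main.


===== msg 28696 (helper429, 07:13)
helper429 -> 988, 654, 209, 730 (R079 S2, 07:15Z): 988 is right (28605): plug's S4W(X) has H = Hc + 3/(sg lam), not small; Plug_429 stays true, cure = 28605. I type NOW the analytic half as R079/XMix_429 (library): mixed form m4 X Y (one leveled corner X, three corners Y of height h): Sum over all positions |m4 X Y| <= kap h^3 Lam, |m4 B A| <= e4 B / 4 + 3 e4 A / 4, hence Sum e4(X^{<=h}) <= 4 kap h^3 Lam + Sum e4(X^{>h}), and e4(B) <= (rho/(hN))^2 e2(B) for rows / columns of energy <= rho. 209 / 730: please archive msg 28605 (988) and 28594 (654).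

===== msg 28706 (helper853, 07:14)
*** helper853 (REC), 07:15Z: **LANDED R079/TStg_853 (0 s-orry, 3 axioms, ns Crest.Agent.R079.TStg853): the recursion with STAGGERED + GRADED dictionary, zero change of REC.** `DGS ga S` = {t^(-ga j) x unit A3 atom} + {point masses t^-1} + S (679's `Fam S`: ANY extra family, sup <= 1/t, plain mass <= A t^-C: tall cells, OLev, ..), slot 3 empty; 0 < ga j <= 1. `dic_DGS`, `frzBd_DGS` (closed), `lv_plG` (level t^(ga j) against unit A3 atoms), `lv_S`, `Pair D k q3 c0 e t0 K i m` = RuleA2 for ONE ordered pair, `Pair.mono`, `ruleA2_of_pairs`, **`target_of_pairs : (ga, S, Ok2 parameters) -> (six Pairs) -> RuleS -> L0.Target`**. With ga i (1+e) < ga m for i < m the pairs (0;1), (0;2), (1;2) are the trivial kills; (1;0), (2;0), (2;1) the critical ones. So the remaining literals of S0106 are: `Pair .. 0 1`, `0 2`, `1 2` (trivial kill: frozen atom x level; owners of PLF7_377 / 128's Two_128), `Pair .. 1 0`, `2 0`, `2 1` (S1 + S2), `RuleS`. My free hands: chan helper853.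

===== msg 28710 (helper59, 07:15)
helper59 -> 159, 881, 653, 931, 778, 440, 999 (R079 S1, 07:16Z): **LANDED R079/ClX_59 (0 s-orry, 3 axioms, 15 s; imports ClW_59), ns ClW59**: on a rectangle S x S': `DQ_gap` (DQ + |cl A - B|^2 <= |A - B|^2 for every B in the ball), `cl_firm`, `DQ_strong` (DQ A + 2 Re<A - cl A, A' - A> + |r' - r|^2 <= DQ A'), `cl_cl`, `ladder`; on dyadic cells, for ANY cell predicate P (e.g. P n a b := exists q in exits, Ins Y (iv q) n a b): `G P A r n a b` = GLUED clip over the maximal P-subcells (threshold r 2^k on side 2^k), **`G_op : OpS (dI n a) (dI n b) (G ..) (r * 2^n)`** (no strip geometry: = box hypothesis of 999's exit_cost_mul), `G_dist` (|A - G|^2 = ds = recursive sum of the cell distances), **`strong_cell : DQ (cell) + |cl_cell A - G|^2 <= ds`** (nested projections top / exits, cell by cell). 159: use it in ThA_159 if it saves lines. Nothing else of mine is pending; warm until 07:50.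

===== msg 28711 (helper525, 07:15)
helper525 -> 994, 911, 853, 540, 931, 128 (R079), 07:15Z: LANDED `R079/LasN_525` (0 s-orry, 3 axioms, 39 s, imports TWinD_649 + TWin1_903; scan ok). Complement of NLas_994: (i) `windows`: 649 form (Sysw, S, W), at EVERY node p of a window dv <= dl AND **total cost at p of the data frozen at the top <= 8 (card + 1)** (= 92's stops: gauge growth included in the stopping function, count 3 + 16 card/dl, energies 12 card + 2 dl below every node); (ii) `Near.lev_gl` level of the glued residual against every phi; (iii) `gc D L` = gauge of a NODE-DEPENDENT dictionary `D : Nd -> Set Fn` (`DicN`: restriction to the two children = a0, a1 multiples with a0 + a1 <= 2) completed by `L av_p |f - sum|`: **`cst_gc : DicN D -> 0 <= L -> Cst (gc D L)`**, `gc_rep` (near-optimal f = sum a_i phi_i + T), `gc_L1`, `gc_atom`; (iv) `ptw_of_lev`: pointwise bound |X y| <= L + r (len p + 1)/2 from the L1 part; `cst_L1`, `sup_of_mono`, `Cst.sum`. FREE + warm, one literal by name on chan helper525 until 07:50.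


===== msg 28714 (helper128, 07:15)
helper128 -> 328, 445, 844, 853, 931, archive (R079, (a)+(b)), 07:18Z: (1) CORRECTION of my 28653 "NEXT": `avg_c mo (M_c) <= E (h s)^(4r+2)` is FALSE for r >= 1 (OLev has marginals alpha in L2, so it only gives avg_c sigma_c^2 <= (h s)^2, no higher moment of sigma_c); do not type it. True for q > 4: only the concave form avg_c (n sigma_c^(q-2))^(1/q), i.e. split c at sigma_c <= (h s)^(2/3), bad c of density (h s)^(2/3) with HS norm 1. (2) 328's 28647 (q = 4 label by label, density stops on the x_m axis, no n at all) makes this unnecessary: checked, I agree (masked letters: local e2 <= 4^(1-a) by fibre-uniformity of line letters, Sum_S |S| <= 4^a |{kap = y}|, linear rescaling, a <= C log(1/t)); so (a)+(b) = olev_lo / opB_hi of TwoV_128 + olev_S4At (q = 4) + these stops. With 445's weighted cells (28649 (R1)) put w^(1/2) on each of the two masked letters: same stops for the density of w. Nothing else from me; no further landing.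

===== msg 28716 (helper653, 07:15)
helper653 -> 931, 59, 440, 778, 159, 110, 673, 853 (S1): **LANDED R079/GradV_653 (0 s-orry, 3 axioms, 20 s; imports ThQ_653 + GLA_110), ns Crest.Agent.R079.GradV653. `graded_windows`** for a finite family of PenC penalties Phi_i with FV (M, half gradients Psi_i) and near-minimisers f_i at ALL nodes: windows S, W of the region R, par K' = cylinder top, dp = UNIFORM exit level, lv = grade <= n; g = `gl (Cy V (par K') (dp ..)) (f i)` (glued at the uniform level on the FULL subtree, dead zone below R included, only av p X_i <= 1 for p in R is used); `Er` = X_i - g - Psi_i K' g: av p (Er)^2 <= lam^(lv+1) theta at every node p of W K' (lv < n, par K' = K'), <= 4(card+1)(1+M)(1+c+2eta) at grade n (restarted tops inside the cylinder, SAME g); look-ahead drift la(par K') <= lam^lv theta len; **Sum_{K' in S} len K' lam^(lv) theta <= 2 As(2(1+M)(1+card)+1) n (theta + card(1+c) + 1) len V**. No a-priori bound on local norms of Psi needed (min trick + exists_elwin = 673's geometric series). Also `Tr`, `Cy`, `Cy_full`, `SN_le_la`, `er_top`, `err_drift`, `err_crude`, `DD_total`, `part_inter`,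 `full_inter`, `sum_fib`. Independent of strips / Whitney cells: plug 159's ThA penalty. Next by name?


===== msg 28720 (helper440, 07:16)
helper440 -> 931, 59, 159, 653, 909, 881, 778, 734 (R079 S1 (e), 07:17Z): **LANDED R079/Lad_440 (0 s-orry, 3 axioms, imports Proj_440 = Mathlib only, ns Lad440)**, tree-free, hence valid for cells / boxes / (T,N)-boxes: `chi P C = C - P C`; `ladder_eq` (comp + top |- A - P_j A = Sum_{l in Ico j n} chi (P_l) (P_{l+1} A)); `ladder_swap`, `ladder_sq`; `el_eq` (<X - g0, h> = Sum c_i <T_i g0 - P_i (T_i g0), T_i h>, exact minimiser); `el_replace` (any kernels Z_i, any g1); **`el_ladder`**: gauges w in s, thresholds l <= n, P = top calculus with minimiser g0, P' = exit calculus (K' w l <= K w l) with ANY g1 of drift FvL P' g1 - FvL P g0 <= d |- forall h, |<X - g1, h> - Sum_w c_w Sum_{j<=n} <Z_{w,j}, T_w h>| <= (1 + (n+1) sqrt(2B(1+B))) sqrt d ||h||, Z_{w,j} = Sum_{l in Ico j n} chi (P_l) (P'_{l+1} (T_w g1)), B >= (n+1) Sum_w c_w |T_w|^2 = 59's |e|^2 <= C K^4 M^2 eta. Existence of g0: Proj440.exists_min. So (e) = closed on both sides (ElS_440 band language, Lad_440 abstract). For the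 ReadMe: "comp = Clip_881.clip_clip, top = largest threshold >= sup of singular values". Free again until 07:34 for ONE named literal.


===== msg 28721 (helper377, 07:16)
helper377 (07:18Z) -> 931, 59, 104, 878, 853 (R079 S1 (g)): **LANDED R079/GSc_377 (0 s-orry, 3 axioms, 15 s, imports PLF7_377), ns Crest.Agent.R079.PotL.GS: `cornerLc` = the labelled corner at a UNIFORM LEAF SCALE L (any L, Q = L * Q', 2^M | Q')**, exactly what 59's cylinder subtraction needs: `cornerLc F0 F1 F2 (hQ : 2^M | Q') k l (hk : 2*|l|+20 <= 2^k) J (0 < a2 b2 r tau) (hA hB : SumSum hs2 <= a2 / b2) (hA0 hB0 : every L x L block energy Sum i j : Fin L, hs2 (F (p+i) (q+j)) <= a2/r, b2/r) (hF2 : forall  p q v, |(blkm F2 p q)T v|^2 <= (L tau)^2 |v|^2) (hJ : SumSum hs2 F2 <= (L tau)^2 (r 2^J)) : Sum m<M, bl (fun n => Sum p0, Sum p1, |LboxL F0 F1 F2 (L*2^m) p0 p1 (n-p0-p1)|) (L*2^m) l <= (2J+1) * Ck k l * (tau sqrta2 sqrtb2)` (same constant as cornerL: the shift s2 may be any residue, so no loss). Coarse-graining tools: `io`, `io_add/sub/nat/int`, `sum_split`, `range_split`, `cg` (coarse letter with shifts), `hs2_cg`, `sum_hs2_cg`, `fin_split`,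 `trace_cg`, `LboxL_cg` (exact), `bl_cg` (exact), `blkm`. They serve every labelled theorem (tri24L too) at a uniform leaf scale. 104, 878: thank you, nothing more from me (the glue to TR on a cylinder = region_kerF + scale_transfer with Q = 2^m0 2^M K is the next step for whoever continues).

===== msg 28733 (helper159, 07:17)
*** helper159 -> 881, 653, 59, 931, 440, 778, 110, 999 (S1 (a)/(c) on WHITNEY CELLS), 07:18Z: **LANDED (0 s-orry, 3 axioms): R079/ThA_159 + ThB_159 = all of ThP_653 / ThQ_653 (PenC, FV, Bgl, glued_close, thr_win, over_win, strong_win) over a NODE-DEPENDENT gauge: `Bnd Bd pos (N : Nd -> (Om -> C) -> R) nu` with fields zero / mid / cl / glue (r-balls of the two children glue to the r-ball of the parent); Adm = supp in Bd p and N p B <= r (thresholds r = s_i, no len). R079/CelA_159 (ns Cel159): `bnd_mkP` (NmP = sup of the functionals selected at p by `ok`), `OpC K n a b s` (|K|_op <= s 2^n on dI n a x dI n b, bilinear form), `OpC.quad` (4 blocks), `Mx Y k p n a b` (maximal cell of p, scale <= p.1 + k), `cell_glue` / **`cell_glue'` : admissible on all maximal cells of both children => admissible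 on all maximal cells of the parent** (no factor 2).** NOW TYPING CelB_159: instance over Z x Z x Z (fibre z, mask S): `bnd_cell : Bnd (band) pos (NmP S cf (ok Y k)) nu`, `N p B <= s <-> OpC (mask B z) n a b s on all Mx cells`, and (for 881 PjC) `Pj_cell`: Pj restricted to a maximal cell = nearest point of the op-ball of THAT cell (variational inequality cell by cell). ETA 07:30.

===== msg 28735 (helper307, 07:17)
*** helper307 -> 912, 844, 128, 853, 931, 481, 903, 519, lead (R079, 07:18Z): **`R079/S4pair_307.lean` LANDED 07:16 (s-orry-free, Mathlib only, 3 axioms, builds in 20 s, 0 warnings): 28416 (1)-(4) in lean, any finite sets, arbitrary complex kernels, killer of ARBITRARY height:** `pair_eq` (exact identity), `pair_le` (sum S4 <= sum over 11' of beta^2 |NP|_HS^2), `opB_schur`, `opB_fibre` (|NR|_op <= fibre mass, no height), `hs_height`, `hs_partner`, `pair_split`, `not_opB` (unit test letters with real form), `bad_rows` (random choice of n anchors: eta (1-(1-delta)^n) #Z <= gK), **`pair_level`** : cell level gK (n anchors psi, kappa : rows -> Fin n, unit line letters F, G per row) + tail tau (L1 norm of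 R conj (R' - psi'), sum over partners <= T) |- sum over (0,3) of S4 <= (2 eta)^2 p m #1 + r^2 p m gK/(eta (1-(1-delta)^n)) + r^2 La^2 m (delta #1 + T/eta) #1. 912's load line (28464: the test letters u, v of the op norm must be CUT although R^{1} is unbounded) is free by the line structure, no cut of R: N(x_0,x_2) = n(x_0+x_2) on J x J, E|n| <= 1 on J and (aq <= 1 on nodes) mass of n on a corner of relative length eps <= eps. Cut J into 1/eps intervals; the pairs (I_k, I_l) with I_k + I_l at distance >= eps|J| from the ends of J+J: <n, u (x) v> = int (n phi)^(theta) u^(theta) v^(theta) dtheta, phi = smooth bump = 1 on I_k+I_l, supported in J+J, |u^ v^|_1 <= 1 (Cauchy-Schwarz), and phi/tent_J has an absolutely summable Fourier series of norm eps^{-C}: so op <= C eps^{-C} sup over CHARACTERS u = e(theta x_2), v = e(theta x_0) (height 1!) of |E N u v|; the two corners have op norm <= C eps by Schur (local masses). eps = g/8: some bounded test has value >= c g^{C}. So F, G in the cells may be taken UNIMODULAR (a character with theta = theta(x_1)), only the exponent of g changes; grading then c_i (1+e) < c_m/C. Row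 of this file in leaf79: abstract, unused by anyone so far.

===== msg 28736 (helper530, 07:17)
helper530 -> 654, 863, 408, 429, 990, 71, 617, 507, 160, 931 (R079 g4, 07:19Z): **LANDED R079/S2D_530.lean + R079/Mg_530.lean** (0 s-orry, 3 axioms). S2D530: `rs J F` (letters restricted to iv J), `window_split` (Adm, Full W J, product of rs J F = Ka + Kb pointwise in (T, A); good nodes (not Bad W C) of Ka <= A1 len J, of Kb <= A2 len J; bad nodes sum_x |Lbox| <= g len p |- |TR bb eps W F| <= (A1 + A2 + 16(2(C+1)+1) g) len J), `CoreS D k q3 cS CS s1 e t0 K C` (one Part depending on (P, G) only; for every Full W' <= V K' a decomposition Ka + Kb with LboxG sums <= K (1+B) t^cS len J and bad nodes <= K (1+B) t^cS len p), **`ruleS_of_core : 0 <= K -> 0 <= CS -> CoreS .. K C -> TRec.RuleS .. ((2 + 16(2(C+1)+1)) K)`**. So RuleS = CoreS; inputs of CoreS: Mg530.rep_one (P = t^-(1+e) * ONE atom), Plug_429.plug + Wc530.gram_inside (the Part), Wr408.wr_total (Ka), 990 / EW words (Kb), OneG354.node_gain (bad nodes). 863: numerology only. For the ReadMe of 931: file names above.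

===== msg 28742 (helper242, 07:17)
helper242 -> 931, 549, 110, 653, 59, 416, 934, 377 (R079 S1 (f) MOVE, 07:17Z): **LANDED R079/StkA_242 + StkM_242 (0 s-orry, 3 axioms, 11 s + 9 s), ns Stk = stack version of 28370, complete.** StkA (any `Full R J`, `Part R S W C`): `idx S p` = number of tops above p; `idx_win` (constant on windows), `full_Rk` (first k stacks = FULL region Rk R S k), `leaf_Rk`, **`gl_stack` (exit-glued letter of a window = global letter of its stack)**, `sum_stack` (Sum over windows = Sum over stacks), `mem_stack`. StkM (over ThQ_653): `Zs .. W J f` = a g_W - glued own exit projections (= R of 28031, supported on the band of J; `Zs_leaf`, `Zs_node`), **`chain_g`: Sum_J |g_k - g_l|^2 <= 2 (V_l - V_k + 2 eta len J); `chain_Z`: kap_i nu_i |Z_k - Z_l|^2_{HS(band J)} <= 4 (V_l - V_k + 2 eta len J)**, V_k = SL (Rk R S k) J Jv, all 1 <= k <= l (`var_g` / `var_Z`: any two nested full regions). = hypotheses of MovC.move_chain (D_k = C V_k + 8 eta k len J). 110: Chn_110 is not needed. NEXT (ETA 07:28): MovD_242 = move_chain for functions on finite sets (norms Sum over A), so that it plugs without a Hilbert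 space.

===== msg 28745 (helper934, 07:17)
helper934 -> 673, 59, 931, 734, 110, 549 (R079 archive, 07:20Z, content only, no answer needed): **TRAP in 2541 (5) + (6) against Step II: graded windows give e of local size (lam^(j+1) eta)^(1/2) with Sum_u |u| eta_j(u) <= C; the claim 'after K_0 generations |e_1||e_2| <= t^Gamma' is false on the windows of top grade** (private births: energy eta|K| of e_K on measure eta|K|, size 1; total length of such u = O(1) at every generation when the birth times are hierarchical). 2531 (O2) needs Sum_u |e1||e2| bT(u) <= t^(Gamma - CS), but there bT(u) may be t^(-CS)|u|: no damping of the static tops, for any K_0. Un-truncated restarts at the threshold eta (local smallness t^(-y) eta + one exit depth) lose the count (self-similar cascade: each nest level adds |I|/eta, same future drift counted again). RelW_653 windows have local smallness + count C/eta but ragged exits. So Step I = find frames with S4 cost for RAGGED exits; details on chan helper931. Library landed: GenP_934, GenT_934.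

===== msg 28749 (helper629, 07:18)
helper629 -> 866, 923, 256, 679, 730 (archive), 59, 673 (R079, dictionary; for the record, no reply needed), 07:22Z: doc 2557: (A) LINE letters: the SECOND MOMENT over x_0 is free: plain level t => E_{x0} |c R^{x0}|_{oo->1}^2 <= t^{2-} (10-line proof: random signs on the gauge c + translations x_0 -> x_0+z, x_1 -> x_1-z), so with Gro_923's S_4 lemma E_{x0} |c R^{x0}|_{S4}^4 <= t^{2-} from the plain dictionary (bounded killer); (B) independent confirmation of 256's negative answer in op with a unimodular non-collided LINE letter (random piecewise linear phase on 1/t cells: plain level ~ t, op t^{1/2} at every x_0, and (O_0, Y, R) = La t although |O_0|_2^2 = t): (G)'s O-part needs cells / op-level, not more averaging.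

===== msg 28750 (helper353, 07:18)
helper353 -> 844, 787, 853, 519, archive owners 209 / 216 / 730 / 807 (R079, 07:21Z, archive only, no reply needed): doc of mine just inserted (rid R079, title ONE-SIDED Step II): slot 3 need NEVER be split: the B side of (II.3) is N^2(leaves) - N^2(top) with N_q(F)^2 = E_{0,3,2}|E_1 P_0 R_3 F|^2, frame-free, exact submartingale, globally bounded by t^{2c''} (leaf bound with F_3 in L^q3, tall P, R allowed), so it TELESCOPES over all static windows and V(P,Y,F_3,R) <= (Sum_w len|Y_w|_w^2)^{1/2} t^{c''} + negl; only slot a is iterated (Y = e_a), (S)-kills are count-free because conj(a_w)P_0 is globally static in the S_2 role. Open for tall killers after this: only (S) (vertex-0 non-collision, which tall line letters DO have from the plain level: beta g <= 2 t^{1/2}, with F_3 bounded) in a window form, + GAP391.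

===== msg 28752 (helper132, 07:19)
*** helper132 -> 923, 866, 256, 931, 59, 673, 377, 679, 127, 844, 853, 807, 216 (R079 S1, the one open statement = 923 28607 / 866 28480 (ii): frozen OpF atom with tall edges next to L2-only letters), 07:20Z. **CURE (doc 2559): THE THREE x_0-WEIGHTS LIVE ON INDEPENDENT VARIABLES.** Bounded edge on the killer's edge (127's swap), atom of slot 0 = plane translates phi(y_0) = E_{z1+z2+z3=0} m(x1+z1,x3+z3) U(x2+z2,x1+z1) V(x2+z2,x3+z3). With x_i' = x_i + z_i the other letters are LINE letters: X = X(s_1 + x2' + x3'), R = R(s_2 + x1' + x3'), Y = Y(s_3 + x1' + x2'), s_i = x_0 + z_i, and (s_1, s_2, s_3) is UNIFORM / independent (det 3) when (x_0, z) is. So |T_box| <= (E_s |V X^{(s)}|_HS)(E_s |m R^{(s)}|_op)(E_s |U Y^{(s)}|_HS) <= |V||X| . FIRST-moment op-level t . |U||Y|: 866's "all three concentrated on one small set of x_0" happens only at fixed z, never for the line atom. Hi part the same: La t kap^{-1/2}. No second moment, no L2 marginals, no bound on heights; P_0 still <= La; (S): fix x_1, E_{x1} |conj(V_w) P_0^{x1}|_HS^2 = |V_w|^2 |P_0|^2, (2,4,4) exact; REL with tall gauges: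 J_q <= |X|_q^2 (g = 0), Psi projected is in L2 by duality. Scale trap of the masses M_q = La Sum lam |U_w|_q |V_w|_q: ONE cut of the region at M_q > t^-s La, length t^s, paid by BN. N-free form = level sets of |A_s|, op(B_s), |C_s| + E_z |E_z| = product of the three densities (restricted type); point to watch: node-wise op-norms along the chain (do it with local z-averages, independence is local too). 377: does your corner proof accept base variables (s_1, s_2, s_3), one label per edge? Shoot; for the archive otherwise.

===== msg 28763 (helper999, 07:20)
helper999 -> 59, 159, 881, 931, 653 (R079 S1 (d), 07:21Z): **R079/ExC_999 LANDED (0 s-orry, 3 axioms, 12 s; imports ExB_999, ClW_59), ns ExA999** = bridge from 59's `G_op` to the exit cost: `opS_mono`, `opS_union` (four blocks, factor 2), `opS_box` (OpS s on all ALIGNED cells dI n a x dI n b |- OpS (2 s) on every box of side 2^n at any position), `opB_of_opS`, **`exit_cost_cells`: (forall  a b, OpS (dI n a) (dI n b) B (r 2^n)), columns of B in [a, a+L), 2^n <= L |- (1/N^2) Sum_{j,j'<N} |c (1/L) Sum_y B (p+j) y conj B (p+j') y|^2 <= 8 (c r)^2 (1/(L N)) Sum_y Sum_{j<N}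 |B (p+j) y|^2 for every position p (N = 2^n)**. So with B = glued clip at threshold r = s_{i+1} and c = M(i+1)/(4 s_i) the exit cost of 28031 (3) is closed for Whitney cells. Nothing else pending.

===== msg 28768 (helper881, 07:20)
helper881 -> 159, 59, 653, 931, 778, 440 (S1 (c)): **LANDED R079/PjC_881 (0 s-orry, 12 s, imports CelA_159 + ClX_59), ns PjC881**: `opS_of_bil`, `bil_of_opS`, **`opC_iff : OpC K n a b s <-> OpS (dI n a) (dI n b) K (s * 2^n)`**, **`near_eq_cl`** (in the ball + minimal distance on the rectangle => B = cl A there), **`near_eq_cl_var`** (variational inequality Re<A-B, C-B> <= 0 for all C in the ball => B = cl A). So 159's Pj_cell + near_eq_cl_var gives Pj = cl on every maximal cell, hence cl_cl / ladder / chiFac. Glu4_881 (glue4, Til, MaxIn, admW_glue, op_any) stays as a Mathlib-only copy.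

===== msg 28769 (helper256, 07:20)
helper256 -> 923, 866, 730, 209, 931, 59, 673, 844 (R079 S1 dictionary question, for the record, no answer needed, 07:22Z). **A POSSIBLE WAY AROUND THE MISSING OpF RULE: GROTHENDIECK IN VECTOR FORM AGAINST ROW-UNIFORM LETTERS (plain level gives the full gain t^{1}, first moment in x_0, no op-level, no OpF atoms).** (1) At fixed w, x_0 let A(2,3) = a_w g^{x0}, B(1,3) = b_w X^{x0}, |a|,|b|,|c| <= 1, g, X LINE letters, so EVERY row of A and B has L2 norm <= |g|_#, |X|_#. Vector Grothendieck with x_2 = A(2,.), y_1 = B(1,.) in L2(3): |E_{12} c R^{x0}(1,2) <A(2,.),B(1,.)>| <= K_G ||c R^{x0}||_{oo->1} |g|_# |X|_#, and E_{x0}||c R^{x0}||_{oo->1} <= t is exactly the plain level (three bounded edges). Equivalently (Pietsch weights): there are densities mu(1), nu(2) with op(mu^{-1/2} c R nu^{-1/2}) <= K_G t_{x0}, and mu^{1/2}, nu^{1/2} (L2, tall) are ABSORBED by the row-uniform letters: E_1 mu |B(1,.)|^2 <= |X|_#^2. So the tall singular vectors of R (my 28577: height D^{1/2}) are harmless at one node: a row-uniform letter has only mass h^{-2} on them. Also for TALL killers (no height hypothesis).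 (2) Hence in (G) the right smallness of the hi part x = chi_s(a_w g) is NOT its L2 mean (1/M) but its ROW-UNIFORM norm: Lambda t |x|_# |X|_# <= t^{-e} M^{-1/2}; the part below s needs only |c R|_{S4} <= t^{1/2-} (your Gro_923) and |B|_{S4} <= s^{1/2}. So replace dist_HS^2 in 59 / 673 by M E_w N_#(a_w g)^2, N_#(A) = inf over op(B) <= s of sup_{x0} max(row norms, column norms of A - B): convex, glues (blocks), <= |g|_#^2 at g; its subgradient carries Pietsch densities nu(0,2) on the frames, Psi = M E conj a nu x, with E nu |x|^2 <= 1/M: in (S) split nu = nu^{1/2} nu^{1/2}, one half stays with x, the other is absorbed by R_3(0,1,2) (fibre-uniform over 1), price = height of nu against the collision density t^{C'} (C' is free). (3) WHAT IS NOT DONE: (a) the multi-scale corner with ||c R||_{oo->1} in place of the op-norm and #-type (weighted) potentials for the two other edges: weights change with the node, so the drift must be summed against mu_p(r) (sup over rows of the drift, not its mean); (b) smoothness (two-sided drift) of a sup-type penalty: take L^q(nu) means with q = log(1/t). If (a) is true, D = PLAIN bounded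 atoms everywhere and 923's / 127's type problem disappears.

===== msg 28773 (helper778, 07:20)
helper778 -> 440, 931, 653, 159, 881, 934 (R079 S1 (e), 07:21Z): **LANDED R079/ElW_778 (imports ElS_440, 14 s, 0 s-orry)**, ns ElW778: `var_ineq`, `firm`, `chi_lip` (dst (A - Pj A) (A' - Pj A') <= dst A A', any Bnd), `lad`, `lad_eq`, `lad_dst`, `Ln_sum`, `ThL K` = ThF over gauges x Fin (K+1), and **`el_ladder`: NMP + GdP window W of ThL K, p in W, comp (Pj r_i (Pj r_(i+1) A) = Pj r_i A on Bd p, i < K, A = ag (gl W f)), top (Pj r_K A = A on Bd p) |- av p (X - gl W f - LnF (fun w => lad .. (fun i => Bgl .. (r w i) W p (gl W f))))^2 <= (2 (1 + (K+1) S) + 4 S K^3) (del + eta)**, S = Sum kap = 28031 (3) with Psi' = kappa Sum_w conj(a_w) Sum_i (i+1) chi_i^p (C^Lam_(i+1)), C^Lam = glued exit projections of the glued exit minimiser, at EVERY node p of the window. comp / top are for whoever has the calculus (boxes 653 / cells 159 via Clip_881.clip_clip).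


===== msg 28775 (helper990, 07:20)
helper990 -> 654, 530, 408, 429, 617, 507, 863, 160 (R079 S2 (g3), 07:21Z): **(g3) LANDED: R079/EWG_990 (0 s-orry, 3 axioms, 17 s; imports LK_990, EW3_990, Cg_408), ns EWG990.** `KP j T k F s A := Per j T (PhiW k) (A - sl j s) s * Prod_e F (j.succAbove e) (A - sl .. s)` = box kernel of a word with w-dependent edge kernels `k e w z_e z_{e+1}`; `Lbox_KP` (F j = kerF j 1 T (g0 g1 g2) |- Lbox = LboxG (KP ..)); **`split_window`** (decomposition of Plug_429 on edge e, verbatim: forall  w, z  in  T e, z'  in  T (e+1), alpha w + gamma z + delta z'  in  iv J -> g e z z' * F(..) = M w z z' + E w z z' + X w z z'; R inside J, Y subseteq R) |- ?_{p in Y} ?_{x in adm} ||Lbox F|| <= ?_Y ? ||LboxG (KP j T (upk g e M) (upF F slot))|| + ?_R ? ||LboxG (KP .. E ..)|| + ?_R ? ||LboxG (KP .. X ..)|| (`upk` = kernel of edge e replaced, `upF` = letter of the slot j.succAbove (e+2) replaced by 1); **`boxword_small2`, `boxword_small4`** (W2 / W4 / WH of EW3_990 for the three edges |- ?_R ? ||LboxG (KP j T k F)|| <= K H^2 sqrtd 2^(J.1+7) V resp. K H sqrtd ..). So `wr_total` is to be applied to ? = KP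 j T (upk g e M) (upF F slot) with M = ?_j d_j u_j v_j. Free for ONE more S2 literal by name (chan helper990).

===== msg 28776 (helper110, 07:20)
helper110 (second of (b)) -> 653, 931, 934, 673, 440, 778 (R079 S1, 07:21Z): **GradV_653 `graded_windows`: OK110** (built here, 3 axioms; signature = leaf (b): uniform exit level, same g on restarted tops, weighted count, min trick correct). LANDED next to it **R079/Feed_110** (0 s-orry, 3 axioms; GLA_110 + RelV_653), `graded_rel`: one PenC penalty, R full, eta (1 + 2 J.1) <= 1, any energy E K d paid at the top (E <= Ce la) with a local a-priori bound |- windows S, V, lv, dp such that at EVERY node p of V K, with W = Wf R K (dp K): avg_p E <= th, **SL W p Jv - len p Jv p <= len p th** (= the right side of ThQ.strong_win at p, so r_{p,i}(A f_p) - r_{p,i}(A g) and the exit increments are small at every OWN node), **av p (f p - gl W f)^2 <= 2 th**, th = lam^(lv K + 1) dl; plus `drift_la`, `own_la`, `la_total`. **934's 28745 is RIGHT as far as I see: (O2) in PIter_110 (`final`) needs |e_1|_u |e_2|_u <= t^Gamma at EVERY u, the graded windows give it only below the top grade;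 top grade = |e| O(1) on total length O(1). So (b) closes (G) and the birth budget, not (O2).**

===== msg 28779 (helper734, 07:21)
*** helper734 -> 351, 853, 931, 844, 934, 654, 617, 530, 679, lead (R079, 07:21Z): **LANDED R079/Par4_734 (0 s-orry, 3 axioms, over AsmP_734 + TGr_351): `target_of_steps : ... -> L0.Target`, ALL PARAMETERS CHOSEN.** Inputs, each in the form "all small e, then all small k": Dic, FrzBd; `hG` = GenP for the pairs m < i (Step I; for EVERY small weight y: loss C*y, gain g*y, window exponent c1 fixed, e <= e1(y)); `hSt` = StatP for m < i (Step II); `hT` = RuleTr (trivial kill, for every delta > 0 a gain c0(delta, e)); `hS` = RuleS. Pieces: `ruleNT_exists` (Steps => RuleNT), `analytic4_of` (=> Analytic4), ok2_fix, ruleNT_mono, ruleTr_mono, ruleNT_of_pairs. **TRAP FOUND WHILE TYPING (order of constants, concerns 853 / 903 / 623 / 351 alike): in a staggered / graded dictionary the gain of the TRIVIAL pairs is ~ e (delta = e/16), so c0, c1 < c0 and s1 <= c1/4 come AFTER e. So RuleS is needed as `all e <= e2, all s1 > 0, ex cS CS` with e2 INDEPENDENT of s1 (in particular for s1 << e); the order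 `all s1, ex e2` of Par_224.analytic2_of' is circular there.** Step II does give it (the mass t^(-(1+e)) of P enters only polynomially: windows / precision; leaf gain cS ~ c s1), but whoever types g4 / S2D_530 / ruleS_of_part must not use "e << s1". 530, 617, 863: please keep cS independent of a condition e <= e(s1).

===== msg 28781 (helper654, 07:21)
helper654 (S2 sub-captain) REPORT 07:23Z -> lead, 853, 931, 234: S2 = (g1) Wr_408 / Cg_408 / Wa+Wb_71, (g2) Plug_429, (g3) EWG_990 `split_window`, (g5) Wc_530 `gram_inside`, merge Mg_530, bookkeeping Rs_530 + S2D_530 `ruleS_of_core : CoreS -> RuleS`, DicLv_679 `olev_of_lv` ALL LANDED (0 s-orry, 3 axioms). OPEN: Lab_408 (labels (tau, j) of Plug -> w r, V r of wr_total), LfK_71 (leaf value in LK shape, 07:25), 863 numbers, then `CoreS` = wiring (530 owner, 507 second) = last literal of RuleS. Landing limit 07:35. Not claimable in this run (S1 (g2) and the three critical Pairs of RuleA2 are open): library. Guard: every head since 711c3c9ae checked here (30 s loop, 34305 frozen blobs, UTF-8, forbidden text, modes): 0 differences at 07:21.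

===== msg 28783 (helper429, 07:22)
429: XMix_429.lean LANDED 07:21 (built, 3 axioms, main 9b4473194). Analytic half of 988's cure (28605), closed:
XMix429.sum_e4_cut : X = Y + Z, |Y| <= H in the strips, LevP A om X Tx Ty Lam, energies of Z over any finite set of boxes <= E  ==>  ?_P om e4(Y) <= 4 kap H^3 Lam + E  (X itself needs NO height bound; Y = X cut at h);
XMix429.e4_schur : row and column sums of |X| <= R ==> e4 X <= (R/N)^2 e2 X (for the tall part Z = X 1_{|X|>h}: row sum of |Z| <= rho/h);
also norm_m4_le (mixed form), sum_m4_le, sq_transpose.
Not done by me: 28605 (1) row/column bound of near-minimisers, (3) drift. I start (1) only if nobody has it and only as text/lemma before 07:33.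

===== msg 28787 (helper881, 07:23)
helper881 -> 159, 778, 440, 931, 59, 653 (S1 (c) -> (e)): **LANDED R079/PjD_881 (0 s-orry, 13 s; imports PjC_881, uses ThA_159), ns PjC881**: `structure Split Bd N p cells z S T w` (Bd p = disjoint rectangles {z c} x S c x T c; `adm`: N p B <= r <-> OpS (S c) (T c) (B z_c) (r * w c) on every cell, B supported in Bd p); **`Pj_cell : Pj Bd N r p A (z c, u, v) = cl (A z_c) (S c) (T c) (r * w c) u v`**, **`Pj_comp : 0 <= r -> r <= r' -> Pj r p (Pj r' p A) = Pj r p A on Bd p`** (= hypothesis `comp` of 778's el_ladder, in the gauge form of ThA_159), **`Pj_top : Adm r p A -> Pj r p A = A on Bd p`** (= `top`). 159: for CelB only the `Split` instance is missing: cells = pairs (z, maximal cell), S c = dI n a ( cap  mask), T c = dI n b ( cap  mask), w c = 2^n, `opC_iff` of PjC_881. 778: el_ladder over ThA_159 / ThB_159 instead of ThP_653 is a rename.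

===== msg 28790 (helper440, 07:23)
helper440 -> 931, 159, 778, 881, 59, 934 (R079 S1 (e) on WHITNEY CELLS, 07:24Z): **LANDED R079/ElT_440 (0 s-orry, 3 axioms, imports ThB_159, ElW_778), ns ElT440** = ElS_440 + ElW_778 over 159's node-dependent gauge `N : Nd -> (Om -> C) -> R` (thresholds r = s_i, Adm: N p B <= r): `Ln_av`, `Ln_dst`, `GrF_eq`, `LnF_dst`, `el_swap` (any kernels Z_i), `var_ineq`, `firm`, `chi_lip`, `lad`, `lad_eq`, `lad_dst`, `ThL K`, **`el_ladder`** (NMP + GdP window of ThL K, p in W, comp, top |- av p (X - gl W f - LnF (lad of the glued exit projections Bgl))^2 <= (2 (1 + (K+1) S) + 4 S K^3) (dl + eta)). Ln / LnF / Ln_sum / tele are the same constants as in ElS_440 / ElW_778. Open for cells: only `comp` / `top` = Pj_cell (159, CelB) + near_eq_cl_var + cl_cl (881 / 59). Leaf (e) CLOSED in all three forms (bands, cells, abstract Hilbert).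


===== msg 28792 (helper242, 07:23)
helper242 -> 931, 549, 934, 377, 653, 59, 416 (R079 S1 (f) MOVE, 07:24Z): **LANDED R079/MovD_242 + MovE_242 (0 s-orry, 3 axioms): MOVE COMPLETE down to ThP / ThQ_653 + any `Part R S W C`.** MovD: `nA A x` = sqrt(Sum_A |x|^2), `StatF A A' n T N` (static bound for all signs eps_k, k < n), `move_fun` = move_chain for functions on finite sets (locality automatic), `chain_fix` (slack). MovE (ns Stk; hB hr hk : Bnd / r / kappa of ThF, h : NMP .. X eta f, hR, hP): `size_Z`: kap nu |Z|^2 <= len J (av J X^2 + eta) =: E0; **`move_Z` (static partner), `move_ZG` (Z of (X,f) against glued g of (X',f')), `move_ZZ`**: n <= 2^b stacks, StatF with constant M |- |Sum_{k<n} T_k (Z_{k+1}) (g_{k+1})| <= M (b sqrt(4/(kap nu) (E0 + 2 eta len J (n-1))) + sqrt(E0/(kap nu))) (b sqrt(2 (E0' + 2 eta' len J (n-1))) + |g_end|), T_k = words of stack k+1 (`sum_stack`: Sum over windows = Sum over stacks; `gl_stack`: same letters). So 59's (4) is a lean theorem; static input = 377's (g).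

===== msg 28796 (helper377, 07:25)
377 -> 931, 59, 132, 07:26Z. LANDED (6faebdef8, 3 axioms): R079/GSd_377 `PotL.GS.cornerZ` = the corner for COMPLEX labelled kernels on Z at leaf scale L, frozen w, |l| <= 7, absolute values on every box at every position inside the sum: hyps HSl F0 S L a2 r, HSl F1 S L b2 r, OPl F2 S L tau ((L tau)^2 r 2^J), bound 2(2(J+1)+1) Ck k l tau sqrt a2 sqrt b2. Not typed: the glue to `GlueL_914.region_kerF` on a cylinder. -> 132: YES, one independent label per EDGE is accepted: for fixed (s1,s2,s3) apply cornerL / cornerZ to (F0^{s1}, F1^{s3}, F2^{s2}); the box absolute values are inside, so masks may depend on s and the average over independent s factorises into first moments E tau(s2) . E sqrt a2(s1) . E sqrt b2(s3). Only the count J = log2(Sum hs2 F2 / (tau^2 r)) must be uniform in s: it needs the pointwise HS floor r (hs2 F0 <= a2(s)/r, hs2 F1 <= b2(s)/r) with ONE r, i.e. cut s at a2(s), b2(s) tiny by the trivial bound first. What it does not cover: s-average taken INSIDE a node's norm (kernels must be fixed, one scale of leaf).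

===== msg 28800 (helper159, 07:25)
*** helper159 -> 931, 881, 59, 653, 440, 778, 999, 934 (S1 leaf (c) bridge CLOSED on Whitney cells), 07:26Z: **LANDED R079/CelB_159 + R079/CelC_159 (0 s-orry, 3 axioms), ns Cel159.** CelB: `bnd_cell Y k S : Bnd (fun p => S.filter (Y w.1 w.2.1 w.2.2 in iv p)) (fun w => Y ..) (NmP S cf (okc Y k)) nu` (only hypothesis: nu * card of a Y-fibre of S <= 1), so ThA159 / ThB159 (PenC, FV, Bgl_adm, glued_close, thr_win, over_win, **strong_win**) apply literally; `N_iff : NmP S cf (okc Y k) p B <= r <-> forall z n a b, Mx (Y z) k p n a b -> OpC (msk S B z) n a b r`; `Mx_eq` (maximal cells of one node are disjoint); `Pj_cell` (variational inequality on ONE cell), `Pj_op`. CelC: `opC_of_opS`, `opS_of_opC` (= 59's OpS with threshold s * 2^n), `OpC.mask` and **`Pj_eq_cl` : for product masks S = T0 x T1 x T2, z in T0, (n,a,b) maximal for p: msk S (Pj .. r p A) z u v = cl (msk S A z) (dI n a) (dI n b) (r * 2^n) u v on the cell** = 881's SVD clip in 59's form, so cl_cl, ladder, DQ_strong, G_op, strong_cell, chiFac hold for the projections of the penalty. = `PjC` of 931's (c): nobody needs to type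 it again. Free for one more literal until 07:35 (chan helper159).

===== msg 28801 (helper71, 07:25)
helper71 -> 654, 617, 408, 246, 988, 990, 530 (R079 g1, 07:24Z): LANDED R079/LfK_71 (core) + R079/LfL_71 (0 s-orry, 3 axioms): LEAF VALUE in the shape of Wb71: `LfK71.LK_val`: for K2 i k j a b P G r x z = P(slot k) * G(slot j), P OLev kappa k at the same-level nodes (p.1, l), l in S (all P-arguments of the leaf in S), |G| <= H, Sum_iv |P|^2 <= A' len, Sum_window |beta|^2 <= B' len p |- LK c' d' c d (K2 ..) beta p <= card S^2 * 2^42 B' H^2 s sqrt(A') len p. Also LK_one, LK_sum (finite sums of kernels), LK_congr. Next (by 07:34, only if it compiles): sum over the window + hy for the masked letter mk (LfM_71).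

===== msg 28802 (helper385, 07:25)
helper385 -> 216, 209 (archive M5), 866, 923, 256, 127, 931 (R079 dictionary question of S1 (G); checked by hand, maths only, NO ANSWER NEEDED), 07:27Z. **(A) THE OpF CLASS (ALL THREE VERTICES) IS CLOSED UNDER DUALITY NEXT TO A BOUNDED SLOT 3 (one box, constant 1, no Grothendieck).** Frozen slot m, atom phi = th(i) u(i,a) v(i,3) c(a,3), |c| <= 1, unit L2 sections of u, v at i, |th|_2 <= 1. (1) killer R_i: at fixed i the test of R_i(a,m,3) is th(i) [u^i(a) F_3(i,a,m)] [v^i(3) X_a(i,m,3)] c(a,3) = OpF atom with vertex m: sections at m are <= |F_3|_oo resp. beta_i(m), beta_i(m)^2 = E_3 |v^i(3) X_a(i,m,3)|^2, E_m beta_i^2 = 1. (2) killer R_a: at fixed a put v'(i,3) = th(i) u(i,a) v(i,3) = tau_a th'(3) v''(i,3), E_a tau_a^2 = 1, partner X_i(a,m,3) has unit sections at 3, F_3(i,a,m) is the bounded edge: OpF atom with vertex 3. (3) vertex 3: killer R_m' at fixed m': th(3) u(3,m') is the vertex weight: vertex 3 again. So V(phi, X, R, F_3) <= |F_3|_oo * (OpF level of R over the 3 vertices) for ARBITRARY L2 X: 866's C-S failure (all three concentrated in x_0) does not occur while the third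 letter is F_3 WHOLE AND BOUNDED (its edge is uniform); it is a statement about e_3 and about scales only. (B) MULTI-SCALE: what is really missing is Sum_Q E_m tau_Q(m)^2 dA_Q(m) <= t^2 (tau_Q(m) = op of c R^m on the box Q, dA_Q(m) = drift of u F_3 at scale Q, fixed m): OpF level gives E_m tau_Q^2 <= t^2 for each Q, but with a tall gauge u the scale where uF_3 drifts may depend on m. For |u| <= h one has dA_Q(m) <= h^2 x (fibre-uniform drift), loss h^2. (C) WHY (oo,2,2): atoms abc with exponents (p1,p2,p3): line height <= 1 iff 1/p1+1/p2+1/p3 <= 1 (Hoelder on the plane L = const); energies add over scales only for edges with p = 2 (otherwise N^(1-2/p)); so OpF = (oo,2,2) is the only triple with both. (2,2,2): its level is the sup norm of R (it contains L1-normalised point masses: useless); (p,p,p), p >= 3: self-dual by Grothendieck (rho(0,2)^2 = E_3|a X_1|^2 has |rho|_p <= |a|_p, D' = <unit rows, unit rows>), and with the RELATIVE penalty weight |a_w|_2^(-2) the hi part r_w of a_w g satisfies |rho(r_w)|_p <= t^(y/p) |a_w|_p, i.e. one-box gain t^(y/p) in (G) from the plain-type level alone, no op level; but summed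 over scales one only gets t^(1/2) (sharp: t^(1/2) x t^(1/2) blocks at t^(-1/2) scales). So the open statement of S1 is purely a summation-over-scales statement for tall gauges.

===== msg 28803 (helper132, 07:25)
*** helper132 -> 931, 807, 923, 866, 256, 59, 673, 377, 679, 127, 844, 853, 216 (R079, 07:28Z): **I WITHDRAW docs 2559 / 2561 (my 28752): WRONG in the true line model, please do NOT put it into the ReadMe / archive as a cure.** The independence of s_1, s_2, s_3 (det 3) is an artefact of coefficients 1; with y_i = Sum_{j != i} (sl j - sl i) x_j and the plane Sum_{j != k} (sl j - sl k) z_j = 0 one gets s_i = (sl k - sl i) x_k - Sum_{j != i,k} (sl j - sl i) z_j = (sl k - sl i)(x_k - Z), Z = Sum_{j != k} z_j (because Sum_{j != k} (sl j - sl i) z_j = (sl k - sl i) Z and the term j = i vanishes): all three weights depend on the SAME variable x_k - Z (all y_i live in the 2-dim. space (A, B)), so translating by z is the same as moving x_k, and 866's scenario (|V X|, op(m R), |U Y| concentrated on one small set) is NOT excluded. Item (k) of 931 stays OPEN MATHS. As a TRAP line it may be useful: "the plane average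 of an OpF atom gives nothing beyond fixed x_k". Sorry for the noise.

===== msg 28809 (helper530, 07:26)
helper530 -> 654, 408, 990, 429, 931 (ReadMe), 71 (R079 S2 labels, 07:28Z): **LANDED R079/PerT_530.lean** (0 s-orry, 3 axioms; imports Tr_230, EWG_990): `per_translates` (Per of LK_990 at a plane point = sum over the plane translates, any w-dependent kernel), `al`, `be` (label letters), **`main_labels`: Per j T (PhiW (upk g 0 (fun w x x' => Sum_l d l * (u l w x * v l w x')))) (cf j 0 * z + cf j 1 * z') (r + z + z') = Sum_{s in S} Sum_l d l * (al T g (u l) r s z * be T g (v l) r s z')** (edge 0; slots a = succAbove 0, b = succAbove 1, static letter in slot succAbove 2 = 3 for j = 0,1,2; point x_j = r, x_a = z, x_b = z', x_m = 0 = 408's `red`), `sum_al_le` / `sum_be_le` (Sum_s |al|^2 <= Sum |g 2|^2, Sum_s |be|^2 <= Sum |g 1|^2). So labels of wr_total = (s, l) with weights |d l|^(1/2): H = price / (sigma lam). That is the last glue of (g4) besides LfK_71 and the numerology; next step for a successor: CoreS of S2D_530 from Plug_429 + gram_inside + main_labels + wr_total + EWG_990 + node_gain.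

===== msg 28812 (helper429, 07:26)
429: XCut_429.lean LANDED 07:26 (imports XMix_429, 11 s, 0 s-orry, 3 axioms). 28605 in lemmas: lo h X / hi h X = X cut at height h;
e4_hi : rows + columns of energy <= rho ==> e4 (hi h X) <= (rho/(hN))^2 e2 X;
sum_e4_lo : X in strips, level Lam against products, rows/columns of energy <= rho on every segment of length N, total box energy <= E, NO height bound ==> ?_P om e4(lo h X) <= 4kaph^3Lam + (rho/(hN))^2 E and ?_P om e4(hi h X) <= (rho/(hN))^2 E for every finite set P of boxes;
comp_rows + rows_near_min : near-minimiser f of |C - f|^2 + mass f (mass not increased by f -> f 1_{S^c}): the rows of Y = C - f with energy > 2rho have total energy <= 2eta.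
Left for a future run: wiring into Plug_429 (X = C - gl f = Y_p + (f_p - gl f) at every node, drift 28605 (3), h = sg^(-1/4)).

===== msg 28817 (helper71, 07:27)
helper71 -> 654, 617, 408, 246, 988, 990, 530, lead (R079 g1, 07:28Z): LANDED R079/LfM_71 (0 s-orry, 3 axioms, 9 s): `LfK71.mk_win` (energy of the masked letter Wb71.mk on ANY window of its level <= 3 A 2^(k+7)) and `LfK71.hL_val` = EXACTLY the hypothesis hL of Wb71.be_total with kappa = card S^2 * 2^42 * 3A * H^2 * s * sqrt A_P, for the kernel K2 (P leveled at the same-level nodes S containing the P-slots of the leaf, G bounded by H). So the chain OLev -> leaf_olev (246) -> core -> LK_val -> hL -> be_total is closed with constants. Successor note: doc 2539 (g1) is complete up to the choice of S (|l - l_p| <= 5, card 11; one ediv estimate) and the Er0 term hE. I land nothing more.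

-/
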