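import Crest.Agent.R079.ClassDefs_491
import Crest.Agent.R079.S2At_491

/-! R079 [AL5]: `Cls.C2` and `Cls.C2'` (level of the frozen function bounds the Schatten 4 norm of the
frozen kernels), helper497.

The level at the slice `w` bounds the OPERATOR norm of the box kernel `X = frz … w` by
`s n ⟨a⟩`; hence `|X X*|₂² ≤ |X|_op² |X|₂²`. -/

set_option autoImplicit false

namespace Crest.Agent.R079.C2w497

open Finset Crest.Agent.R079.Grid Crest.Agent.R079.Pot Crest.Agent.R079.Glue Crest.Agent.R079.R244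
  Crest.Agent.R079.Cls

/-- the pairing with free coefficients -/
noncomputable def P3 (α β γ : ℤ) (n : ℕ) (x y z : ℤ) (f : ℤ → ℂ) (A B C : ℤ → ℤ → ℂ) : ℂ :=
  (1 / (n : ℂ) ^ 3) * ∑ i0 ∈ range n, ∑ i1 ∈ range n, ∑ i2 ∈ range n,
    f (α * (x + (i0 : ℤ)) + β * (y + (i1 : ℤ)) + γ * (z + (i2 : ℤ))) *
      (A (x + (i0 : ℤ)) (y + (i1 : ℤ)) * B (y + (i1 : ℤ)) (z + (i2 : ℤ)) *
        C (z + (i2 : ℤ)) (x + (i0 : ℤ)))

def Good (n : ℕ) (f : ℤ → ℂ) (s : ℝ) (α β γ : ℤ) : Prop :=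
  ∀ (x y z : ℤ) (A B C : ℤ → ℤ → ℂ), e2 A n x y ≤ 1 → e2 B n y z ≤ 1 → e2 C n z x ≤ 1 →
    ‖P3 α β γ n x y z f A B C‖ ≤ s

theorem P3_rot (α β γ : ℤ) (n : ℕ) (x y z : ℤ) (f : ℤ → ℂ) (A B C : ℤ → ℤ → ℂ) :
    P3 β γ α n x y z f A B C = P3 α β γ n z x y f C A B := by
  unfold P3
  congr 1
  have h : ∀ i0 ∈ range n, (∑ i1 ∈ range n, ∑ i2 ∈ range n,
      f (β * (x + (i0 : ℤ)) + γ * (y + (i1 : ℤ)) + α * (z + (i2 : ℤ))) *
      (A (x + (i0 : ℤ)) (y + (i1 : ℤ)) * B (y + (i1 : ℤ)) (z + (i2 : ℤ)) *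
        C (z + (i2 : ℤ)) (x + (i0 : ℤ)))) =
      ∑ i2 ∈ range n, ∑ i1 ∈ range n,
        f (α * (z + (i2 : ℤ)) + β * (x + (i0 : ℤ)) + γ * (y + (i1 : ℤ))) *
      (C (z + (i2 : ℤ)) (x + (i0 : ℤ)) * A (x + (i0 : ℤ)) (y + (i1 : ℤ)) *
        B (y + (i1 : ℤ)) (z + (i2 : ℤ))) := by
    intro i0 _
    rw [Finset.sum_comm]
    refine Finset.sum_congr rfl fun i2 _ => Finset.sum_congr rfl fun i1 _ => ?_
    rw [show β * (x + (i0 : ℤ)) + γ * (y + (i1 : ℤ)) + α * (z + (i2 : ℤ)) =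
      α * (z + (i2 : ℤ)) + β * (x + (i0 : ℤ)) + γ * (y + (i1 : ℤ)) by ring]
    ring
  rw [Finset.sum_congr rfl h, Finset.sum_comm]

theorem P3_swap (α β γ : ℤ) (n : ℕ) (x y z : ℤ) (f : ℤ → ℂ) (A B C : ℤ → ℤ → ℂ) :
    P3 β α γ n x y z f A B C =
      P3 α β γ n y x z f (fun u v => A v u) (fun u v => C v u) (fun u v => B v u) := by
  unfold P3
  congr 1
  rw [Finset.sum_comm]
  refine Finset.sum_congr rfl fun i1 _ => Finset.sum_congr rfl fun i0 _ =>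
    Finset.sum_congr rfl fun i2 _ => ?_
  rw [show β * (x + (i0 : ℤ)) + α * (y + (i1 : ℤ)) + γ * (z + (i2 : ℤ)) =
      α * (y + (i1 : ℤ)) + β * (x + (i0 : ℤ)) + γ * (z + (i2 : ℤ)) by ring]
  ring

theorem e2_swap (A : ℤ → ℤ → ℂ) (n : ℕ) (x y : ℤ) :
    e2 (fun u v => A v u) n y x = e2 A n x y := by
  unfold e2
  rw [Finset.sum_comm]

theorem Good.rot {n : ℕ} {f : ℤ → ℂ} {s : ℝ} {α β γ : ℤ} (h : Good n f s α β γ) :
    Good n f s β γ α := by
  intro x y z A B C hA hB hC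
  rw [P3_rot]
  exact h z x y C A B hC hA hB

theorem Good.swap {n : ℕ} {f : ℤ → ℂ} {s : ℝ} {α β γ : ℤ} (h : Good n f s α β γ) :
    Good n f s β α γ := by
  intro x y z A B C hA hB hC
  rw [P3_swap]
  exact h y x z _ _ _ (by rw [e2_swap]; exact hA) (by rw [e2_swap]; exact hC)
    (by rw [e2_swap]; exact hB)

def sixP (j k e e' : Fin 4) : Prop :=
    (sl j - sl k = cf k 0 ∧ sl e - sl k = cf k 1 ∧ sl e' - sl k = cf k 2) ∨
    (sl j - sl k = cf k 1 ∧ sl e - sl k = cf k 2 ∧ sl e' - sl k = cf k 0) ∨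
    (sl j - sl k = cf k 2 ∧ sl e - sl k = cf k 0 ∧ sl e' - sl k = cf k 1) ∨
    (sl j - sl k = cf k 1 ∧ sl e - sl k = cf k 0 ∧ sl e' - sl k = cf k 2) ∨
    (sl j - sl k = cf k 0 ∧ sl e - sl k = cf k 2 ∧ sl e' - sl k = cf k 1) ∨
    (sl j - sl k = cf k 2 ∧ sl e - sl k = cf k 1 ∧ sl e' - sl k = cf k 0)

instance (j k e e' : Fin 4) : Decidable (sixP j k e e') := by
  unfold sixP
  infer_instance

theorem six : ∀ j k e e' : Fin 4, (j ≠ k ∧ j ≠ e ∧ j ≠ e' ∧ k ≠ e ∧ k ≠ e' ∧ e ≠ e') →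
    sixP j k e e' := by
  decide

theorem good_of_lev {κ : ℕ} {j k e e' : Fin 4} (h1 : j ≠ k) (h2 : j ≠ e) (h3 : j ≠ e')
    (h4 : k ≠ e) (h5 : k ≠ e') (h6 : e ≠ e') {p : ℕ × ℤ} {f : ℤ → ℂ} {s : ℝ}
    (hL : Lev k κ p f s) {r : ℕ} (hr : r ≤ κ) :
    Good (2 ^ (p.1 + r)) (res p f) s (sl j - sl k) (sl e - sl k) (sl e' - sl k) := by
  have h0 : Good (2 ^ (p.1 + r)) (res p f) s (cf k 0) (cf k 1) (cf k 2) := by
    intro x y z A B C hA hB hC
    have := hL r hr ![x, y, z] A B C hA hB hC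
    exact this
  rcases six j k e e' ⟨h1, h2, h3, h4, h5, h6⟩ with h | h | h | h | h | h <;>
    obtain ⟨ha, hb, hc⟩ := h <;> rw [ha, hb, hc]
  · exact h0
  · exact h0.rot
  · exact h0.rot.rot
  · exact h0.swap
  · exact h0.swap.rot
  · exact h0.swap.rot.rot

/-- scaling of `e2` -/
theorem e2_smul (c : ℝ) (A : ℤ → ℤ → ℂ) (n : ℕ) (x y : ℤ) :
    e2 (fun u v => (c : ℂ) * A u v) n x y = c ^ 2 * e2 A n x y := by
  unfold e2
  simp only [norm_mul, mul_pow, Complex.norm_real, Real.norm_eq_abs, sq_abs, ← Finset.mul_sum]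
  ring

theorem P3_smul (α β γ : ℤ) (n : ℕ) (x y z : ℤ) (f : ℤ → ℂ) (A B C : ℤ → ℤ → ℂ) (a b c : ℝ) :
    P3 α β γ n x y z f (fun u v => (a : ℂ) * A u v) (fun u v => (b : ℂ) * B u v)
      (fun u v => (c : ℂ) * C u v) = ((a * b * c : ℝ) : ℂ) * P3 α β γ n x y z f A B C := by
  unfold P3
  rw [← mul_assoc, mul_comm (((a * b * c : ℝ)) : ℂ), mul_assoc]
  congr 1
  simp only [Finset.mul_sum]
  refine Finset.sum_congr rfl fun i0 _ => Finset.sum_congr rfl fun i1 _ =>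
    Finset.sum_congr rfl fun i2 _ => ?_
  push_cast
  ring

theorem good_pos {n : ℕ} {f : ℤ → ℂ} {s : ℝ} {α β γ : ℤ} (h : Good n f s α β γ)
    {a b c : ℝ} (ha : 0 < a) (hb : 0 < b) (hc : 0 < c) (x y z : ℤ) (A B C : ℤ → ℤ → ℂ)
    (hA : e2 A n x y ≤ a ^ 2) (hB : e2 B n y z ≤ b ^ 2) (hC : e2 C n z x ≤ c ^ 2) :
    ‖P3 α β γ n x y z f A B C‖ ≤ s * (a * b * c) := by
  have key : ∀ (t : ℝ), 0 < t → ∀ (D : ℤ → ℤ → ℂ) (x y : ℤ), e2 D n x y ≤ t ^ 2 →
      e2 (fun u v => ((t⁻¹ : ℝ) : ℂ) * D u v) n x y ≤ 1 := by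
    intro t ht D x y hD
    rw [e2_smul]
    calc t⁻¹ ^ 2 * e2 D n x y ≤ t⁻¹ ^ 2 * t ^ 2 := by gcongr
      _ = 1 := by rw [← mul_pow, inv_mul_cancel₀ ht.ne', one_pow]
  have h1 := h x y z _ _ _ (key a ha A x y hA) (key b hb B y z hB) (key c hc C z x hC)
  rw [P3_smul, norm_mul, Complex.norm_real, Real.norm_of_nonneg (by positivity)] at h1
  have h2 : 0 < a * b * c := by positivity
  have h3 : a⁻¹ * b⁻¹ * c⁻¹ = (a * b * c)⁻¹ := by
    rw [mul_inv, mul_inv]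
  rw [h3, inv_mul_le_iff₀ h2] at h1
  linarith

theorem good_nonneg {n : ℕ} {f : ℤ → ℂ} {s : ℝ} {α β γ : ℤ} (h : Good n f s α β γ)
    {a b c : ℝ} (ha : 0 ≤ a) (hb : 0 ≤ b) (hc : 0 ≤ c) (x y z : ℤ) (A B C : ℤ → ℤ → ℂ)
    (hA : e2 A n x y ≤ a ^ 2) (hB : e2 B n y z ≤ b ^ 2) (hC : e2 C n z x ≤ c ^ 2) :
    ‖P3 α β γ n x y z f A B C‖ ≤ s * (a * b * c) := by
  have hcont : Continuous fun ε : ℝ => s * ((a + ε) * (b + ε) * (c + ε)) := by fun_prop
  have ht : Filter.Tendsto (fun ε : ℝ => s * ((a + ε) * (b + ε) * (c + ε)))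
      (nhdsWithin 0 (Set.Ioi 0)) (nhds (s * (a * b * c))) := by
    have := (hcont.tendsto 0).mono_left (nhdsWithin_le_nhds (s := Set.Ioi (0 : ℝ)))
    simpa using this
  refine ge_of_tendsto ht ?_
  filter_upwards [self_mem_nhdsWithin] with ε hε
  have hε : 0 < ε := hε
  refine good_pos h (by linarith) (by linarith) (by linarith) x y z A B C
    (hA.trans ?_) (hB.trans ?_) (hC.trans ?_) <;> gcongr <;> linarith

/-- operator norm of the slice kernel -/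
theorem op_bound {n : ℕ} (hn : 0 < n) {f : ℤ → ℂ} {s : ℝ} {α β γ : ℤ}
    (h : Good n f s α β γ) (w q u : ℤ) (K : ℤ → ℤ → ℂ) (b c : ℤ → ℂ) :
    ‖∑ i ∈ range n, ∑ j ∈ range n, f (α * w + β * (q + (i : ℤ)) + γ * (u + (j : ℤ))) *
        (b (q + (i : ℤ)) * K (q + (i : ℤ)) (u + (j : ℤ)) * c (u + (j : ℤ)))‖ ≤
      s * n * Real.sqrt (e2 K n q u) * Real.sqrt (∑ i ∈ range n, ‖b (q + (i : ℤ))‖ ^ 2) *
        Real.sqrt (∑ j ∈ range n, ‖c (u + (j : ℤ))‖ ^ 2) := by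
  have hn' : (0 : ℝ) < n := by exact_mod_cast hn
  have hn'' : (n : ℂ) ≠ 0 := by exact_mod_cast hn.ne'
  set A : ℤ → ℤ → ℂ := fun x' y' => if x' = w then b y' else 0 with hA
  set C : ℤ → ℤ → ℂ := fun z' x' => if x' = w then c z' else 0 with hC
  set Sb := ∑ i ∈ range n, ‖b (q + (i : ℤ))‖ ^ 2 with hSb
  set Sc := ∑ j ∈ range n, ‖c (u + (j : ℤ))‖ ^ 2 with hSc
  have hSb0 : 0 ≤ Sb := by positivity
  have hSc0 : 0 ≤ Sc := by positivity
  have h0 : 0 ∈ range n := Finset.mem_range.2 hn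
  have eA : e2 A n w q = (Real.sqrt Sb / n) ^ 2 := by
    unfold e2
    rw [div_pow, Real.sq_sqrt hSb0]
    rw [Finset.sum_eq_single_of_mem 0 h0]
    · simp only [hA, Nat.cast_zero, add_zero, if_true]
      rw [← hSb]
      ring
    · intro i _ hi
      refine Finset.sum_eq_zero fun j _ => ?_
      have : ¬ (w + (i : ℤ) = w) := by
        intro hh
        apply hi
        have : (i : ℤ) = 0 := by linarith
        exact_mod_cast this
      simp [hA, this]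
  have eC : e2 C n u w = (Real.sqrt Sc / n) ^ 2 := by
    unfold e2
    rw [div_pow, Real.sq_sqrt hSc0, Finset.sum_comm]
    rw [Finset.sum_eq_single_of_mem 0 h0]
    · simp only [hC, Nat.cast_zero, add_zero, if_true]
      rw [← hSc]
      ring
    · intro i _ hi
      refine Finset.sum_eq_zero fun j _ => ?_
      have : ¬ (w + (i : ℤ) = w) := by
        intro hh
        apply hi
        have : (i : ℤ) = 0 := by linarith
        exact_mod_cast this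
      simp [hC, this]
  have eK : e2 K n q u = (Real.sqrt (e2 K n q u)) ^ 2 := by
    rw [Real.sq_sqrt]
    unfold e2
    positivity
  have hP : P3 α β γ n w q u f A K C = (1 / (n : ℂ) ^ 3) *
      ∑ i ∈ range n, ∑ j ∈ range n, f (α * w + β * (q + (i : ℤ)) + γ * (u + (j : ℤ))) *
        (b (q + (i : ℤ)) * K (q + (i : ℤ)) (u + (j : ℤ)) * c (u + (j : ℤ))) := by
    unfold P3
    congr 1
    rw [Finset.sum_eq_single_of_mem 0 h0]
    · simp only [hA, hC, Nat.cast_zero, add_zero, if_true]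
    · intro i _ hi
      refine Finset.sum_eq_zero fun j _ => Finset.sum_eq_zero fun l _ => ?_
      have : ¬ (w + (i : ℤ) = w) := by
        intro hh
        apply hi
        have : (i : ℤ) = 0 := by linarith
        exact_mod_cast this
      simp [hA, this]
  have hb := good_nonneg h (a := Real.sqrt Sb / n) (b := Real.sqrt (e2 K n q u))
    (c := Real.sqrt Sc / n) (by positivity) (by positivity) (by positivity) w q u A K C
    eA.le eK.le eC.le
  rw [hP, norm_mul] at hb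
  have hnorm : ‖(1 / (n : ℂ) ^ 3)‖ = 1 / (n : ℝ) ^ 3 := by
    rw [norm_div, norm_one, norm_pow, Complex.norm_natCast]
  rw [hnorm, one_div, inv_mul_le_iff₀ (by positivity)] at hb
  refine hb.trans (le_of_eq ?_)
  field_simp

/-- `|X X*|₂² ≤ M² |X|₂²` if `M` bounds the operator norm -/
theorem gram_bound (n : ℕ) (x : ℕ → ℕ → ℂ) (M : ℝ)
    (hM : ∀ b c : ℕ → ℂ, ‖∑ i ∈ range n, ∑ j ∈ range n, x i j * (b i * c j)‖ ≤
      M * Real.sqrt (∑ i ∈ range n, ‖b i‖ ^ 2) * Real.sqrt (∑ j ∈ range n, ‖c j‖ ^ 2)) :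
    ∑ j ∈ range n, ∑ j' ∈ range n, ‖∑ i ∈ range n, x i j * (starRingEnd ℂ) (x i j')‖ ^ 2 ≤
      M ^ 2 * ∑ i ∈ range n, ∑ j ∈ range n, ‖x i j‖ ^ 2 := by
  have key : ∀ j' ∈ range n,
      ∑ j ∈ range n, ‖∑ i ∈ range n, x i j * (starRingEnd ℂ) (x i j')‖ ^ 2 ≤
      M ^ 2 * ∑ i ∈ range n, ‖x i j'‖ ^ 2 := by
    intro j' _
    set G : ℕ → ℂ := fun j => ∑ i ∈ range n, x i j * (starRingEnd ℂ) (x i j') with hG
    set S := ∑ j ∈ range n, ‖G j‖ ^ 2 with hS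
    have hS0 : 0 ≤ S := by positivity
    set U := ∑ i ∈ range n, ‖x i j'‖ ^ 2 with hU
    have hU0 : 0 ≤ U := by positivity
    have e1 : ∑ i ∈ range n, ∑ j ∈ range n,
        x i j * ((starRingEnd ℂ) (x i j') * (starRingEnd ℂ) (G j)) = (S : ℂ) := by
      rw [Finset.sum_comm, hS, Complex.ofReal_sum]
      refine Finset.sum_congr rfl fun j _ => ?_
      have : ∑ i ∈ range n, x i j * ((starRingEnd ℂ) (x i j') * (starRingEnd ℂ) (G j)) =
          G j * (starRingEnd ℂ) (G j) := by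
        rw [show G j * (starRingEnd ℂ) (G j) =
          (∑ i ∈ range n, x i j * (starRingEnd ℂ) (x i j')) * (starRingEnd ℂ) (G j) from rfl,
          Finset.sum_mul]
        refine Finset.sum_congr rfl fun i _ => by ring
      rw [this, Complex.mul_conj, Complex.normSq_eq_norm_sq]
    have h1 := hM (fun i => (starRingEnd ℂ) (x i j')) (fun j => (starRingEnd ℂ) (G j))
    simp only [RCLike.norm_conj] at h1
    rw [e1, Complex.norm_real, Real.norm_of_nonneg hS0, ← hS, ← hU] at h1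
    have h2 : S = Real.sqrt S * Real.sqrt S := (Real.mul_self_sqrt hS0).symm
    have hsS := Real.sqrt_nonneg S
    rcases hsS.eq_or_lt with h0 | hpos
    · have : S = 0 := by rw [h2, ← h0]; ring
      rw [this]
      positivity
    · have h3 : Real.sqrt S ≤ M * Real.sqrt U := by
        have : Real.sqrt S * Real.sqrt S ≤ (M * Real.sqrt U) * Real.sqrt S := by
          rw [← h2]; exact h1
        exact le_of_mul_le_mul_right this hpos
      calc S = Real.sqrt S ^ 2 := (Real.sq_sqrt hS0).symm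
        _ ≤ (M * Real.sqrt U) ^ 2 := by gcongr
        _ = M ^ 2 * U := by rw [mul_pow, Real.sq_sqrt hU0]
  rw [Finset.sum_comm]
  refine (Finset.sum_le_sum key).trans (le_of_eq ?_)
  rw [← Finset.mul_sum, Finset.sum_comm]

theorem c2_core {n : ℕ} (hn : 0 < n) {f : ℤ → ℂ} {s : ℝ} {j k e e' : Fin 4}
    (h : Good n f s (sl j - sl k) (sl e - sl k) (sl e' - sl k))
    (T T' : Finset ℤ) (a : ℤ → ℤ → ℂ) (w q u : ℤ) :
    e4 (frz j k e e' T T' a f w) n q u ≤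
      s ^ 2 * e2 (msk T T' a) n q u * e2 (frz j k e e' T T' a f w) n q u := by
  have hn' : (0 : ℝ) < n := by exact_mod_cast hn
  set X := frz j k e e' T T' a f w with hX
  have hXe : ∀ z z' : ℤ, X z z' = f ((sl j - sl k) * w + (sl e - sl k) * z + (sl e' - sl k) * z') *
      msk T T' a z z' := by
    intro z z'
    simp only [hX, frz, msk]
    split_ifs
    · ring
    · simp
  have he2 : 0 ≤ e2 (msk T T' a) n q u := by unfold e2; positivity
  have hb := gram_bound n (fun i j => X (q + (i : ℤ)) (u + (j : ℤ)))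
    (s * n * Real.sqrt (e2 (msk T T' a) n q u)) (by
      intro b c
      have h1 := op_bound hn h w q u (msk T T' a) (fun z => b (z - q).toNat)
        (fun z => c (z - u).toNat)
      have e1 : ∀ (v : ℤ) (i : ℕ), (v + (i : ℤ) - v).toNat = i := by
        intro v i
        simp
      simp only [e1] at h1
      refine le_trans (le_of_eq ?_) h1
      congr 1
      refine Finset.sum_congr rfl fun i _ => Finset.sum_congr rfl fun j _ => ?_
      rw [hXe]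
      ring)
  have e4e : e4 X n q u = (1 / (n : ℝ) ^ 4) * ∑ j ∈ range n, ∑ j' ∈ range n,
      ‖∑ i ∈ range n, X (q + (i : ℤ)) (u + (j : ℤ)) *
      (starRingEnd ℂ) (X (q + (i : ℤ)) (u + (j' : ℤ)))‖ ^ 2 := rfl
  have e2e : ∑ i ∈ range n, ∑ j ∈ range n, ‖X (q + (i : ℤ)) (u + (j : ℤ))‖ ^ 2 =
      (n : ℝ) ^ 2 * e2 X n q u := by
    unfold e2
    field_simp
  rw [e4e]
  rw [e2e, mul_pow, mul_pow, Real.sq_sqrt he2] at hb
  rw [one_div, inv_mul_le_iff₀ (by positivity)]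
  refine hb.trans (le_of_eq ?_)
  ring

theorem c2 : Cls.C2 := by
  intro κ j k e e' h1 h2 h3 h4 h5 h6 p f s hs hL r hr T T' a w q u
  exact c2_core (by positivity) (good_of_lev h1 h2 h3 h4 h5 h6 hL hr) T T' a w q u

theorem c2' : Cls.C2' := by
  intro κ j k e e' h1 h2 h3 h4 h5 h6 R f s V hs hL hav T T' a hV ha p hp r hr
  have hn : 0 ≤ n2 T T' a := by unfold n2; positivity
  have hV0 : 0 ≤ V := hn.trans hV
  refine finsum_le_of_finset (by positivity) fun S => ?_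
  have hpt : ∀ t ∈ S, e4 (frz j k e e' T T' a (res p f) t.1) (2 ^ (p.1 + r)) t.2.1 t.2.2 ≤
      s ^ 2 * e2 (frz j k e e' T T' a (res p f) t.1) (2 ^ (p.1 + r)) t.2.1 t.2.2 := by
    intro t _
    refine (c2 κ j k e e' h1 h2 h3 h4 h5 h6 p f s hs (hL p hp) r hr T T' a t.1 t.2.1 t.2.2).trans ?_
    have h7 := ha p hp r hr t.2.1 t.2.2
    have h8 : 0 ≤ e2 (frz j k e e' T T' a (res p f) t.1) (2 ^ (p.1 + r)) t.2.1 t.2.2 := by
      unfold e2; positivity
    calc s ^ 2 * e2 (msk T T' a) (2 ^ (p.1 + r)) t.2.1 t.2.2 *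
          e2 (frz j k e e' T T' a (res p f) t.1) (2 ^ (p.1 + r)) t.2.1 t.2.2
        ≤ s ^ 2 * 1 * e2 (frz j k e e' T T' a (res p f) t.1) (2 ^ (p.1 + r)) t.2.1 t.2.2 := by
          gcongr
      _ = _ := by rw [mul_one]
  refine (Finset.sum_le_sum hpt).trans ?_
  rw [← Finset.mul_sum]
  refine mul_le_mul_of_nonneg_left ?_ (by positivity)
  refine (e2_frz_sum p (2 ^ (p.1 + r)) (by positivity) j k e e' (sl_ne h1) T T' a f S).trans ?_
  rw [mul_comm]
  exact mul_le_mul (av2_sq_sum (hav p hp)) hV hn (by positivity)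

end Crest.Agent.R079.C2w497
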