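import Crest.Agent.R079.TWin1_903
import Crest.Agent.R079.R244Defs_491

/-! R079, [AL6'] (931's doc 2514, helper13's 22662): Whitney cell penalties of the line model
(helper159).

* `CF Y T T' φ` : a family of cell functionals `φ n a b g` (cell `dI n a × dI n b`), nonnegative,
  `≤` the sum of the four halves, depending only on `g (Y z z')` on the cell, midpoint convex,
  zero at `0` and zero unless the cell meets `T × T'`.
* `dec V g n a b` : sum of `φ` over the maximal cells below `(n,a,b)` whose `Y`-range lies in `V`.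
* `Pen k p g` : the sum of `dec (iv p) g (p.1 + k) a b` over all cells of scale `p.1 + k`.
* `Pen_glue` : `Pen (m+1,l) ≤ Pen (m,2l) + Pen (m,2l+1)` with the full halving gap of every cell of
  scale `m+1+k` whose range lies in `iv (m+1,l)` (`Pen_glue_gap`).
* `Phi` : weighted sum over a finite index set divided by `len p`; `Phi_full`, `Phi_gl`, ...
* `Q4`, `phi4` : the `S₄` instance, `phi4 c Y n a b g = 2^(2n) e4 (c g∘Y) (2^n) (a 2^n) (b 2^n)`. -/

set_option autoImplicit false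

namespace Crest.Agent.R079.Whit

open Finset Crest.Agent.R079.Grid Crest.Agent.R079.Growth Crest.Agent.R079.QRed
  Crest.Agent.R079.Qh249 Crest.Agent.R079.TWin

/-- cell functionals -/
structure CF (Y : ℤ → ℤ → ℤ) (T T' : Finset ℤ) (φ : ℕ → ℤ → ℤ → Fn → ℝ) : Prop where
  nonneg : ∀ n a b g, 0 ≤ φ n a b g
  halv : ∀ n a b g, φ (n + 1) a b g ≤ φ n (2 * a) (2 * b) g + φ n (2 * a) (2 * b + 1) g +
    φ n (2 * a + 1) (2 * b) g + φ n (2 * a + 1) (2 * b + 1) g
  loc : ∀ n a b (g g' : Fn), (∀ z ∈ dI n a, ∀ z' ∈ dI n b, g (Y z z') = g' (Y z z')) →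
    φ n a b g = φ n a b g'
  conv : ∀ n a b (g g' : Fn), φ n a b (fun y => (g y + g' y) / 2) ≤
    (φ n a b g + φ n a b g') / 2
  zero : ∀ n a b, φ n a b (fun _ => 0) = 0
  supp : ∀ n a b g, φ n a b g ≠ 0 → a ∈ T.image (fun z => z / 2 ^ n) ∧
    b ∈ T'.image (fun z => z / 2 ^ n)

/-- the `Y`-range of the cell lies in `V` -/
def Ins (Y : ℤ → ℤ → ℤ) (V : Finset ℤ) (n : ℕ) (a b : ℤ) : Prop :=
  ∀ z ∈ dI n a, ∀ z' ∈ dI n b, Y z z' ∈ V

open Classical in
/-- sum over the maximal cells below `(n,a,b)` with range in `V` -/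
noncomputable def dec (Y : ℤ → ℤ → ℤ) (φ : ℕ → ℤ → ℤ → Fn → ℝ) (V : Finset ℤ) (g : Fn) :
    ℕ → ℤ → ℤ → ℝ
  | 0, a, b => if Ins Y V 0 a b then φ 0 a b g else 0
  | n + 1, a, b => if Ins Y V (n + 1) a b then φ (n + 1) a b g else
      dec Y φ V g n (2 * a) (2 * b) + dec Y φ V g n (2 * a) (2 * b + 1) +
      dec Y φ V g n (2 * a + 1) (2 * b) + dec Y φ V g n (2 * a + 1) (2 * b + 1)

section cells

variable {Y : ℤ → ℤ → ℤ} {T T' : Finset ℤ} {φ : ℕ → ℤ → ℤ → Fn → ℝ}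

lemma sub0 (n : ℕ) (a : ℤ) : dI n (2 * a) ⊆ dI (n + 1) a := by
  have := L0e.dI_sub n 1 (2 * a)
  rwa [pow_one, show 2 * a / 2 = a by omega] at this

lemma sub1 (n : ℕ) (a : ℤ) : dI n (2 * a + 1) ⊆ dI (n + 1) a := by
  have := L0e.dI_sub n 1 (2 * a + 1)
  rwa [pow_one, show (2 * a + 1) / 2 = a by omega] at this

lemma Ins.mono {V V' : Finset ℤ} (h : V ⊆ V') {n : ℕ} {a b : ℤ} (hi : Ins Y V n a b) :
    Ins Y V' n a b := fun z hz z' hz' => h (hi z hz z' hz')

lemma Ins.sub {V : Finset ℤ} {n n' : ℕ} {a b a' b' : ℤ} (ha : dI n' a' ⊆ dI n a)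
    (hb : dI n' b' ⊆ dI n b) (hi : Ins Y V n a b) : Ins Y V n' a' b' :=
  fun z hz z' hz' => hi z (ha hz) z' (hb hz')

lemma dec_ins {V : Finset ℤ} {n : ℕ} {a b : ℤ} (hi : Ins Y V n a b) (g : Fn) :
    dec Y φ V g n a b = φ n a b g := by
  cases n with
  | zero => rw [dec, if_pos hi]
  | succ n => rw [dec, if_pos hi]

lemma dec_not {V : Finset ℤ} {n : ℕ} {a b : ℤ} (hi : ¬ Ins Y V (n + 1) a b) (g : Fn) :
    dec Y φ V g (n + 1) a b =
      dec Y φ V g n (2 * a) (2 * b) + dec Y φ V g n (2 * a) (2 * b + 1) +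
      dec Y φ V g n (2 * a + 1) (2 * b) + dec Y φ V g n (2 * a + 1) (2 * b + 1) := by
  rw [dec, if_neg hi]

lemma dec_nonneg (hφ : CF Y T T' φ) (V : Finset ℤ) (g : Fn) (n : ℕ) :
    ∀ a b, 0 ≤ dec Y φ V g n a b := by
  induction n with
  | zero => intro a b; rw [dec]; split_ifs; exacts [hφ.nonneg _ _ _ _, le_rfl]
  | succ n ih =>
    intro a b
    rw [dec]
    split_ifs
    · exact hφ.nonneg _ _ _ _
    · have h1 := ih (2 * a) (2 * b)
      have h2 := ih (2 * a) (2 * b + 1)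
      have h3 := ih (2 * a + 1) (2 * b)
      have h4 := ih (2 * a + 1) (2 * b + 1)
      linarith

lemma dec_zero (hφ : CF Y T T' φ) (V : Finset ℤ) (n : ℕ) :
    ∀ a b, dec Y φ V (fun _ => 0) n a b = 0 := by
  induction n with
  | zero => intro a b; rw [dec]; split_ifs; exacts [hφ.zero _ _ _, rfl]
  | succ n ih =>
    intro a b
    rw [dec]
    split_ifs
    · exact hφ.zero _ _ _
    · rw [ih, ih, ih, ih]; norm_num

/-- only the values of `g` on `V` are used -/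
lemma dec_congr (hφ : CF Y T T' φ) {V : Finset ℤ} {g g' : Fn} (h : ∀ y ∈ V, g y = g' y) (n : ℕ) :
    ∀ a b, dec Y φ V g n a b = dec Y φ V g' n a b := by
  induction n with
  | zero =>
    intro a b
    rw [dec, dec]
    split_ifs with hi
    · exact hφ.loc _ _ _ _ _ fun z hz z' hz' => h _ (hi z hz z' hz')
    · rfl
  | succ n ih =>
    intro a b
    rw [dec, dec]
    split_ifs with hi
    · exact hφ.loc _ _ _ _ _ fun z hz z' hz' => h _ (hi z hz z' hz')
    · rw [ih, ih, ih, ih]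

lemma dec_conv (hφ : CF Y T T' φ) (V : Finset ℤ) (g g' : Fn) (n : ℕ) :
    ∀ a b, dec Y φ V (fun y => (g y + g' y) / 2) n a b ≤
      (dec Y φ V g n a b + dec Y φ V g' n a b) / 2 := by
  induction n with
  | zero =>
    intro a b
    rw [dec, dec, dec]
    split_ifs
    · exact hφ.conv _ _ _ _ _
    · norm_num
  | succ n ih =>
    intro a b
    rw [dec, dec, dec]
    split_ifs
    · exact hφ.conv _ _ _ _ _
    · have h1 := ih (2 * a) (2 * b)
      have h2 := ih (2 * a) (2 * b + 1)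
      have h3 := ih (2 * a + 1) (2 * b)
      have h4 := ih (2 * a + 1) (2 * b + 1)
      linarith

lemma mem_image_half {T : Finset ℤ} {n : ℕ} {a a' : ℤ} (h : a' ∈ T.image (fun z => z / 2 ^ n))
    (ha : a' / 2 = a) : a ∈ T.image (fun z => z / 2 ^ (n + 1)) := by
  rw [Finset.mem_image] at h ⊢
  obtain ⟨z, hz, rfl⟩ := h
  refine ⟨z, hz, ?_⟩
  rw [← ha, pow_succ, Int.ediv_ediv_of_nonneg (by positivity)]

lemma dec_supp (hφ : CF Y T T' φ) (V : Finset ℤ) (g : Fn) (n : ℕ) :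
    ∀ a b, dec Y φ V g n a b ≠ 0 → a ∈ T.image (fun z => z / 2 ^ n) ∧
      b ∈ T'.image (fun z => z / 2 ^ n) := by
  induction n with
  | zero =>
    intro a b h
    rw [dec] at h
    split_ifs at h
    · exact hφ.supp _ _ _ _ h
    · exact absurd rfl h
  | succ n ih =>
    intro a b h
    rw [dec] at h
    split_ifs at h
    · exact hφ.supp _ _ _ _ h
    · by_contra hcon
      apply h
      have key : ∀ a' b', a' / 2 = a → b' / 2 = b → dec Y φ V g n a' b' = 0 := by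
        intro a' b' ha hb
        by_contra h0
        obtain ⟨h1, h2⟩ := ih a' b' h0
        exact hcon ⟨mem_image_half h1 ha, mem_image_half h2 hb⟩
      rw [key _ _ (by omega) (by omega), key _ _ (by omega) (by omega),
        key _ _ (by omega) (by omega), key _ _ (by omega) (by omega)]
      norm_num

/-- one step of refinement with the halving gap of the cells inside -/
lemma dec_step (V : Finset ℤ) (g : Fn) (n : ℕ) (a b : ℤ) [Decidable (Ins Y V (n + 1) a b)] :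
    dec Y φ V g (n + 1) a b +
      (if Ins Y V (n + 1) a b then
        (φ n (2 * a) (2 * b) g + φ n (2 * a) (2 * b + 1) g +
          φ n (2 * a + 1) (2 * b) g + φ n (2 * a + 1) (2 * b + 1) g) - φ (n + 1) a b g else 0) =
      dec Y φ V g n (2 * a) (2 * b) + dec Y φ V g n (2 * a) (2 * b + 1) +
      dec Y φ V g n (2 * a + 1) (2 * b) + dec Y φ V g n (2 * a + 1) (2 * b + 1) := by
  by_cases hi : Ins Y V (n + 1) a b
  · rw [if_pos hi, dec_ins hi, dec_ins (hi.sub (sub0 n a) (sub0 n b)),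
      dec_ins (hi.sub (sub0 n a) (sub1 n b)), dec_ins (hi.sub (sub1 n a) (sub0 n b)),
      dec_ins (hi.sub (sub1 n a) (sub1 n b))]
    ring
  · rw [if_neg hi, dec_not hi, add_zero]

lemma dec_halv (hφ : CF Y T T' φ) (V : Finset ℤ) (g : Fn) (n : ℕ) (a b : ℤ) :
    dec Y φ V g (n + 1) a b ≤
      dec Y φ V g n (2 * a) (2 * b) + dec Y φ V g n (2 * a) (2 * b + 1) +
      dec Y φ V g n (2 * a + 1) (2 * b) + dec Y φ V g n (2 * a + 1) (2 * b + 1) := by
  classical
  rw [← dec_step V g n a b]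
  split_ifs
  · have := hφ.halv n a b g
    linarith
  · linarith

/-- a cell inside `V₁ ∪ V₂` is refined -/
lemma phi_le_dec (hφ : CF Y T T' φ) {V V₁ V₂ : Finset ℤ} (hV : V ⊆ V₁ ∪ V₂) (g : Fn) (n : ℕ) :
    ∀ a b, Ins Y V n a b → φ n a b g ≤ dec Y φ V₁ g n a b + dec Y φ V₂ g n a b := by
  induction n with
  | zero =>
    intro a b hi
    have hmem : ∀ x : ℤ, ∀ z ∈ dI 0 x, z = x := by
      intro x z hz
      rw [L0e.mem_dI] at hz
      simpa using hz
    have hself : ∀ x : ℤ, x ∈ dI 0 x := by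
      intro x
      rw [L0e.mem_dI]
      simp
    rcases Finset.mem_union.1 (hV (hi a (hself a) b (hself b))) with h | h
    · have h1 : Ins Y V₁ 0 a b := by
        intro z hz z' hz'
        rw [hmem a z hz, hmem b z' hz']
        exact h
      rw [dec_ins h1]
      have := dec_nonneg hφ V₂ g 0 a b
      linarith
    · have h1 : Ins Y V₂ 0 a b := by
        intro z hz z' hz'
        rw [hmem a z hz, hmem b z' hz']
        exact h
      rw [dec_ins h1]
      have := dec_nonneg hφ V₁ g 0 a b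
      linarith
  | succ n ih =>
    intro a b hi
    by_cases h1 : Ins Y V₁ (n + 1) a b
    · rw [dec_ins h1]
      have := dec_nonneg hφ V₂ g (n + 1) a b
      linarith
    · by_cases h2 : Ins Y V₂ (n + 1) a b
      · rw [dec_ins h2]
        have := dec_nonneg hφ V₁ g (n + 1) a b
        linarith
      · rw [dec_not h1, dec_not h2]
        have h := hφ.halv n a b g
        have i1 := ih _ _ (hi.sub (sub0 n a) (sub0 n b))
        have i2 := ih _ _ (hi.sub (sub0 n a) (sub1 n b))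
        have i3 := ih _ _ (hi.sub (sub1 n a) (sub0 n b))
        have i4 := ih _ _ (hi.sub (sub1 n a) (sub1 n b))
        linarith

/-- `P_{V₁} ∪ P_{V₂}` refines `P_V` -/
lemma dec_split (hφ : CF Y T T' φ) {V V₁ V₂ : Finset ℤ} (hV : V = V₁ ∪ V₂) (g : Fn) (n : ℕ) :
    ∀ a b, dec Y φ V g n a b ≤ dec Y φ V₁ g n a b + dec Y φ V₂ g n a b := by
  induction n with
  | zero =>
    intro a b
    by_cases hi : Ins Y V 0 a b
    · rw [dec_ins hi]
      exact phi_le_dec hφ hV.le g 0 a b hi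
    · rw [dec, if_neg hi]
      exact add_nonneg (dec_nonneg hφ _ _ _ _ _) (dec_nonneg hφ _ _ _ _ _)
  | succ n ih =>
    intro a b
    by_cases hi : Ins Y V (n + 1) a b
    · rw [dec_ins hi]
      exact phi_le_dec hφ hV.le g (n + 1) a b hi
    · have h1 : ¬ Ins Y V₁ (n + 1) a b := fun h =>
        hi (h.mono (hV ▸ Finset.subset_union_left))
      have h2 : ¬ Ins Y V₂ (n + 1) a b := fun h =>
        hi (h.mono (hV ▸ Finset.subset_union_right))
      rw [dec_not hi, dec_not h1, dec_not h2]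
      have i1 := ih (2 * a) (2 * b)
      have i2 := ih (2 * a) (2 * b + 1)
      have i3 := ih (2 * a + 1) (2 * b)
      have i4 := ih (2 * a + 1) (2 * b + 1)
      linarith

end cells

/-! ### sums over all cells of one scale -/

/-- reindexing: cells of scale `n` grouped by their parents -/
lemma sum_half (T : Finset ℤ) (n : ℕ) (h : ℤ → ℝ)
    (h0 : ∀ a, h a ≠ 0 → a ∈ T.image (fun z => z / 2 ^ n)) :
    ∑ a ∈ T.image (fun z => z / 2 ^ (n + 1)), (h (2 * a) + h (2 * a + 1)) =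
      ∑ a ∈ T.image (fun z => z / 2 ^ n), h a := by
  classical
  have hmaps : ∀ a' ∈ T.image (fun z => z / 2 ^ n),
      a' / 2 ∈ T.image (fun z => z / 2 ^ (n + 1)) := fun a' ha' => mem_image_half ha' rfl
  rw [← Finset.sum_fiberwise_of_maps_to hmaps]
  refine Finset.sum_congr rfl fun a _ => ?_
  have hsub : (T.image (fun z => z / 2 ^ n)).filter (fun a' => a' / 2 = a) ⊆
      ({2 * a, 2 * a + 1} : Finset ℤ) := by
    intro a' ha'
    rw [Finset.mem_filter] at ha'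
    rw [Finset.mem_insert, Finset.mem_singleton]
    omega
  rw [Finset.sum_subset hsub, Finset.sum_pair (by omega)]
  intro a' ha' hn
  by_contra hne
  apply hn
  rw [Finset.mem_filter]
  refine ⟨h0 a' hne, ?_⟩
  rw [Finset.mem_insert, Finset.mem_singleton] at ha'
  omega

/-- sum of `F` over all cells of scale `n` meeting `T × T'` -/
noncomputable def cs (T T' : Finset ℤ) (n : ℕ) (F : ℤ → ℤ → ℝ) : ℝ :=
  ∑ a ∈ T.image (fun z => z / 2 ^ n), ∑ b ∈ T'.image (fun z => z / 2 ^ n), F a b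

lemma cs_add (T T' : Finset ℤ) (n : ℕ) (F G : ℤ → ℤ → ℝ) :
    cs T T' n (fun a b => F a b + G a b) = cs T T' n F + cs T T' n G := by
  unfold cs
  simp only [Finset.sum_add_distrib]

lemma cs_le (T T' : Finset ℤ) (n : ℕ) {F G : ℤ → ℤ → ℝ} (h : ∀ a b, F a b ≤ G a b) :
    cs T T' n F ≤ cs T T' n G :=
  Finset.sum_le_sum fun a _ => Finset.sum_le_sum fun b _ => h a b

lemma cs_nonneg (T T' : Finset ℤ) (n : ℕ) {F : ℤ → ℤ → ℝ} (h : ∀ a b, 0 ≤ F a b) :
    0 ≤ cs T T' n F :=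
  Finset.sum_nonneg fun a _ => Finset.sum_nonneg fun b _ => h a b

lemma cs_halv (T T' : Finset ℤ) (n : ℕ) (F : ℤ → ℤ → ℝ)
    (h0 : ∀ a b, F a b ≠ 0 → a ∈ T.image (fun z => z / 2 ^ n) ∧
      b ∈ T'.image (fun z => z / 2 ^ n)) :
    cs T T' (n + 1) (fun a b => F (2 * a) (2 * b) + F (2 * a) (2 * b + 1) +
      F (2 * a + 1) (2 * b) + F (2 * a + 1) (2 * b + 1)) = cs T T' n F := by
  unfold cs
  have e1 : ∀ a : ℤ, ∑ b ∈ T'.image (fun z => z / 2 ^ (n + 1)),
      (F (2 * a) (2 * b) + F (2 * a) (2 * b + 1) + F (2 * a + 1) (2 * b) +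
        F (2 * a + 1) (2 * b + 1)) =
      (∑ b ∈ T'.image (fun z => z / 2 ^ n), F (2 * a) b) +
      ∑ b ∈ T'.image (fun z => z / 2 ^ n), F (2 * a + 1) b := by
    intro a
    rw [← sum_half T' n (F (2 * a)) (fun b hb => (h0 _ _ hb).2),
      ← sum_half T' n (F (2 * a + 1)) (fun b hb => (h0 _ _ hb).2), ← Finset.sum_add_distrib]
    exact Finset.sum_congr rfl fun b _ => by ring
  rw [Finset.sum_congr rfl fun a _ => e1 a]
  refine sum_half T n (fun a => ∑ b ∈ T'.image (fun z => z / 2 ^ n), F a b) fun a ha => ?_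
  by_contra hcon
  exact ha (Finset.sum_eq_zero fun b _ => by
    by_contra hb
    exact hcon (h0 _ _ hb).1)

/-! ### the penalty of a node -/

/-- the Whitney penalty of the node `p`, cells of scale `≤ p.1 + k` -/
noncomputable def Pen (Y : ℤ → ℤ → ℤ) (T T' : Finset ℤ) (φ : ℕ → ℤ → ℤ → Fn → ℝ) (k : ℕ) (p : Nd)
    (g : Fn) : ℝ :=
  cs T T' (p.1 + k) (dec Y φ (iv p) g (p.1 + k))

open Classical in
/-- the halving gaps of the cells of scale `p.1 + k` inside `iv p` (`p` of level `m + 1`) -/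
noncomputable def Gap (Y : ℤ → ℤ → ℤ) (T T' : Finset ℤ) (φ : ℕ → ℤ → ℤ → Fn → ℝ) (k m : ℕ) (l : ℤ)
    (g : Fn) : ℝ :=
  cs T T' (m + 1 + k) (fun a b => if Ins Y (iv (m + 1, l)) (m + k + 1) a b then
    (φ (m + k) (2 * a) (2 * b) g + φ (m + k) (2 * a) (2 * b + 1) g +
      φ (m + k) (2 * a + 1) (2 * b) g + φ (m + k) (2 * a + 1) (2 * b + 1) g) -
      φ (m + k + 1) a b g else 0)

section pen

variable {Y : ℤ → ℤ → ℤ} {T T' : Finset ℤ} {φ : ℕ → ℤ → ℤ → Fn → ℝ}

lemma Pen_nonneg (hφ : CF Y T T' φ) (k : ℕ) (p : Nd) (g : Fn) : 0 ≤ Pen Y T T' φ k p g :=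
  cs_nonneg _ _ _ fun a b => dec_nonneg hφ _ _ _ a b

lemma Pen_zero (hφ : CF Y T T' φ) (k : ℕ) (p : Nd) : Pen Y T T' φ k p (fun _ => 0) = 0 := by
  unfold Pen cs
  exact Finset.sum_eq_zero fun a _ => Finset.sum_eq_zero fun b _ => dec_zero hφ _ _ a b

lemma Pen_congr (hφ : CF Y T T' φ) (k : ℕ) (p : Nd) {g g' : Fn} (h : ∀ y ∈ iv p, g y = g' y) :
    Pen Y T T' φ k p g = Pen Y T T' φ k p g' := by
  unfold Pen cs
  exact Finset.sum_congr rfl fun a _ => Finset.sum_congr rfl fun b _ => dec_congr hφ h _ a b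

lemma Pen_conv (hφ : CF Y T T' φ) (k : ℕ) (p : Nd) (g g' : Fn) :
    Pen Y T T' φ k p (fun y => (g y + g' y) / 2) ≤
      (Pen Y T T' φ k p g + Pen Y T T' φ k p g') / 2 := by
  unfold Pen
  refine (cs_le _ _ _ fun a b => dec_conv hφ (iv p) g g' (p.1 + k) a b).trans_eq ?_
  unfold cs
  simp only [← Finset.sum_div, Finset.sum_add_distrib, add_div]

lemma Gap_nonneg (hφ : CF Y T T' φ) (k m : ℕ) (l : ℤ) (g : Fn) :
    0 ≤ Gap Y T T' φ k m l g := by
  refine cs_nonneg _ _ _ fun a b => ?_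
  split_ifs
  · have := hφ.halv (m + k) a b g
    linarith
  · exact le_rfl

/-- **glue with gap**: the penalty of the node plus all halving gaps of the cells of scale
`m + 1 + k` inside `iv (m+1,l)` is at most the sum of the penalties of the children -/
theorem Pen_glue_gap (hφ : CF Y T T' φ) (k m : ℕ) (l : ℤ) (g : Fn) :
    Pen Y T T' φ k (m + 1, l) g + Gap Y T T' φ k m l g ≤
      Pen Y T T' φ k (m, 2 * l) g + Pen Y T T' φ k (m, 2 * l + 1) g := by
  classical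
  have hn : m + 1 + k = m + k + 1 := by omega
  unfold Pen Gap
  simp only
  rw [hn, ← cs_add]
  have e : ∀ a b : ℤ, dec Y φ (iv (m + 1, l)) g (m + k + 1) a b +
      (if Ins Y (iv (m + 1, l)) (m + k + 1) a b then
        (φ (m + k) (2 * a) (2 * b) g + φ (m + k) (2 * a) (2 * b + 1) g +
          φ (m + k) (2 * a + 1) (2 * b) g + φ (m + k) (2 * a + 1) (2 * b + 1) g) -
          φ (m + k + 1) a b g else 0) =
      dec Y φ (iv (m + 1, l)) g (m + k) (2 * a) (2 * b) +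
      dec Y φ (iv (m + 1, l)) g (m + k) (2 * a) (2 * b + 1) +
      dec Y φ (iv (m + 1, l)) g (m + k) (2 * a + 1) (2 * b) +
      dec Y φ (iv (m + 1, l)) g (m + k) (2 * a + 1) (2 * b + 1) :=
    fun a b => dec_step (iv (m + 1, l)) g (m + k) a b
  have e2 : cs T T' (m + k + 1) (fun a b => dec Y φ (iv (m + 1, l)) g (m + k + 1) a b +
      (if Ins Y (iv (m + 1, l)) (m + k + 1) a b then
        (φ (m + k) (2 * a) (2 * b) g + φ (m + k) (2 * a) (2 * b + 1) g +
          φ (m + k) (2 * a + 1) (2 * b) g + φ (m + k) (2 * a + 1) (2 * b + 1) g) -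
          φ (m + k + 1) a b g else 0)) =
      cs T T' (m + k + 1) (fun a b => dec Y φ (iv (m + 1, l)) g (m + k) (2 * a) (2 * b) +
      dec Y φ (iv (m + 1, l)) g (m + k) (2 * a) (2 * b + 1) +
      dec Y φ (iv (m + 1, l)) g (m + k) (2 * a + 1) (2 * b) +
      dec Y φ (iv (m + 1, l)) g (m + k) (2 * a + 1) (2 * b + 1)) := by
    unfold cs
    exact Finset.sum_congr rfl fun a _ => Finset.sum_congr rfl fun b _ => e a b
  refine le_of_eq_of_le e2 ?_
  rw [cs_halv T T' (m + k) (dec Y φ (iv (m + 1, l)) g (m + k))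
    (fun a b h => dec_supp hφ _ _ _ a b h), ← cs_add]
  exact cs_le _ _ _ fun a b => dec_split hφ (iv_ch m l) g (m + k) a b

theorem Pen_glue (hφ : CF Y T T' φ) (k m : ℕ) (l : ℤ) (g : Fn) :
    Pen Y T T' φ k (m + 1, l) g ≤
      Pen Y T T' φ k (m, 2 * l) g + Pen Y T T' φ k (m, 2 * l + 1) g := by
  have h1 := Pen_glue_gap hφ k m l g
  have h2 := Gap_nonneg hφ k m l g
  linarith

open Classical in
/-- every cell of scale `p.1 + k` inside `iv p` is counted -/
lemma cells_le_Pen (hφ : CF Y T T' φ) (k : ℕ) (p : Nd) (g : Fn) :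
    cs T T' (p.1 + k) (fun a b => if Ins Y (iv p) (p.1 + k) a b then φ (p.1 + k) a b g else 0) ≤
      Pen Y T T' φ k p g := by
  refine cs_le _ _ _ fun a b => ?_
  split_ifs with hi
  · rw [dec_ins hi]
  · exact dec_nonneg hφ _ _ _ a b

end pen

/-! ### the weighted penalty on the windows -/

/-- data of a REL penalty: finitely many kernels with weights -/
structure PD (ι : Type*) where
  Y : ι → ℤ → ℤ → ℤ
  T : ι → Finset ℤ
  T' : ι → Finset ℤ
  φ : ι → ℕ → ℤ → ℤ → Fn → ℝ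
  k : ι → ℕ
  lam : ι → ℝ

/-- admissible data -/
def PD.Ok {ι : Type*} (D : PD ι) : Prop :=
  ∀ i, CF (D.Y i) (D.T i) (D.T' i) (D.φ i) ∧ 0 ≤ D.lam i

/-- `Phi_p g = (1/len p) Σ_i lam_i Pen^i_p g` -/
noncomputable def Phi {ι : Type*} (s : Finset ι) (D : PD ι) (p : Nd) (g : Fn) : ℝ :=
  (∑ i ∈ s, D.lam i * Pen (D.Y i) (D.T i) (D.T' i) (D.φ i) (D.k i) p g) / len p

/-- the gap part of `Phi` at the node `(m+1,l)` -/
noncomputable def GPhi {ι : Type*} (s : Finset ι) (D : PD ι) (m : ℕ) (l : ℤ) (g : Fn) : ℝ :=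
  ∑ i ∈ s, D.lam i * Gap (D.Y i) (D.T i) (D.T' i) (D.φ i) (D.k i) m l g

section phi

variable {ι : Type*} {s : Finset ι} {D : PD ι}

lemma len_Phi (p : Nd) (g : Fn) :
    len p * Phi s D p g =
      ∑ i ∈ s, D.lam i * Pen (D.Y i) (D.T i) (D.T' i) (D.φ i) (D.k i) p g := by
  unfold Phi
  rw [mul_div_cancel₀ _ (Growth.len_pos p).ne']

lemma Phi_nonneg (hD : D.Ok) (p : Nd) (g : Fn) : 0 ≤ Phi s D p g :=
  div_nonneg (Finset.sum_nonneg fun i _ => mul_nonneg (hD i).2 (Pen_nonneg (hD i).1 _ _ _))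
    (Growth.len_pos p).le

lemma Phi_zero (hD : D.Ok) (p : Nd) : Phi s D p (fun _ => 0) = 0 := by
  unfold Phi
  rw [Finset.sum_eq_zero fun i _ => by rw [Pen_zero (hD i).1, mul_zero], zero_div]

lemma Phi_congr (hD : D.Ok) (p : Nd) {g g' : Fn} (h : ∀ y ∈ iv p, g y = g' y) :
    Phi s D p g = Phi s D p g' := by
  unfold Phi
  rw [Finset.sum_congr rfl fun i _ => by rw [Pen_congr (hD i).1 (D.k i) p h]]

lemma Phi_conv (hD : D.Ok) (p : Nd) (g g' : Fn) :
    Phi s D p (fun y => (g y + g' y) / 2) ≤ (Phi s D p g + Phi s D p g') / 2 := by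
  have hl := Growth.len_pos p
  have h : ∑ i ∈ s, D.lam i * Pen (D.Y i) (D.T i) (D.T' i) (D.φ i) (D.k i) p
      (fun y => (g y + g' y) / 2) ≤
      (∑ i ∈ s, D.lam i * Pen (D.Y i) (D.T i) (D.T' i) (D.φ i) (D.k i) p g +
        ∑ i ∈ s, D.lam i * Pen (D.Y i) (D.T i) (D.T' i) (D.φ i) (D.k i) p g') / 2 := by
    rw [← Finset.sum_add_distrib, Finset.sum_div]
    refine Finset.sum_le_sum fun i _ => ?_
    refine (mul_le_mul_of_nonneg_left (Pen_conv (hD i).1 (D.k i) p g g') (hD i).2).trans_eq ?_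
    ring
  unfold Phi
  refine (div_le_div_of_nonneg_right h hl.le).trans_eq ?_
  ring

theorem Phi_glue_gap (hD : D.Ok) (m : ℕ) (l : ℤ) (g : Fn) :
    len (m + 1, l) * Phi s D (m + 1, l) g + GPhi s D m l g ≤
      len (m, 2 * l) * Phi s D (m, 2 * l) g + len (m, 2 * l + 1) * Phi s D (m, 2 * l + 1) g := by
  rw [len_Phi, len_Phi, len_Phi]
  unfold GPhi
  rw [← Finset.sum_add_distrib, ← Finset.sum_add_distrib]
  refine Finset.sum_le_sum fun i _ => ?_
  have := mul_le_mul_of_nonneg_left (Pen_glue_gap (hD i).1 (D.k i) m l g) (hD i).2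
  rw [mul_add, mul_add] at this
  exact this

lemma GPhi_nonneg (hD : D.Ok) (m : ℕ) (l : ℤ) (g : Fn) : 0 ≤ GPhi s D m l g :=
  Finset.sum_nonneg fun i _ => mul_nonneg (hD i).2 (Gap_nonneg (hD i).1 _ _ _ _)

theorem Phi_glue (hD : D.Ok) (m : ℕ) (l : ℤ) (g : Fn) :
    len (m + 1, l) * Phi s D (m + 1, l) g ≤
      len (m, 2 * l) * Phi s D (m, 2 * l) g + len (m, 2 * l + 1) * Phi s D (m, 2 * l + 1) g := by
  have h1 := Phi_glue_gap (s := s) hD m l g
  have h2 := GPhi_nonneg (s := s) hD m l g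
  linarith

/-- sub-averaging over the leaves of a full window -/
theorem Phi_full (hD : D.Ok) {W : Finset Nd} {I : Nd} (hW : Full W I) (g : Fn) :
    ∀ p ∈ W, len p * Phi s D p g ≤ SL W p (fun L => Phi s D L g) := by
  refine full_ind hW (fun p hp => (SL_leaf hp (fun L => Phi s D L g)).ge)
    fun m l _ hnl h0 h1 e0 e1 => ?_
  rw [SL_node hW hnl h0 h1]
  exact (Phi_glue hD m l g).trans (add_le_add e0 e1)

/-- sub-averaging of a glued function: the leaf values are those of the leaf functions -/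
theorem Phi_gl (hD : D.Ok) {W : Finset Nd} {I : Nd} (hW : Full W I) (F : Nd → Fn) :
    ∀ p ∈ W, len p * Phi s D p (gl W F) ≤ SL W p (fun L => Phi s D L (F L)) := by
  intro p hp
  refine (Phi_full hD hW (gl W F) p hp).trans_eq (SL_congr fun L hL _ => ?_)
  exact Phi_congr hD L fun y hy => gl_eq hW F hL hy

end phi

/-! ### the `S₄` instance -/

/-- unnormalised fourth power of the Schatten 4 norm of `X` on `S × S'` -/
noncomputable def Q4 (X : ℤ → ℤ → ℂ) (S S' : Finset ℤ) : ℝ :=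
  ∑ j ∈ S', ∑ j' ∈ S', ‖∑ i ∈ S, X i j * (starRingEnd ℂ) (X i j')‖ ^ 2

lemma Q4_nonneg (X : ℤ → ℤ → ℂ) (S S' : Finset ℤ) : 0 ≤ Q4 X S S' :=
  Finset.sum_nonneg fun _ _ => Finset.sum_nonneg fun _ _ => by positivity

/-- `Re ⟨A*A, B*B⟩ = |A B*|²` in coordinates -/
lemma gram_inner (A B : ℤ → ℤ → ℂ) (S S' : Finset ℤ) :
    (∑ j ∈ S', ∑ j' ∈ S', (∑ i ∈ S, A i j * (starRingEnd ℂ) (A i j')) *
      (starRingEnd ℂ) (∑ i ∈ S, B i j * (starRingEnd ℂ) (B i j'))) =
    ((∑ i ∈ S, ∑ i' ∈ S, ‖∑ j ∈ S', A i j * (starRingEnd ℂ) (B i' j)‖ ^ 2 : ℝ) : ℂ) := by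
  have h1 : ((∑ i ∈ S, ∑ i' ∈ S, ‖∑ j ∈ S', A i j * (starRingEnd ℂ) (B i' j)‖ ^ 2 : ℝ) : ℂ) =
      ∑ i ∈ S, ∑ i' ∈ S, (∑ j ∈ S', A i j * (starRingEnd ℂ) (B i' j)) *
        (starRingEnd ℂ) (∑ j ∈ S', A i j * (starRingEnd ℂ) (B i' j)) := by
    rw [Complex.ofReal_sum]
    refine Finset.sum_congr rfl fun i _ => ?_
    rw [Complex.ofReal_sum]
    refine Finset.sum_congr rfl fun i' _ => ?_
    rw [Complex.mul_conj, Complex.normSq_eq_norm_sq]
  rw [h1]
  simp only [map_sum, map_mul, Complex.conj_conj, Finset.sum_mul_sum]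
  calc ∑ j ∈ S', ∑ j' ∈ S', ∑ i ∈ S, ∑ i' ∈ S,
        A i j * (starRingEnd ℂ) (A i j') * ((starRingEnd ℂ) (B i' j) * B i' j')
      = ∑ i ∈ S, ∑ i' ∈ S, ∑ j ∈ S', ∑ j' ∈ S',
        A i j * (starRingEnd ℂ) (A i j') * ((starRingEnd ℂ) (B i' j) * B i' j') := by
        rw [Finset.sum_congr rfl fun j _ => Finset.sum_comm, Finset.sum_comm]
        refine Finset.sum_congr rfl fun i _ => ?_
        rw [Finset.sum_congr rfl fun j _ => Finset.sum_comm, Finset.sum_comm]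
    _ = _ := by
        refine Finset.sum_congr rfl fun i _ => Finset.sum_congr rfl fun i' _ => ?_
        refine Finset.sum_congr rfl fun j _ => Finset.sum_congr rfl fun j' _ => ?_
        ring

/-- the transposed form -/
lemma Q4_symm (X : ℤ → ℤ → ℂ) (S S' : Finset ℤ) :
    Q4 X S S' = ∑ i ∈ S, ∑ i' ∈ S, ‖∑ j ∈ S', X i j * (starRingEnd ℂ) (X i' j)‖ ^ 2 := by
  have h := gram_inner X X S S'
  have h2 : ((Q4 X S S' : ℝ) : ℂ) = ∑ j ∈ S', ∑ j' ∈ S',
      (∑ i ∈ S, X i j * (starRingEnd ℂ) (X i j')) *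
      (starRingEnd ℂ) (∑ i ∈ S, X i j * (starRingEnd ℂ) (X i j')) := by
    unfold Q4
    rw [Complex.ofReal_sum]
    refine Finset.sum_congr rfl fun i _ => ?_
    rw [Complex.ofReal_sum]
    refine Finset.sum_congr rfl fun i' _ => ?_
    rw [Complex.mul_conj, Complex.normSq_eq_norm_sq]
  exact_mod_cast h2.trans h

lemma Q4_swap (X : ℤ → ℤ → ℂ) (S S' : Finset ℤ) : Q4 X S S' = Q4 (fun i j => X j i) S' S := by
  rw [Q4_symm]
  rfl

lemma nsq_add_le (u v : ℂ) : ‖u + v‖ ^ 2 ≤ 2 * (‖u‖ ^ 2 + ‖v‖ ^ 2) := by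
  have h := norm_add_le u v
  have h0 : 0 ≤ ‖u + v‖ := norm_nonneg _
  nlinarith [sq_nonneg (‖u‖ - ‖v‖), norm_nonneg u, norm_nonneg v]

lemma Q4_left (X : ℤ → ℤ → ℂ) {S S₁ S₂ : Finset ℤ} (S' : Finset ℤ) (hS : S = S₁ ∪ S₂)
    (hd : Disjoint S₁ S₂) : Q4 X S S' ≤ 2 * (Q4 X S₁ S' + Q4 X S₂ S') := by
  unfold Q4
  rw [← Finset.sum_add_distrib, Finset.mul_sum]
  refine Finset.sum_le_sum fun j _ => ?_
  rw [← Finset.sum_add_distrib, Finset.mul_sum]
  refine Finset.sum_le_sum fun j' _ => ?_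
  rw [hS, Finset.sum_union hd]
  exact nsq_add_le _ _

lemma Q4_right (X : ℤ → ℤ → ℂ) (S : Finset ℤ) {S' S₁ S₂ : Finset ℤ} (hS : S' = S₁ ∪ S₂)
    (hd : Disjoint S₁ S₂) : Q4 X S S' ≤ 2 * (Q4 X S S₁ + Q4 X S S₂) := by
  rw [Q4_swap X S S', Q4_swap X S S₁, Q4_swap X S S₂]
  exact Q4_left _ S hS hd

lemma Q4_quad (X : ℤ → ℤ → ℂ) {S S₁ S₂ S' S₁' S₂' : Finset ℤ} (hS : S = S₁ ∪ S₂)
    (hd : Disjoint S₁ S₂) (hS' : S' = S₁' ∪ S₂') (hd' : Disjoint S₁' S₂') :
    Q4 X S S' ≤ 4 * (Q4 X S₁ S₁' + Q4 X S₁ S₂' + Q4 X S₂ S₁' + Q4 X S₂ S₂') := by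
  have h := Q4_left X S' hS hd
  have h1 := Q4_right X S₁ hS' hd'
  have h2 := Q4_right X S₂ hS' hd'
  linarith

/-- midpoint convexity -/
lemma Q4_conv (A B : ℤ → ℤ → ℂ) (S S' : Finset ℤ) :
    Q4 (fun i j => (A i j + B i j) / 2) S S' ≤ (Q4 A S S' + Q4 B S S') / 2 := by
  set M : ℤ → ℤ → ℂ := fun i j => (A i j + B i j) / 2 with hM
  set D : ℤ → ℤ → ℂ := fun i j => (A i j - B i j) / 2 with hD
  have hin := gram_inner M D S S'
  set GM : ℤ → ℤ → ℂ := fun j j' => ∑ i ∈ S, M i j * (starRingEnd ℂ) (M i j') with hGM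
  set GD : ℤ → ℤ → ℂ := fun j j' => ∑ i ∈ S, D i j * (starRingEnd ℂ) (D i j') with hGD
  set GA : ℤ → ℤ → ℂ := fun j j' => ∑ i ∈ S, A i j * (starRingEnd ℂ) (A i j') with hGA
  set GB : ℤ → ℤ → ℂ := fun j j' => ∑ i ∈ S, B i j * (starRingEnd ℂ) (B i j') with hGB
  have hpar : ∀ j j', GM j j' + GD j j' = (GA j j' + GB j j') / 2 := by
    intro j j'
    simp only [hGM, hGD, hGA, hGB, hM, hD]
    rw [← Finset.sum_add_distrib, ← Finset.sum_add_distrib, Finset.sum_div]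
    refine Finset.sum_congr rfl fun i _ => ?_
    simp only [map_div₀, map_add, map_sub, map_ofNat]
    ring
  have hre : 0 ≤ ∑ j ∈ S', ∑ j' ∈ S', (GM j j' * (starRingEnd ℂ) (GD j j')).re := by
    have : (∑ j ∈ S', ∑ j' ∈ S', GM j j' * (starRingEnd ℂ) (GD j j')).re =
        ∑ i ∈ S, ∑ i' ∈ S, ‖∑ j ∈ S', M i j * (starRingEnd ℂ) (D i' j)‖ ^ 2 := by
      rw [hin, Complex.ofReal_re]
    rw [Complex.re_sum] at this
    simp only [Complex.re_sum] at this
    rw [this]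
    exact Finset.sum_nonneg fun _ _ => Finset.sum_nonneg fun _ _ => by positivity
  have hpt : ∀ j j', ‖GM j j'‖ ^ 2 + 2 * (GM j j' * (starRingEnd ℂ) (GD j j')).re ≤
      (‖GA j j'‖ ^ 2 + ‖GB j j'‖ ^ 2) / 2 := by
    intro j j'
    have e1 : ‖GM j j' + GD j j'‖ ^ 2 = ‖GM j j'‖ ^ 2 + ‖GD j j'‖ ^ 2 +
        2 * (GM j j' * (starRingEnd ℂ) (GD j j')).re := by
      rw [← Complex.normSq_eq_norm_sq, ← Complex.normSq_eq_norm_sq, ← Complex.normSq_eq_norm_sq,
        Complex.normSq_add]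
    have e2 : ‖GM j j' + GD j j'‖ ^ 2 ≤ (‖GA j j'‖ ^ 2 + ‖GB j j'‖ ^ 2) / 2 := by
      rw [hpar, norm_div, div_pow]
      have := nsq_add_le (GA j j') (GB j j')
      have h2 : ‖(2 : ℂ)‖ = 2 := by norm_num
      rw [h2]
      linarith
    have e3 : 0 ≤ ‖GD j j'‖ ^ 2 := by positivity
    linarith
  have hsum : Q4 M S S' + 2 * ∑ j ∈ S', ∑ j' ∈ S', (GM j j' * (starRingEnd ℂ) (GD j j')).re ≤
      (Q4 A S S' + Q4 B S S') / 2 := by
    unfold Q4
    rw [Finset.mul_sum, ← Finset.sum_add_distrib, ← Finset.sum_add_distrib, Finset.sum_div]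
    refine Finset.sum_le_sum fun j _ => ?_
    rw [Finset.mul_sum, ← Finset.sum_add_distrib, ← Finset.sum_add_distrib, Finset.sum_div]
    exact Finset.sum_le_sum fun j' _ => hpt j j'
  linarith

lemma Q4_congr {X X' : ℤ → ℤ → ℂ} {S S' : Finset ℤ} (h : ∀ i ∈ S, ∀ j ∈ S', X i j = X' i j) :
    Q4 X S S' = Q4 X' S S' := by
  unfold Q4
  refine Finset.sum_congr rfl fun j hj => Finset.sum_congr rfl fun j' hj' => ?_
  rw [Finset.sum_congr rfl fun i hi => by rw [h i hi j hj, h i hi j' hj']]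

lemma Q4_zero' {X : ℤ → ℤ → ℂ} {S S' : Finset ℤ} (h : ∀ i ∈ S, ∀ j ∈ S', X i j = 0) :
    Q4 X S S' = 0 := by
  unfold Q4
  refine Finset.sum_eq_zero fun j hj => Finset.sum_eq_zero fun j' _ => ?_
  rw [Finset.sum_eq_zero fun i hi => by rw [h i hi j hj, zero_mul]]
  simp

/-- the `S₄` cell functional of `z, z' ↦ c z z' * g (Y z z')` -/
noncomputable def phi4 (c : ℤ → ℤ → ℂ) (Y : ℤ → ℤ → ℤ) (n : ℕ) (a b : ℤ) (g : Fn) : ℝ :=
  Q4 (fun z z' => c z z' * g (Y z z')) (dI n a) (dI n b) / 4 ^ n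

/-- `phi4` is a family of cell functionals, `c` supported on `T × T'` -/
theorem CF_phi4 (c : ℤ → ℤ → ℂ) (Y : ℤ → ℤ → ℤ) (T T' : Finset ℤ)
    (hc : ∀ z z', c z z' ≠ 0 → z ∈ T ∧ z' ∈ T') : CF Y T T' (phi4 c Y) where
  nonneg n a b g := div_nonneg (Q4_nonneg _ _ _) (by positivity)
  halv n a b g := by
    unfold phi4
    have h := Q4_quad (fun z z' => c z z' * g (Y z z')) (L0e.dI_succ n a)
      (L0e.dI_disj (by omega)) (L0e.dI_succ n b) (L0e.dI_disj (by omega))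
    have h4 : (0 : ℝ) < 4 ^ n := by positivity
    rw [pow_succ, ← add_div, ← add_div, ← add_div, div_le_div_iff₀ (by positivity) h4]
    nlinarith
  loc n a b g g' h := by
    unfold phi4
    rw [Q4_congr fun z hz z' hz' => by rw [h z hz z' hz']]
  conv n a b g g' := by
    unfold phi4
    have e : (fun z z' => c z z' * ((fun y => (g y + g' y) / 2) (Y z z'))) =
        fun z z' => (c z z' * g (Y z z') + c z z' * g' (Y z z')) / 2 := by
      funext z z'
      ring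
    rw [e]
    have h := Q4_conv (fun z z' => c z z' * g (Y z z')) (fun z z' => c z z' * g' (Y z z'))
      (dI n a) (dI n b)
    refine (div_le_div_of_nonneg_right h (by positivity)).trans_eq ?_
    ring
  zero n a b := by
    unfold phi4
    rw [Q4_zero' fun z _ z' _ => by simp, zero_div]
  supp n a b g h := by
    classical
    by_contra hcon
    apply h
    unfold phi4
    rw [Q4_zero', zero_div]
    intro z hz z' hz'
    by_contra hne
    apply hcon
    have hcz : c z z' ≠ 0 := fun h0 => hne (by rw [h0, zero_mul])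
    obtain ⟨h1, h2⟩ := hc z z' hcz
    rw [L0e.mem_dI] at hz hz'
    exact ⟨Finset.mem_image.2 ⟨z, h1, hz⟩, Finset.mem_image.2 ⟨z', h2, hz'⟩⟩

/-- comparison with `R244.e4` -/
lemma phi4_eq (c : ℤ → ℤ → ℂ) (Y : ℤ → ℤ → ℤ) (n : ℕ) (a b : ℤ) (g : Fn) :
    phi4 c Y n a b g =
      4 ^ n * R244.e4 (fun z z' => c z z' * g (Y z z')) (2 ^ n) (a * 2 ^ n) (b * 2 ^ n) := by
  have hre : ∀ (x : ℤ) {M : Type} [AddCommMonoid M] (f : ℤ → M),
      ∑ z ∈ dI n x, f z = ∑ i ∈ range (2 ^ n), f (x * 2 ^ n + (i : ℤ)) := by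
    intro x M _ f
    symm
    refine Finset.sum_bij (fun i _ => x * 2 ^ n + (i : ℤ)) ?_ ?_ ?_ ?_
    · intro i hi
      rw [Finset.mem_range] at hi
      have hi' : (i : ℤ) < 2 ^ n := by exact_mod_cast hi
      unfold dI
      rw [Finset.mem_Ico]
      constructor
      · omega
      · rw [add_mul, one_mul]; omega
    · intro i _ i' _ h
      have : (i : ℤ) = i' := by simpa using h
      exact_mod_cast this
    · intro z hz
      unfold dI at hz
      rw [Finset.mem_Ico, add_mul, one_mul] at hz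
      refine ⟨(z - x * 2 ^ n).toNat, ?_, ?_⟩
      · rw [Finset.mem_range]
        have h1 : ((z - x * 2 ^ n).toNat : ℤ) = z - x * 2 ^ n := Int.toNat_of_nonneg (by omega)
        have h2 : ((z - x * 2 ^ n).toNat : ℤ) < ((2 ^ n : ℕ) : ℤ) := by
          rw [h1]
          push_cast
          omega
        exact_mod_cast h2
      · rw [Int.toNat_of_nonneg (by omega)]
        ring
    · intro i _
      rfl
  unfold phi4 Q4 R244.e4
  simp only [hre]
  push_cast
  rw [← mul_assoc]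
  have h4 : ((4 : ℝ) ^ n) ≠ 0 := by positivity
  have h16 : ((2 : ℝ) ^ n) ^ 4 = 4 ^ n * 4 ^ n := by
    rw [← pow_mul, ← mul_pow, show (4 : ℝ) * 4 = 2 ^ 4 by norm_num, ← pow_mul, mul_comm]
  rw [h16, div_eq_mul_inv, mul_comm]
  congr 1
  field_simp

end Crest.Agent.R079.Whit
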