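import Crest.Agent.R079.ThB_159
import Crest.Agent.R079.Whit_159

/-! R079 (helper159): the WHITNEY-CELL gauge of the line model is a band system in the sense of
`ThA_159.Bnd`: a kernel on the band of the node `p` is admissible with threshold `s` iff on every
maximal dyadic cell `dI n a × dI n b` (at fixed fibre `z`) whose `Y`-range lies in `iv p` its
operator norm is `≤ s * 2 ^ n`.  No band condition inside a cell, so the projection is the singular
value clip cell by cell. -/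

set_option autoImplicit false

namespace Crest.Agent.R079.Cel159

open Finset Crest.Agent.R079.Grid Crest.Agent.R079.Growth Crest.Agent.R079.QRed
  Crest.Agent.R079.Qh249 Crest.Agent.R079.QVar181 Crest.Agent.R079.TWin
open Crest.Agent.R079.ThA159
open Crest.Agent.R079.Whit (Ins Ins.mono Ins.sub sub0 sub1)

section conc

variable {Ω : Type*} {Idx : Type*}

/-- sup of the functionals selected at the node -/
noncomputable def NmP (S : Finset Ω) (c : Idx → Ω → ℂ) (ok : Nd → Idx → Prop) (p : Nd)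
    (B : Ω → ℂ) : ℝ :=
  ⨆ i : {i // ok p i}, ‖∑ ω ∈ S, c i.1 ω * B ω‖

variable {S : Finset Ω} {c : Idx → Ω → ℂ} {ok : Nd → Idx → Prop} {C : ℝ}

lemma NmP_bdd (hC : ∀ p i, ok p i → ∀ ω, ‖c i ω‖ ≤ C) (p : Nd) (B : Ω → ℂ) :
    BddAbove (Set.range fun i : {i // ok p i} => ‖∑ ω ∈ S, c i.1 ω * B ω‖) := by
  refine ⟨∑ ω ∈ S, C * ‖B ω‖, ?_⟩
  rintro x ⟨i, rfl⟩
  refine (norm_sum_le _ _).trans (Finset.sum_le_sum fun ω _ => ?_)
  rw [norm_mul]
  exact mul_le_mul_of_nonneg_right (hC p i.1 i.2 ω) (norm_nonneg _)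

lemma le_NmP (hC : ∀ p i, ok p i → ∀ ω, ‖c i ω‖ ≤ C) {p : Nd} (B : Ω → ℂ) {i : Idx}
    (hi : ok p i) : ‖∑ ω ∈ S, c i ω * B ω‖ ≤ NmP S c ok p B :=
  le_ciSup (NmP_bdd hC p B) ⟨i, hi⟩

lemma NmP_le {p : Nd} {B : Ω → ℂ} {x : ℝ} (hx : 0 ≤ x)
    (h : ∀ i, ok p i → ‖∑ ω ∈ S, c i ω * B ω‖ ≤ x) : NmP S c ok p B ≤ x :=
  Real.iSup_le (fun i => h i.1 i.2) hx

lemma NmP_nonneg (p : Nd) (B : Ω → ℂ) : 0 ≤ NmP S c ok p B :=
  Real.iSup_nonneg fun _ => norm_nonneg _

open Classical in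
/-- **band systems with node-dependent tests** -/
theorem bnd_mkP (pos : Ω → ℤ) {ν : ℝ} (hC : ∀ p i, ok p i → ∀ ω, ‖c i ω‖ ≤ C) (hν : 0 < ν)
    (hf : ∀ y, ν * (S.filter (fun ω => pos ω = y)).card ≤ 1)
    (hg : ∀ (r : ℝ) (m : ℕ) (l : ℤ) (A B : Ω → ℂ), 0 ≤ r →
      (∀ ω, pos ω ∉ iv (m, 2 * l) → A ω = 0) → (∀ ω, pos ω ∉ iv (m, 2 * l + 1) → B ω = 0) →
      (∀ i, ok (m, 2 * l) i → ‖∑ ω ∈ S, c i ω * A ω‖ ≤ r) →
      (∀ i, ok (m, 2 * l + 1) i → ‖∑ ω ∈ S, c i ω * B ω‖ ≤ r) →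
      ∀ i, ok (m + 1, l) i → ‖∑ ω ∈ S, c i ω * (A ω + B ω)‖ ≤ r) :
    Bnd (fun p => S.filter (fun ω => pos ω ∈ iv p)) pos (NmP S c ok) ν where
  sub m l ω := by
    simp only [Finset.mem_filter, iv_ch, Finset.mem_union]
    tauto
  dj m l := by
    rw [Finset.disjoint_left]
    intro ω h h'
    rw [Finset.mem_filter] at h h'
    exact Finset.disjoint_left.1 (disj_ch m l) h.2 h'.2
  mem p ω h := (Finset.mem_filter.1 h).2
  nu := hν
  fib p y := by
    refine le_trans (mul_le_mul_of_nonneg_left ?_ hν.le) (hf y)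
    exact_mod_cast Finset.card_le_card
      (Finset.filter_subset_filter _ (Finset.filter_subset _ _))
  zero p := NmP_le le_rfl fun i _ => by simp
  mid p A B := by
    have h0 : 0 ≤ (NmP S c ok p A + NmP S c ok p B) / 2 := by
      have := NmP_nonneg (S := S) (c := c) (ok := ok) p A
      have := NmP_nonneg (S := S) (c := c) (ok := ok) p B
      linarith
    refine NmP_le h0 fun i hi => ?_
    have e : ∑ ω ∈ S, c i ω * ((A ω + B ω) / 2)
        = (∑ ω ∈ S, c i ω * A ω + ∑ ω ∈ S, c i ω * B ω) / 2 := by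
      rw [← Finset.sum_add_distrib, Finset.sum_div]
      exact Finset.sum_congr rfl fun ω _ => by ring
    rw [e, norm_div]
    have e3 : ‖(2 : ℂ)‖ = 2 := by simp
    rw [e3]
    have h1 := norm_add_le (∑ ω ∈ S, c i ω * A ω) (∑ ω ∈ S, c i ω * B ω)
    have h2 := le_NmP (S := S) hC A hi
    have h3 := le_NmP (S := S) hC B hi
    linarith
  cl p r := by
    by_cases hr : 0 ≤ r
    · have e : {B : Ω → ℂ | NmP S c ok p B ≤ r}
          = ⋂ i : {i // ok p i}, {B : Ω → ℂ | ‖∑ ω ∈ S, c i.1 ω * B ω‖ ≤ r} := by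
        ext B
        simp only [Set.mem_ofPred_eq, Set.mem_iInter]
        exact ⟨fun h i => (le_NmP hC B i.2).trans h, fun h => NmP_le hr fun i hi => h ⟨i, hi⟩⟩
      rw [e]
      refine isClosed_iInter fun i => isClosed_le ?_ continuous_const
      exact (continuous_finsetSum _ fun ω _ => continuous_const.mul (continuous_apply ω)).norm
    · have e : {B : Ω → ℂ | NmP S c ok p B ≤ r} = ∅ := by
        ext B
        simp only [Set.mem_ofPred_eq, Set.mem_empty_iff_false, iff_false, not_le]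
        exact (not_le.1 hr).trans_le (NmP_nonneg _ _)
      rw [e]
      exact isClosed_empty
  glue r m l A B hr hA hB h h' := by
    -- off the mask the values of the kernels play no role
    have hA' : ∀ ω, pos ω ∉ iv (m, 2 * l) → (if ω ∈ S then A ω else 0) = 0 := by
      intro ω hω
      split_ifs with hs
      · exact hA ω fun hc => hω (Finset.mem_filter.1 hc).2
      · rfl
    have hB' : ∀ ω, pos ω ∉ iv (m, 2 * l + 1) → (if ω ∈ S then B ω else 0) = 0 := by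
      intro ω hω
      split_ifs with hs
      · exact hB ω fun hc => hω (Finset.mem_filter.1 hc).2
      · rfl
    have hm : ∀ (i : Idx) (D : Ω → ℂ), ∑ ω ∈ S, c i ω * (if ω ∈ S then D ω else 0)
        = ∑ ω ∈ S, c i ω * D ω := fun i D =>
      Finset.sum_congr rfl fun ω hω => by rw [if_pos hω]
    refine NmP_le hr fun i hi => ?_
    have h1 := hg r m l (fun ω => if ω ∈ S then A ω else 0) (fun ω => if ω ∈ S then B ω else 0)
      hr hA' hB' (fun j hj => by rw [hm]; exact (le_NmP hC A hj).trans h)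
      (fun j hj => by rw [hm]; exact (le_NmP hC B hj).trans h') i hi
    refine le_of_eq_of_le ?_ h1
    congr 1
    exact Finset.sum_congr rfl fun ω hω => by rw [if_pos hω, if_pos hω]

end conc

/-! ### operator norms of cells -/

/-- `‖K‖_op ≤ s * 2 ^ n` on the cell -/
def OpC (K : ℤ → ℤ → ℂ) (n : ℕ) (a b : ℤ) (s : ℝ) : Prop :=
  ∀ ξ ζ : ℤ → ℂ, ‖∑ u ∈ dI n a, ∑ v ∈ dI n b, K u v * (ξ u * ζ v)‖ ≤
    s * 2 ^ n * (Real.sqrt (∑ u ∈ dI n a, ‖ξ u‖ ^ 2) * Real.sqrt (∑ v ∈ dI n b, ‖ζ v‖ ^ 2))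

lemma OpC.congr {K K' : ℤ → ℤ → ℂ} {n : ℕ} {a b : ℤ} {s : ℝ} (h : OpC K n a b s)
    (e : ∀ u ∈ dI n a, ∀ v ∈ dI n b, K' u v = K u v) : OpC K' n a b s := by
  intro ξ ζ
  refine le_of_eq_of_le ?_ (h ξ ζ)
  congr 1
  exact Finset.sum_congr rfl fun u hu => Finset.sum_congr rfl fun v hv => by rw [e u hu v hv]

/-- four blocks glue -/
lemma OpC.quad {K : ℤ → ℤ → ℂ} {n : ℕ} {a b : ℤ} {s : ℝ} (hs : 0 ≤ s)
    (h00 : OpC K n (2 * a) (2 * b) s) (h01 : OpC K n (2 * a) (2 * b + 1) s)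
    (h10 : OpC K n (2 * a + 1) (2 * b) s) (h11 : OpC K n (2 * a + 1) (2 * b + 1) s) :
    OpC K (n + 1) a b s := by
  intro ξ ζ
  have du : Disjoint (dI n (2 * a)) (dI n (2 * a + 1)) := L0e.dI_disj (by omega)
  have dv : Disjoint (dI n (2 * b)) (dI n (2 * b + 1)) := L0e.dI_disj (by omega)
  rw [L0e.dI_succ n a, L0e.dI_succ n b, Finset.sum_union du, Finset.sum_union du,
    Finset.sum_union dv]
  set x0 := ∑ u ∈ dI n (2 * a), ‖ξ u‖ ^ 2 with hx0
  set x1 := ∑ u ∈ dI n (2 * a + 1), ‖ξ u‖ ^ 2 with hx1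
  set y0 := ∑ v ∈ dI n (2 * b), ‖ζ v‖ ^ 2 with hy0
  set y1 := ∑ v ∈ dI n (2 * b + 1), ‖ζ v‖ ^ 2 with hy1
  have px0 : 0 ≤ x0 := Finset.sum_nonneg fun _ _ => sq_nonneg _
  have px1 : 0 ≤ x1 := Finset.sum_nonneg fun _ _ => sq_nonneg _
  have py0 : 0 ≤ y0 := Finset.sum_nonneg fun _ _ => sq_nonneg _
  have py1 : 0 ≤ y1 := Finset.sum_nonneg fun _ _ => sq_nonneg _
  have e0 : ∀ u : ℤ, ∑ v ∈ dI n (2 * b) ∪ dI n (2 * b + 1), K u v * (ξ u * ζ v)
      = ∑ v ∈ dI n (2 * b), K u v * (ξ u * ζ v) + ∑ v ∈ dI n (2 * b + 1), K u v * (ξ u * ζ v) :=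
    fun u => Finset.sum_union dv
  simp only [e0, Finset.sum_add_distrib]
  have g00 := h00 ξ ζ
  have g01 := h01 ξ ζ
  have g10 := h10 ξ ζ
  have g11 := h11 ξ ζ
  rw [← hx0, ← hy0] at g00
  rw [← hx0, ← hy1] at g01
  rw [← hx1, ← hy0] at g10
  rw [← hx1, ← hy1] at g11
  have t1 := norm_add_le (∑ u ∈ dI n (2 * a), ∑ v ∈ dI n (2 * b), K u v * (ξ u * ζ v)
      + ∑ u ∈ dI n (2 * a), ∑ v ∈ dI n (2 * b + 1), K u v * (ξ u * ζ v))
    (∑ u ∈ dI n (2 * a + 1), ∑ v ∈ dI n (2 * b), K u v * (ξ u * ζ v)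
      + ∑ u ∈ dI n (2 * a + 1), ∑ v ∈ dI n (2 * b + 1), K u v * (ξ u * ζ v))
  have t2 := norm_add_le (∑ u ∈ dI n (2 * a), ∑ v ∈ dI n (2 * b), K u v * (ξ u * ζ v))
    (∑ u ∈ dI n (2 * a), ∑ v ∈ dI n (2 * b + 1), K u v * (ξ u * ζ v))
  have t3 := norm_add_le (∑ u ∈ dI n (2 * a + 1), ∑ v ∈ dI n (2 * b), K u v * (ξ u * ζ v))
    (∑ u ∈ dI n (2 * a + 1), ∑ v ∈ dI n (2 * b + 1), K u v * (ξ u * ζ v))
  have key : ∀ x y : ℝ, 0 ≤ x → 0 ≤ y →
      Real.sqrt x + Real.sqrt y ≤ Real.sqrt 2 * Real.sqrt (x + y) := by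
    intro x y hx hy
    rw [← Real.sqrt_mul (by norm_num)]
    refine Real.le_sqrt_of_sq_le ?_
    have h1 := Real.sq_sqrt hx
    have h2 := Real.sq_sqrt hy
    nlinarith [sq_nonneg (Real.sqrt x - Real.sqrt y)]
  have k1 := key x0 x1 px0 px1
  have k2 := key y0 y1 py0 py1
  have s2 : Real.sqrt 2 * Real.sqrt 2 = 2 := Real.mul_self_sqrt (by norm_num)
  have k3 : (Real.sqrt x0 + Real.sqrt x1) * (Real.sqrt y0 + Real.sqrt y1)
      ≤ 2 * (Real.sqrt (x0 + x1) * Real.sqrt (y0 + y1)) := by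
    have h1 := mul_le_mul k1 k2 (by positivity) (by positivity)
    refine h1.trans (le_of_eq ?_)
    calc _ = (Real.sqrt 2 * Real.sqrt 2) * (Real.sqrt (x0 + x1) * Real.sqrt (y0 + y1)) := by ring
      _ = _ := by rw [s2]
  have k4 := mul_le_mul_of_nonneg_left k3 (show 0 ≤ s * 2 ^ n by positivity)
  rw [pow_succ]
  nlinarith [t1, t2, t3, g00, g01, g10, g11, k4]

/-- maximal cells of the node, of scale at most `p.1 + k` -/
def Mx (Y : ℤ → ℤ → ℤ) (k : ℕ) (p : Nd) (n : ℕ) (a b : ℤ) : Prop :=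
  n ≤ p.1 + k ∧ Ins Y (iv p) n a b ∧ (n = p.1 + k ∨ ¬ Ins Y (iv p) (n + 1) (a / 2) (b / 2))

/-- **gluing over the two children**, maximal cells -/
theorem cell_glue {Y : ℤ → ℤ → ℤ} {k : ℕ} {m : ℕ} {l : ℤ} {s : ℝ} (hs : 0 ≤ s)
    {K K' : ℤ → ℤ → ℂ} (h0 : ∀ u v, Y u v ∉ iv (m, 2 * l) → K u v = 0)
    (h1 : ∀ u v, Y u v ∉ iv (m, 2 * l + 1) → K' u v = 0)
    (hK : ∀ n a b, Mx Y k (m, 2 * l) n a b → OpC K n a b s)
    (hK' : ∀ n a b, Mx Y k (m, 2 * l + 1) n a b → OpC K' n a b s) :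
    ∀ n a b, n ≤ m + 1 + k → Ins Y (iv (m + 1, l)) n a b →
      (n = m + 1 + k ∨ n = m + k ∨ (¬ Ins Y (iv (m, 2 * l)) (n + 1) (a / 2) (b / 2) ∧
        ¬ Ins Y (iv (m, 2 * l + 1)) (n + 1) (a / 2) (b / 2))) →
      OpC (fun u v => K u v + K' u v) n a b s := by
  have hdj := disj_ch m l
  intro n
  induction n with
  | zero =>
    intro a b hn hi hq
    have hself : ∀ x : ℤ, x ∈ dI 0 x := by
      intro x
      rw [L0e.mem_dI]
      simp
    have honly : ∀ x : ℤ, ∀ z ∈ dI 0 x, z = x := by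
      intro x z hz
      rw [L0e.mem_dI] at hz
      simpa using hz
    have hy := hi a (hself a) b (hself b)
    rw [iv_ch, Finset.mem_union] at hy
    have hins : ∀ q : Nd, Y a b ∈ iv q → Ins Y (iv q) 0 a b := by
      intro q hq z hz z' hz'
      rw [honly a z hz, honly b z' hz']
      exact hq
    rcases hy with hy | hy
    · have hM : Mx Y k (m, 2 * l) 0 a b := by
        refine ⟨Nat.zero_le _, hins _ hy, ?_⟩
        rcases hq with hq | hq | hq
        · omega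
        · exact Or.inl hq
        · exact Or.inr hq.1
      refine (hK 0 a b hM).congr fun u hu v hv => ?_
      have hu' := honly a u hu
      have hv' := honly b v hv
      subst hu'; subst hv'
      rw [h1 u v (Finset.disjoint_left.1 hdj hy), add_zero]
    · have hM : Mx Y k (m, 2 * l + 1) 0 a b := by
        refine ⟨Nat.zero_le _, hins _ hy, ?_⟩
        rcases hq with hq | hq | hq
        · omega
        · exact Or.inl hq
        · exact Or.inr hq.2
      refine (hK' 0 a b hM).congr fun u hu v hv => ?_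
      have hu' := honly a u hu
      have hv' := honly b v hv
      subst hu'; subst hv'
      rw [h0 u v (fun hc => Finset.disjoint_left.1 hdj hc hy), zero_add]
  | succ n ih =>
    intro a b hn hi hq
    by_cases hc0 : n + 1 ≤ m + k ∧ Ins Y (iv (m, 2 * l)) (n + 1) a b
    · have hM : Mx Y k (m, 2 * l) (n + 1) a b := by
        refine ⟨hc0.1, hc0.2, ?_⟩
        rcases hq with hq | hq | hq
        · omega
        · exact Or.inl hq
        · exact Or.inr hq.1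
      refine (hK _ a b hM).congr fun u hu v hv => ?_
      have hy := hc0.2 u hu v hv
      show K u v + K' u v = K u v
      rw [h1 u v (Finset.disjoint_left.1 hdj hy), add_zero]
    by_cases hc1 : n + 1 ≤ m + k ∧ Ins Y (iv (m, 2 * l + 1)) (n + 1) a b
    · have hM : Mx Y k (m, 2 * l + 1) (n + 1) a b := by
        refine ⟨hc1.1, hc1.2, ?_⟩
        rcases hq with hq | hq | hq
        · omega
        · exact Or.inl hq
        · exact Or.inr hq.2
      refine (hK' _ a b hM).congr fun u hu v hv => ?_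
      have hy := hc1.2 u hu v hv
      show K u v + K' u v = K' u v
      rw [h0 u v (fun hc => Finset.disjoint_left.1 hdj hc hy), zero_add]
    -- split
    have hcond : n = m + 1 + k ∨ n = m + k ∨ (¬ Ins Y (iv (m, 2 * l)) (n + 1) a b ∧
        ¬ Ins Y (iv (m, 2 * l + 1)) (n + 1) a b) := by
      by_cases hle : n + 1 ≤ m + k
      · exact Or.inr (Or.inr ⟨fun h => hc0 ⟨hle, h⟩, fun h => hc1 ⟨hle, h⟩⟩)
      · exact Or.inr (Or.inl (by omega))
    have hnle : n ≤ m + 1 + k := by omega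
    have e0 : ∀ x : ℤ, 2 * x / 2 = x := fun x => by omega
    have e1 : ∀ x : ℤ, (2 * x + 1) / 2 = x := fun x => by omega
    refine OpC.quad hs ?_ ?_ ?_ ?_
    · exact ih _ _ hnle (hi.sub (sub0 n a) (sub0 n b)) (by rw [e0, e0]; exact hcond)
    · exact ih _ _ hnle (hi.sub (sub0 n a) (sub1 n b)) (by rw [e0, e1]; exact hcond)
    · exact ih _ _ hnle (hi.sub (sub1 n a) (sub0 n b)) (by rw [e1, e0]; exact hcond)
    · exact ih _ _ hnle (hi.sub (sub1 n a) (sub1 n b)) (by rw [e1, e1]; exact hcond)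

/-- the maximal cells of the parent -/
theorem cell_glue' {Y : ℤ → ℤ → ℤ} {k : ℕ} {m : ℕ} {l : ℤ} {s : ℝ} (hs : 0 ≤ s)
    {K K' : ℤ → ℤ → ℂ} (h0 : ∀ u v, Y u v ∉ iv (m, 2 * l) → K u v = 0)
    (h1 : ∀ u v, Y u v ∉ iv (m, 2 * l + 1) → K' u v = 0)
    (hK : ∀ n a b, Mx Y k (m, 2 * l) n a b → OpC K n a b s)
    (hK' : ∀ n a b, Mx Y k (m, 2 * l + 1) n a b → OpC K' n a b s)
    {n : ℕ} {a b : ℤ} (hM : Mx Y k (m + 1, l) n a b) :
    OpC (fun u v => K u v + K' u v) n a b s := by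
  obtain ⟨hn, hi, hp⟩ := hM
  refine cell_glue hs h0 h1 hK hK' n a b hn hi ?_
  rcases hp with hp | hp
  · exact Or.inl hp
  · refine Or.inr (Or.inr ⟨fun h => hp (h.mono ?_), fun h => hp (h.mono ?_)⟩)
    · exact sub_ch0 m l
    · exact sub_ch1 m l

end Crest.Agent.R079.Cel159
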