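import Crest.Agent.R079.CelA_159

/-! R079 (helper159): the Whitney-cell gauge over `ℤ × ℤ × ℤ` (fibre, two kernel variables), the
band system `bnd_cell`, and the projection cell by cell. -/

set_option autoImplicit false

namespace Crest.Agent.R079.Cel159

open Finset Crest.Agent.R079.Grid Crest.Agent.R079.Growth Crest.Agent.R079.QRed
  Crest.Agent.R079.Qh249 Crest.Agent.R079.QVar181 Crest.Agent.R079.TWin
open Crest.Agent.R079.ThA159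
open Crest.Agent.R079.Whit (Ins Ins.mono Ins.sub sub0 sub1)

/-- a cell test -/
structure Cx where
  z : ℤ
  n : ℕ
  a : ℤ
  b : ℤ
  ξ : ℤ → ℂ
  ζ : ℤ → ℂ

/-- tests selected at the node -/
def okc (Y : ℤ → ℤ → ℤ → ℤ) (k : ℕ) (p : Nd) (i : Cx) : Prop :=
  Mx (Y i.z) k p i.n i.a i.b ∧ ∑ u ∈ dI i.n i.a, ‖i.ξ u‖ ^ 2 ≤ 1 ∧
    ∑ v ∈ dI i.n i.b, ‖i.ζ v‖ ^ 2 ≤ 1

open Classical in
/-- the functional of a test -/
noncomputable def cf (i : Cx) (ω : ℤ × ℤ × ℤ) : ℂ :=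
  if ω.1 = i.z ∧ ω.2.1 ∈ dI i.n i.a ∧ ω.2.2 ∈ dI i.n i.b then
    i.ξ ω.2.1 * i.ζ ω.2.2 / 2 ^ i.n else 0

open Classical in
/-- masked kernel of a fibre -/
noncomputable def msk (S : Finset (ℤ × ℤ × ℤ)) (B : ℤ × ℤ × ℤ → ℂ) (z u v : ℤ) : ℂ :=
  if (z, u, v) ∈ S then B (z, u, v) else 0

lemma cf_le (Y : ℤ → ℤ → ℤ → ℤ) (k : ℕ) (p : Nd) (i : Cx) (h : okc Y k p i)
    (ω : ℤ × ℤ × ℤ) : ‖cf i ω‖ ≤ 1 := by
  classical
  have key : ∀ (T : Finset ℤ) (ξ : ℤ → ℂ), ∑ u ∈ T, ‖ξ u‖ ^ 2 ≤ 1 → ∀ u ∈ T, ‖ξ u‖ ≤ 1 := by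
    intro T ξ hξ u hu
    have h1 : ‖ξ u‖ ^ 2 ≤ 1 :=
      (Finset.single_le_sum (f := fun u => ‖ξ u‖ ^ 2) (fun _ _ => sq_nonneg _) hu).trans hξ
    exact (sq_le_one_iff₀ (norm_nonneg _)).1 h1
  unfold cf
  split_ifs with hc
  · have h1 := key _ _ h.2.1 _ hc.2.1
    have h2 := key _ _ h.2.2 _ hc.2.2
    rw [norm_div, norm_mul, norm_pow]
    have e3 : ‖(2 : ℂ)‖ = 2 := by simp
    rw [e3]
    have h3 : (1 : ℝ) ≤ 2 ^ i.n := one_le_pow₀ (by norm_num)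
    rw [div_le_one (by positivity)]
    exact (mul_le_one₀ h1 (norm_nonneg _) h2).trans h3
  · simp

lemma sum_cf (S : Finset (ℤ × ℤ × ℤ)) (B : ℤ × ℤ × ℤ → ℂ) (i : Cx) :
    ∑ ω ∈ S, cf i ω * B ω
      = (∑ u ∈ dI i.n i.a, ∑ v ∈ dI i.n i.b, msk S B i.z u v * (i.ξ u * i.ζ v)) / 2 ^ i.n := by
  classical
  have hR : (∑ u ∈ dI i.n i.a, ∑ v ∈ dI i.n i.b, msk S B i.z u v * (i.ξ u * i.ζ v)) / 2 ^ i.n
      = ∑ q ∈ (dI i.n i.a ×ˢ dI i.n i.b).filter (fun q => (i.z, q) ∈ S),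
        i.ξ q.1 * i.ζ q.2 / 2 ^ i.n * B (i.z, q) := by
    rw [← Finset.sum_product', Finset.sum_div, Finset.sum_filter]
    refine Finset.sum_congr rfl fun q _ => ?_
    unfold msk
    split_ifs with h
    · ring
    · simp
  have hL : ∑ ω ∈ S, cf i ω * B ω = ∑ ω ∈ S.filter (fun ω => ω.1 = i.z ∧ ω.2.1 ∈ dI i.n i.a ∧
      ω.2.2 ∈ dI i.n i.b), i.ξ ω.2.1 * i.ζ ω.2.2 / 2 ^ i.n * B ω := by
    rw [Finset.sum_filter]
    refine Finset.sum_congr rfl fun ω _ => ?_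
    unfold cf
    split_ifs with h
    · rfl
    · simp
  rw [hL, hR]
  refine Finset.sum_bij' (fun ω _ => ω.2) (fun q _ => (i.z, q)) ?_ ?_ ?_ ?_ ?_
  · intro ω hω
    rw [Finset.mem_filter] at hω
    rw [Finset.mem_filter, Finset.mem_product]
    refine ⟨hω.2.2, ?_⟩
    rw [← hω.2.1]
    exact hω.1
  · intro q hq
    rw [Finset.mem_filter, Finset.mem_product] at hq
    rw [Finset.mem_filter]
    exact ⟨hq.2, rfl, hq.1⟩
  · intro ω hω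
    rw [Finset.mem_filter] at hω
    show (i.z, ω.2) = ω
    rw [← hω.2.1]
  · intro q _
    rfl
  · intro ω hω
    rw [Finset.mem_filter] at hω
    show _ = i.ξ ω.2.1 * i.ζ ω.2.2 / 2 ^ i.n * B (i.z, ω.2)
    rw [← hω.2.1]

/-- homogeneity of bilinear bounds -/
lemma scale {K : ℤ → ℤ → ℂ} {I J : Finset ℤ} {C : ℝ} (hC : 0 ≤ C)
    (h : ∀ ξ ζ : ℤ → ℂ, ∑ u ∈ I, ‖ξ u‖ ^ 2 ≤ 1 → ∑ v ∈ J, ‖ζ v‖ ^ 2 ≤ 1 →
      ‖∑ u ∈ I, ∑ v ∈ J, K u v * (ξ u * ζ v)‖ ≤ C) (ξ ζ : ℤ → ℂ) :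
    ‖∑ u ∈ I, ∑ v ∈ J, K u v * (ξ u * ζ v)‖
      ≤ C * (Real.sqrt (∑ u ∈ I, ‖ξ u‖ ^ 2) * Real.sqrt (∑ v ∈ J, ‖ζ v‖ ^ 2)) := by
  classical
  set a := Real.sqrt (∑ u ∈ I, ‖ξ u‖ ^ 2) with ha
  set b := Real.sqrt (∑ v ∈ J, ‖ζ v‖ ^ 2) with hb
  have ha2 : a ^ 2 = ∑ u ∈ I, ‖ξ u‖ ^ 2 :=
    Real.sq_sqrt (Finset.sum_nonneg fun _ _ => sq_nonneg _)
  have hb2 : b ^ 2 = ∑ v ∈ J, ‖ζ v‖ ^ 2 :=
    Real.sq_sqrt (Finset.sum_nonneg fun _ _ => sq_nonneg _)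
  have ha0 : 0 ≤ a := Real.sqrt_nonneg _
  have hb0 : 0 ≤ b := Real.sqrt_nonneg _
  rcases ha0.eq_or_lt with h0 | hapos
  · have hz0 : ∀ u ∈ I, ξ u = 0 := by
      intro u hu
      have h1 : ∑ u ∈ I, ‖ξ u‖ ^ 2 = 0 := by rw [← ha2, ← h0]; ring
      have h2 := (Finset.sum_eq_zero_iff_of_nonneg fun _ _ => sq_nonneg _).1 h1 u hu
      simpa using h2
    rw [Finset.sum_eq_zero fun u hu => Finset.sum_eq_zero fun v _ => by rw [hz0 u hu]; simp,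
      norm_zero]
    positivity
  rcases hb0.eq_or_lt with h0 | hbpos
  · have hz0 : ∀ u ∈ J, ζ u = 0 := by
      intro u hu
      have h1 : ∑ u ∈ J, ‖ζ u‖ ^ 2 = 0 := by rw [← hb2, ← h0]; ring
      have h2 := (Finset.sum_eq_zero_iff_of_nonneg fun _ _ => sq_nonneg _).1 h1 u hu
      simpa using h2
    rw [Finset.sum_eq_zero fun u _ => Finset.sum_eq_zero fun v hv => by rw [hz0 v hv]; simp,
      norm_zero]
    positivity
  have hn : ∀ (T : Finset ℤ) (φ : ℤ → ℂ) (x : ℝ), 0 < x → x ^ 2 = ∑ u ∈ T, ‖φ u‖ ^ 2 →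
      ∑ u ∈ T, ‖φ u / (x : ℂ)‖ ^ 2 ≤ 1 := by
    intro T φ x hx hx2
    have e : ∑ u ∈ T, ‖φ u / (x : ℂ)‖ ^ 2 = (∑ u ∈ T, ‖φ u‖ ^ 2) / x ^ 2 := by
      rw [Finset.sum_div]
      refine Finset.sum_congr rfl fun u _ => ?_
      rw [norm_div, Complex.norm_real, Real.norm_eq_abs, abs_of_pos hx, div_pow]
    rw [e, ← hx2, div_self (by positivity)]
  have h1 := h (fun u => ξ u / (a : ℂ)) (fun v => ζ v / (b : ℂ)) (hn I ξ a hapos ha2)
    (hn J ζ b hbpos hb2)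
  have hane : (a : ℂ) ≠ 0 := by exact_mod_cast hapos.ne'
  have hbne : (b : ℂ) ≠ 0 := by exact_mod_cast hbpos.ne'
  have e : ∑ u ∈ I, ∑ v ∈ J, K u v * (ξ u / (a : ℂ) * (ζ v / (b : ℂ)))
      = (∑ u ∈ I, ∑ v ∈ J, K u v * (ξ u * ζ v)) / ((a : ℂ) * b) := by
    rw [Finset.sum_div]
    refine Finset.sum_congr rfl fun u _ => ?_
    rw [Finset.sum_div]
    refine Finset.sum_congr rfl fun v _ => ?_
    field_simp
  rw [e, norm_div, norm_mul, Complex.norm_real, Complex.norm_real, Real.norm_eq_abs,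
    Real.norm_eq_abs, abs_of_pos hapos, abs_of_pos hbpos, div_le_iff₀ (by positivity)] at h1
  exact h1

section inst

variable {Y : ℤ → ℤ → ℤ → ℤ} {k : ℕ} {S : Finset (ℤ × ℤ × ℤ)}

/-- the tests of a node = operator norms of its maximal cells -/
theorem test_iff {p : Nd} {B : ℤ × ℤ × ℤ → ℂ} {r : ℝ} (hr : 0 ≤ r) :
    (∀ i, okc Y k p i → ‖∑ ω ∈ S, cf i ω * B ω‖ ≤ r) ↔
      ∀ z n a b, Mx (Y z) k p n a b → OpC (msk S B z) n a b r := by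
  have e3 : ‖(2 : ℂ)‖ = 2 := by simp
  constructor
  · intro h z n a b hM
    refine fun ξ ζ => scale (by positivity) (fun ξ ζ hξ hζ => ?_) ξ ζ
    have h1 := h ⟨z, n, a, b, ξ, ζ⟩ ⟨hM, hξ, hζ⟩
    rw [sum_cf, norm_div, norm_pow, e3, div_le_iff₀ (by positivity)] at h1
    exact h1
  · intro h i hi
    rw [sum_cf, norm_div, norm_pow, e3, div_le_iff₀ (by positivity)]
    refine (h i.z i.n i.a i.b hi.1 i.ξ i.ζ).trans ?_
    have h1 : Real.sqrt (∑ u ∈ dI i.n i.a, ‖i.ξ u‖ ^ 2) ≤ 1 := Real.sqrt_le_one.2 hi.2.1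
    have h2 : Real.sqrt (∑ v ∈ dI i.n i.b, ‖i.ζ v‖ ^ 2) ≤ 1 := Real.sqrt_le_one.2 hi.2.2
    have h3 := mul_le_one₀ h1 (Real.sqrt_nonneg _) h2
    have h4 : 0 ≤ r * 2 ^ i.n := by positivity
    exact (mul_le_mul_of_nonneg_left h3 h4).trans (le_of_eq (mul_one _))

/-- the gauge = operator norms of the maximal cells -/
theorem N_iff {p : Nd} {B : ℤ × ℤ × ℤ → ℂ} {r : ℝ} (hr : 0 ≤ r) :
    NmP S cf (okc Y k) p B ≤ r ↔
      ∀ z n a b, Mx (Y z) k p n a b → OpC (msk S B z) n a b r := by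
  rw [← test_iff hr]
  exact ⟨fun h i hi => (le_NmP (cf_le Y k) B hi).trans h, fun h => NmP_le hr h⟩

open Classical in
/-- **the band system of the Whitney cells** -/
theorem bnd_cell (Y : ℤ → ℤ → ℤ → ℤ) (k : ℕ) (S : Finset (ℤ × ℤ × ℤ)) {ν : ℝ} (hν : 0 < ν)
    (hf : ∀ y, ν * (S.filter (fun ω => Y ω.1 ω.2.1 ω.2.2 = y)).card ≤ 1) :
    Bnd (fun p => S.filter (fun ω => Y ω.1 ω.2.1 ω.2.2 ∈ iv p))
      (fun ω => Y ω.1 ω.2.1 ω.2.2) (NmP S cf (okc Y k)) ν := by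
  refine bnd_mkP (C := 1) _ (cf_le Y k) hν hf ?_
  intro r m l A B hr hA hB h h'
  rw [test_iff hr] at h h' ⊢
  intro z n a b hM
  have h0 : ∀ u v, Y z u v ∉ iv (m, 2 * l) → msk S A z u v = 0 := by
    intro u v huv
    unfold msk
    split_ifs
    · exact hA (z, u, v) huv
    · rfl
  have h1 : ∀ u v, Y z u v ∉ iv (m, 2 * l + 1) → msk S B z u v = 0 := by
    intro u v huv
    unfold msk
    split_ifs
    · exact hB (z, u, v) huv
    · rfl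
  refine (cell_glue' hr h0 h1 (h z) (h' z) hM).congr fun u _ v _ => ?_
  unfold msk
  split_ifs <;> simp

/-! ### cells of one node are disjoint -/

lemma Mx_eq {Z : ℤ → ℤ → ℤ} {p : Nd} {n n' : ℕ} {a b a' b' : ℤ} (h : Mx Z k p n a b)
    (h' : Mx Z k p n' a' b') {u v : ℤ} (hu : u ∈ dI n a) (hu' : u ∈ dI n' a') (hv : v ∈ dI n b)
    (hv' : v ∈ dI n' b') : n = n' ∧ a = a' ∧ b = b' := by
  have main : ∀ {n n' : ℕ} {a b a' b' : ℤ}, Mx Z k p n a b → Mx Z k p n' a' b' →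
      u ∈ dI n a → u ∈ dI n' a' → v ∈ dI n b → v ∈ dI n' b' → ¬ n < n' := by
    intro n n' a b a' b' h h' hu hu' hv hv' hlt
    obtain ⟨j, rfl⟩ : ∃ j, n' = n + 1 + j := ⟨n' - (n + 1), by omega⟩
    have st : ∀ {x c c' : ℤ}, x ∈ dI n c → x ∈ dI (n + 1 + j) c' →
        dI (n + 1) (c / 2) ⊆ dI (n + 1 + j) c' := by
      intro x c c' hx hx'
      have s1 := L0e.dI_sub n 1 c
      rw [pow_one] at s1
      have s2 := L0e.dI_sub (n + 1) j (c / 2)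
      have hx2 := s2 (s1 hx)
      rw [L0e.mem_dI] at hx2 hx'
      rw [← hx', hx2]
      exact s2
    rcases h.2.2 with he | he
    · have := h'.1
      omega
    · exact he (h'.2.1.sub (st hu hu') (st hv hv'))
  have h1 := main h h' hu hu' hv hv'
  have h2 := main h' h hu' hu hv' hv
  obtain rfl : n = n' := by omega
  rw [L0e.mem_dI] at hu hu' hv hv'
  exact ⟨rfl, hu.symm.trans hu', hv.symm.trans hv'⟩

open Classical in
/-- **the projection, cell by cell**: on a maximal cell the nearest admissible kernel is at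
least as close as any masked kernel whose operator norm on this cell is `≤ r 2 ^ n` -/
theorem Pj_cell {ν : ℝ}
    (hB : Bnd (fun p => S.filter (fun ω => Y ω.1 ω.2.1 ω.2.2 ∈ iv p))
      (fun ω => Y ω.1 ω.2.1 ω.2.2) (NmP S cf (okc Y k)) ν) {r : ℝ} (hr : 0 ≤ r) (p : Nd)
    (A : ℤ × ℤ × ℤ → ℂ) {z : ℤ} {n : ℕ} {a b : ℤ} (hM : Mx (Y z) k p n a b)
    {D : ℤ × ℤ × ℤ → ℂ} (hD : OpC (msk S D z) n a b r) :
    ∑ ω ∈ S.filter (fun ω => ω.1 = z ∧ ω.2.1 ∈ dI n a ∧ ω.2.2 ∈ dI n b),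
        ‖A ω - Pj (fun p => S.filter (fun ω => Y ω.1 ω.2.1 ω.2.2 ∈ iv p)) (NmP S cf (okc Y k))
          r p A ω‖ ^ 2
      ≤ ∑ ω ∈ S.filter (fun ω => ω.1 = z ∧ ω.2.1 ∈ dI n a ∧ ω.2.2 ∈ dI n b),
        ‖A ω - D ω‖ ^ 2 := by
  set Bd : Nd → Finset (ℤ × ℤ × ℤ) := fun p => S.filter (fun ω => Y ω.1 ω.2.1 ω.2.2 ∈ iv p)
    with hBd
  set P := Pj Bd (NmP S cf (okc Y k)) r p A with hP
  obtain ⟨hPa, hPm⟩ := Pj_spec hB hr p A
  rw [← hP] at hPa hPm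
  set Cc : Finset (ℤ × ℤ × ℤ) := S.filter (fun ω => ω.1 = z ∧ ω.2.1 ∈ dI n a ∧ ω.2.2 ∈ dI n b)
    with hCc
  have hsub : Cc ⊆ Bd p := by
    intro ω hω
    rw [hCc, Finset.mem_filter] at hω
    rw [hBd]
    refine Finset.mem_filter.2 ⟨hω.1, ?_⟩
    have h1 := hM.2.1 _ hω.2.2.1 _ hω.2.2.2
    rw [hω.2.1]
    exact h1
  -- the competitor
  have hadm : Adm Bd (NmP S cf (okc Y k)) r p (fun ω => if ω ∈ Cc then D ω else P ω) := by
    refine ⟨fun ω hω => ?_, ?_⟩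
    · show (if ω ∈ Cc then D ω else P ω) = 0
      rw [if_neg fun hc => hω (hsub hc)]
      exact hPa.1 ω hω
    · rw [N_iff hr]
      intro z' n' a' b' hM'
      have hP' := (N_iff hr).1 hPa.2 z' n' a' b' hM'
      by_cases hz : z' = z
      · subst hz
        by_cases he : n' = n ∧ a' = a ∧ b' = b
        · obtain ⟨rfl, rfl, rfl⟩ := he
          refine hD.congr fun u hu v hv => ?_
          unfold msk
          by_cases hs : (z', u, v) ∈ S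
          · rw [if_pos hs, if_pos hs]
            refine if_pos ?_
            rw [hCc, Finset.mem_filter]
            exact ⟨hs, rfl, hu, hv⟩
          · rw [if_neg hs, if_neg hs]
        · refine hP'.congr fun u hu v hv => ?_
          unfold msk
          by_cases hs : (z', u, v) ∈ S
          · rw [if_pos hs, if_pos hs]
            refine if_neg fun hc => he ?_
            rw [hCc, Finset.mem_filter] at hc
            exact Mx_eq hM' hM hu hc.2.2.1 hv hc.2.2.2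
          · rw [if_neg hs, if_neg hs]
      · refine hP'.congr fun u hu v hv => ?_
        unfold msk
        by_cases hs : (z', u, v) ∈ S
        · rw [if_pos hs, if_pos hs]
          refine if_neg fun hc => hz ?_
          rw [hCc, Finset.mem_filter] at hc
          exact hc.2.1
        · rw [if_neg hs, if_neg hs]
  have h1 := hPm _ hadm
  unfold dst at h1
  rw [← Finset.sum_sdiff hsub, ← Finset.sum_sdiff hsub] at h1
  have e1 : ∑ ω ∈ Bd p \ Cc, ‖A ω - (if ω ∈ Cc then D ω else P ω)‖ ^ 2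
      = ∑ ω ∈ Bd p \ Cc, ‖A ω - P ω‖ ^ 2 :=
    Finset.sum_congr rfl fun ω hω => by rw [if_neg (Finset.mem_sdiff.1 hω).2]
  have e2 : ∑ ω ∈ Cc, ‖A ω - (if ω ∈ Cc then D ω else P ω)‖ ^ 2
      = ∑ ω ∈ Cc, ‖A ω - D ω‖ ^ 2 :=
    Finset.sum_congr rfl fun ω hω => by rw [if_pos hω]
  rw [e1, e2] at h1
  linarith

/-- on a maximal cell the projection has operator norm `≤ r 2 ^ n` -/
theorem Pj_op {Bd : Nd → Finset (ℤ × ℤ × ℤ)} {pos : ℤ × ℤ × ℤ → ℤ} {ν : ℝ}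
    (hB : Bnd Bd pos (NmP S cf (okc Y k)) ν) {r : ℝ} (hr : 0 ≤ r) (p : Nd)
    (A : ℤ × ℤ × ℤ → ℂ) {z : ℤ} {n : ℕ} {a b : ℤ} (hM : Mx (Y z) k p n a b) :
    OpC (msk S (Pj Bd (NmP S cf (okc Y k)) r p A) z) n a b r :=
  (N_iff hr).1 (Pj_spec hB hr p A).1.2 z n a b hM

end inst

end Crest.Agent.R079.Cel159
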