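import Crest.Agent.R079.ClW_59

/-! R079, Step I in the line model (helper59): clip algebra on rectangles and the GLUED clip.

* `DQ_gap`, `DQ_strong`, `cl_firm`, `cl_cl`, `fac` : Pythagoras, strong convexity, firm nonexpansiveness,
  composition of clips, factorisation with PSD majorants, on a rectangle `S × S'`.
* `G P A r n a b` : on the dyadic cell `(n,a,b)` the kernel which is the clip of `A` on every maximal
  subcell with property `P` (threshold `r 2^k` on a subcell of side `2^k`), zero on dead points.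
  `G_op` : operator norm `≤ r 2^n` on the cell (NO geometry of the strips is used);
  `G_dist` : its squared distance to `A` is the recursive sum `ds` of the cell distances;
  `strong_cell` : `DQ (cell) + Σ |cl_cell - G|² ≤ ds` = nested projection inequality top / exits. -/

set_option autoImplicit false

namespace Crest.Agent.R079.ClW59

open Finset Crest.Agent.R079.Grid Crest.Agent.R079.Growth Crest.Agent.R079.QRed
  Crest.Agent.R079.Qh249 Crest.Agent.R079.TWin Crest.Agent.R079.Whit Crest.Agent.R079.HiF881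

/-- squared norm on a rectangle -/
noncomputable def nq (A : ℤ → ℤ → ℂ) (S S' : Finset ℤ) : ℝ := ∑ x ∈ S, ∑ y ∈ S', ‖A x y‖ ^ 2

lemma nq_nonneg (A : ℤ → ℤ → ℂ) (S S' : Finset ℤ) : 0 ≤ nq A S S' :=
  Finset.sum_nonneg fun _ _ => Finset.sum_nonneg fun _ _ => sq_nonneg _

lemma nq_congr {A A' : ℤ → ℤ → ℂ} {S S' : Finset ℤ} (h : ∀ x ∈ S, ∀ y ∈ S', A x y = A' x y) :
    nq A S S' = nq A' S S' := by
  unfold nq
  exact Finset.sum_congr rfl fun x hx => Finset.sum_congr rfl fun y hy => by rw [h x hx y hy]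

lemma cl_mem (A : ℤ → ℤ → ℂ) {S S' : Finset ℤ} (s : ℝ) (x : {x // x ∈ S}) (y : {y // y ∈ S'}) :
    cl A S S' s x y = clip (fun (x : {x // x ∈ S}) (y : {y // y ∈ S'}) => A x y) s x y := by
  unfold cl
  rw [dif_pos ⟨x.2, y.2⟩]

lemma cl_congr {A A' : ℤ → ℤ → ℂ} {S S' : Finset ℤ} (s : ℝ)
    (h : ∀ x ∈ S, ∀ y ∈ S', A x y = A' x y) : cl A S S' s = cl A' S S' s := by
  have e : (fun (x : {x // x ∈ S}) (y : {y // y ∈ S'}) => A x y) =
      fun (x : {x // x ∈ S}) (y : {y // y ∈ S'}) => A' x y := by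
    funext x y
    exact h x x.2 y y.2
  funext x y
  unfold cl
  rw [e]

/-- Pythagoras with the clip -/
lemma DQ_gap (A : ℤ → ℤ → ℂ) {S S' : Finset ℤ} {s : ℝ} (hs0 : 0 ≤ s) {B : ℤ → ℤ → ℂ}
    (hB : OpS S S' B s) :
    DQ A S S' s + nq (fun x y => cl A S S' s x y - B x y) S S' ≤
      nq (fun x y => A x y - B x y) S S' := by
  have h := clip_dist (fun (x : {x // x ∈ S}) (y : {y // y ∈ S'}) => A x y) hs0 (op_of hB)
  have h2 := hs_sum S S' (fun x y => A x y - B x y)
  have h3 := hs_sum S S' (fun x y => cl A S S' s x y - B x y)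
  have e : (fun (x : {x // x ∈ S}) (y : {y // y ∈ S'}) => cl A S S' s x y - B x y) =
      fun (x : {x // x ∈ S}) (y : {y // y ∈ S'}) =>
        clip (fun (x : {x // x ∈ S}) (y : {y // y ∈ S'}) => A x y) s x y - B x y := by
    funext x y
    rw [cl_mem]
  unfold nq
  rw [← h2, ← h3, e]
  unfold DQ
  exact h

/-- firm nonexpansiveness of clip and residual -/
lemma cl_firm (A A' : ℤ → ℤ → ℂ) (S S' : Finset ℤ) {s : ℝ} (hs0 : 0 ≤ s) :
    nq (fun x y => cl A S S' s x y - cl A' S S' s x y) S S' +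
      nq (fun x y => (A x y - cl A S S' s x y) - (A' x y - cl A' S S' s x y)) S S' ≤
      nq (fun x y => A x y - A' x y) S S' := by
  have h := clip_firm (fun (x : {x // x ∈ S}) (y : {y // y ∈ S'}) => A x y)
    (fun (x : {x // x ∈ S}) (y : {y // y ∈ S'}) => A' x y) hs0
  unfold nq
  rw [← hs_sum S S' (fun x y => cl A S S' s x y - cl A' S S' s x y),
    ← hs_sum S S' (fun x y => (A x y - cl A S S' s x y) - (A' x y - cl A' S S' s x y)),
    ← hs_sum S S' (fun x y => A x y - A' x y)]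
  simp only [cl_mem]
  exact h

/-- strong convexity of the squared distance -/
lemma DQ_strong (A A' : ℤ → ℤ → ℂ) (S S' : Finset ℤ) {s : ℝ} (hs0 : 0 ≤ s) :
    DQ A S S' s + 2 * ∑ x ∈ S, ∑ y ∈ S',
        ((A x y - cl A S S' s x y) * (starRingEnd ℂ) (A' x y - A x y)).re +
      nq (fun x y => (A' x y - cl A' S S' s x y) - (A x y - cl A S S' s x y)) S S' ≤
      DQ A' S S' s := by
  -- `|r'|² = |r|² + 2 <r, r' - r> + |r' - r|²`, `<r, π' - π> ≤ 0`
  have hp := clip_proj (fun (x : {x // x ∈ S}) (y : {y // y ∈ S'}) => A x y) hs0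
    (op_of (cl_op A' S S' hs0))
  have e0 : ∀ F : ℤ → ℤ → ℂ, ip (chi (fun (x : {x // x ∈ S}) (y : {y // y ∈ S'}) => A x y) s)
      (fun (x : {x // x ∈ S}) (y : {y // y ∈ S'}) => F x y) =
      ∑ x ∈ S, ∑ y ∈ S', ((A x y - cl A S S' s x y) * (starRingEnd ℂ) (F x y)).re := by
    intro F
    unfold ip
    rw [← Finset.sum_coe_sort S]
    refine Finset.sum_congr rfl fun x _ => ?_
    rw [← Finset.sum_coe_sort S']
    refine Finset.sum_congr rfl fun y _ => ?_
    rw [cl_mem]
    rfl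
  have e1 := e0 (cl A' S S' s)
  have e2 := e0 (cl A S S' s)
  have e2' : ip (chi (fun (x : {x // x ∈ S}) (y : {y // y ∈ S'}) => A x y) s)
      (clip (fun (x : {x // x ∈ S}) (y : {y // y ∈ S'}) => A x y) s) =
      ∑ x ∈ S, ∑ y ∈ S',
        ((A x y - cl A S S' s x y) * (starRingEnd ℂ) (cl A S S' s x y)).re := by
    rw [← e2]
    congr 1
    funext x y
    rw [cl_mem]
  rw [e1, e2'] at hp
  have key : ∀ x ∈ S, ∀ y ∈ S', ‖A x y - cl A S S' s x y‖ ^ 2 +
      2 * ((A x y - cl A S S' s x y) * (starRingEnd ℂ) (A' x y - A x y)).re +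
      ‖(A' x y - cl A' S S' s x y) - (A x y - cl A S S' s x y)‖ ^ 2 +
      2 * (((A x y - cl A S S' s x y) * (starRingEnd ℂ) (cl A S S' s x y)).re -
        ((A x y - cl A S S' s x y) * (starRingEnd ℂ) (cl A' S S' s x y)).re) =
      ‖A' x y - cl A' S S' s x y‖ ^ 2 := by
    intro x _ y _
    simp only [Complex.sq_norm, Complex.normSq_apply, Complex.mul_re, Complex.conj_re,
      Complex.conj_im, Complex.sub_re, Complex.sub_im]
    ring
  have hsum := Finset.sum_congr rfl fun x hx =>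
    Finset.sum_congr rfl fun y hy => key x hx y hy
  simp only [Finset.sum_add_distrib, ← Finset.mul_sum, Finset.sum_sub_distrib] at hsum
  rw [cl_dist A S S' s, cl_dist A' S S' s] at hsum
  unfold nq
  linarith

/-- clips compose -/
lemma cl_cl (A : ℤ → ℤ → ℂ) (S S' : Finset ℤ) {s t : ℝ} (hs0 : 0 ≤ s) (hst : s ≤ t) :
    cl (cl A S S' t) S S' s = cl A S S' s := by
  have e : (fun (x : {x // x ∈ S}) (y : {y // y ∈ S'}) => cl A S S' t x y) =
      clip (fun (x : {x // x ∈ S}) (y : {y // y ∈ S'}) => A x y) t := by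
    funext x y
    rw [cl_mem]
  funext x y
  unfold cl
  split_ifs with h
  · have e' : (fun (x : {x // x ∈ S}) (y : {y // y ∈ S'}) =>
        (if h : (x : ℤ) ∈ S ∧ (y : ℤ) ∈ S' then
          clip (fun (x : {x // x ∈ S}) (y : {y // y ∈ S'}) => A x y) t ⟨x, h.1⟩ ⟨y, h.2⟩ else 0)) =
        clip (fun (x : {x // x ∈ S}) (y : {y // y ∈ S'}) => A x y) t := e
    rw [e', clip_clip _ hs0 hst]
  · rfl

/-- ladder -/
lemma ladder (A : ℤ → ℤ → ℂ) (S S' : Finset ℤ) {s t : ℝ} (hs0 : 0 ≤ s) (hst : s ≤ t) (x y : ℤ) :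
    A x y - cl A S S' s x y = (cl A S S' t x y - cl (cl A S S' t) S S' s x y) +
      (A x y - cl A S S' t x y) := by
  rw [cl_cl A S S' hs0 hst]
  ring

section glued

open Classical in
/-- glued clip of `A` over the maximal subcells with property `P` -/
noncomputable def G (P : ℕ → ℤ → ℤ → Prop) (A : ℤ → ℤ → ℂ) (r : ℝ) : ℕ → ℤ → ℤ → ℤ → ℤ → ℂ
  | 0, a, b => if P 0 a b then cl A (dI 0 a) (dI 0 b) (r * 2 ^ 0) else fun _ _ => 0
  | n + 1, a, b => if P (n + 1) a b then cl A (dI (n + 1) a) (dI (n + 1) b) (r * 2 ^ (n + 1)) else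
      fun x y => if x ∈ dI n (2 * a) then
        (if y ∈ dI n (2 * b) then G P A r n (2 * a) (2 * b) x y
          else G P A r n (2 * a) (2 * b + 1) x y)
        else (if y ∈ dI n (2 * b) then G P A r n (2 * a + 1) (2 * b) x y
          else G P A r n (2 * a + 1) (2 * b + 1) x y)

open Classical in
/-- recursive sum of the cell distances (dead points: full energy) -/
noncomputable def ds (P : ℕ → ℤ → ℤ → Prop) (A : ℤ → ℤ → ℂ) (r : ℝ) : ℕ → ℤ → ℤ → ℝ
  | 0, a, b => if P 0 a b then DQ A (dI 0 a) (dI 0 b) (r * 2 ^ 0) else nq A (dI 0 a) (dI 0 b)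
  | n + 1, a, b => if P (n + 1) a b then DQ A (dI (n + 1) a) (dI (n + 1) b) (r * 2 ^ (n + 1)) else
      ds P A r n (2 * a) (2 * b) + ds P A r n (2 * a) (2 * b + 1) +
      ds P A r n (2 * a + 1) (2 * b) + ds P A r n (2 * a + 1) (2 * b + 1)

variable {P : ℕ → ℤ → ℤ → Prop} {A : ℤ → ℤ → ℂ} {r : ℝ}

lemma opS_congr {S S' : Finset ℤ} {B C : ℤ → ℤ → ℂ} {t : ℝ} (h : ∀ x ∈ S, ∀ y ∈ S', B x y = C x y)
    (hC : OpS S S' C t) : OpS S S' B t := by
  intro f
  refine le_trans (le_of_eq ?_) (hC f)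
  refine Finset.sum_congr rfl fun x hx => ?_
  rw [Finset.sum_congr rfl fun y hy => by rw [h x hx y hy]]

lemma notin0 {n : ℕ} {a x : ℤ} (hx : x ∈ dI n (2 * a + 1)) : x ∉ dI n (2 * a) := by
  intro h
  rw [L0e.mem_dI] at hx h
  omega

/-- **the glued clip has operator norm `≤ r 2^n` on the whole cell** -/
theorem G_op (hr : 0 ≤ r) (n : ℕ) : ∀ a b, OpS (dI n a) (dI n b) (G P A r n a b) (r * 2 ^ n) := by
  classical
  induction n with
  | zero =>
    intro a b
    rw [G]
    split_ifs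
    · exact cl_op A _ _ (by positivity)
    · exact opS_zero _ _ _
  | succ n ih =>
    intro a b
    rw [G]
    split_ifs
    · exact cl_op A _ _ (by positivity)
    · have e : r * 2 ^ (n + 1) = 2 * (r * 2 ^ n) := by rw [pow_succ]; ring
      rw [e]
      refine opS_glue (L0e.dI_succ n a) (L0e.dI_disj (by omega)) (L0e.dI_succ n b)
        (L0e.dI_disj (by omega)) ?_ ?_ ?_ ?_
      · exact opS_congr (fun x hx y hy => by rw [if_pos hx, if_pos hy]) (ih (2 * a) (2 * b))
      · exact opS_congr (fun x hx y hy => by rw [if_pos hx, if_neg (notin0 hy)])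
          (ih (2 * a) (2 * b + 1))
      · exact opS_congr (fun x hx y hy => by rw [if_neg (notin0 hx), if_pos hy])
          (ih (2 * a + 1) (2 * b))
      · exact opS_congr (fun x hx y hy => by rw [if_neg (notin0 hx), if_neg (notin0 hy)])
          (ih (2 * a + 1) (2 * b + 1))

lemma nq_quad (B : ℤ → ℤ → ℂ) (n : ℕ) (a b : ℤ) : nq B (dI (n + 1) a) (dI (n + 1) b) =
    nq B (dI n (2 * a)) (dI n (2 * b)) + nq B (dI n (2 * a)) (dI n (2 * b + 1)) +
    nq B (dI n (2 * a + 1)) (dI n (2 * b)) + nq B (dI n (2 * a + 1)) (dI n (2 * b + 1)) := by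
  have d1 : Disjoint (dI n (2 * a)) (dI n (2 * a + 1)) := L0e.dI_disj (by omega)
  have d2 : Disjoint (dI n (2 * b)) (dI n (2 * b + 1)) := L0e.dI_disj (by omega)
  have hsp : ∀ T : Finset ℤ, ∑ x ∈ T, ∑ y ∈ dI (n + 1) b, ‖B x y‖ ^ 2 =
      ∑ x ∈ T, ∑ y ∈ dI n (2 * b), ‖B x y‖ ^ 2 + ∑ x ∈ T, ∑ y ∈ dI n (2 * b + 1), ‖B x y‖ ^ 2 := by
    intro T
    rw [← Finset.sum_add_distrib]
    refine Finset.sum_congr rfl fun x _ => ?_
    rw [L0e.dI_succ n b, Finset.sum_union d2]
  unfold nq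
  rw [L0e.dI_succ n a, Finset.sum_union d1, hsp, hsp]
  ring

/-- **distance of the glued clip** -/
theorem G_dist (n : ℕ) : ∀ a b,
    nq (fun x y => A x y - G P A r n a b x y) (dI n a) (dI n b) = ds P A r n a b := by
  classical
  induction n with
  | zero =>
    intro a b
    rw [G, ds]
    split_ifs
    · exact cl_dist A _ _ _
    · simp
  | succ n ih =>
    intro a b
    rw [G, ds]
    split_ifs
    · exact cl_dist A _ _ _
    · rw [nq_quad, ← ih, ← ih, ← ih, ← ih]
      congr 1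
      · congr 1
        · congr 1
          · exact nq_congr fun x hx y hy => by beta_reduce; rw [if_pos hx, if_pos hy]
          · exact nq_congr fun x hx y hy => by beta_reduce; rw [if_pos hx, if_neg (notin0 hy)]
        · exact nq_congr fun x hx y hy => by beta_reduce; rw [if_neg (notin0 hx), if_pos hy]
      · exact nq_congr fun x hx y hy => by beta_reduce; rw [if_neg (notin0 hx), if_neg (notin0 hy)]

/-- **nested projections**: cell clip against the glued clip of the exits -/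
theorem strong_cell (hr : 0 ≤ r) (n : ℕ) (a b : ℤ) :
    DQ A (dI n a) (dI n b) (r * 2 ^ n) +
      nq (fun x y => cl A (dI n a) (dI n b) (r * 2 ^ n) x y - G P A r n a b x y) (dI n a) (dI n b) ≤
      ds P A r n a b := by
  have h := DQ_gap A (S := dI n a) (S' := dI n b) (s := r * 2 ^ n) (by positivity)
    (G_op (P := P) (A := A) hr n a b)
  rw [G_dist] at h
  exact h

end glued

end Crest.Agent.R079.ClW59
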