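import Crest.Agent.R079.CelB_159
import Crest.Agent.R079.ClX_59

/-! R079 (helper159): on a maximal cell the projection of `CelB_159` IS helper881's singular value
clip (helper59's `cl` on rectangles), for product masks. -/

set_option autoImplicit false

namespace Crest.Agent.R079.Cel159

open Finset Crest.Agent.R079.Grid Crest.Agent.R079.Growth Crest.Agent.R079.QRed
  Crest.Agent.R079.Qh249 Crest.Agent.R079.QVar181 Crest.Agent.R079.TWin
open Crest.Agent.R079.ThA159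
open Crest.Agent.R079.Whit (Ins Ins.mono Ins.sub sub0 sub1)
open Crest.Agent.R079.ClW59 (OpS DQ cl nq DQ_gap cl_op cl_dist)

lemma opC_of_opS {K : ℤ → ℤ → ℂ} {n : ℕ} {a b : ℤ} {s : ℝ} (hs : 0 ≤ s)
    (h : OpS (dI n a) (dI n b) K (s * 2 ^ n)) : OpC K n a b s := by
  intro ξ ζ
  have e : ∑ u ∈ dI n a, ∑ v ∈ dI n b, K u v * (ξ u * ζ v)
      = ∑ u ∈ dI n a, ξ u * ∑ v ∈ dI n b, K u v * ζ v := by
    refine Finset.sum_congr rfl fun u _ => ?_
    rw [Finset.mul_sum]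
    exact Finset.sum_congr rfl fun v _ => by ring
  rw [e]
  have h1 : ‖∑ u ∈ dI n a, ξ u * ∑ v ∈ dI n b, K u v * ζ v‖
      ≤ ∑ u ∈ dI n a, ‖ξ u‖ * ‖∑ v ∈ dI n b, K u v * ζ v‖ := by
    refine (norm_sum_le _ _).trans (le_of_eq ?_)
    exact Finset.sum_congr rfl fun u _ => norm_mul _ _
  have h2 := Real.sum_mul_le_sqrt_mul_sqrt (dI n a) (fun u => ‖ξ u‖)
    (fun u => ‖∑ v ∈ dI n b, K u v * ζ v‖)
  have h3 : Real.sqrt (∑ u ∈ dI n a, ‖∑ v ∈ dI n b, K u v * ζ v‖ ^ 2)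
      ≤ s * 2 ^ n * Real.sqrt (∑ v ∈ dI n b, ‖ζ v‖ ^ 2) := by
    have h4 := Real.sqrt_le_sqrt (h ζ)
    rw [Real.sqrt_mul (by positivity), Real.sqrt_sq (by positivity)] at h4
    exact h4
  have h5 := mul_le_mul_of_nonneg_left h3 (Real.sqrt_nonneg (∑ u ∈ dI n a, ‖ξ u‖ ^ 2))
  calc _ ≤ _ := h1
    _ ≤ _ := h2
    _ ≤ _ := h5
    _ = _ := by ring

lemma opS_of_opC {K : ℤ → ℤ → ℂ} {n : ℕ} {a b : ℤ} {s : ℝ}
    (h : OpC K n a b s) : OpS (dI n a) (dI n b) K (s * 2 ^ n) := by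
  intro f
  set g : ℤ → ℂ := fun u => ∑ v ∈ dI n b, K u v * f v with hg
  set G : ℝ := ∑ u ∈ dI n a, ‖g u‖ ^ 2 with hG
  have hG0 : 0 ≤ G := Finset.sum_nonneg fun _ _ => sq_nonneg _
  have h1 := h (fun u => starRingEnd ℂ (g u)) f
  have e : ∑ u ∈ dI n a, ∑ v ∈ dI n b, K u v * (starRingEnd ℂ (g u) * f v) = (G : ℂ) := by
    rw [hG]
    push_cast
    refine Finset.sum_congr rfl fun u _ => ?_
    have e1 : ∑ v ∈ dI n b, K u v * (starRingEnd ℂ (g u) * f v) = starRingEnd ℂ (g u) * g u := by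
      rw [hg]
      simp only
      rw [Finset.mul_sum]
      exact Finset.sum_congr rfl fun v _ => by ring
    rw [e1, mul_comm, Complex.mul_conj, Complex.normSq_eq_norm_sq]
    push_cast
    ring
  rw [e, Complex.norm_real, Real.norm_eq_abs, abs_of_nonneg hG0] at h1
  have e2 : ∑ u ∈ dI n a, ‖starRingEnd ℂ (g u)‖ ^ 2 = G := by
    rw [hG]
    exact Finset.sum_congr rfl fun u _ => by rw [RCLike.norm_conj]
  rw [e2] at h1
  show G ≤ (s * 2 ^ n) ^ 2 * ∑ v ∈ dI n b, ‖f v‖ ^ 2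
  have hF0 : 0 ≤ ∑ v ∈ dI n b, ‖f v‖ ^ 2 := Finset.sum_nonneg fun _ _ => sq_nonneg _
  rcases hG0.eq_or_lt with h0 | hpos
  · rw [← h0]
    positivity
  · have hsq : 0 < Real.sqrt G := Real.sqrt_pos.2 hpos
    have h2 : Real.sqrt G * Real.sqrt G = G := Real.mul_self_sqrt hG0
    have h3 : Real.sqrt G ≤ s * 2 ^ n * Real.sqrt (∑ v ∈ dI n b, ‖f v‖ ^ 2) := by
      have h4 : Real.sqrt G * Real.sqrt G
          ≤ (s * 2 ^ n * Real.sqrt (∑ v ∈ dI n b, ‖f v‖ ^ 2)) * Real.sqrt G := by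
        rw [h2]
        refine h1.trans (le_of_eq ?_)
        ring
      exact le_of_mul_le_mul_right h4 hsq
    calc G = Real.sqrt G ^ 2 := (Real.sq_sqrt hG0).symm
      _ ≤ (s * 2 ^ n * Real.sqrt (∑ v ∈ dI n b, ‖f v‖ ^ 2)) ^ 2 :=
        pow_le_pow_left₀ hsq.le h3 2
      _ = _ := by rw [mul_pow, Real.sq_sqrt hF0]

section inst

variable {Y : ℤ → ℤ → ℤ → ℤ} {k : ℕ} {T₀ T₁ T₂ : Finset ℤ}

open Classical in
/-- restricting a kernel to a product mask does not increase the operator norm of a cell -/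
lemma OpC.mask {K : ℤ → ℤ → ℂ} {n : ℕ} {a b : ℤ} {s : ℝ} (hs : 0 ≤ s) (h : OpC K n a b s)
    (P Q : ℤ → Prop) : OpC (fun u v => if P u ∧ Q v then K u v else 0) n a b s := by
  intro ξ ζ
  have e : ∑ u ∈ dI n a, ∑ v ∈ dI n b, (if P u ∧ Q v then K u v else 0) * (ξ u * ζ v)
      = ∑ u ∈ dI n a, ∑ v ∈ dI n b, K u v * ((if P u then ξ u else 0) *
        (if Q v then ζ v else 0)) := by
    refine Finset.sum_congr rfl fun u _ => Finset.sum_congr rfl fun v _ => ?_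
    by_cases hp : P u <;> by_cases hq : Q v <;> simp [hp, hq]
  rw [e]
  refine (h _ _).trans ?_
  have hm : ∀ (T : Finset ℤ) (R : ℤ → Prop) (φ : ℤ → ℂ),
      Real.sqrt (∑ u ∈ T, ‖if R u then φ u else 0‖ ^ 2) ≤ Real.sqrt (∑ u ∈ T, ‖φ u‖ ^ 2) := by
    intro T R φ
    refine Real.sqrt_le_sqrt (Finset.sum_le_sum fun u _ => ?_)
    split_ifs
    · exact le_rfl
    · rw [norm_zero, zero_pow two_ne_zero]
      exact sq_nonneg _
  refine mul_le_mul_of_nonneg_left ?_ (by positivity)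
  exact mul_le_mul (hm _ _ _) (hm _ _ _) (Real.sqrt_nonneg _) (Real.sqrt_nonneg _)

open Classical in
/-- **bridge**: on a maximal cell the projection is the clip of the masked kernel -/
theorem Pj_eq_cl {ν : ℝ}
    (hB : Bnd (fun p => (T₀ ×ˢ T₁ ×ˢ T₂).filter (fun ω => Y ω.1 ω.2.1 ω.2.2 ∈ iv p))
      (fun ω => Y ω.1 ω.2.1 ω.2.2) (NmP (T₀ ×ˢ T₁ ×ˢ T₂) cf (okc Y k)) ν) {r : ℝ} (hr : 0 ≤ r)
    (p : Nd) (A : ℤ × ℤ × ℤ → ℂ) {z : ℤ} (hz : z ∈ T₀) {n : ℕ} {a b : ℤ}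
    (hM : Mx (Y z) k p n a b) {u v : ℤ} (hu : u ∈ dI n a) (hv : v ∈ dI n b) :
    msk (T₀ ×ˢ T₁ ×ˢ T₂) (Pj (fun p => (T₀ ×ˢ T₁ ×ˢ T₂).filter
      (fun ω => Y ω.1 ω.2.1 ω.2.2 ∈ iv p)) (NmP (T₀ ×ˢ T₁ ×ˢ T₂) cf (okc Y k)) r p A) z u v
      = cl (msk (T₀ ×ˢ T₁ ×ˢ T₂) A z) (dI n a) (dI n b) (r * 2 ^ n) u v := by
  set S : Finset (ℤ × ℤ × ℤ) := T₀ ×ˢ T₁ ×ˢ T₂ with hS
  set P := Pj (fun p => S.filter (fun ω => Y ω.1 ω.2.1 ω.2.2 ∈ iv p)) (NmP S cf (okc Y k)) r p A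
    with hP
  set C : ℤ → ℤ → ℂ := cl (msk S A z) (dI n a) (dI n b) (r * 2 ^ n) with hC
  have hr2 : 0 ≤ r * 2 ^ n := by positivity
  have hmem : ∀ u v, (z, u, v) ∈ S ↔ u ∈ T₁ ∧ v ∈ T₂ := by
    intro u v
    rw [hS, Finset.mem_product, Finset.mem_product]
    exact ⟨fun h => h.2, fun h => ⟨hz, h⟩⟩
  have hCop : OpC C n a b r := opC_of_opS hr (cl_op _ _ _ hr2)
  have hDop : OpC (msk S (fun ω => C ω.2.1 ω.2.2) z) n a b r := by
    refine (hCop.mask hr (fun u => u ∈ T₁) (fun v => v ∈ T₂)).congr fun u _ v _ => ?_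
    unfold msk
    by_cases h : (z, u, v) ∈ S
    · rw [if_pos h, if_pos ((hmem u v).1 h)]
    · rw [if_neg h, if_neg fun h' => h ((hmem u v).2 h')]
  have h1 := Pj_cell hB hr p A hM hDop
  rw [← hP] at h1
  have hPop := opS_of_opC (Pj_op hB hr p A hM)
  rw [← hP] at hPop
  have h2 := DQ_gap (msk S A z) hr2 hPop
  have h3 := cl_dist (msk S A z) (dI n a) (dI n b) (r * 2 ^ n)
  rw [← hC] at h2 h3
  -- sums over the cell
  have hsum : ∀ D : ℤ × ℤ × ℤ → ℂ, ∑ ω ∈ S.filter (fun ω => ω.1 = z ∧ ω.2.1 ∈ dI n a ∧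
      ω.2.2 ∈ dI n b), ‖A ω - D ω‖ ^ 2
      = ∑ u ∈ dI n a, ∑ v ∈ dI n b, if (z, u, v) ∈ S then ‖A (z, u, v) - D (z, u, v)‖ ^ 2 else 0 := by
    intro D
    rw [← Finset.sum_product', ← Finset.sum_filter]
    refine Finset.sum_bij' (fun ω _ => ω.2) (fun q _ => (z, q)) ?_ ?_ ?_ ?_ ?_
    · intro ω hω
      rw [Finset.mem_filter] at hω
      rw [Finset.mem_filter, Finset.mem_product]
      refine ⟨hω.2.2, ?_⟩
      show (z, ω.2) ∈ S
      rw [← hω.2.1]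
      exact hω.1
    · intro q hq
      rw [Finset.mem_filter, Finset.mem_product] at hq
      rw [Finset.mem_filter]
      exact ⟨hq.2, rfl, hq.1⟩
    · intro ω hω
      rw [Finset.mem_filter] at hω
      show (z, ω.2) = ω
      rw [← hω.2.1]
    · intro q _
      rfl
    · intro ω hω
      rw [Finset.mem_filter] at hω
      show ‖A ω - D ω‖ ^ 2 = ‖A (z, ω.2) - D (z, ω.2)‖ ^ 2
      rw [← hω.2.1]
  rw [hsum, hsum] at h1
  have e1 : nq (fun x y => msk S A z x y - msk S P z x y) (dI n a) (dI n b)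
      = ∑ u ∈ dI n a, ∑ v ∈ dI n b, if (z, u, v) ∈ S then ‖A (z, u, v) - P (z, u, v)‖ ^ 2 else 0 := by
    unfold nq
    refine Finset.sum_congr rfl fun u _ => Finset.sum_congr rfl fun v _ => ?_
    show ‖msk S A z u v - msk S P z u v‖ ^ 2 = _
    unfold msk
    by_cases h : (z, u, v) ∈ S
    · rw [if_pos h, if_pos h, if_pos h]
    · rw [if_neg h, if_neg h, if_neg h, sub_zero, norm_zero, zero_pow two_ne_zero]
  have e2 : ∑ u ∈ dI n a, ∑ v ∈ dI n b, (if (z, u, v) ∈ S then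
        ‖A (z, u, v) - C u v‖ ^ 2 else 0)
      ≤ ∑ u ∈ dI n a, ∑ v ∈ dI n b, ‖msk S A z u v - C u v‖ ^ 2 := by
    refine Finset.sum_le_sum fun u _ => Finset.sum_le_sum fun v _ => ?_
    unfold msk
    by_cases h : (z, u, v) ∈ S
    · rw [if_pos h, if_pos h]
    · rw [if_neg h]
      exact sq_nonneg _
  have h4 : nq (fun x y => C x y - msk S P z x y) (dI n a) (dI n b) ≤ 0 := by
    have h5 : ∑ u ∈ dI n a, ∑ v ∈ dI n b, (if (z, u, v) ∈ S then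
        ‖A (z, u, v) - P (z, u, v)‖ ^ 2 else 0) ≤ DQ (msk S A z) (dI n a) (dI n b) (r * 2 ^ n) := by
      refine h1.trans (le_trans ?_ (le_of_eq h3))
      exact e2
    rw [e1] at h2
    linarith
  unfold nq at h4
  have h5 : ∑ u ∈ dI n a, ∑ v ∈ dI n b, ‖C u v - msk S P z u v‖ ^ 2 = 0 :=
    le_antisymm h4 (Finset.sum_nonneg fun _ _ => Finset.sum_nonneg fun _ _ => sq_nonneg _)
  have h6 := (Finset.sum_eq_zero_iff_of_nonneg fun _ _ =>
    Finset.sum_nonneg fun _ _ => sq_nonneg _).1 h5 u hu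
  have h7 := (Finset.sum_eq_zero_iff_of_nonneg fun _ _ => sq_nonneg _).1 h6 v hv
  have h8 : C u v - msk S P z u v = 0 := by
    have := pow_eq_zero_iff (two_ne_zero) |>.1 h7
    exact norm_eq_zero.1 this
  exact (sub_eq_zero.1 h8).symm

end inst

end Crest.Agent.R079.Cel159
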