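import Crest.Agent.R079.PjC_881

/-! R079, S1 (c) (helper881): for a band system (ThA_159) whose node `p` splits into disjoint
rectangles (cells) with `Adm r p B ↔ op ≤ r w` on every cell, the projection `Pj` IS the clip on every
cell; hence `comp` (`Pj r (Pj r' A) = Pj r A`, `r ≤ r'`) and `top` of 778's `el_ladder`. -/

set_option autoImplicit false

namespace Crest.Agent.R079.PjC881

open Finset Crest.Agent.R079.Grid Crest.Agent.R079.Growth Crest.Agent.R079.QRed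
  Crest.Agent.R079.Qh249 Crest.Agent.R079.TWin Crest.Agent.R079.HiF881
  Crest.Agent.R079.ClW59 Crest.Agent.R079.ThA159

/-- the node `p` splits into cells `{z c} × S c × T c` with weights `w c` -/
structure Split {κ : Type*} (Bd : Nd → Finset (ℤ × ℤ × ℤ)) (N : Nd → (ℤ × ℤ × ℤ → ℂ) → ℝ) (p : Nd)
    (cells : Finset κ) (z : κ → ℤ) (S T : κ → Finset ℤ) (w : κ → ℝ) : Prop where
  mem : ∀ ω, ω ∈ Bd p ↔ ∃ c ∈ cells, ω ∈ ({z c} : Finset ℤ) ×ˢ (S c ×ˢ T c)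
  dj : ∀ c ∈ cells, ∀ c' ∈ cells, c ≠ c' →
    ∀ ω, ω ∈ ({z c} : Finset ℤ) ×ˢ (S c ×ˢ T c) → ω ∉ ({z c'} : Finset ℤ) ×ˢ (S c' ×ˢ T c')
  w0 : ∀ c ∈ cells, 0 ≤ w c
  adm : ∀ r : ℝ, 0 ≤ r → ∀ B : ℤ × ℤ × ℤ → ℂ, (∀ ω, ω ∉ Bd p → B ω = 0) →
    (N p B ≤ r ↔ ∀ c ∈ cells, OpS (S c) (T c) (fun u v => B (z c, u, v)) (r * w c))

theorem opS_congr {S T : Finset ℤ} {B B' : ℤ → ℤ → ℂ} {s : ℝ} (h : OpS S T B s)
    (e : ∀ u ∈ S, ∀ v ∈ T, B u v = B' u v) : OpS S T B' s := by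
  intro f
  refine le_trans (le_of_eq ?_) (h f)
  refine Finset.sum_congr rfl fun u hu => ?_
  congr 2
  exact Finset.sum_congr rfl fun v hv => by rw [e u hu v hv]

theorem cl_congr' {A A' : ℤ → ℤ → ℂ} {S T : Finset ℤ} {s : ℝ}
    (h : ∀ u ∈ S, ∀ v ∈ T, A u v = A' u v) : cl A S T s = cl A' S T s := by
  have e : (fun (x : {x // x ∈ S}) (y : {y // y ∈ T}) => A x y) =
      fun (x : {x // x ∈ S}) (y : {y // y ∈ T}) => A' x y := by
    funext x y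
    exact h x x.2 y y.2
  funext x y
  unfold cl
  rw [e]

variable {κ : Type*} {Bd : Nd → Finset (ℤ × ℤ × ℤ)} {pos : ℤ × ℤ × ℤ → ℤ}
  {N : Nd → (ℤ × ℤ × ℤ → ℂ) → ℝ} {ν : ℝ} {p : Nd}
  {cells : Finset κ} {z : κ → ℤ} {S T : κ → Finset ℤ} {w : κ → ℝ}

/-- the projection is the clip on every cell -/
theorem Pj_cell (hB : Bnd Bd pos N ν) (hs : Split Bd N p cells z S T w) {r : ℝ} (hr : 0 ≤ r)
    (A : ℤ × ℤ × ℤ → ℂ) {c : κ} (hc : c ∈ cells) :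
    ∀ u ∈ S c, ∀ v ∈ T c, Pj Bd N r p A (z c, u, v)
      = cl (fun u v => A (z c, u, v)) (S c) (T c) (r * w c) u v := by
  classical
  obtain ⟨hP, hmin⟩ := Pj_spec hB hr p A
  set P : ℤ × ℤ × ℤ → ℂ := Pj Bd N r p A with hPd
  have hop := (hs.adm r hr P hP.1).1 hP.2
  set F : Finset (ℤ × ℤ × ℤ) := ({z c} : Finset ℤ) ×ˢ (S c ×ˢ T c) with hF
  have hFB : F ⊆ Bd p := fun ω hω => (hs.mem ω).2 ⟨c, hc, hω⟩
  refine near_eq_cl (mul_nonneg hr (hs.w0 c hc)) (hop c hc) fun C hC => ?_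
  set B' : ℤ × ℤ × ℤ → ℂ := fun ω => if ω ∈ F then C ω.2.1 ω.2.2 else P ω with hB'
  have hsupp : ∀ ω, ω ∉ Bd p → B' ω = 0 := by
    intro ω hω
    have h1 : ω ∉ F := fun h => hω (hFB h)
    simp only [hB', if_neg h1]
    exact hP.1 ω hω
  have hadm : Adm Bd N r p B' := by
    refine ⟨hsupp, (hs.adm r hr B' hsupp).2 ?_⟩
    intro c' hc'
    by_cases e : c' = c
    · subst e
      refine opS_congr hC fun u hu v hv => ?_
      have h1 : ((z c', u, v) : ℤ × ℤ × ℤ) ∈ F := by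
        rw [hF]; simp [hu, hv]
      simp only [hB', if_pos h1]
    · refine opS_congr (hop c' hc') fun u hu v hv => ?_
      have h1 : ((z c', u, v) : ℤ × ℤ × ℤ) ∈ ({z c'} : Finset ℤ) ×ˢ (S c' ×ˢ T c') := by
        simp [hu, hv]
      have h2 : ((z c', u, v) : ℤ × ℤ × ℤ) ∉ F := hs.dj c' hc' c hc e _ h1
      simp only [hB', if_neg h2]
  have h1 := hmin B' hadm
  unfold dst at h1
  rw [← Finset.sum_sdiff hFB, ← Finset.sum_sdiff hFB (f := fun ω => ‖A ω - B' ω‖ ^ 2)] at h1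
  have h2 : ∑ ω ∈ Bd p \ F, ‖A ω - B' ω‖ ^ 2 = ∑ ω ∈ Bd p \ F, ‖A ω - P ω‖ ^ 2 := by
    refine Finset.sum_congr rfl fun ω hω => ?_
    rw [Finset.mem_sdiff] at hω
    simp only [hB', if_neg hω.2]
  rw [h2] at h1
  have h3 : ∑ ω ∈ F, ‖A ω - P ω‖ ^ 2 ≤ ∑ ω ∈ F, ‖A ω - B' ω‖ ^ 2 := by linarith
  have h4 : ∑ ω ∈ F, ‖A ω - B' ω‖ ^ 2 = ∑ ω ∈ F, ‖A ω - C ω.2.1 ω.2.2‖ ^ 2 := by
    refine Finset.sum_congr rfl fun ω hω => ?_
    simp only [hB', if_pos hω]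
  rw [h4] at h3
  rw [hF] at h3
  simp only [Finset.sum_product, Finset.sum_singleton] at h3
  exact h3

/-- **comp** -/
theorem Pj_comp (hB : Bnd Bd pos N ν) (hs : Split Bd N p cells z S T w) {r r' : ℝ} (hr : 0 ≤ r)
    (hrr : r ≤ r') (A : ℤ × ℤ × ℤ → ℂ) :
    ∀ ω ∈ Bd p, Pj Bd N r p (Pj Bd N r' p A) ω = Pj Bd N r p A ω := by
  intro ω hω
  obtain ⟨c, hc, hm⟩ := (hs.mem ω).1 hω
  rw [Finset.mem_product, Finset.mem_product, Finset.mem_singleton] at hm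
  obtain ⟨h1, h2, h3⟩ := hm
  have e : ω = (z c, ω.2.1, ω.2.2) := by rw [← h1]
  have hw := hs.w0 c hc
  rw [e, Pj_cell hB hs hr _ hc _ h2 _ h3, Pj_cell hB hs hr _ hc _ h2 _ h3]
  have h4 : ∀ u ∈ S c, ∀ v ∈ T c, Pj Bd N r' p A (z c, u, v)
      = cl (fun u v => A (z c, u, v)) (S c) (T c) (r' * w c) u v :=
    Pj_cell hB hs (hr.trans hrr) A hc
  rw [cl_congr' h4]
  have h5 := cl_cl (fun u v => A (z c, u, v)) (S c) (T c) (mul_nonneg hr hw)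
    (mul_le_mul_of_nonneg_right hrr hw)
  exact congrFun (congrFun h5 _) _

/-- **top**: the projection of an admissible kernel is the kernel itself -/
theorem Pj_top (hB : Bnd Bd pos N ν) {r : ℝ} (hr : 0 ≤ r) {A : ℤ × ℤ × ℤ → ℂ}
    (hA : Adm Bd N r p A) : ∀ ω ∈ Bd p, Pj Bd N r p A ω = A ω := by
  obtain ⟨_, hmin⟩ := Pj_spec hB hr p A
  have h1 := hmin A hA
  have h2 : dst Bd p A A = 0 := by
    unfold dst; simp
  rw [h2] at h1
  have h3 : dst Bd p A (Pj Bd N r p A) = 0 := le_antisymm h1 (dst_nonneg _ _ _)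
  intro ω hω
  unfold dst at h3
  have h4 := (Finset.sum_eq_zero_iff_of_nonneg (fun _ _ => sq_nonneg _)).1 h3 ω hω
  have h5 : A ω - Pj Bd N r p A ω = 0 := by simpa using h4
  exact (sub_eq_zero.1 h5).symm

end Crest.Agent.R079.PjC881
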