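import Crest.Agent.R079.CelC_159
import Crest.Agent.R079.PjD_881

/-! R079 (helper159): the Whitney-cell band system `bnd_cell` splits into disjoint rectangles in the
sense of helper881's `PjC881.Split` (product masks). -/

set_option autoImplicit false

namespace Crest.Agent.R079.Cel159

open Finset Crest.Agent.R079.Grid Crest.Agent.R079.Growth Crest.Agent.R079.QRed
  Crest.Agent.R079.Qh249 Crest.Agent.R079.QVar181 Crest.Agent.R079.TWin
open Crest.Agent.R079.ThA159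
open Crest.Agent.R079.Whit (Ins Ins.mono Ins.sub sub0 sub1)
open Crest.Agent.R079.ClW59 (OpS)

variable {Y : ℤ → ℤ → ℤ → ℤ} {k : ℕ} {T₀ T₁ T₂ : Finset ℤ}

open Classical in
/-- scale of the maximal cell of a point -/
noncomputable def sc (Y : ℤ → ℤ → ℤ → ℤ) (k : ℕ) (p : Nd) (ω : ℤ × ℤ × ℤ) : ℕ :=
  Nat.findGreatest (fun n => Ins (Y ω.1) (iv p) n (ω.2.1 / 2 ^ n) (ω.2.2 / 2 ^ n)) (p.1 + k)

/-- maximal cell of a point -/
noncomputable def mcell (Y : ℤ → ℤ → ℤ → ℤ) (k : ℕ) (p : Nd) (ω : ℤ × ℤ × ℤ) :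
    ℤ × ℕ × ℤ × ℤ :=
  (ω.1, sc Y k p ω, ω.2.1 / 2 ^ sc Y k p ω, ω.2.2 / 2 ^ sc Y k p ω)

lemma Mx_mcell {p : Nd} {ω : ℤ × ℤ × ℤ} (h : Y ω.1 ω.2.1 ω.2.2 ∈ iv p) :
    Mx (Y ω.1) k p (sc Y k p ω) (ω.2.1 / 2 ^ sc Y k p ω) (ω.2.2 / 2 ^ sc Y k p ω) := by
  classical
  have h0 : Ins (Y ω.1) (iv p) 0 (ω.2.1 / 2 ^ 0) (ω.2.2 / 2 ^ 0) := by
    intro z hz z' hz'
    rw [L0e.mem_dI] at hz hz'
    simp only [pow_zero, Int.ediv_one] at hz hz'
    rw [hz, hz']
    exact h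
  have h1 : Ins (Y ω.1) (iv p) (sc Y k p ω) (ω.2.1 / 2 ^ sc Y k p ω)
      (ω.2.2 / 2 ^ sc Y k p ω) := by
    unfold sc
    exact Nat.findGreatest_spec
      (P := fun n => Ins (Y ω.1) (iv p) n (ω.2.1 / 2 ^ n) (ω.2.2 / 2 ^ n)) (Nat.zero_le _) h0
  have h2 : sc Y k p ω ≤ p.1 + k := by
    unfold sc
    exact Nat.findGreatest_le _
  refine ⟨h2, h1, ?_⟩
  by_cases he : sc Y k p ω = p.1 + k
  · exact Or.inl he
  · refine Or.inr fun hi => ?_
    have e : ∀ x : ℤ, x / 2 ^ sc Y k p ω / 2 = x / 2 ^ (sc Y k p ω + 1) := by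
      intro x
      rw [pow_succ, Int.ediv_ediv_of_nonneg (by positivity)]
    rw [e, e] at hi
    have h3 : sc Y k p ω + 1 ≤ sc Y k p ω := by
      conv_rhs => unfold sc
      exact Nat.le_findGreatest
        (P := fun n => Ins (Y ω.1) (iv p) n (ω.2.1 / 2 ^ n) (ω.2.2 / 2 ^ n)) (by omega) hi
    omega

lemma opS_sub {S S' T T' : Finset ℤ} {K : ℤ → ℤ → ℂ} {s : ℝ} (hS : S' ⊆ S) (hT : T' ⊆ T)
    (h : OpS S T K s) : OpS S' T' K s := by
  classical
  intro f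
  have h1 := h (fun v => if v ∈ T' then f v else 0)
  have e1 : ∀ u : ℤ, ∑ v ∈ T, K u v * (if v ∈ T' then f v else 0) = ∑ v ∈ T', K u v * f v := by
    intro u
    rw [← Finset.sum_subset hT]
    · exact Finset.sum_congr rfl fun v hv => by rw [if_pos hv]
    · intro v _ hv
      rw [if_neg hv, mul_zero]
  have e2 : ∑ v ∈ T, ‖if v ∈ T' then f v else 0‖ ^ 2 = ∑ v ∈ T', ‖f v‖ ^ 2 := by
    rw [← Finset.sum_subset hT]
    · exact Finset.sum_congr rfl fun v hv => by rw [if_pos hv]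
    · intro v _ hv
      rw [if_neg hv, norm_zero, zero_pow two_ne_zero]
  simp only [e1] at h1
  rw [e2] at h1
  exact (Finset.sum_le_sum_of_subset_of_nonneg hS fun _ _ _ => sq_nonneg _).trans h1

lemma opS_ext {S S' T T' : Finset ℤ} {K K' : ℤ → ℤ → ℂ} {s : ℝ} (hS : S' ⊆ S) (hT : T' ⊆ T)
    (h : OpS S' T' K s) (e : ∀ u ∈ S', ∀ v ∈ T', K' u v = K u v)
    (e0 : ∀ u ∈ S, ∀ v ∈ T, ¬ (u ∈ S' ∧ v ∈ T') → K' u v = 0) : OpS S T K' s := by
  classical
  intro f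
  have e1 : ∀ u ∈ S', ∑ v ∈ T, K' u v * f v = ∑ v ∈ T', K u v * f v := by
    intro u hu
    rw [← Finset.sum_subset hT]
    · exact Finset.sum_congr rfl fun v hv => by rw [e u hu v hv]
    · intro v hv hv'
      rw [e0 u (hS hu) v hv fun hc => hv' hc.2, zero_mul]
  have e2 : ∑ u ∈ S, ‖∑ v ∈ T, K' u v * f v‖ ^ 2 = ∑ u ∈ S', ‖∑ v ∈ T', K u v * f v‖ ^ 2 := by
    rw [← Finset.sum_subset hS]
    · exact Finset.sum_congr rfl fun u hu => by rw [e1 u hu]
    · intro u hu hu'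
      rw [Finset.sum_eq_zero fun v hv => by rw [e0 u hu v hv fun hc => hu' hc.1, zero_mul],
        norm_zero, zero_pow two_ne_zero]
  rw [e2]
  refine (h f).trans ?_
  exact mul_le_mul_of_nonneg_left
    (Finset.sum_le_sum_of_subset_of_nonneg hT fun _ _ _ => sq_nonneg _) (sq_nonneg _)

open Classical in
/-- **the band of a node splits into its maximal cells** -/
theorem split_cell (p : Nd) :
    PjC881.Split (fun p => (T₀ ×ˢ T₁ ×ˢ T₂).filter (fun ω => Y ω.1 ω.2.1 ω.2.2 ∈ iv p))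
      (NmP (T₀ ×ˢ T₁ ×ˢ T₂) cf (okc Y k)) p
      (((T₀ ×ˢ T₁ ×ˢ T₂).filter (fun ω => Y ω.1 ω.2.1 ω.2.2 ∈ iv p)).image (mcell Y k p))
      (fun c => c.1) (fun c => dI c.2.1 c.2.2.1 ∩ T₁) (fun c => dI c.2.1 c.2.2.2 ∩ T₂)
      (fun c => 2 ^ c.2.1) := by
  have hM : ∀ c ∈ ((T₀ ×ˢ T₁ ×ˢ T₂).filter (fun ω => Y ω.1 ω.2.1 ω.2.2 ∈ iv p)).image
      (mcell Y k p), c.1 ∈ T₀ ∧ Mx (Y c.1) k p c.2.1 c.2.2.1 c.2.2.2 := by
    intro c hc
    obtain ⟨ω, hω, rfl⟩ := Finset.mem_image.1 hc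
    rw [Finset.mem_filter, Finset.mem_product] at hω
    exact ⟨hω.1.1, Mx_mcell hω.2⟩
  have hself : ∀ (n : ℕ) (x : ℤ), x ∈ dI n (x / 2 ^ n) := fun n x => by rw [L0e.mem_dI]
  refine ⟨fun ω => ⟨fun hω => ?_, fun hω => ?_⟩, ?_, fun c _ => by positivity, ?_⟩
  · refine ⟨mcell Y k p ω, Finset.mem_image_of_mem _ hω, ?_⟩
    rw [Finset.mem_filter, Finset.mem_product, Finset.mem_product] at hω
    simp only [Finset.mem_product, Finset.mem_singleton, Finset.mem_inter]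
    exact ⟨rfl, ⟨hself _ _, hω.1.2.1⟩, ⟨hself _ _, hω.1.2.2⟩⟩
  · obtain ⟨c, hc, h⟩ := hω
    obtain ⟨h0, hm⟩ := hM c hc
    simp only [Finset.mem_product, Finset.mem_singleton, Finset.mem_inter] at h
    rw [Finset.mem_filter, Finset.mem_product, Finset.mem_product]
    refine ⟨⟨by rw [h.1]; exact h0, h.2.1.2, h.2.2.2⟩, ?_⟩
    have h1 := hm.2.1 _ h.2.1.1 _ h.2.2.1
    rw [h.1]
    exact h1
  · intro c hc c' hc' hne ω h h'
    obtain ⟨_, hm⟩ := hM c hc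
    obtain ⟨_, hm'⟩ := hM c' hc'
    simp only [Finset.mem_product, Finset.mem_singleton, Finset.mem_inter] at h h'
    have hz : c.1 = c'.1 := h.1.symm.trans h'.1
    rw [← hz] at hm'
    obtain ⟨e1, e2, e3⟩ := Mx_eq hm hm' h.2.1.1 h'.2.1.1 h.2.2.1 h'.2.2.1
    exact hne (Prod.ext hz (Prod.ext e1 (Prod.ext e2 e3)))
  · intro r hr B hB
    rw [N_iff hr]
    constructor
    · intro h c hc
      obtain ⟨h0, hm⟩ := hM c hc
      have h1 := opS_sub (S' := dI c.2.1 c.2.2.1 ∩ T₁) (T' := dI c.2.1 c.2.2.2 ∩ T₂)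
        Finset.inter_subset_left Finset.inter_subset_left (opS_of_opC (h _ _ _ _ hm))
      refine PjC881.opS_congr h1 fun u hu v hv => ?_
      unfold msk
      rw [if_pos]
      rw [Finset.mem_product, Finset.mem_product]
      exact ⟨h0, (Finset.mem_inter.1 hu).2, (Finset.mem_inter.1 hv).2⟩
    · intro h z n a b hm
      refine opC_of_opS hr ?_
      by_cases hex : ∃ u v, u ∈ dI n a ∧ v ∈ dI n b ∧ (z, u, v) ∈ T₀ ×ˢ T₁ ×ˢ T₂
      · obtain ⟨u, v, hu, hv, hs⟩ := hex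
        have hω : (z, u, v) ∈ (T₀ ×ˢ T₁ ×ˢ T₂).filter (fun ω => Y ω.1 ω.2.1 ω.2.2 ∈ iv p) :=
          Finset.mem_filter.2 ⟨hs, hm.2.1 u hu v hv⟩
        have hmc := Mx_mcell (Y := Y) (k := k) (p := p) (ω := (z, u, v))
          (Finset.mem_filter.1 hω).2
        obtain ⟨e1, e2, e3⟩ := Mx_eq hm hmc hu (hself _ _) hv (hself _ _)
        have hc : mcell Y k p (z, u, v) = (z, n, a, b) := by
          unfold mcell
          exact Prod.ext rfl (Prod.ext e1.symm (Prod.ext e2.symm e3.symm))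
        have h1 := h (z, n, a, b) (by
          rw [← hc]
          exact Finset.mem_image_of_mem _ hω)
        have hz : z ∈ T₀ := (Finset.mem_product.1 hs).1
        refine opS_ext Finset.inter_subset_left Finset.inter_subset_left h1 ?_ ?_
        · intro u hu v hv
          unfold msk
          rw [if_pos]
          rw [Finset.mem_product, Finset.mem_product]
          exact ⟨hz, (Finset.mem_inter.1 hu).2, (Finset.mem_inter.1 hv).2⟩
        · intro u hu v hv hn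
          unfold msk
          refine if_neg fun hc => hn ?_
          rw [Finset.mem_product, Finset.mem_product] at hc
          exact ⟨Finset.mem_inter.2 ⟨hu, hc.2.1⟩, Finset.mem_inter.2 ⟨hv, hc.2.2⟩⟩
      · intro f
        have e0 : ∀ u ∈ dI n a, ∀ v ∈ dI n b, msk (T₀ ×ˢ T₁ ×ˢ T₂) B z u v = 0 := by
          intro u hu v hv
          unfold msk
          exact if_neg fun hc => hex ⟨u, v, hu, hv, hc⟩
        rw [Finset.sum_eq_zero fun u hu => by
          rw [Finset.sum_eq_zero fun v hv => by rw [e0 u hu v hv, zero_mul], norm_zero,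
            zero_pow two_ne_zero]]
        positivity

end Crest.Agent.R079.Cel159
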