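import Crest.Agent.R079.Clip_881
import Crest.Agent.R079.Whit_159

/-! R079, Step I in the line model (helper59, 28031 / post 07:07): the CLIP penalty on Whitney cells.

`OpS S S' B s` : operator norm of the kernel `B` on the rectangle `S × S'` is `≤ s`.
`DQ A S S' s` : squared Hilbert-Schmidt distance of `A` on `S × S'` to that ball (helper881's clip).
`phiC r c Y n a b g` : `DQ` of `c z z' g (Y z z')` on the cell `dI n a × dI n b`, threshold `r 2^n`.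
`CF_phiC` : these are cell functionals in the sense of `Whit_159` (halving inequality = gluing of four
blocks), so `Pen`, `Pen_glue`, `Phi` apply. -/

set_option autoImplicit false

namespace Crest.Agent.R079.ClW59

open Finset Crest.Agent.R079.Grid Crest.Agent.R079.Growth Crest.Agent.R079.QRed
  Crest.Agent.R079.Qh249 Crest.Agent.R079.TWin Crest.Agent.R079.Whit Crest.Agent.R079.HiF881

/-- operator norm on a rectangle -/
def OpS (S S' : Finset ℤ) (B : ℤ → ℤ → ℂ) (s : ℝ) : Prop :=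
  ∀ f : ℤ → ℂ, ∑ x ∈ S, ‖∑ y ∈ S', B x y * f y‖ ^ 2 ≤ s ^ 2 * ∑ y ∈ S', ‖f y‖ ^ 2

/-- squared distance to the operator ball -/
noncomputable def DQ (A : ℤ → ℤ → ℂ) (S S' : Finset ℤ) (s : ℝ) : ℝ :=
  hs (chi (fun (x : {x // x ∈ S}) (y : {y // y ∈ S'}) => A x y) s)

lemma op_of {S S' : Finset ℤ} {B : ℤ → ℤ → ℂ} {s : ℝ} (h : OpS S S' B s) :
    Op (fun (x : {x // x ∈ S}) (y : {y // y ∈ S'}) => B x y) s := by
  classical
  intro f
  have h1 := h (fun y => if hy : y ∈ S' then f ⟨y, hy⟩ else 0)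
  rw [← Finset.sum_coe_sort S, ← Finset.sum_coe_sort S'] at h1
  have e1 : ∀ x : {x // x ∈ S}, ∑ y ∈ S', B x y * (if hy : y ∈ S' then f ⟨y, hy⟩ else 0) =
      ∑ y : {y // y ∈ S'}, B x y * f y := by
    intro x
    rw [← Finset.sum_coe_sort S']
    refine Finset.sum_congr rfl fun y _ => ?_
    rw [dif_pos y.2]
  have e2 : ∑ y : {y // y ∈ S'}, ‖(if hy : (y : ℤ) ∈ S' then f ⟨y, hy⟩ else 0)‖ ^ 2 =
      ∑ y : {y // y ∈ S'}, ‖f y‖ ^ 2 := by
    refine Finset.sum_congr rfl fun y _ => ?_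
    rw [dif_pos y.2]
  rw [e2] at h1
  calc ∑ x : {x // x ∈ S}, ‖∑ y : {y // y ∈ S'}, B x y * f y‖ ^ 2
      = ∑ x : {x // x ∈ S},
          ‖∑ y ∈ S', B x y * (if hy : y ∈ S' then f ⟨y, hy⟩ else 0)‖ ^ 2 :=
        Finset.sum_congr rfl fun x _ => by rw [e1 x]
    _ ≤ _ := h1

lemma of_op {S S' : Finset ℤ} {B : ℤ → ℤ → ℂ} {s : ℝ}
    (h : Op (fun (x : {x // x ∈ S}) (y : {y // y ∈ S'}) => B x y) s) : OpS S S' B s := by
  intro f
  have h1 := h (fun y => f y)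
  rw [← Finset.sum_coe_sort S, ← Finset.sum_coe_sort S' (fun y => ‖f y‖ ^ 2)]
  refine le_trans (le_of_eq ?_) h1
  refine Finset.sum_congr rfl fun x _ => ?_
  rw [← Finset.sum_coe_sort S']

lemma DQ_nonneg (A : ℤ → ℤ → ℂ) (S S' : Finset ℤ) (s : ℝ) : 0 ≤ DQ A S S' s := hs_nonneg _

lemma hs_sum (S S' : Finset ℤ) (A : ℤ → ℤ → ℂ) :
    hs (fun (x : {x // x ∈ S}) (y : {y // y ∈ S'}) => A x y) = ∑ x ∈ S, ∑ y ∈ S', ‖A x y‖ ^ 2 := by
  unfold hs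
  rw [← Finset.sum_coe_sort S]
  refine Finset.sum_congr rfl fun x _ => ?_
  rw [← Finset.sum_coe_sort S']

/-- the distance is at most the distance to any competitor, with the Pythagoras gain -/
lemma DQ_le (A : ℤ → ℤ → ℂ) {S S' : Finset ℤ} {s : ℝ} (hs0 : 0 ≤ s) {B : ℤ → ℤ → ℂ}
    (hB : OpS S S' B s) : DQ A S S' s ≤ ∑ x ∈ S, ∑ y ∈ S', ‖A x y - B x y‖ ^ 2 := by
  have h := clip_dist (fun (x : {x // x ∈ S}) (y : {y // y ∈ S'}) => A x y) hs0 (op_of hB)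
  have h2 := hs_sum S S' (fun x y => A x y - B x y)
  have h3 := hs_nonneg (fun (x : {x // x ∈ S}) (y : {y // y ∈ S'}) =>
    clip (fun (x : {x // x ∈ S}) (y : {y // y ∈ S'}) => A x y) s x y - B x y)
  rw [← h2]
  unfold DQ
  linarith

/-- the clip, extended by zero -/
noncomputable def cl (A : ℤ → ℤ → ℂ) (S S' : Finset ℤ) (s : ℝ) (x y : ℤ) : ℂ :=
  if h : x ∈ S ∧ y ∈ S' then
    clip (fun (x : {x // x ∈ S}) (y : {y // y ∈ S'}) => A x y) s ⟨x, h.1⟩ ⟨y, h.2⟩ else 0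

lemma cl_op (A : ℤ → ℤ → ℂ) (S S' : Finset ℤ) {s : ℝ} (hs0 : 0 ≤ s) :
    OpS S S' (cl A S S' s) s := by
  apply of_op
  have e : (fun (x : {x // x ∈ S}) (y : {y // y ∈ S'}) => cl A S S' s x y) =
      clip (fun (x : {x // x ∈ S}) (y : {y // y ∈ S'}) => A x y) s := by
    funext x y
    unfold cl
    rw [dif_pos ⟨x.2, y.2⟩]
  rw [e]
  exact clip_op _ hs0

lemma cl_dist (A : ℤ → ℤ → ℂ) (S S' : Finset ℤ) (s : ℝ) :
    ∑ x ∈ S, ∑ y ∈ S', ‖A x y - cl A S S' s x y‖ ^ 2 = DQ A S S' s := by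
  rw [← hs_sum S S' (fun x y => A x y - cl A S S' s x y)]
  unfold DQ
  congr 1
  funext x y
  unfold cl chi
  rw [dif_pos ⟨x.2, y.2⟩]

lemma DQ_congr {A A' : ℤ → ℤ → ℂ} {S S' : Finset ℤ} (s : ℝ)
    (h : ∀ x ∈ S, ∀ y ∈ S', A x y = A' x y) : DQ A S S' s = DQ A' S S' s := by
  unfold DQ
  have e : (fun (x : {x // x ∈ S}) (y : {y // y ∈ S'}) => A x y) =
      fun (x : {x // x ∈ S}) (y : {y // y ∈ S'}) => A' x y := by
    funext x y
    exact h x x.2 y y.2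
  rw [e]

lemma opS_zero (S S' : Finset ℤ) (s : ℝ) : OpS S S' (fun _ _ => 0) s := by
  intro f
  simp only [zero_mul, Finset.sum_const_zero, norm_zero, ne_eq, OfNat.ofNat_ne_zero,
    not_false_eq_true, zero_pow]
  positivity

lemma DQ_zero {A : ℤ → ℤ → ℂ} {S S' : Finset ℤ} {s : ℝ} (hs0 : 0 ≤ s)
    (h : ∀ x ∈ S, ∀ y ∈ S', A x y = 0) : DQ A S S' s = 0 := by
  refine le_antisymm ?_ (DQ_nonneg _ _ _ _)
  refine (DQ_le A hs0 (opS_zero S S' s)).trans (le_of_eq ?_)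
  refine Finset.sum_eq_zero fun x hx => Finset.sum_eq_zero fun y hy => ?_
  rw [h x hx y hy]
  simp

/-- four blocks glue -/
lemma opS_glue {S S₁ S₂ S' S₁' S₂' : Finset ℤ} (hS : S = S₁ ∪ S₂) (hd : Disjoint S₁ S₂)
    (hS' : S' = S₁' ∪ S₂') (hd' : Disjoint S₁' S₂') {B : ℤ → ℤ → ℂ} {t : ℝ}
    (h11 : OpS S₁ S₁' B t) (h12 : OpS S₁ S₂' B t) (h21 : OpS S₂ S₁' B t) (h22 : OpS S₂ S₂' B t) :
    OpS S S' B (2 * t) := by
  intro f
  subst hS hS'
  have hx : ∀ x, ‖∑ y ∈ S₁' ∪ S₂', B x y * f y‖ ^ 2 ≤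
      2 * ‖∑ y ∈ S₁', B x y * f y‖ ^ 2 + 2 * ‖∑ y ∈ S₂', B x y * f y‖ ^ 2 := by
    intro x
    rw [Finset.sum_union hd']
    have h := norm_add_le (∑ y ∈ S₁', B x y * f y) (∑ y ∈ S₂', B x y * f y)
    have h0 := norm_nonneg (∑ y ∈ S₁', B x y * f y + ∑ y ∈ S₂', B x y * f y)
    nlinarith [sq_nonneg (‖∑ y ∈ S₁', B x y * f y‖ - ‖∑ y ∈ S₂', B x y * f y‖),
      norm_nonneg (∑ y ∈ S₁', B x y * f y), norm_nonneg (∑ y ∈ S₂', B x y * f y)]
  have hsum : ∀ T : Finset ℤ, ∑ x ∈ T, ‖∑ y ∈ S₁' ∪ S₂', B x y * f y‖ ^ 2 ≤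
      2 * ∑ x ∈ T, ‖∑ y ∈ S₁', B x y * f y‖ ^ 2 + 2 * ∑ x ∈ T, ‖∑ y ∈ S₂', B x y * f y‖ ^ 2 := by
    intro T
    rw [Finset.mul_sum, Finset.mul_sum, ← Finset.sum_add_distrib]
    exact Finset.sum_le_sum fun x _ => hx x
  rw [Finset.sum_union hd, Finset.sum_union hd']
  have a1 := hsum S₁
  have a2 := hsum S₂
  have b11 := h11 f
  have b12 := h12 f
  have b21 := h21 f
  have b22 := h22 f
  nlinarith

/-- the halving inequality -/
lemma DQ_quad (A : ℤ → ℤ → ℂ) {S S₁ S₂ S' S₁' S₂' : Finset ℤ} (hS : S = S₁ ∪ S₂)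
    (hd : Disjoint S₁ S₂) (hS' : S' = S₁' ∪ S₂') (hd' : Disjoint S₁' S₂') {t : ℝ} (ht : 0 ≤ t) :
    DQ A S S' (2 * t) ≤ DQ A S₁ S₁' t + DQ A S₁ S₂' t + DQ A S₂ S₁' t + DQ A S₂ S₂' t := by
  classical
  set B : ℤ → ℤ → ℂ := fun x y =>
    if x ∈ S₁ then (if y ∈ S₁' then cl A S₁ S₁' t x y else cl A S₁ S₂' t x y)
    else (if y ∈ S₁' then cl A S₂ S₁' t x y else cl A S₂ S₂' t x y) with hB
  have n1 : ∀ x ∈ S₂, x ∉ S₁ := fun x hx hx' => Finset.disjoint_left.1 hd hx' hx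
  have n2 : ∀ y ∈ S₂', y ∉ S₁' := fun y hy hy' => Finset.disjoint_left.1 hd' hy' hy
  have e11 : ∀ x ∈ S₁, ∀ y ∈ S₁', B x y = cl A S₁ S₁' t x y := by
    intro x hx y hy
    simp only [hB, if_pos hx, if_pos hy]
  have e12 : ∀ x ∈ S₁, ∀ y ∈ S₂', B x y = cl A S₁ S₂' t x y := by
    intro x hx y hy
    simp only [hB, if_pos hx, if_neg (n2 y hy)]
  have e21 : ∀ x ∈ S₂, ∀ y ∈ S₁', B x y = cl A S₂ S₁' t x y := by
    intro x hx y hy
    simp only [hB, if_neg (n1 x hx), if_pos hy]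
  have e22 : ∀ x ∈ S₂, ∀ y ∈ S₂', B x y = cl A S₂ S₂' t x y := by
    intro x hx y hy
    simp only [hB, if_neg (n1 x hx), if_neg (n2 y hy)]
  have hop : ∀ (T T' : Finset ℤ) (C : ℤ → ℤ → ℂ), (∀ x ∈ T, ∀ y ∈ T', B x y = C x y) →
      OpS T T' C t → OpS T T' B t := by
    intro T T' C hC h f
    refine le_trans (le_of_eq ?_) (h f)
    refine Finset.sum_congr rfl fun x hx => ?_
    rw [Finset.sum_congr rfl fun y hy => by rw [hC x hx y hy]]
  have hBop : OpS S S' B (2 * t) := opS_glue hS hd hS' hd'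
    (hop _ _ _ e11 (cl_op A _ _ ht)) (hop _ _ _ e12 (cl_op A _ _ ht))
    (hop _ _ _ e21 (cl_op A _ _ ht)) (hop _ _ _ e22 (cl_op A _ _ ht))
  have hdq : ∀ (T T' : Finset ℤ) (C : ℤ → ℤ → ℂ), (∀ x ∈ T, ∀ y ∈ T', B x y = C x y) →
      ∑ x ∈ T, ∑ y ∈ T', ‖A x y - B x y‖ ^ 2 = ∑ x ∈ T, ∑ y ∈ T', ‖A x y - C x y‖ ^ 2 := by
    intro T T' C hC
    refine Finset.sum_congr rfl fun x hx => Finset.sum_congr rfl fun y hy => ?_
    rw [hC x hx y hy]
  refine (DQ_le A (by positivity) hBop).trans (le_of_eq ?_)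
  have hsp : ∀ T : Finset ℤ, ∑ x ∈ T, ∑ y ∈ S', ‖A x y - B x y‖ ^ 2 =
      ∑ x ∈ T, ∑ y ∈ S₁', ‖A x y - B x y‖ ^ 2 + ∑ x ∈ T, ∑ y ∈ S₂', ‖A x y - B x y‖ ^ 2 := by
    intro T
    rw [← Finset.sum_add_distrib]
    refine Finset.sum_congr rfl fun x _ => ?_
    rw [hS', Finset.sum_union hd']
  have hrow : ∑ x ∈ S, ∑ y ∈ S', ‖A x y - B x y‖ ^ 2 =
      ∑ x ∈ S₁, ∑ y ∈ S', ‖A x y - B x y‖ ^ 2 + ∑ x ∈ S₂, ∑ y ∈ S', ‖A x y - B x y‖ ^ 2 := by
    rw [hS, Finset.sum_union hd]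
  rw [hrow, hsp S₁, hsp S₂, hdq _ _ _ e11, hdq _ _ _ e12, hdq _ _ _ e21, hdq _ _ _ e22,
    cl_dist, cl_dist, cl_dist, cl_dist]
  ring

/-- midpoint convexity -/
lemma DQ_conv (A A' : ℤ → ℤ → ℂ) (S S' : Finset ℤ) {s : ℝ} (hs0 : 0 ≤ s) :
    DQ (fun x y => (A x y + A' x y) / 2) S S' s ≤ (DQ A S S' s + DQ A' S S' s) / 2 := by
  have hop : OpS S S' (fun x y => (cl A S S' s x y + cl A' S S' s x y) / 2) s := by
    intro f
    have h1 := cl_op A S S' hs0 f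
    have h2 := cl_op A' S S' hs0 f
    have h3 : ∀ x, ‖∑ y ∈ S', (cl A S S' s x y + cl A' S S' s x y) / 2 * f y‖ ^ 2 ≤
        (‖∑ y ∈ S', cl A S S' s x y * f y‖ ^ 2 + ‖∑ y ∈ S', cl A' S S' s x y * f y‖ ^ 2) / 2 := by
      intro x
      have e : ∑ y ∈ S', (cl A S S' s x y + cl A' S S' s x y) / 2 * f y =
          (∑ y ∈ S', cl A S S' s x y * f y + ∑ y ∈ S', cl A' S S' s x y * f y) / 2 := by
        rw [← Finset.sum_add_distrib, Finset.sum_div]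
        refine Finset.sum_congr rfl fun y _ => ?_
        ring
      rw [e, norm_div]
      have h := norm_add_le (∑ y ∈ S', cl A S S' s x y * f y) (∑ y ∈ S', cl A' S S' s x y * f y)
      have h0 := norm_nonneg (∑ y ∈ S', cl A S S' s x y * f y + ∑ y ∈ S', cl A' S S' s x y * f y)
      have e2 : ‖(2 : ℂ)‖ = 2 := by simp
      rw [e2, div_pow]
      nlinarith [sq_nonneg (‖∑ y ∈ S', cl A S S' s x y * f y‖ -
        ‖∑ y ∈ S', cl A' S S' s x y * f y‖), norm_nonneg (∑ y ∈ S', cl A S S' s x y * f y),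
        norm_nonneg (∑ y ∈ S', cl A' S S' s x y * f y)]
    calc ∑ x ∈ S, ‖∑ y ∈ S', (cl A S S' s x y + cl A' S S' s x y) / 2 * f y‖ ^ 2
        ≤ ∑ x ∈ S, (‖∑ y ∈ S', cl A S S' s x y * f y‖ ^ 2 +
            ‖∑ y ∈ S', cl A' S S' s x y * f y‖ ^ 2) / 2 := Finset.sum_le_sum fun x _ => h3 x
      _ = (∑ x ∈ S, ‖∑ y ∈ S', cl A S S' s x y * f y‖ ^ 2 +
            ∑ x ∈ S, ‖∑ y ∈ S', cl A' S S' s x y * f y‖ ^ 2) / 2 := by
          rw [← Finset.sum_div, Finset.sum_add_distrib]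
      _ ≤ _ := by linarith
  refine (DQ_le _ hs0 hop).trans ?_
  rw [← cl_dist A S S' s, ← cl_dist A' S S' s, ← Finset.sum_add_distrib, Finset.sum_div]
  refine Finset.sum_le_sum fun x _ => ?_
  rw [← Finset.sum_add_distrib, Finset.sum_div]
  refine Finset.sum_le_sum fun y _ => ?_
  have e : (A x y + A' x y) / 2 - (cl A S S' s x y + cl A' S S' s x y) / 2 =
      ((A x y - cl A S S' s x y) + (A' x y - cl A' S S' s x y)) / 2 := by ring
  rw [e, norm_div]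
  have h := norm_add_le (A x y - cl A S S' s x y) (A' x y - cl A' S S' s x y)
  have h0 := norm_nonneg ((A x y - cl A S S' s x y) + (A' x y - cl A' S S' s x y))
  have e2 : ‖(2 : ℂ)‖ = 2 := by simp
  rw [e2, div_pow]
  nlinarith [sq_nonneg (‖A x y - cl A S S' s x y‖ - ‖A' x y - cl A' S S' s x y‖),
    norm_nonneg (A x y - cl A S S' s x y), norm_nonneg (A' x y - cl A' S S' s x y)]

/-- the clip cell functional of `z, z' ↦ c z z' * g (Y z z')`, threshold `r 2^n` -/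
noncomputable def phiC (r : ℝ) (c : ℤ → ℤ → ℂ) (Y : ℤ → ℤ → ℤ) (n : ℕ) (a b : ℤ) (g : Fn) : ℝ :=
  DQ (fun z z' => c z z' * g (Y z z')) (dI n a) (dI n b) (r * 2 ^ n)

/-- **`phiC` is a family of cell functionals**, `c` supported on `T × T'` -/
theorem CF_phiC {r : ℝ} (hr : 0 ≤ r) (c : ℤ → ℤ → ℂ) (Y : ℤ → ℤ → ℤ) (T T' : Finset ℤ)
    (hc : ∀ z z', c z z' ≠ 0 → z ∈ T ∧ z' ∈ T') : CF Y T T' (phiC r c Y) where
  nonneg n a b g := DQ_nonneg _ _ _ _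
  halv n a b g := by
    unfold phiC
    have h := DQ_quad (fun z z' => c z z' * g (Y z z')) (L0e.dI_succ n a)
      (L0e.dI_disj (by omega)) (L0e.dI_succ n b) (L0e.dI_disj (by omega)) (t := r * 2 ^ n)
      (by positivity)
    have e : r * 2 ^ (n + 1) = 2 * (r * 2 ^ n) := by rw [pow_succ]; ring
    rw [e]
    exact h
  loc n a b g g' h := by
    unfold phiC
    exact DQ_congr _ fun z hz z' hz' => by rw [h z hz z' hz']
  conv n a b g g' := by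
    unfold phiC
    have e : (fun z z' => c z z' * ((fun y => (g y + g' y) / 2) (Y z z'))) =
        fun z z' => (c z z' * g (Y z z') + c z z' * g' (Y z z')) / 2 := by
      funext z z'
      ring
    rw [e]
    exact DQ_conv _ _ _ _ (by positivity)
  zero n a b := by
    unfold phiC
    exact DQ_zero (by positivity) fun z _ z' _ => by simp
  supp n a b g h := by
    classical
    by_contra hcon
    apply h
    unfold phiC
    refine DQ_zero (by positivity) ?_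
    intro z hz z' hz'
    by_contra hne
    apply hcon
    have hcz : c z z' ≠ 0 := fun h0 => hne (by rw [h0, zero_mul])
    obtain ⟨h1, h2⟩ := hc z z' hcz
    rw [L0e.mem_dI] at hz hz'
    exact ⟨Finset.mem_image.2 ⟨z, h1, hz⟩, Finset.mem_image.2 ⟨z', h2, hz'⟩⟩

end Crest.Agent.R079.ClW59
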