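import Crest.Agent.R079.R244Defs_491

/-! R079, [AL5']: op-level of a line letter (bounded edge kernel, bounded marginals at the third
vertex) and the two-point product (Upsilon) bound (helper71).

`OLv k κ p f H s` : op-level of `f` (slot `k`) at the node `p` on boxes of side `2^(p.1+r)`, `r ≤ κ`:
`m(z₂,z₃)` with `|m| ≤ 1`, `u(z₁,z₂)`, `v(z₁,z₃)` with row weights `≤ w(z₁)`, `w ≤ H`, `avg w ≤ 1`. -/

set_option autoImplicit false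

namespace Crest.Agent.R079.ClsC371

open Finset Crest.Agent.R079.Grid Crest.Agent.R079.Glue Crest.Agent.R079.R244

/-- the line letter in box coordinates -/
noncomputable def ltr (j k e e' : Fin 4) (t1 t2 t3 : ℤ) (f : ℤ → ℂ) (i1 i2 i3 : ℕ) : ℂ :=
  f ((sl j - sl k) * (t1 + (i1 : ℤ)) + (sl e - sl k) * (t2 + (i2 : ℤ)) +
    (sl e' - sl k) * (t3 + (i3 : ℤ)))

/-- normalised pairing on the box -/
noncomputable def opair (n : ℕ) (F : ℕ → ℕ → ℕ → ℂ) (m u v : ℕ → ℕ → ℂ) : ℂ :=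
  (1 / (n : ℂ) ^ 3) * ∑ i1 ∈ range n, ∑ i2 ∈ range n, ∑ i3 ∈ range n,
    F i1 i2 i3 * (m i2 i3 * u i1 i2 * v i1 i3)

/-- op-level of a box tensor, vertex `1` frozen -/
def OLvB (n : ℕ) (F : ℕ → ℕ → ℕ → ℂ) (H s : ℝ) : Prop :=
  ∀ (m u v : ℕ → ℕ → ℂ) (w : ℕ → ℝ), (∀ i2 < n, ∀ i3 < n, ‖m i2 i3‖ ≤ 1) →
    (∀ i1 < n, 0 ≤ w i1 ∧ w i1 ≤ H) → ∑ i1 ∈ range n, w i1 ≤ n →
    (∀ i1 < n, ∑ i2 ∈ range n, ‖u i1 i2‖ ^ 2 ≤ n * w i1) →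
    (∀ i1 < n, ∑ i3 ∈ range n, ‖v i1 i3‖ ^ 2 ≤ n * w i1) → ‖opair n F m u v‖ ≤ s

/-- op-level of `f` (slot `k`) at the node `p` -/
def OLv (k : Fin 4) (κ : ℕ) (p : ℕ × ℤ) (f : ℤ → ℂ) (H s : ℝ) : Prop :=
  ∀ j e e' : Fin 4, j ≠ k → j ≠ e → j ≠ e' → k ≠ e → k ≠ e' → e ≠ e' → ∀ r ≤ κ,
    ∀ t1 t2 t3 : ℤ, OLvB (2 ^ (p.1 + r)) (ltr j k e e' t1 t2 t3 (res p f)) H s

/-- the two-point product -/
noncomputable def ups (n : ℕ) (P F : ℕ → ℕ → ℕ → ℂ) (i1 i3 i3' : ℕ) : ℂ :=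
  (1 / (n : ℂ)) * ∑ i2 ∈ range n, P i2 i3 i3' * F i1 i2 i3 * (starRingEnd ℂ) (F i1 i2 i3')

lemma norm_ups_sq (n : ℕ) (P F : ℕ → ℕ → ℕ → ℂ) (A : ℝ)
    (hP : ∀ i2 < n, ∀ i3 < n, ∀ i3' < n, ‖P i2 i3 i3'‖ ≤ 1)
    (hF : ∀ i1 < n, ∀ i3 < n, ∑ i2 ∈ range n, ‖F i1 i2 i3‖ ^ 2 ≤ n * A)
    (i1 : ℕ) (h1 : i1 < n) (i3 : ℕ) (h3 : i3 < n) (i3' : ℕ) (h3' : i3' < n) :
    ‖ups n P F i1 i3 i3'‖ ^ 2 ≤ A ^ 2 := by
  have hn : 0 < n := by omega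
  have hn' : (0 : ℝ) < n := by exact_mod_cast hn
  have hA : 0 ≤ A := by
    have h := (Finset.sum_nonneg fun i2 (_ : i2 ∈ range n) => sq_nonneg ‖F i1 i2 i3‖).trans
      (hF i1 h1 i3 h3)
    nlinarith [h]
  have hb : ‖∑ i2 ∈ range n, P i2 i3 i3' * F i1 i2 i3 * (starRingEnd ℂ) (F i1 i2 i3')‖ ≤
      ∑ i2 ∈ range n, ‖F i1 i2 i3‖ * ‖F i1 i2 i3'‖ := by
    refine (norm_sum_le _ _).trans (Finset.sum_le_sum fun i2 hi2 => ?_)
    rw [norm_mul, norm_mul, RCLike.norm_conj]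
    have h := hP i2 (Finset.mem_range.1 hi2) i3 h3 i3' h3'
    have h0 : ‖P i2 i3 i3'‖ * ‖F i1 i2 i3‖ ≤ ‖F i1 i2 i3‖ := by
      nlinarith [norm_nonneg (F i1 i2 i3)]
    exact mul_le_mul_of_nonneg_right h0 (norm_nonneg _)
  have hcs : (∑ i2 ∈ range n, ‖F i1 i2 i3‖ * ‖F i1 i2 i3'‖) ^ 2 ≤
      (∑ i2 ∈ range n, ‖F i1 i2 i3‖ ^ 2) * ∑ i2 ∈ range n, ‖F i1 i2 i3'‖ ^ 2 :=
    Finset.sum_mul_sq_le_sq_mul_sq _ _ _
  have h2 : (∑ i2 ∈ range n, ‖F i1 i2 i3‖ * ‖F i1 i2 i3'‖) ^ 2 ≤ (n * A) * (n * A) := by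
    refine hcs.trans (mul_le_mul (hF i1 h1 i3 h3) (hF i1 h1 i3' h3') ?_ ?_)
    · exact Finset.sum_nonneg fun _ _ => sq_nonneg _
    · positivity
  unfold ups
  rw [norm_mul, mul_pow]
  have e1 : ‖(1 / (n : ℂ))‖ ^ 2 = 1 / (n : ℝ) ^ 2 := by
    rw [norm_div, norm_one, Complex.norm_natCast, div_pow, one_pow]
  rw [e1]
  have h3'' : ‖∑ i2 ∈ range n, P i2 i3 i3' * F i1 i2 i3 * (starRingEnd ℂ) (F i1 i2 i3')‖ ^ 2 ≤
      (n * A) * (n * A) := le_trans (pow_le_pow_left₀ (norm_nonneg _) hb 2) h2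
  calc 1 / (n : ℝ) ^ 2 * ‖∑ i2 ∈ range n, P i2 i3 i3' * F i1 i2 i3 *
        (starRingEnd ℂ) (F i1 i2 i3')‖ ^ 2 ≤ 1 / (n : ℝ) ^ 2 * ((n * A) * (n * A)) :=
        mul_le_mul_of_nonneg_left h3'' (by positivity)
    _ = A ^ 2 := by field_simp

/-- **(C3')** two-point product against a bounded kernel, box tensor form -/
theorem ups_le (n : ℕ) (F : ℕ → ℕ → ℕ → ℂ) (H s A : ℝ) (hH : 1 ≤ H) (hs : 0 ≤ s)
    (hA : 1 ≤ A) (hL : OLvB n F H s) (P : ℕ → ℕ → ℕ → ℂ)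
    (hP : ∀ i2 < n, ∀ i3 < n, ∀ i3' < n, ‖P i2 i3 i3'‖ ≤ 1)
    (hF : ∀ i1 < n, ∀ i3 < n, ∑ i2 ∈ range n, ‖F i1 i2 i3‖ ^ 2 ≤ n * A) :
    ∑ i1 ∈ range n, ∑ i3 ∈ range n, ∑ i3' ∈ range n, ‖ups n P F i1 i3 i3'‖ ^ 2 ≤
      A ^ 2 * s * (n : ℝ) ^ 3 := by
  rcases Nat.eq_zero_or_pos n with h0 | hn
  · subst h0; simp
  have hn' : (0 : ℝ) < n := by exact_mod_cast hn
  have hnc : (n : ℂ) ≠ 0 := by exact_mod_cast hn.ne'
  have hA0 : 0 < A := by linarith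
  set q : ℝ := Real.sqrt A with hq
  have hq0 : 0 < q := Real.sqrt_pos.2 hA0
  have hq2 : q ^ 2 = A := Real.sq_sqrt hA0.le
  have hqA : q ≤ A := by nlinarith [hq0, hq2, hA]
  -- one slice
  have hone : ∀ i3' < n, ∑ i1 ∈ range n, ∑ i3 ∈ range n, ‖ups n P F i1 i3 i3'‖ ^ 2 ≤
      A ^ 2 * s * (n : ℝ) ^ 2 := by
    intro i3' h3'
    have hp := hL (fun i2 i3 => P i2 i3 i3')
      (fun i1 i2 => (starRingEnd ℂ) (F i1 i2 i3') / (q : ℂ))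
      (fun i1 i3 => (starRingEnd ℂ) (ups n P F i1 i3 i3') / (A : ℂ)) (fun _ => 1)
      (fun i2 h2 i3 h3 => hP i2 h2 i3 h3 i3' h3')
      (fun _ _ => ⟨zero_le_one, hH⟩) (by simp)
      (fun i1 h1 => by
        have e : ∀ i2, ‖(starRingEnd ℂ) (F i1 i2 i3') / (q : ℂ)‖ ^ 2 =
            ‖F i1 i2 i3'‖ ^ 2 / A := fun i2 => by
          rw [norm_div, RCLike.norm_conj, Complex.norm_real, Real.norm_of_nonneg hq0.le, div_pow,
            hq2]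
        simp only [e]
        rw [← Finset.sum_div, div_le_iff₀ hA0]
        have := hF i1 h1 i3' h3'
        linarith)
      (fun i1 h1 => by
        have e : ∀ i3 ∈ range n, ‖(starRingEnd ℂ) (ups n P F i1 i3 i3') / (A : ℂ)‖ ^ 2 ≤ 1 := by
          intro i3 h3
          rw [norm_div, RCLike.norm_conj, Complex.norm_real, Real.norm_of_nonneg hA0.le, div_pow,
            div_le_one (by positivity)]
          exact norm_ups_sq n P F A hP hF i1 h1 i3 (Finset.mem_range.1 h3) i3' h3'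
        refine (Finset.sum_le_sum e).trans ?_
        simp)
    -- the pairing is the square sum
    have key : opair n F (fun i2 i3 => P i2 i3 i3')
        (fun i1 i2 => (starRingEnd ℂ) (F i1 i2 i3') / (q : ℂ))
        (fun i1 i3 => (starRingEnd ℂ) (ups n P F i1 i3 i3') / (A : ℂ)) =
        (((1 / ((n : ℝ) ^ 2 * (q * A))) * ∑ i1 ∈ range n, ∑ i3 ∈ range n,
          ‖ups n P F i1 i3 i3'‖ ^ 2 : ℝ) : ℂ) := by
      have hqc : (q : ℂ) ≠ 0 := by exact_mod_cast hq0.ne'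
      have hAc : (A : ℂ) ≠ 0 := by exact_mod_cast hA0.ne'
      have hin : ∀ i1 : ℕ, ∑ i2 ∈ range n, ∑ i3 ∈ range n,
          F i1 i2 i3 * (P i2 i3 i3' * ((starRingEnd ℂ) (F i1 i2 i3') / (q : ℂ)) *
            ((starRingEnd ℂ) (ups n P F i1 i3 i3') / (A : ℂ))) =
          (n : ℂ) / ((q : ℂ) * A) * ∑ i3 ∈ range n, ((‖ups n P F i1 i3 i3'‖ ^ 2 : ℝ) : ℂ) := by
        intro i1
        rw [Finset.sum_comm, Finset.mul_sum]
        refine Finset.sum_congr rfl fun i3 _ => ?_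
        have e1 : ((‖ups n P F i1 i3 i3'‖ ^ 2 : ℝ) : ℂ) =
            ups n P F i1 i3 i3' * (starRingEnd ℂ) (ups n P F i1 i3 i3') := by
          rw [Complex.mul_conj, Complex.normSq_eq_norm_sq]
        rw [e1]
        have e2 : (n : ℂ) * ups n P F i1 i3 i3' = ∑ i2 ∈ range n, P i2 i3 i3' * F i1 i2 i3 *
            (starRingEnd ℂ) (F i1 i2 i3') := by
          unfold ups
          rw [← mul_assoc, mul_one_div_cancel hnc, one_mul]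
        calc ∑ i2 ∈ range n, F i1 i2 i3 * (P i2 i3 i3' *
              ((starRingEnd ℂ) (F i1 i2 i3') / (q : ℂ)) *
              ((starRingEnd ℂ) (ups n P F i1 i3 i3') / (A : ℂ)))
            = ∑ i2 ∈ range n, (P i2 i3 i3' * F i1 i2 i3 * (starRingEnd ℂ) (F i1 i2 i3')) *
                ((starRingEnd ℂ) (ups n P F i1 i3 i3') / ((q : ℂ) * A)) := by
              refine Finset.sum_congr rfl fun i2 _ => ?_
              field_simp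
          _ = ((n : ℂ) * ups n P F i1 i3 i3') *
                ((starRingEnd ℂ) (ups n P F i1 i3 i3') / ((q : ℂ) * A)) := by
              rw [← Finset.sum_mul, e2]
          _ = (n : ℂ) / ((q : ℂ) * A) *
                (ups n P F i1 i3 i3' * (starRingEnd ℂ) (ups n P F i1 i3 i3')) := by
              field_simp
      unfold opair
      rw [Finset.sum_congr rfl fun i1 _ => hin i1, ← Finset.mul_sum]
      push_cast
      field_simp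
    rw [key, Complex.norm_real, Real.norm_of_nonneg (by positivity)] at hp
    have hpos : 0 < (n : ℝ) ^ 2 * (q * A) := by positivity
    rw [one_div, inv_mul_le_iff₀ hpos] at hp
    refine hp.trans ?_
    have h5 : q * A ≤ A ^ 2 := by nlinarith
    have : (n : ℝ) ^ 2 * (q * A) * s ≤ (n : ℝ) ^ 2 * A ^ 2 * s := by
      have := mul_le_mul_of_nonneg_left h5 (by positivity : (0 : ℝ) ≤ (n : ℝ) ^ 2)
      exact mul_le_mul_of_nonneg_right this hs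
    linarith
  calc ∑ i1 ∈ range n, ∑ i3 ∈ range n, ∑ i3' ∈ range n, ‖ups n P F i1 i3 i3'‖ ^ 2
      = ∑ i3' ∈ range n, ∑ i1 ∈ range n, ∑ i3 ∈ range n, ‖ups n P F i1 i3 i3'‖ ^ 2 := by
        rw [Finset.sum_comm]
        rw [Finset.sum_congr rfl fun i3 _ => Finset.sum_comm, Finset.sum_comm]
        exact Finset.sum_congr rfl fun i3' _ => Finset.sum_comm
    _ ≤ ∑ _i3' ∈ range n, A ^ 2 * s * (n : ℝ) ^ 2 :=
        Finset.sum_le_sum fun i3' h => hone i3' (Finset.mem_range.1 h)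
    _ = A ^ 2 * s * (n : ℝ) ^ 3 := by
        rw [Finset.sum_const, Finset.card_range, nsmul_eq_mul]; ring

/-- **(C3')** two-point product of a line letter of op-level `s` against a bounded kernel -/
theorem c3' (k : Fin 4) (κ : ℕ) (p : ℕ × ℤ) (f : ℤ → ℂ) (H s A : ℝ) (hH : 1 ≤ H) (hs : 0 ≤ s)
    (hA : 1 ≤ A) (hL : OLv k κ p f H s) (j e e' : Fin 4) (h1 : j ≠ k) (h2 : j ≠ e) (h3 : j ≠ e')
    (h4 : k ≠ e) (h5 : k ≠ e') (h6 : e ≠ e') (r : ℕ) (hr : r ≤ κ) (t1 t2 t3 : ℤ)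
    (P : ℕ → ℕ → ℕ → ℂ)
    (hP : ∀ i2 < 2 ^ (p.1 + r), ∀ i3 < 2 ^ (p.1 + r), ∀ i3' < 2 ^ (p.1 + r), ‖P i2 i3 i3'‖ ≤ 1)
    (hF : ∀ i1 < 2 ^ (p.1 + r), ∀ i3 < 2 ^ (p.1 + r), ∑ i2 ∈ range (2 ^ (p.1 + r)),
      ‖ltr j k e e' t1 t2 t3 (res p f) i1 i2 i3‖ ^ 2 ≤ ((2 ^ (p.1 + r) : ℕ) : ℝ) * A) :
    ∑ i1 ∈ range (2 ^ (p.1 + r)), ∑ i3 ∈ range (2 ^ (p.1 + r)), ∑ i3' ∈ range (2 ^ (p.1 + r)),
      ‖ups (2 ^ (p.1 + r)) P (ltr j k e e' t1 t2 t3 (res p f)) i1 i3 i3'‖ ^ 2 ≤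
      A ^ 2 * s * (((2 ^ (p.1 + r) : ℕ) : ℝ)) ^ 3 :=
  ups_le _ _ H s A hH hs hA (hL j e e' h1 h2 h3 h4 h5 h6 r hr t1 t2 t3) P hP hF

end Crest.Agent.R079.ClsC371
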