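import Crest.Agent.R079.DicOp_679

/-! R079 (helper679): **level ⟹ op-level**: `Lv (DS S) k t u p X`, `av p X ≤ A`, `OpF γ C ⊆ S`
`⟹ OLev κ k p X (128 u t^γ + 130 A t^C)`. -/

set_option autoImplicit false

namespace Crest.Agent.R079.DicOp679

open Finset Crest.Agent.R079.Grid Crest.Agent.R079.Glue Crest.Agent.R079.Growth
  Crest.Agent.R079.QRed Crest.Agent.R079.R244 Crest.Agent.R079.TFrz679 Crest.Agent.R079.Dic679
  Crest.Agent.R079.OpLev

/-- local `L²` bound of a restricted letter along an injective map -/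
theorem res_inj {n : ℕ} {p : Nd} {X : Fn} {A : ℝ} (hA : 0 ≤ A) (hX : av p X ≤ A) {g : Fin n → ℤ}
    (hg : Function.Injective g) : ∑ i, ‖res p X (g i)‖ ^ 2 ≤ A ^ 2 * 2 ^ (p.1 + 7) := by
  classical
  have h1 : ∑ i, ‖res p X (g i)‖ ^ 2 = ∑ y ∈ Finset.univ.image g, ‖res p X y‖ ^ 2 := by
    rw [Finset.sum_image fun a _ b _ h => hg h]
  have h2 : ∑ y ∈ Finset.univ.image g, ‖res p X y‖ ^ 2 ≤
      ∑ y ∈ Finset.univ.image g ∪ dI (p.1 + 7) p.2, ‖res p X y‖ ^ 2 :=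
    Finset.sum_le_sum_of_subset_of_nonneg Finset.subset_union_left fun _ _ _ => by positivity
  have h3 : ∑ y ∈ Finset.univ.image g ∪ dI (p.1 + 7) p.2, ‖res p X y‖ ^ 2 =
      ∑ y ∈ dI (p.1 + 7) p.2, ‖res p X y‖ ^ 2 := by
    symm
    refine Finset.sum_subset Finset.subset_union_right fun y _ hy => ?_
    simp [res, hy]
  have h4 : ∑ y ∈ dI (p.1 + 7) p.2, ‖res p X y‖ ^ 2 = ∑ y ∈ dI (p.1 + 7) p.2, ‖X y‖ ^ 2 :=
    Finset.sum_congr rfl fun y hy => by simp [res, hy]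
  have h5 : (1 / 2 ^ (p.1 + 7) : ℝ) * ∑ y ∈ dI (p.1 + 7) p.2, ‖X y‖ ^ 2 ≤ A ^ 2 := by
    have h6 : Real.sqrt ((1 / 2 ^ (p.1 + 7)) * ∑ y ∈ dI (p.1 + 7) p.2, ‖X y‖ ^ 2) ≤ A := hX
    rw [Real.sqrt_le_left hA] at h6
    exact h6
  rw [h1]
  refine h2.trans ?_
  rw [h3, h4]
  rw [one_div, inv_mul_le_iff₀ (by positivity)] at h5
  linarith

/-- one row: `∑ |res X| x ≤ A n (64 + α/2)` -/
theorem row_le {n : ℕ} {p : Nd} {X : Fn} {A : ℝ} (hA : 0 ≤ A) (hX : av p X ≤ A)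
    (hn : (2 : ℝ) ^ p.1 ≤ n) {g : Fin n → ℤ} (hg : Function.Injective g) {x : Fin n → ℝ}
    {a : ℝ} (ha : 0 ≤ a) (hx : ∑ i, x i ^ 2 ≤ n * a) :
    ∑ i, ‖res p X (g i)‖ * x i ≤ A * n * (64 + a / 2) := by
  have h1 : (∑ i, ‖res p X (g i)‖ * x i) ^ 2 ≤ (∑ i, ‖res p X (g i)‖ ^ 2) * ∑ i, x i ^ 2 :=
    Finset.sum_mul_sq_le_sq_mul_sq _ _ _
  have h2 : (2 : ℝ) ^ (p.1 + 7) ≤ 128 * n := by
    rw [pow_add]; nlinarith
  have h3 : ∑ i, ‖res p X (g i)‖ ^ 2 ≤ A ^ 2 * (128 * n) :=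
    (res_inj hA hX hg).trans (mul_le_mul_of_nonneg_left h2 (sq_nonneg _))
  have hn0 : (0 : ℝ) ≤ n := Nat.cast_nonneg n
  have h4 : (∑ i, ‖res p X (g i)‖ * x i) ^ 2 ≤ (A * n * (64 + a / 2)) ^ 2 := by
    calc (∑ i, ‖res p X (g i)‖ * x i) ^ 2 ≤ (A ^ 2 * (128 * n)) * (n * a) := by
          refine h1.trans (mul_le_mul h3 hx (Finset.sum_nonneg fun _ _ => sq_nonneg _)
            (by positivity))
      _ = (A * n) ^ 2 * (128 * a) := by ring
      _ ≤ (A * n) ^ 2 * (64 + a / 2) ^ 2 := by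
          refine mul_le_mul_of_nonneg_left ?_ (sq_nonneg _)
          nlinarith [sq_nonneg (64 - a / 2)]
      _ = _ := by ring
  exact (abs_le_of_sq_le_sq' h4 (by positivity)).2

/-- tall part of a section: `∑ |U^{>H}| ≤ n α / H` -/
theorem tall_le {n : ℕ} {x : Fin n → ℂ} {H s : ℝ} (hH : 0 < H) (hx : ∑ i, ‖x i‖ ^ 2 ≤ s) :
    ∑ i, ‖x i - (if ‖x i‖ ≤ H then x i else 0)‖ ≤ H⁻¹ * s := by
  calc ∑ i, ‖x i - (if ‖x i‖ ≤ H then x i else 0)‖ ≤ ∑ i, H⁻¹ * ‖x i‖ ^ 2 := by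
        refine Finset.sum_le_sum fun i _ => ?_
        split_ifs with h
        · rw [sub_self, norm_zero]; positivity
        · rw [sub_zero]
          push Not at h
          have h1 : 1 ≤ H⁻¹ * ‖x i‖ := by
            rw [inv_mul_eq_div, one_le_div hH]; exact h.le
          nlinarith [norm_nonneg (x i)]
    _ = H⁻¹ * ∑ i, ‖x i‖ ^ 2 := by rw [Finset.mul_sum]
    _ ≤ H⁻¹ * s := mul_le_mul_of_nonneg_left hx (by positivity)

/-- the trilinear sum of 977's `OLev` -/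
noncomputable def osum (k j e e' : Fin 4) (p : Nd) (X : Fn) (n : ℕ) (w q u : ℤ) (m : ℤ → ℤ → ℂ)
    (U V : Fin n → Fin n → ℂ) : ℂ :=
  ∑ c : Fin n, ∑ i : Fin n, ∑ i' : Fin n,
    m (q + ((i : ℕ) : ℤ)) (u + ((i' : ℕ) : ℤ)) *
      res p X ((sl j - sl k) * (w + ((c : ℕ) : ℤ)) + (sl e - sl k) * (q + ((i : ℕ) : ℤ)) +
        (sl e' - sl k) * (u + ((i' : ℕ) : ℤ))) * U c i * V c i'

/-- error of a tall first section -/
theorem osum_tallU {k j e e' : Fin 4} {p : Nd} {X : Fn} {A : ℝ} (hA : 0 ≤ A) (hX : av p X ≤ A)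
    {n : ℕ} (hn : (2 : ℝ) ^ p.1 ≤ n) (w q u : ℤ) {m : ℤ → ℤ → ℂ} {U V : Fin n → Fin n → ℂ}
    {α : Fin n → ℝ} (hke' : k ≠ e') (hm : ∀ z z', ‖m z z'‖ ≤ 1) (hα : ∀ c, 0 ≤ α c)
    (hα2 : ∑ c, α c ^ 2 ≤ n) {θ : ℝ} (hθ : 0 ≤ θ) (hU : ∀ c, ∑ i, ‖U c i‖ ≤ θ * (n * α c))
    (hV : ∀ c, ∑ i, ‖V c i‖ ^ 2 ≤ n * α c) :
    ‖osum k j e e' p X n w q u m U V‖ ≤ 65 * A * θ * (n : ℝ) ^ 3 := by
  have hA' : sl e' - sl k ≠ 0 := sub_ne_zero.2 fun hh => hke' (Qa246.sl_inj hh).symm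
  have hn0 : (0 : ℝ) ≤ n := Nat.cast_nonneg n
  have hc : ∀ c i : Fin n, ∑ i' : Fin n, ‖m (q + ((i : ℕ) : ℤ)) (u + ((i' : ℕ) : ℤ)) *
      res p X ((sl j - sl k) * (w + ((c : ℕ) : ℤ)) + (sl e - sl k) * (q + ((i : ℕ) : ℤ)) +
        (sl e' - sl k) * (u + ((i' : ℕ) : ℤ))) * U c i * V c i'‖ ≤
      ‖U c i‖ * (A * n * (64 + α c / 2)) := by
    intro c i
    have h1 := row_le hA hX hn (g := fun i' : Fin n => (sl j - sl k) * (w + ((c : ℕ) : ℤ)) +
      (sl e - sl k) * (q + ((i : ℕ) : ℤ)) + (sl e' - sl k) * (u + ((i' : ℕ) : ℤ)))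
      (fun a b hab => by
        have hab' : (sl e' - sl k) * (u + ((a : ℕ) : ℤ)) = (sl e' - sl k) * (u + ((b : ℕ) : ℤ)) := by
          have : (sl j - sl k) * (w + ((c : ℕ) : ℤ)) + (sl e - sl k) * (q + ((i : ℕ) : ℤ)) +
            (sl e' - sl k) * (u + ((a : ℕ) : ℤ)) = (sl j - sl k) * (w + ((c : ℕ) : ℤ)) +
            (sl e - sl k) * (q + ((i : ℕ) : ℤ)) + (sl e' - sl k) * (u + ((b : ℕ) : ℤ)) := hab
          linarith
        have := mul_left_cancel₀ hA' hab'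
        exact Fin.ext (by omega)) (x := fun i' => ‖V c i'‖) (hα c) (hV c)
    calc _ ≤ ∑ i' : Fin n, ‖U c i‖ * (‖res p X ((sl j - sl k) * (w + ((c : ℕ) : ℤ)) +
          (sl e - sl k) * (q + ((i : ℕ) : ℤ)) + (sl e' - sl k) * (u + ((i' : ℕ) : ℤ)))‖ *
            ‖V c i'‖) := by
          refine Finset.sum_le_sum fun i' _ => ?_
          rw [norm_mul, norm_mul, norm_mul]
          have := hm (q + ((i : ℕ) : ℤ)) (u + ((i' : ℕ) : ℤ))
          calc _ ≤ 1 * ‖res p X ((sl j - sl k) * (w + ((c : ℕ) : ℤ)) +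
              (sl e - sl k) * (q + ((i : ℕ) : ℤ)) + (sl e' - sl k) * (u + ((i' : ℕ) : ℤ)))‖ *
                ‖U c i‖ * ‖V c i'‖ := by gcongr
            _ = _ := by ring
      _ = ‖U c i‖ * ∑ i' : Fin n, (‖res p X ((sl j - sl k) * (w + ((c : ℕ) : ℤ)) +
          (sl e - sl k) * (q + ((i : ℕ) : ℤ)) + (sl e' - sl k) * (u + ((i' : ℕ) : ℤ)))‖ *
            ‖V c i'‖) := by rw [Finset.mul_sum]
      _ ≤ _ := mul_le_mul_of_nonneg_left h1 (norm_nonneg _)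
  unfold osum
  calc _ ≤ ∑ c : Fin n, ∑ i : Fin n, ‖U c i‖ * (A * n * (64 + α c / 2)) := by
        refine (norm_sum_le _ _).trans (Finset.sum_le_sum fun c _ => ?_)
        refine (norm_sum_le _ _).trans (Finset.sum_le_sum fun i _ => ?_)
        exact (norm_sum_le _ _).trans (hc c i)
    _ = ∑ c : Fin n, (∑ i : Fin n, ‖U c i‖) * (A * n * (64 + α c / 2)) := by
        refine Finset.sum_congr rfl fun c _ => ?_
        rw [Finset.sum_mul]
    _ ≤ ∑ c : Fin n, (θ * (n * α c)) * (A * n * (64 + α c / 2)) := by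
        refine Finset.sum_le_sum fun c _ => mul_le_mul_of_nonneg_right (hU c) ?_
        have := hα c
        positivity
    _ = A * θ * n ^ 2 * (64 * ∑ c, α c + (∑ c, α c ^ 2) / 2) := by
        rw [Finset.mul_sum, Finset.sum_div, ← Finset.sum_add_distrib, Finset.mul_sum]
        refine Finset.sum_congr rfl fun c _ => by ring
    _ ≤ A * θ * n ^ 2 * (64 * n + n / 2) := by
        refine mul_le_mul_of_nonneg_left ?_ (by positivity)
        have := sum_α_le hα2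
        linarith
    _ ≤ 65 * A * θ * (n : ℝ) ^ 3 := by
        have : 0 ≤ A * θ * (n : ℝ) ^ 3 := by positivity
        nlinarith

/-- exchange of the two sections -/
theorem osum_swap (k j e e' : Fin 4) (p : Nd) (X : Fn) (n : ℕ) (w q u : ℤ) (m : ℤ → ℤ → ℂ)
    (U V : Fin n → Fin n → ℂ) : osum k j e e' p X n w q u m U V =
      osum k j e' e p X n w u q (fun z z' => m z' z) V U := by
  unfold osum
  refine Finset.sum_congr rfl fun c _ => ?_
  rw [Finset.sum_comm]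
  refine Finset.sum_congr rfl fun i' _ => Finset.sum_congr rfl fun i _ => ?_
  have : (sl j - sl k) * (w + ((c : ℕ) : ℤ)) + (sl e - sl k) * (q + ((i : ℕ) : ℤ)) +
      (sl e' - sl k) * (u + ((i' : ℕ) : ℤ)) = (sl j - sl k) * (w + ((c : ℕ) : ℤ)) +
      (sl e' - sl k) * (u + ((i' : ℕ) : ℤ)) + (sl e - sl k) * (q + ((i : ℕ) : ℤ)) := by ring
  rw [this]
  ring

/-- **LEVEL ⟹ OP-LEVEL** -/
theorem olev_of_lv {S : Fin 4 → ℝ → Set Fn} {γ C : ℝ} {κ : ℕ} {k : Fin 4} (hk : k ≠ 3)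
    {t : ℝ} (ht : 0 < t) (ht1 : t ≤ 1) {s A : ℝ} (hs : 0 ≤ s) (hA : 0 ≤ A) {p : Nd} {X : Fn}
    (hS : OpF γ C k t ⊆ S k t) (h : TRec.Lv (DS S) k t s p X) (hX : av p X ≤ A) :
    OLev κ k p X (128 * s * t ^ γ + 130 * A * t ^ C) := by
  intro j e e' h1 h2 h3 h4 h5 h6 r hr n hn w q u m hm U V α hα hU hV hα2
  have hnn : (2 : ℝ) ^ p.1 ≤ n := by
    rw [hn]; push_cast
    exact pow_le_pow_right₀ (by norm_num) (by omega)
  have hnpos : (0 : ℝ) < n := by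
    rw [hn]; positivity
  set H : ℝ := t ^ (-C) with hH
  have hH0 : 0 < H := Real.rpow_pos_of_pos ht _
  have hHi : H⁻¹ = t ^ C := by rw [hH, Real.rpow_neg ht.le, inv_inv]
  set U' : Fin n → Fin n → ℂ := fun c i => if ‖U c i‖ ≤ H then U c i else 0 with hU'
  set V' : Fin n → Fin n → ℂ := fun c i => if ‖V c i‖ ≤ H then V c i else 0 with hV'
  have hU'1 : ∀ c i, ‖U' c i‖ ≤ ‖U c i‖ := by
    intro c i; simp only [hU']; split_ifs <;> simp
  have hV'1 : ∀ c i, ‖V' c i‖ ≤ ‖V c i‖ := by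
    intro c i; simp only [hV']; split_ifs <;> simp
  have hU'2 : ∀ c, ∑ i, ‖U' c i‖ ^ 2 ≤ n * α c := fun c =>
    (Finset.sum_le_sum fun i _ => pow_le_pow_left₀ (norm_nonneg _) (hU'1 c i) 2).trans (hU c)
  have hV'2 : ∀ c, ∑ i, ‖V' c i‖ ^ 2 ≤ n * α c := fun c =>
    (Finset.sum_le_sum fun i _ => pow_le_pow_left₀ (norm_nonneg _) (hV'1 c i) 2).trans (hV c)
  have hU'3 : ∀ c i, ‖U' c i‖ ≤ H := by
    intro c i; simp only [hU']; split_ifs with hh
    · exact hh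
    · simpa using hH0.le
  have hV'3 : ∀ c i, ‖V' c i‖ ≤ H := by
    intro c i; simp only [hV']; split_ifs with hh
    · exact hh
    · simpa using hH0.le
  -- decomposition
  have hdec : osum k j e e' p X n w q u m U V = osum k j e e' p X n w q u m U' V' +
      osum k j e e' p X n w q u m U' (fun c i => V c i - V' c i) +
      osum k j e e' p X n w q u m (fun c i => U c i - U' c i) V := by
    unfold osum
    simp only [← Finset.sum_add_distrib]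
    refine Finset.sum_congr rfl fun c _ => Finset.sum_congr rfl fun i _ =>
      Finset.sum_congr rfl fun i' _ => by ring
  -- main part
  have hmain : ‖osum k j e e' p X n w q u m U' V'‖ ≤ 128 * s * t ^ γ * (n : ℝ) ^ 3 := by
    have hmem : (fun y => ((t ^ (-γ) / (n : ℝ) ^ 2 : ℝ) : ℂ) * opT k j e e' n w q u m U' V' y) ∈
        S k t := hS ⟨j, e, e', n, w, q, u, m, U', V', α,
          ⟨h1, h2, h3, h4, h5, h6, hm, hα, hU'2, hV'2, hα2⟩, hU'3, hV'3, rfl⟩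
    have h7 := lv_fam hk ht1 h hmem
    have h8 : ∑ y ∈ iv p, X y * (((t ^ (-γ) / (n : ℝ) ^ 2 : ℝ) : ℂ) *
        opT k j e e' n w q u m U' V' y) = ((t ^ (-γ) / (n : ℝ) ^ 2 : ℝ) : ℂ) *
          osum k j e e' p X n w q u m U' V' := by
      have h9 := pair_opT k j e e' n w q u m U' V' p X
      unfold osum
      rw [← h9, Finset.mul_sum]
      exact Finset.sum_congr rfl fun y _ => by ring
    have htγ : 0 < t ^ (-γ) := Real.rpow_pos_of_pos ht _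
    rw [h8, norm_mul, Complex.norm_real, Real.norm_of_nonneg (by positivity)] at h7
    have h10 : len p ≤ 128 * n := by
      unfold len; rw [pow_add]; nlinarith
    have h11 : t ^ (-γ) / (n : ℝ) ^ 2 * ‖osum k j e e' p X n w q u m U' V'‖ ≤ s * (128 * n) :=
      h7.trans (mul_le_mul_of_nonneg_left h10 hs)
    have h12 : t ^ (-γ) * t ^ γ = 1 := by
      rw [← Real.rpow_add ht]; simp
    have htγ' : 0 < t ^ γ := Real.rpow_pos_of_pos ht _
    calc ‖osum k j e e' p X n w q u m U' V'‖ = (t ^ γ * (n : ℝ) ^ 2) *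
          (t ^ (-γ) / (n : ℝ) ^ 2 * ‖osum k j e e' p X n w q u m U' V'‖) := by
          have : (t ^ γ * (n : ℝ) ^ 2) * (t ^ (-γ) / (n : ℝ) ^ 2 *
              ‖osum k j e e' p X n w q u m U' V'‖) = (t ^ (-γ) * t ^ γ) *
              ‖osum k j e e' p X n w q u m U' V'‖ * ((n : ℝ) ^ 2 / (n : ℝ) ^ 2) := by ring
          rw [this, h12, div_self (by positivity)]; ring
      _ ≤ (t ^ γ * (n : ℝ) ^ 2) * (s * (128 * n)) :=
          mul_le_mul_of_nonneg_left h11 (by positivity)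
      _ = _ := by ring
  -- tall second section
  have ht2 : ‖osum k j e e' p X n w q u m U' (fun c i => V c i - V' c i)‖ ≤
      65 * A * H⁻¹ * (n : ℝ) ^ 3 := by
    rw [osum_swap]
    refine osum_tallU hA hX hnn w u q h4 (fun z z' => hm z' z) hα hα2 (by positivity) ?_ hU'2
    intro c
    exact tall_le hH0 (hV c)
  -- tall first section
  have ht3 : ‖osum k j e e' p X n w q u m (fun c i => U c i - U' c i) V‖ ≤
      65 * A * H⁻¹ * (n : ℝ) ^ 3 := by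
    refine osum_tallU hA hX hnn w q u h5 hm hα hα2 (by positivity) ?_ hV
    intro c
    exact tall_le hH0 (hU c)
  show ‖osum k j e e' p X n w q u m U V‖ ≤ _
  rw [hdec]
  calc _ ≤ 128 * s * t ^ γ * (n : ℝ) ^ 3 + 65 * A * H⁻¹ * (n : ℝ) ^ 3 +
        65 * A * H⁻¹ * (n : ℝ) ^ 3 :=
        (norm_add_le _ _).trans (add_le_add ((norm_add_le _ _).trans (add_le_add hmain ht2)) ht3)
    _ = _ := by rw [hHi]; ring

end Crest.Agent.R079.DicOp679
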