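import Crest.Agent.R079.S2At_491
import Crest.Agent.R079.GrowthDefs_248
import Mathlib

/-! R079 (helper977): OP-LEVEL of a slot letter in the LINE model and `op-level ⟹ S₄` of the frozen
kernels (replaces `Cls.C2`, `Cls.C2'`, whose level is the sup norm).

`OLev κ k p f s`: `f` (slot `k`, restricted to the node `p`) has level `≤ s` against all products
`m(z_e, z_e') U(z_j, z_e) V(z_j, z_e')` on cubes of side `n = 2^(p.1+r)`, `r ≤ κ`, with a bounded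
gauge `|m| ≤ 1` and vectors with bounded marginals at the vertex `j`:
`avg_{z_e} |U(z_j,·)|² ≤ α(z_j)`, `avg_{z_e'} |V(z_j,·)|² ≤ α(z_j)`, `avg_{z_j} α² ≤ 1`. -/

set_option autoImplicit false

namespace Crest.Agent.R079.OpLev

open Finset

/-! ### matrices -/

section mat

variable {ι κ : Type*} [Fintype ι] [Fintype κ]

theorem cs (y w : ι → ℂ) :
    ‖∑ i, y i * (starRingEnd ℂ) (w i)‖ ^ 2 ≤ (∑ i, ‖y i‖ ^ 2) * ∑ i, ‖w i‖ ^ 2 := by
  have h1 : ‖∑ i, y i * (starRingEnd ℂ) (w i)‖ ≤ ∑ i, ‖y i‖ * ‖w i‖ := by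
    refine (norm_sum_le _ _).trans (Finset.sum_le_sum fun i _ => ?_)
    rw [norm_mul, RCLike.norm_conj]
  calc ‖∑ i, y i * (starRingEnd ℂ) (w i)‖ ^ 2 ≤ (∑ i, ‖y i‖ * ‖w i‖) ^ 2 :=
        pow_le_pow_left₀ (norm_nonneg _) h1 2
    _ ≤ _ := Finset.sum_mul_sq_le_sq_mul_sq _ _ _

/-- `σ` bounds `M` on `ℓ²` -/
def OpB (M : ι → κ → ℂ) (σ : ℝ) : Prop :=
  ∀ x : κ → ℂ, ∑ i, ‖∑ j, M i j * x j‖ ^ 2 ≤ σ ^ 2 * ∑ j, ‖x j‖ ^ 2

/-- top singular pair -/
theorem exists_top (M : ι → κ → ℂ) :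
    ∃ σ : ℝ, 0 ≤ σ ∧ OpB M σ ∧ ∃ (u : ι → ℂ) (v : κ → ℂ), ∑ i, ‖u i‖ ^ 2 ≤ 1 ∧
      ∑ j, ‖v j‖ ^ 2 ≤ 1 ∧ ∑ i, ∑ j, M i j * u i * v j = (σ : ℂ) := by
  classical
  -- the function to be maximised
  let g : EuclideanSpace ℂ κ → ℝ := fun x => ∑ i, ‖∑ j, M i j * x j‖ ^ 2
  have hg : Continuous g := by
    refine continuous_finsetSum _ fun i _ => ?_
    refine Continuous.pow (Continuous.norm ?_) 2
    refine continuous_finsetSum _ fun j _ => ?_
    exact continuous_const.mul (by fun_prop)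
  obtain ⟨v, hv, hmax⟩ := (isCompact_closedBall (0 : EuclideanSpace ℂ κ) 1).exists_isMaxOn
    ⟨0, by simp⟩ hg.continuousOn
  have hv1 : ∑ j, ‖v j‖ ^ 2 ≤ 1 := by
    have h1 : ‖v‖ ≤ 1 := by simpa using hv
    have h2 : ‖v‖ ^ 2 = ∑ j, ‖v j‖ ^ 2 := EuclideanSpace.norm_sq_eq v
    rw [← h2]
    exact pow_le_one₀ (norm_nonneg _) h1
  have hgn : ∀ x, 0 ≤ g x := fun x => Finset.sum_nonneg fun i _ => by positivity
  refine ⟨Real.sqrt (g v), Real.sqrt_nonneg _, ?_, ?_⟩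
  · intro x
    rw [Real.sq_sqrt (hgn v)]
    rcases eq_or_ne (∑ j, ‖x j‖ ^ 2) 0 with h0 | h0
    · have hx : ∀ j, x j = 0 := by
        intro j
        have := (Finset.sum_eq_zero_iff_of_nonneg (fun j _ => by positivity)).1 h0 j (Finset.mem_univ j)
        simpa using this
      simp [hx]
    · have hpos : 0 < ∑ j, ‖x j‖ ^ 2 := lt_of_le_of_ne
        (Finset.sum_nonneg fun j _ => by positivity) (Ne.symm h0)
      set r : ℝ := Real.sqrt (∑ j, ‖x j‖ ^ 2) with hr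
      have hrpos : 0 < r := Real.sqrt_pos.2 hpos
      have hr2 : r ^ 2 = ∑ j, ‖x j‖ ^ 2 := Real.sq_sqrt hpos.le
      let y : EuclideanSpace ℂ κ := WithLp.toLp 2 (fun j => ((r⁻¹ : ℝ) : ℂ) * x j)
      have hy : y ∈ Metric.closedBall (0 : EuclideanSpace ℂ κ) 1 := by
        rw [mem_closedBall_zero_iff]
        have : ‖y‖ ^ 2 = 1 := by
          rw [EuclideanSpace.norm_sq_eq]
          have : ∀ j, ‖y j‖ ^ 2 = r⁻¹ ^ 2 * ‖x j‖ ^ 2 := by
            intro j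
            show ‖((r⁻¹ : ℝ) : ℂ) * x j‖ ^ 2 = _
            rw [norm_mul, Complex.norm_real, Real.norm_eq_abs, mul_pow, sq_abs]
          rw [Finset.sum_congr rfl fun j _ => this j, ← Finset.mul_sum, ← hr2]
          field_simp
        nlinarith [norm_nonneg y]
      have h3 : g y ≤ g v := hmax hy
      have h4 : g y = r⁻¹ ^ 2 * ∑ i, ‖∑ j, M i j * x j‖ ^ 2 := by
        show ∑ i, ‖∑ j, M i j * (((r⁻¹ : ℝ) : ℂ) * x j)‖ ^ 2 = _
        rw [Finset.mul_sum]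
        refine Finset.sum_congr rfl fun i _ => ?_
        have : ∑ j, M i j * (((r⁻¹ : ℝ) : ℂ) * x j) = ((r⁻¹ : ℝ) : ℂ) * ∑ j, M i j * x j := by
          rw [Finset.mul_sum]; exact Finset.sum_congr rfl fun j _ => by ring
        rw [this, norm_mul, Complex.norm_real, Real.norm_eq_abs, mul_pow, sq_abs]
      rw [h4] at h3
      have h5 : ∑ i, ‖∑ j, M i j * x j‖ ^ 2 ≤ g v * r ^ 2 := by
        have := mul_le_mul_of_nonneg_right h3 (sq_nonneg r)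
        have e : r⁻¹ ^ 2 * (∑ i, ‖∑ j, M i j * x j‖ ^ 2) * r ^ 2 = ∑ i, ‖∑ j, M i j * x j‖ ^ 2 := by
          field_simp
        rwa [e] at this
      rw [← hr2]; exact h5
  · rcases eq_or_ne (g v) 0 with h0 | h0
    · refine ⟨fun _ => 0, fun j => v j, by simp, hv1, ?_⟩
      simp [h0]
    · have hpos : 0 < g v := lt_of_le_of_ne (hgn v) (Ne.symm h0)
      set σ : ℝ := Real.sqrt (g v) with hσ
      have hσpos : 0 < σ := Real.sqrt_pos.2 hpos
      have hσ2 : σ ^ 2 = g v := Real.sq_sqrt hpos.le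
      refine ⟨fun i => ((σ⁻¹ : ℝ) : ℂ) * (starRingEnd ℂ) (∑ j, M i j * v j), fun j => v j, ?_, hv1, ?_⟩
      · have : ∀ i, ‖((σ⁻¹ : ℝ) : ℂ) * (starRingEnd ℂ) (∑ j, M i j * v j)‖ ^ 2 =
            σ⁻¹ ^ 2 * ‖∑ j, M i j * v j‖ ^ 2 := by
          intro i
          rw [norm_mul, Complex.norm_real, Real.norm_eq_abs, mul_pow, sq_abs, RCLike.norm_conj]
        rw [Finset.sum_congr rfl fun i _ => this i, ← Finset.mul_sum]
        have : ∑ i, ‖∑ j, M i j * v j‖ ^ 2 = σ ^ 2 := by rw [hσ2]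
        rw [this]
        exact le_of_eq (by field_simp)
      · have : ∀ i, ∑ j, M i j * (((σ⁻¹ : ℝ) : ℂ) * (starRingEnd ℂ) (∑ j, M i j * v j)) * v j =
            ((σ⁻¹ * ‖∑ j, M i j * v j‖ ^ 2 : ℝ) : ℂ) := by
          intro i
          have e1 : ∑ j, M i j * (((σ⁻¹ : ℝ) : ℂ) * (starRingEnd ℂ) (∑ j, M i j * v j)) * v j =
              ((σ⁻¹ : ℝ) : ℂ) * ((∑ j, M i j * v j) * (starRingEnd ℂ) (∑ j, M i j * v j)) := by
            rw [Finset.sum_mul, Finset.mul_sum]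
            refine Finset.sum_congr rfl fun j _ => by ring
          rw [e1, Complex.mul_conj, Complex.normSq_eq_norm_sq]
          push_cast; ring
        rw [Finset.sum_congr rfl fun i _ => this i]
        rw [← Complex.ofReal_sum, ← Finset.mul_sum]
        have : ∑ i, ‖∑ j, M i j * v j‖ ^ 2 = σ ^ 2 := by rw [hσ2]
        rw [this]
        congr 1
        field_simp

/-- adjoint bound -/
theorem OpB.adj {M : ι → κ → ℂ} {σ : ℝ} (h : OpB M σ) (hσ : 0 ≤ σ) (y : ι → ℂ) :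
    ∑ j, ‖∑ i, y i * (starRingEnd ℂ) (M i j)‖ ^ 2 ≤ σ ^ 2 * ∑ i, ‖y i‖ ^ 2 := by
  set z : κ → ℂ := fun j => ∑ i, y i * (starRingEnd ℂ) (M i j) with hz
  set Z : ℝ := ∑ j, ‖z j‖ ^ 2 with hZ
  have hZ0 : 0 ≤ Z := Finset.sum_nonneg fun j _ => by positivity
  have e1 : ((Z : ℝ) : ℂ) = ∑ i, y i * (starRingEnd ℂ) (∑ j, M i j * z j) := by
    have a1 : ∀ j, ((‖z j‖ ^ 2 : ℝ) : ℂ) = z j * (starRingEnd ℂ) (z j) := by
      intro j
      rw [Complex.mul_conj, Complex.normSq_eq_norm_sq]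
    rw [hZ, Complex.ofReal_sum, Finset.sum_congr rfl fun j _ => a1 j]
    have a2 : ∀ j, z j * (starRingEnd ℂ) (z j) =
        ∑ i, y i * ((starRingEnd ℂ) (M i j) * (starRingEnd ℂ) (z j)) := by
      intro j
      conv_lhs => rw [hz]
      simp only
      rw [Finset.sum_mul]
      exact Finset.sum_congr rfl fun i _ => by ring
    rw [Finset.sum_congr rfl fun j _ => a2 j, Finset.sum_comm]
    refine Finset.sum_congr rfl fun i _ => ?_
    rw [← Finset.mul_sum, map_sum]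
    congr 1
    exact Finset.sum_congr rfl fun j _ => by rw [map_mul]
  have e2 : Z ^ 2 ≤ (∑ i, ‖y i‖ ^ 2) * (σ ^ 2 * Z) := by
    have a3 : Z ^ 2 = ‖((Z : ℝ) : ℂ)‖ ^ 2 := by
      rw [Complex.norm_real, Real.norm_eq_abs, sq_abs]
    rw [a3, e1]
    refine (cs y _).trans ?_
    exact mul_le_mul_of_nonneg_left (h z) (Finset.sum_nonneg fun i _ => by positivity)
  rcases eq_or_lt_of_le hZ0 with h0 | h0
  · rw [← h0]
    exact mul_nonneg (sq_nonneg _) (Finset.sum_nonneg fun i _ => by positivity)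
  · nlinarith

/-- `S₄⁴ ≤ op² S₂²` -/
theorem OpB.s4 {M : ι → κ → ℂ} {σ : ℝ} (h : OpB M σ) (hσ : 0 ≤ σ) :
    ∑ j, ∑ j', ‖∑ i, M i j * (starRingEnd ℂ) (M i j')‖ ^ 2 ≤ σ ^ 2 * ∑ j, ∑ i, ‖M i j‖ ^ 2 := by
  rw [Finset.mul_sum]
  exact Finset.sum_le_sum fun j _ => h.adj hσ (fun i => M i j)

end mat

/-- **level ⟹ operator norms ⟹ `S₄`** for a family of matrices `M c`, `c : Fin n`:
`avg_c e4 ≤ E s²` -/
theorem lev_s4 (n : ℕ) (M : Fin n → Fin n → Fin n → ℂ) (s E : ℝ) (hs : 0 ≤ s) (hE : 0 ≤ E)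
    (hlev : ∀ (U V : Fin n → Fin n → ℂ) (α : Fin n → ℝ), (∀ c, 0 ≤ α c) →
      (∀ c, ∑ i, ‖U c i‖ ^ 2 ≤ n * α c) → (∀ c, ∑ j, ‖V c j‖ ^ 2 ≤ n * α c) →
      ∑ c, α c ^ 2 ≤ n → ‖∑ c, ∑ i, ∑ j, M c i j * U c i * V c j‖ ≤ s * n ^ 3)
    (hE2 : ∀ c, ∑ j, ∑ i, ‖M c i j‖ ^ 2 ≤ n ^ 2 * E) :
    ∑ c, ∑ j, ∑ j', ‖∑ i, M c i j * (starRingEnd ℂ) (M c i j')‖ ^ 2 ≤ n ^ 5 * (E * s ^ 2) := by
  classical
  choose σ hσ0 hσ u v hu hv huv using fun c => exists_top (M c)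
  set S : ℝ := ∑ c, σ c ^ 2 with hS
  have hS0 : 0 ≤ S := Finset.sum_nonneg fun c _ => by positivity
  have hn0 : (0 : ℝ) ≤ n := Nat.cast_nonneg n
  -- claim: S ≤ s² n³
  have key : S ≤ s ^ 2 * n ^ 3 := by
    rcases eq_or_lt_of_le hS0 with h0 | h0
    · rw [← h0]; positivity
    · have hn : 0 < (n : ℝ) := by
        rcases Nat.eq_zero_or_pos n with h | h
        · subst h; simp [hS] at h0
        · exact_mod_cast h
      set lam : ℝ := Real.sqrt (n / S) with hlam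
      have hlam0 : 0 < lam := Real.sqrt_pos.2 (by positivity)
      have hlam2 : lam ^ 2 = n / S := Real.sq_sqrt (by positivity)
      have hα0 : ∀ c, 0 ≤ lam * σ c := fun c => mul_nonneg hlam0.le (hσ0 c)
      have h1 := hlev (fun c i => ((Real.sqrt (n * (lam * σ c)) : ℝ) : ℂ) * u c i)
        (fun c j => ((Real.sqrt (n * (lam * σ c)) : ℝ) : ℂ) * v c j) (fun c => lam * σ c) hα0
        (fun c => by
          have : ∀ i, ‖((Real.sqrt (n * (lam * σ c)) : ℝ) : ℂ) * u c i‖ ^ 2 =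
              n * (lam * σ c) * ‖u c i‖ ^ 2 := fun i => by
            rw [norm_mul, Complex.norm_real, Real.norm_eq_abs, mul_pow, sq_abs,
              Real.sq_sqrt (mul_nonneg hn0 (hα0 c))]
          rw [Finset.sum_congr rfl fun i _ => this i, ← Finset.mul_sum]
          have := mul_le_mul_of_nonneg_left (hu c) (mul_nonneg hn0 (hα0 c))
          simpa using this)
        (fun c => by
          have : ∀ i, ‖((Real.sqrt (n * (lam * σ c)) : ℝ) : ℂ) * v c i‖ ^ 2 =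
              n * (lam * σ c) * ‖v c i‖ ^ 2 := fun i => by
            rw [norm_mul, Complex.norm_real, Real.norm_eq_abs, mul_pow, sq_abs,
              Real.sq_sqrt (mul_nonneg hn0 (hα0 c))]
          rw [Finset.sum_congr rfl fun i _ => this i, ← Finset.mul_sum]
          have := mul_le_mul_of_nonneg_left (hv c) (mul_nonneg hn0 (hα0 c))
          simpa using this)
        (by
          have : ∀ c, (lam * σ c) ^ 2 = lam ^ 2 * σ c ^ 2 := fun c => by ring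
          rw [Finset.sum_congr rfl fun c _ => this c, ← Finset.mul_sum, ← hS, hlam2]
          exact le_of_eq (by field_simp))
      have h2 : ∑ c, ∑ i, ∑ j, M c i j * (((Real.sqrt (n * (lam * σ c)) : ℝ) : ℂ) * u c i) *
          (((Real.sqrt (n * (lam * σ c)) : ℝ) : ℂ) * v c j) = ((n * lam * S : ℝ) : ℂ) := by
        have a1 : ∀ c, ∑ i, ∑ j, M c i j * (((Real.sqrt (n * (lam * σ c)) : ℝ) : ℂ) * u c i) *
            (((Real.sqrt (n * (lam * σ c)) : ℝ) : ℂ) * v c j) =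
            ((n * lam * σ c ^ 2 : ℝ) : ℂ) := by
          intro c
          have a2 : ∑ i, ∑ j, M c i j * (((Real.sqrt (n * (lam * σ c)) : ℝ) : ℂ) * u c i) *
              (((Real.sqrt (n * (lam * σ c)) : ℝ) : ℂ) * v c j) =
              ((Real.sqrt (n * (lam * σ c)) ^ 2 : ℝ) : ℂ) * ∑ i, ∑ j, M c i j * u c i * v c j := by
            rw [Finset.mul_sum]
            refine Finset.sum_congr rfl fun i _ => ?_
            rw [Finset.mul_sum]
            refine Finset.sum_congr rfl fun j _ => ?_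
            push_cast; ring
          rw [a2, huv c, Real.sq_sqrt (mul_nonneg hn0 (hα0 c))]
          push_cast; ring
        rw [Finset.sum_congr rfl fun c _ => a1 c, ← Complex.ofReal_sum, ← Finset.mul_sum]
      rw [h2, Complex.norm_real, Real.norm_eq_abs, abs_of_nonneg (by positivity)] at h1
      -- n * lam * S ≤ s n³  ⟹ lam S ≤ s n²
      have h3 : lam * S ≤ s * n ^ 2 := by
        have : n * (lam * S) ≤ n * (s * n ^ 2) := by nlinarith
        exact le_of_mul_le_mul_left this hn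
      have h4 : (lam * S) ^ 2 ≤ (s * n ^ 2) ^ 2 := pow_le_pow_left₀ (by positivity) h3 2
      rw [mul_pow, hlam2] at h4
      have h5 : n / S * S ^ 2 = n * S := by field_simp
      rw [h5] at h4
      have h6 : n * S ≤ n * (s ^ 2 * n ^ 3) := by nlinarith
      exact le_of_mul_le_mul_left h6 hn
  calc ∑ c, ∑ j, ∑ j', ‖∑ i, M c i j * (starRingEnd ℂ) (M c i j')‖ ^ 2
      ≤ ∑ c, σ c ^ 2 * (n ^ 2 * E) := by
        refine Finset.sum_le_sum fun c _ => ((hσ c).s4 (hσ0 c)).trans ?_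
        exact mul_le_mul_of_nonneg_left (hE2 c) (sq_nonneg _)
    _ = S * (n ^ 2 * E) := by rw [← Finset.sum_mul]
    _ ≤ (s ^ 2 * n ^ 3) * (n ^ 2 * E) := mul_le_mul_of_nonneg_right key (by positivity)
    _ = n ^ 5 * (E * s ^ 2) := by ring


/-! ### the level of a slot letter in the line model -/

open Crest.Agent.R079.Grid Crest.Agent.R079.Glue Crest.Agent.R079.R244

/-- **OP-LEVEL** of `f` (slot `k`) at the node `p`: bounded gauge on the edge `(e,e')`, vectors with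
bounded marginals at the vertex `j` (`α` in `L²`). -/
def OLev (κ : ℕ) (k : Fin 4) (p : ℕ × ℤ) (f : ℤ → ℂ) (s : ℝ) : Prop :=
  ∀ j e e' : Fin 4, j ≠ k → j ≠ e → j ≠ e' → k ≠ e → k ≠ e' → e ≠ e' → ∀ r ≤ κ, ∀ n : ℕ,
    n = 2 ^ (p.1 + r) → ∀ (w q u : ℤ) (m : ℤ → ℤ → ℂ), (∀ z z', ‖m z z'‖ ≤ 1) →
    ∀ (U V : Fin n → Fin n → ℂ) (α : Fin n → ℝ), (∀ c, 0 ≤ α c) →
      (∀ c, ∑ i, ‖U c i‖ ^ 2 ≤ n * α c) → (∀ c, ∑ i, ‖V c i‖ ^ 2 ≤ n * α c) →
      ∑ c, α c ^ 2 ≤ n →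
      ‖∑ c : Fin n, ∑ i : Fin n, ∑ i' : Fin n,
        m (q + ((i : ℕ) : ℤ)) (u + ((i' : ℕ) : ℤ)) *
          res p f ((sl j - sl k) * (w + ((c : ℕ) : ℤ)) + (sl e - sl k) * (q + ((i : ℕ) : ℤ)) +
            (sl e' - sl k) * (u + ((i' : ℕ) : ℤ))) * U c i * V c i'‖ ≤ s * n ^ 3

theorem OLev.mono {κ : ℕ} {k : Fin 4} {p : ℕ × ℤ} {f : ℤ → ℂ} {s s' : ℝ} (h : OLev κ k p f s)
    (hs : s ≤ s') : OLev κ k p f s' := by
  intro j e e' h1 h2 h3 h4 h5 h6 r hr n hn w q u m hm U V α hα hU hV hα2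
  exact (h j e e' h1 h2 h3 h4 h5 h6 r hr n hn w q u m hm U V α hα hU hV hα2).trans
    (mul_le_mul_of_nonneg_right hs (by positivity))

/-- block form: average of `e4` over `n` consecutive values of the frozen variable -/
theorem olev_blk {κ : ℕ} {k : Fin 4} {p : ℕ × ℤ} {f : ℤ → ℂ} {s : ℝ} (hO : OLev κ k p f s)
    (hs : 0 ≤ s) {j e e' : Fin 4} (h1 : j ≠ k) (h2 : j ≠ e) (h3 : j ≠ e') (h4 : k ≠ e)
    (h5 : k ≠ e') (h6 : e ≠ e') {r : ℕ} (hr : r ≤ κ) (T T' : Finset ℤ) (a : ℤ → ℤ → ℂ) (H : ℝ)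
    (hH : 0 < H) (ha : ∀ z ∈ T, ∀ z' ∈ T', ‖a z z'‖ ≤ H) (w q u : ℤ) (E : ℝ) (hE0 : 0 ≤ E)
    (hE : ∀ w' : ℤ, e2 (frz j k e e' T T' a (res p f) w') (2 ^ (p.1 + r)) q u ≤ E) :
    ∑ c ∈ range (2 ^ (p.1 + r)),
      e4 (frz j k e e' T T' a (res p f) (w + (c : ℤ))) (2 ^ (p.1 + r)) q u ≤
      ((2 ^ (p.1 + r) : ℕ) : ℝ) * (E * (H * s) ^ 2) := by
  obtain ⟨n, hn⟩ : ∃ n : ℕ, n = 2 ^ (p.1 + r) := ⟨_, rfl⟩
  rw [← hn] at hE ⊢
  have hnpos : 0 < n := by rw [hn]; positivity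
  have hn' : (0 : ℝ) < n := by exact_mod_cast hnpos
  set M : Fin n → Fin n → Fin n → ℂ := fun c i i' =>
    frz j k e e' T T' a (res p f) (w + ((c : ℕ) : ℤ)) (q + ((i : ℕ) : ℤ)) (u + ((i' : ℕ) : ℤ))
    with hM
  have key := lev_s4 n M (H * s) E (mul_nonneg hH.le hs) hE0 ?_ ?_
  · -- conclusion
    have e : ∑ c ∈ range n, e4 (frz j k e e' T T' a (res p f) (w + (c : ℤ))) n q u =
        (1 / (n : ℝ) ^ 4) * ∑ c, ∑ i', ∑ i'', ‖∑ i, M c i i' * (starRingEnd ℂ) (M c i i'')‖ ^ 2 := by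
      rw [Finset.sum_range, Finset.mul_sum]
      refine Finset.sum_congr rfl fun c _ => ?_
      unfold e4
      congr 1
      rw [Finset.sum_range]
      refine Finset.sum_congr rfl fun i' _ => ?_
      rw [Finset.sum_range]
      refine Finset.sum_congr rfl fun i'' _ => ?_
      rw [Finset.sum_range]
    rw [e]
    calc (1 / (n : ℝ) ^ 4) * ∑ c, ∑ i', ∑ i'', ‖∑ i, M c i i' * (starRingEnd ℂ) (M c i i'')‖ ^ 2
        ≤ (1 / (n : ℝ) ^ 4) * (n ^ 5 * (E * (H * s) ^ 2)) :=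
          mul_le_mul_of_nonneg_left key (by positivity)
      _ = n * (E * (H * s) ^ 2) := by field_simp
  · -- level
    intro U V α hα hU hV hα2
    set g : ℤ → ℤ → ℂ := fun z z' => if z ∈ T ∧ z' ∈ T' then ((H⁻¹ : ℝ) : ℂ) * a z z' else 0 with hg
    have hg1 : ∀ z z', ‖g z z'‖ ≤ 1 := by
      intro z z'
      by_cases hz : z ∈ T ∧ z' ∈ T'
      · simp only [hg, if_pos hz]
        rw [norm_mul, Complex.norm_real, Real.norm_eq_abs, abs_of_pos (inv_pos.2 hH)]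
        rw [inv_mul_le_iff₀ hH, mul_one]
        exact ha z hz.1 z' hz.2
      · simp only [hg, if_neg hz]
        simp
    have h := hO j e e' h1 h2 h3 h4 h5 h6 r hr n hn w q u g hg1 U V α hα hU hV hα2
    have e1 : ∑ c, ∑ i, ∑ i', M c i i' * U c i * V c i' = ((H : ℝ) : ℂ) *
        ∑ c : Fin n, ∑ i : Fin n, ∑ i' : Fin n,
        g (q + ((i : ℕ) : ℤ)) (u + ((i' : ℕ) : ℤ)) *
          res p f ((sl j - sl k) * (w + ((c : ℕ) : ℤ)) + (sl e - sl k) * (q + ((i : ℕ) : ℤ)) +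
            (sl e' - sl k) * (u + ((i' : ℕ) : ℤ))) * U c i * V c i' := by
      simp only [Finset.mul_sum]
      refine Finset.sum_congr rfl fun c _ => Finset.sum_congr rfl fun i _ =>
        Finset.sum_congr rfl fun i' _ => ?_
      simp only [hM, hg, frz]
      by_cases hz : q + ((i : ℕ) : ℤ) ∈ T ∧ u + ((i' : ℕ) : ℤ) ∈ T'
      · rw [if_pos hz, if_pos hz]
        have hHc : ((H : ℝ) : ℂ) ≠ 0 := by exact_mod_cast hH.ne'
        push_cast
        field_simp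
      · rw [if_neg hz, if_neg hz]; ring
    rw [e1, norm_mul, Complex.norm_real, Real.norm_eq_abs, abs_of_pos hH]
    calc H * ‖_‖ ≤ H * (s * n ^ 3) := mul_le_mul_of_nonneg_left h hH.le
      _ = H * s * n ^ 3 := by ring
  · -- S₂
    intro c
    have h := hE (w + ((c : ℕ) : ℤ))
    unfold e2 at h
    rw [one_div, inv_mul_le_iff₀ (by positivity)] at h
    refine le_trans (le_of_eq ?_) h
    rw [Finset.sum_comm, Finset.sum_range]
    refine Finset.sum_congr rfl fun i _ => ?_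
    rw [Finset.sum_range]

theorem e4_nonneg (X : ℤ → ℤ → ℂ) (N : ℕ) (q p : ℤ) : 0 ≤ e4 X N q p := by
  unfold e4; positivity

theorem sl_bd (j k : Fin 4) : |sl j - sl k| ≤ 3 := by
  revert j k; decide

/-- `e4 ≠ 0` only if some box point is seen -/
theorem e4_ne {j k e e' : Fin 4} {T T' : Finset ℤ} {a : ℤ → ℤ → ℂ} {p : ℕ × ℤ} {f : ℤ → ℂ}
    {w q u : ℤ} {n : ℕ} (h : e4 (frz j k e e' T T' a (res p f) w) n q u ≠ 0) :
    ∃ i < n, ∃ i' < n, (sl j - sl k) * w + (sl e - sl k) * (q + (i : ℤ)) +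
      (sl e' - sl k) * (u + (i' : ℤ)) ∈ dI (p.1 + 7) p.2 := by
  by_contra hcon
  push Not at hcon
  apply h
  unfold e4
  have : ∀ j' ∈ range n, ∀ i ∈ range n,
      frz j k e e' T T' a (res p f) w (q + (i : ℤ)) (u + (j' : ℤ)) = 0 := by
    intro j' hj' i hi
    unfold frz
    split_ifs with h0
    · have := hcon i (Finset.mem_range.1 hi) j' (Finset.mem_range.1 hj')
      simp [res, this]
    · rfl
  have h2 : ∑ j' ∈ range n, ∑ j'' ∈ range n,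
      ‖∑ i ∈ range n, frz j k e e' T T' a (res p f) w (q + (i : ℤ)) (u + (j' : ℤ)) *
      (starRingEnd ℂ) (frz j k e e' T T' a (res p f) w (q + (i : ℤ)) (u + (j'' : ℤ)))‖ ^ 2 = 0 := by
    refine Finset.sum_eq_zero fun j' hj' => Finset.sum_eq_zero fun j'' _ => ?_
    rw [Finset.sum_eq_zero fun i hi => by rw [this j' hj' i hi, zero_mul]]
    simp
  rw [h2, mul_zero]


/-- sum over all values of the frozen variable, fixed box position -/
theorem olev_wsum {κ : ℕ} {k : Fin 4} {p : ℕ × ℤ} {f : ℤ → ℂ} {s : ℝ} (hO : OLev κ k p f s)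
    (hs : 0 ≤ s) {j e e' : Fin 4} (h1 : j ≠ k) (h2 : j ≠ e) (h3 : j ≠ e') (h4 : k ≠ e)
    (h5 : k ≠ e') (h6 : e ≠ e') {r : ℕ} (hr : r ≤ κ) (T T' : Finset ℤ) (a : ℤ → ℤ → ℂ) (H : ℝ)
    (hH : 0 < H) (ha : ∀ z ∈ T, ∀ z' ∈ T', ‖a z z'‖ ≤ H) (q u : ℤ) (E : ℝ) (hE0 : 0 ≤ E)
    (hE : ∀ w' : ℤ, e2 (frz j k e e' T T' a (res p f) w') (2 ^ (p.1 + r)) q u ≤ E)
    (W : Finset ℤ) :
    ∑ w ∈ W, e4 (frz j k e e' T T' a (res p f) w) (2 ^ (p.1 + r)) q u ≤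
      (2 : ℝ) ^ (κ + 1) * 2 ^ (p.1 + 7) * (E * (H * s) ^ 2) := by
  classical
  obtain ⟨n, hn⟩ : ∃ n : ℕ, n = 2 ^ (p.1 + r) := ⟨_, rfl⟩
  have hblk := fun w => olev_blk hO hs h1 h2 h3 h4 h5 h6 hr T T' a H hH ha w q u E hE0 hE
  rw [← hn] at hblk ⊢
  have hnpos : 0 < n := by rw [hn]; positivity
  set g : ℤ → ℝ := fun w => e4 (frz j k e e' T T' a (res p f) w) n q u with hg
  have hg0 : ∀ w, 0 ≤ g w := fun w => e4_nonneg _ _ _ _
  have hRHS : 0 ≤ (2 : ℝ) ^ (κ + 1) * 2 ^ (p.1 + 7) * (E * (H * s) ^ 2) := by positivity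
  set W' : Finset ℤ := W.filter (fun w => g w ≠ 0) with hW'
  have hsum : ∑ w ∈ W, g w = ∑ w ∈ W', g w := by
    rw [hW', Finset.sum_filter_ne_zero]
  show ∑ w ∈ W, g w ≤ _
  rw [hsum]
  rcases W'.eq_empty_or_nonempty with h0 | h0
  · rw [h0, Finset.sum_empty]; exact hRHS
  set w0 : ℤ := W'.min' h0 with hw0
  have hw0m : w0 ∈ W' := W'.min'_mem h0
  have hw0min : ∀ w ∈ W', w0 ≤ w := fun w hw => W'.min'_le w hw
  have hA : sl j - sl k ≠ 0 := sl_ne h1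
  have h2n : (2 : ℤ) ^ (p.1 + 7) ≤ 128 * n := by
    rw [hn, pow_add]
    push_cast
    have : (2 : ℤ) ^ p.1 ≤ 2 ^ (p.1 + r) := pow_le_pow_right₀ (by norm_num) (by omega)
    nlinarith
  have hrange : ∀ w ∈ W', w - w0 < 134 * n := by
    intro w hw
    obtain ⟨i, hi, i', hi', hm⟩ := e4_ne (Finset.mem_filter.1 hw).2
    obtain ⟨i0, hi0, i0', hi0', hm0⟩ := e4_ne (Finset.mem_filter.1 hw0m).2
    simp only [dI, Finset.mem_Ico] at hm hm0
    have hBa := abs_le.1 (sl_bd e k)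
    have hCa := abs_le.1 (sl_bd e' k)
    have hx1 : |(sl e - sl k) * ((i : ℤ) - i0)| ≤ 3 * (n - 1) := by
      rw [abs_mul]
      have : |(i : ℤ) - i0| ≤ n - 1 := by rw [abs_le]; constructor <;> omega
      exact mul_le_mul (sl_bd e k) this (abs_nonneg _) (by norm_num)
    have hx2 : |(sl e' - sl k) * ((i' : ℤ) - i0')| ≤ 3 * (n - 1) := by
      rw [abs_mul]
      have : |(i' : ℤ) - i0'| ≤ n - 1 := by rw [abs_le]; constructor <;> omega
      exact mul_le_mul (sl_bd e' k) this (abs_nonneg _) (by norm_num)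
    have hx3 : |(sl j - sl k) * (w - w0)| < 134 * n := by
      have h10 := abs_le.1 hx1
      have h11 := abs_le.1 hx2
      have e1 : (sl j - sl k) * (w - w0) =
          ((sl j - sl k) * w + (sl e - sl k) * (q + (i : ℤ)) + (sl e' - sl k) * (u + (i' : ℤ))) -
          ((sl j - sl k) * w0 + (sl e - sl k) * (q + (i0 : ℤ)) + (sl e' - sl k) * (u + (i0' : ℤ)))
          - (sl e - sl k) * ((i : ℤ) - i0) - (sl e' - sl k) * ((i' : ℤ) - i0') := by ring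
      have e2 : (p.2 + 1) * (2 : ℤ) ^ (p.1 + 7) = p.2 * 2 ^ (p.1 + 7) + 2 ^ (p.1 + 7) := by ring
      rw [e2] at hm hm0
      rw [abs_lt, e1]
      constructor <;> linarith [hm.1, hm.2, hm0.1, hm0.2, h10.1, h10.2, h11.1, h11.2]
    rw [abs_mul] at hx3
    have hA1 : 1 ≤ |sl j - sl k| := Int.one_le_abs hA
    have hx4 : w - w0 ≤ |w - w0| := le_abs_self _
    have hx5 : |w - w0| ≤ |sl j - sl k| * |w - w0| := by nlinarith [abs_nonneg (w - w0)]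
    linarith
  have hsub : W' ⊆ (range (134 * n)).image (fun d : ℕ => w0 + (d : ℤ)) := by
    intro w hw
    rw [Finset.mem_image]
    refine ⟨(w - w0).toNat, ?_, ?_⟩
    · have := hrange w hw
      have h3 := hw0min w hw
      rw [Finset.mem_range]
      omega
    · have h3 := hw0min w hw
      have : ((w - w0).toNat : ℤ) = w - w0 := Int.toNat_of_nonneg (by linarith)
      rw [this]; ring
  calc ∑ w ∈ W', g w ≤ ∑ w ∈ (range (134 * n)).image (fun d : ℕ => w0 + (d : ℤ)), g w :=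
        Finset.sum_le_sum_of_subset_of_nonneg hsub fun w _ _ => hg0 w
    _ = ∑ d ∈ range (134 * n), g (w0 + (d : ℤ)) :=
        Finset.sum_image fun a _ b _ hab => by
          have : (a : ℤ) = b := by simpa using hab
          exact_mod_cast this
    _ = ∑ b ∈ range 134, ∑ c ∈ range n, g (w0 + ((b * n + c : ℕ) : ℤ)) :=
        Crest.Agent.R072.Lattice.sum_range_mul_aux _ _ _
    _ ≤ ∑ _b ∈ range 134, (n : ℝ) * (E * (H * s) ^ 2) := by
        refine Finset.sum_le_sum fun b _ => ?_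
        refine le_trans (le_of_eq ?_) (hblk (w0 + ((b * n : ℕ) : ℤ)))
        refine Finset.sum_congr rfl fun c _ => ?_
        show g _ = g _
        congr 1
        push_cast; ring
    _ = (134 * (n : ℝ)) * (E * (H * s) ^ 2) := by
        rw [Finset.sum_const, Finset.card_range, nsmul_eq_mul]; push_cast; ring
    _ ≤ (2 : ℝ) ^ (κ + 1) * 2 ^ (p.1 + 7) * (E * (H * s) ^ 2) := by
        refine mul_le_mul_of_nonneg_right ?_ (by positivity)
        have hnr : (n : ℝ) ≤ 2 ^ p.1 * 2 ^ κ := by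
          rw [hn]; push_cast; rw [← pow_add]
          exact pow_le_pow_right₀ (by norm_num) (by omega)
        have e3 : (2 : ℝ) ^ (κ + 1) * 2 ^ (p.1 + 7) = 256 * (2 ^ p.1 * 2 ^ κ) := by
          rw [pow_add, pow_add]; norm_num; ring
        rw [e3]
        have : (0 : ℝ) ≤ 2 ^ p.1 * 2 ^ κ := by positivity
        nlinarith

/-- general passage to `S4At` -/
theorem olev_S4At {κ : ℕ} {k : Fin 4} {R : Finset (ℕ × ℤ)} {f : ℤ → ℂ} {s : ℝ}
    (hO : ∀ p ∈ R, OLev κ k p f s) (hs : 0 ≤ s) {j e e' : Fin 4} (h1 : j ≠ k) (h2 : j ≠ e)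
    (h3 : j ≠ e') (h4 : k ≠ e) (h5 : k ≠ e') (h6 : e ≠ e') (T T' : Finset ℤ) (a : ℤ → ℤ → ℂ)
    (H : ℝ) (hH : 0 < H) (ha : ∀ z ∈ T, ∀ z' ∈ T', ‖a z z'‖ ≤ H)
    (E : (ℕ × ℤ) → ℕ → ℤ → ℤ → ℝ) (Et : ℝ) (hE0 : ∀ p r q u, 0 ≤ E p r q u) (hEt : 0 ≤ Et)
    (hE : ∀ p ∈ R, ∀ r ≤ κ, ∀ q u w' : ℤ,
      e2 (frz j k e e' T T' a (res p f) w') (2 ^ (p.1 + r)) q u ≤ E p r q u)
    (hES : ∀ p ∈ R, ∀ r ≤ κ, ∀ P P' : Finset ℤ, ∑ q ∈ P, ∑ u ∈ P', E p r q u ≤ Et) :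
    S4At R κ (2 ^ (κ + 1) * H ^ 2 * Et) (s ^ 2) (fun F w => frz j k e e' T T' a F w) f := by
  classical
  intro p hp r hr
  refine finsum_le_of_finset (by positivity) fun S => ?_
  set W : Finset ℤ := S.image (fun t => t.1) with hW
  set P : Finset ℤ := S.image (fun t => t.2.1) with hP
  set P' : Finset ℤ := S.image (fun t => t.2.2) with hP'
  have hsub : S ⊆ W ×ˢ (P ×ˢ P') := by
    intro t ht
    rw [Finset.mem_product, Finset.mem_product]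
    exact ⟨Finset.mem_image_of_mem _ ht, Finset.mem_image_of_mem _ ht,
      Finset.mem_image_of_mem _ ht⟩
  calc ∑ t ∈ S, e4 (frz j k e e' T T' a (res p f) t.1) (2 ^ (p.1 + r)) t.2.1 t.2.2
      ≤ ∑ t ∈ W ×ˢ (P ×ˢ P'), e4 (frz j k e e' T T' a (res p f) t.1) (2 ^ (p.1 + r)) t.2.1 t.2.2 :=
        Finset.sum_le_sum_of_subset_of_nonneg hsub fun t _ _ => e4_nonneg _ _ _ _
    _ = ∑ q ∈ P, ∑ u ∈ P', ∑ w ∈ W,
          e4 (frz j k e e' T T' a (res p f) w) (2 ^ (p.1 + r)) q u := by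
        rw [Finset.sum_product_right, Finset.sum_product]
    _ ≤ ∑ q ∈ P, ∑ u ∈ P', (2 : ℝ) ^ (κ + 1) * 2 ^ (p.1 + 7) * (E p r q u * (H * s) ^ 2) :=
        Finset.sum_le_sum fun q _ => Finset.sum_le_sum fun u _ =>
          olev_wsum (hO p hp) hs h1 h2 h3 h4 h5 h6 hr T T' a H hH ha q u (E p r q u) (hE0 _ _ _ _)
            (fun w' => hE p hp r hr q u w') W
    _ = (2 : ℝ) ^ (κ + 1) * 2 ^ (p.1 + 7) * (H * s) ^ 2 * ∑ q ∈ P, ∑ u ∈ P', E p r q u := by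
        simp only [Finset.mul_sum]
        refine Finset.sum_congr rfl fun q _ => Finset.sum_congr rfl fun u _ => by ring
    _ ≤ (2 : ℝ) ^ (κ + 1) * 2 ^ (p.1 + 7) * (H * s) ^ 2 * Et :=
        mul_le_mul_of_nonneg_left (hES p hp r hr P P') (by positivity)
    _ = s ^ 2 * (2 ^ (p.1 + 7) * (2 ^ (κ + 1) * H ^ 2 * Et)) := by ring

/-- sum of box averages of a kernel supported in `T × T'` -/
theorem e2_sum_le (X : ℤ → ℤ → ℂ) (T T' : Finset ℤ) (h1 : ∀ z z', z ∉ T → X z z' = 0)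
    (h2 : ∀ z z', z' ∉ T' → X z z' = 0) (N : ℕ) (hN : 0 < N) (P P' : Finset ℤ) :
    ∑ q ∈ P, ∑ u ∈ P', e2 X N q u ≤ ∑ z ∈ T, ∑ z' ∈ T', ‖X z z'‖ ^ 2 := by
  classical
  have hker : ∀ i i' : ℤ, ∑ q ∈ P, ∑ r ∈ P', ‖X (q + i) (r + i')‖ ^ 2 ≤
      ∑ z ∈ T, ∑ z' ∈ T', ‖X z z'‖ ^ 2 := by
    intro i i'
    have h1' : ∀ q ∈ P, ∑ r ∈ P', ‖X (q + i) (r + i')‖ ^ 2 ≤
        ∑ z' ∈ T', ‖X (q + i) z'‖ ^ 2 := fun q _ =>
      sum_inj_le (fun z' => ‖X (q + i) z'‖ ^ 2) (fun z' => by positivity) T'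
        (fun z' hz' => by simp [h2 _ z' hz']) P' (fun r => r + i')
        (fun x y hxy => by simpa using hxy)
    refine (Finset.sum_le_sum h1').trans ?_
    exact sum_inj_le (fun z => ∑ z' ∈ T', ‖X z z'‖ ^ 2) (fun z => by positivity) T
      (fun z hz => by simp [h1 z _ hz]) P (fun q => q + i)
      (fun x y hxy => by simpa using hxy)
  have e : ∑ q ∈ P, ∑ u ∈ P', e2 X N q u = (1 / (N : ℝ) ^ 2) * ∑ i ∈ range N, ∑ i' ∈ range N,
      ∑ q ∈ P, ∑ r ∈ P', ‖X (q + (i : ℤ)) (r + (i' : ℤ))‖ ^ 2 := by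
    unfold e2
    simp only [← Finset.mul_sum]
    congr 1
    have s1 : ∀ q ∈ P, ∑ r ∈ P', ∑ i ∈ range N, ∑ i' ∈ range N,
        ‖X (q + (i : ℤ)) (r + (i' : ℤ))‖ ^ 2 =
        ∑ i ∈ range N, ∑ i' ∈ range N, ∑ r ∈ P', ‖X (q + (i : ℤ)) (r + (i' : ℤ))‖ ^ 2 := by
      intro q _
      rw [Finset.sum_comm]
      refine Finset.sum_congr rfl fun i _ => ?_
      rw [Finset.sum_comm]
    rw [Finset.sum_congr rfl s1, Finset.sum_comm]
    refine Finset.sum_congr rfl fun i _ => ?_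
    rw [Finset.sum_comm]
  rw [e]
  have h3 : ∑ i ∈ range N, ∑ i' ∈ range N,
      ∑ q ∈ P, ∑ r ∈ P', ‖X (q + (i : ℤ)) (r + (i' : ℤ))‖ ^ 2 ≤
      ∑ _i ∈ range N, ∑ _i' ∈ range N, ∑ z ∈ T, ∑ z' ∈ T', ‖X z z'‖ ^ 2 :=
    Finset.sum_le_sum fun i _ => Finset.sum_le_sum fun i' _ => hker i i'
  rw [Finset.sum_const, Finset.sum_const, Finset.card_range, nsmul_eq_mul, nsmul_eq_mul] at h3
  have hN' : (0 : ℝ) < (N : ℝ) := by exact_mod_cast hN
  have h4 := mul_le_mul_of_nonneg_left h3 (by positivity : (0 : ℝ) ≤ 1 / (N : ℝ) ^ 2)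
  refine h4.trans (le_of_eq ?_)
  field_simp

/-- kernel restricted to `T × T'` -/
noncomputable def msk (T T' : Finset ℤ) (a : ℤ → ℤ → ℂ) (z z' : ℤ) : ℂ :=
  if z ∈ T ∧ z' ∈ T' then a z z' else 0

/-- **op-level ⟹ `S4At`, BOUNDED letter** `|f| ≤ Hf` on the nodes: `V = 2^(κ+1) H² Hf² n2 a` -/
theorem olev_S4At_bdd {κ : ℕ} {k : Fin 4} {R : Finset (ℕ × ℤ)} {f : ℤ → ℂ} {s : ℝ}
    (hO : ∀ p ∈ R, OLev κ k p f s) (hs : 0 ≤ s) {j e e' : Fin 4} (h1 : j ≠ k) (h2 : j ≠ e)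
    (h3 : j ≠ e') (h4 : k ≠ e) (h5 : k ≠ e') (h6 : e ≠ e') (T T' : Finset ℤ) (a : ℤ → ℤ → ℂ)
    (H Hf : ℝ) (hH : 0 < H) (ha : ∀ z ∈ T, ∀ z' ∈ T', ‖a z z'‖ ≤ H)
    (hf : ∀ p ∈ R, ∀ y ∈ dI (p.1 + 7) p.2, ‖f y‖ ≤ Hf) (hHf : 0 ≤ Hf) :
    S4At R κ (2 ^ (κ + 1) * H ^ 2 * (Hf ^ 2 * n2 T T' a)) (s ^ 2)
      (fun F w => frz j k e e' T T' a F w) f := by
  have hn2 : 0 ≤ n2 T T' a := by unfold n2; positivity
  refine olev_S4At hO hs h1 h2 h3 h4 h5 h6 T T' a H hH ha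
    (fun p r q u => Hf ^ 2 * e2 (msk T T' a) (2 ^ (p.1 + r)) q u) (Hf ^ 2 * n2 T T' a)
    (fun p r q u => by unfold e2; positivity) (by positivity) ?_ ?_
  · intro p hp r hr q u w'
    unfold e2
    rw [← mul_assoc, mul_comm (Hf ^ 2), mul_assoc]
    refine mul_le_mul_of_nonneg_left ?_ (by positivity)
    simp only [Finset.mul_sum]
    refine Finset.sum_le_sum fun i _ => Finset.sum_le_sum fun i' _ => ?_
    unfold frz msk
    split_ifs with hz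
    · rw [norm_mul, mul_pow, mul_comm (Hf ^ 2)]
      refine mul_le_mul_of_nonneg_left ?_ (by positivity)
      refine pow_le_pow_left₀ (norm_nonneg _) ?_ 2
      unfold res
      split_ifs with hy
      · exact hf p hp _ hy
      · simpa using hHf
    · simp
  · intro p hp r hr P P'
    simp only [← Finset.mul_sum]
    refine mul_le_mul_of_nonneg_left ?_ (by positivity)
    refine (e2_sum_le (msk T T' a) T T' (fun z z' hz => by simp [msk, hz])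
      (fun z z' hz => by simp [msk, hz]) _ (by positivity) P P').trans (le_of_eq ?_)
    unfold n2
    refine Finset.sum_congr rfl fun z hz => Finset.sum_congr rfl fun z' hz' => ?_
    simp [msk, hz, hz']

/-- box `S₂` average of a frozen kernel of a loc-`L²` letter, bounded kernel -/
theorem e2_frz_le {j k e e' : Fin 4} (h5 : k ≠ e') (T T' : Finset ℤ) (a : ℤ → ℤ → ℂ) (H : ℝ)
    (hH : 0 ≤ H) (ha : ∀ z ∈ T, ∀ z' ∈ T', ‖a z z'‖ ≤ H) (p : ℕ × ℤ) (f : ℤ → ℂ)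
    (hf : av2 (p.1 + 7) p.2 f ≤ 1) (r : ℕ) (q u w : ℤ) :
    e2 (frz j k e e' T T' a (res p f) w) (2 ^ (p.1 + r)) q u ≤ 2 ^ 7 * H ^ 2 := by
  classical
  obtain ⟨n, hn⟩ : ∃ n : ℕ, n = 2 ^ (p.1 + r) := ⟨_, rfl⟩
  rw [← hn]
  have hnpos : (0 : ℝ) < n := by rw [hn]; positivity
  have hrow : ∀ i : ℕ, ∑ i' ∈ range n,
      ‖frz j k e e' T T' a (res p f) w (q + (i : ℤ)) (u + (i' : ℤ))‖ ^ 2 ≤
      H ^ 2 * 2 ^ (p.1 + 7) := by
    intro i
    calc ∑ i' ∈ range n, ‖frz j k e e' T T' a (res p f) w (q + (i : ℤ)) (u + (i' : ℤ))‖ ^ 2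
        ≤ ∑ i' ∈ range n, H ^ 2 * ‖res p f ((sl e' - sl k) * (i' : ℤ) +
          ((sl j - sl k) * w + (sl e - sl k) * (q + (i : ℤ)) + (sl e' - sl k) * u))‖ ^ 2 := by
          refine Finset.sum_le_sum fun i' _ => ?_
          unfold frz
          split_ifs with hz
          · rw [norm_mul, mul_pow]
            have e1 : (sl j - sl k) * w + (sl e - sl k) * (q + (i : ℤ)) +
                (sl e' - sl k) * (u + (i' : ℤ)) = (sl e' - sl k) * (i' : ℤ) +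
                ((sl j - sl k) * w + (sl e - sl k) * (q + (i : ℤ)) + (sl e' - sl k) * u) := by ring
            rw [e1]
            exact mul_le_mul_of_nonneg_right
              (pow_le_pow_left₀ (norm_nonneg _) (ha _ hz.1 _ hz.2) 2) (by positivity)
          · simp; positivity
      _ = H ^ 2 * ∑ y ∈ (range n).image (fun i' : ℕ => (i' : ℤ)), ‖res p f ((sl e' - sl k) * y +
          ((sl j - sl k) * w + (sl e - sl k) * (q + (i : ℤ)) + (sl e' - sl k) * u))‖ ^ 2 := by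
          rw [← Finset.mul_sum, Finset.sum_image]
          intro a _ b _ hab
          have hab' : (a : ℤ) = (b : ℤ) := hab
          exact_mod_cast hab'
      _ ≤ H ^ 2 * ∑ y ∈ dI (p.1 + 7) p.2, ‖f y‖ ^ 2 :=
          mul_le_mul_of_nonneg_left (sum_res_le p f _ _ (sl_ne h5.symm) _) (by positivity)
      _ ≤ H ^ 2 * 2 ^ (p.1 + 7) := mul_le_mul_of_nonneg_left (av2_sq_sum hf) (by positivity)
  unfold e2
  rw [one_div, inv_mul_le_iff₀ (by positivity)]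
  calc ∑ i ∈ range n, ∑ i' ∈ range n,
      ‖frz j k e e' T T' a (res p f) w (q + (i : ℤ)) (u + (i' : ℤ))‖ ^ 2
      ≤ ∑ _i ∈ range n, H ^ 2 * 2 ^ (p.1 + 7) := Finset.sum_le_sum fun i _ => hrow i
    _ = n * (H ^ 2 * 2 ^ (p.1 + 7)) := by rw [Finset.sum_const, Finset.card_range, nsmul_eq_mul]
    _ ≤ n ^ 2 * (2 ^ 7 * H ^ 2) := by
        have h7 : (2 : ℝ) ^ (p.1 + 7) ≤ n * 2 ^ 7 := by
          rw [hn]; push_cast; rw [pow_add]
          refine mul_le_mul_of_nonneg_right ?_ (by positivity)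
          exact pow_le_pow_right₀ (by norm_num) (by omega)
        have : n * (H ^ 2 * 2 ^ (p.1 + 7)) ≤ n * (H ^ 2 * (n * 2 ^ 7)) :=
          mul_le_mul_of_nonneg_left (mul_le_mul_of_nonneg_left h7 (by positivity)) hnpos.le
        linarith

/-- **op-level ⟹ `S4At`, loc-`L²` letter**, bounded kernel on `T × T'` contained in a square of side
`L ≥` all boxes: `V = 2^(κ+10) H⁴ (2L)²` -/
theorem olev_S4At_L2 {κ : ℕ} {k : Fin 4} {R : Finset (ℕ × ℤ)} {f : ℤ → ℂ} {s : ℝ}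
    (hO : ∀ p ∈ R, OLev κ k p f s) (hs : 0 ≤ s) {j e e' : Fin 4} (h1 : j ≠ k) (h2 : j ≠ e)
    (h3 : j ≠ e') (h4 : k ≠ e) (h5 : k ≠ e') (h6 : e ≠ e') (T T' : Finset ℤ) (a : ℤ → ℤ → ℂ)
    (H : ℝ) (hH : 0 < H) (ha : ∀ z ∈ T, ∀ z' ∈ T', ‖a z z'‖ ≤ H)
    (hf : ∀ p ∈ R, av2 (p.1 + 7) p.2 f ≤ 1) (t t' : ℤ) (L : ℕ) (hT : T ⊆ Ico t (t + L))
    (hT' : T' ⊆ Ico t' (t' + L)) (hL : ∀ p ∈ R, 2 ^ (p.1 + κ) ≤ L) :
    S4At R κ (2 ^ (κ + 1) * H ^ 2 * ((2 * L) ^ 2 * (2 ^ 7 * H ^ 2))) (s ^ 2)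
      (fun F w => frz j k e e' T T' a F w) f := by
  classical
  refine olev_S4At hO hs h1 h2 h3 h4 h5 h6 T T' a H hH ha
    (fun p r q u => if q ∈ Ioo (t - 2 ^ (p.1 + r)) (t + L) ∧ u ∈ Ioo (t' - 2 ^ (p.1 + r)) (t' + L)
      then 2 ^ 7 * H ^ 2 else 0) _ (fun p r q u => by split_ifs <;> positivity)
    (by positivity) ?_ ?_
  · intro p hp r hr q u w'
    split_ifs with hq
    · exact e2_frz_le h5 T T' a H hH.le ha p f (hf p hp) r q u w'
    · refine le_of_eq ?_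
      unfold e2
      have : ∀ i ∈ range (2 ^ (p.1 + r)), ∀ i' ∈ range (2 ^ (p.1 + r)),
          ‖frz j k e e' T T' a (res p f) w' (q + (i : ℤ)) (u + (i' : ℤ))‖ ^ 2 = 0 := by
        intro i hi i' hi'
        have hi2 : (i : ℤ) < 2 ^ (p.1 + r) := by exact_mod_cast Finset.mem_range.1 hi
        have hi3 : (i' : ℤ) < 2 ^ (p.1 + r) := by exact_mod_cast Finset.mem_range.1 hi'
        unfold frz
        rw [if_neg, norm_zero]; · norm_num
        rintro ⟨hz, hz'⟩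
        have a1 := Finset.mem_Ico.1 (hT hz)
        have a2 := Finset.mem_Ico.1 (hT' hz')
        apply hq
        simp only [Finset.mem_Ioo]
        refine ⟨⟨?_, ?_⟩, ?_, ?_⟩ <;> linarith [a1.1, a1.2, a2.1, a2.2, hi2, hi3,
          (Int.natCast_nonneg i : (0 : ℤ) ≤ (i : ℤ)), (Int.natCast_nonneg i' : (0 : ℤ) ≤ (i' : ℤ))]
      rw [Finset.sum_eq_zero fun i hi => Finset.sum_eq_zero fun i' hi' => this i hi i' hi',
        mul_zero]
  · intro p hp r hr P P'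
    have hr2 : (2 : ℤ) ^ (p.1 + r) ≤ L := by
      have h8 : (2 : ℕ) ^ (p.1 + r) ≤ L := (Nat.pow_le_pow_right (by norm_num) (by omega)).trans (hL p hp)
      exact_mod_cast h8
    have hcard : ∀ x : ℤ, (((Ioo (x - 2 ^ (p.1 + r)) (x + L)).card : ℕ) : ℝ) ≤ 2 * L := by
      intro x
      rw [Int.card_Ioo]
      have : (x + (L : ℤ) - (x - 2 ^ (p.1 + r)) - 1).toNat ≤ 2 * L := by
        have hp0 : (0 : ℤ) < 2 ^ (p.1 + r) := by positivity
        omega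
      exact_mod_cast this
    calc ∑ q ∈ P, ∑ u ∈ P', (if q ∈ Ioo (t - 2 ^ (p.1 + r)) (t + (L : ℤ)) ∧
          u ∈ Ioo (t' - 2 ^ (p.1 + r)) (t' + (L : ℤ)) then (2 : ℝ) ^ 7 * H ^ 2 else 0)
        = ∑ x ∈ (P ×ˢ P').filter (fun x => x.1 ∈ Ioo (t - 2 ^ (p.1 + r)) (t + (L : ℤ)) ∧
          x.2 ∈ Ioo (t' - 2 ^ (p.1 + r)) (t' + (L : ℤ))), (2 : ℝ) ^ 7 * H ^ 2 := by
          rw [Finset.sum_filter, Finset.sum_product]
      _ ≤ ∑ _x ∈ Ioo (t - 2 ^ (p.1 + r)) (t + (L : ℤ)) ×ˢ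
            Ioo (t' - 2 ^ (p.1 + r)) (t' + (L : ℤ)), (2 : ℝ) ^ 7 * H ^ 2 := by
          refine Finset.sum_le_sum_of_subset_of_nonneg ?_ fun _ _ _ => by positivity
          intro x hx
          rw [Finset.mem_product]
          exact (Finset.mem_filter.1 hx).2
      _ = ((Ioo (t - 2 ^ (p.1 + r)) (t + (L : ℤ))).card : ℝ) *
            ((Ioo (t' - 2 ^ (p.1 + r)) (t' + (L : ℤ))).card : ℝ) * (2 ^ 7 * H ^ 2) := by
          rw [Finset.sum_const, Finset.card_product, nsmul_eq_mul]; push_cast; ring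
      _ ≤ (2 * L) * (2 * L) * (2 ^ 7 * H ^ 2) := by
          refine mul_le_mul_of_nonneg_right ?_ (by positivity)
          exact mul_le_mul (hcard t) (hcard t') (by positivity) (by positivity)
      _ = (2 * L) ^ 2 * (2 ^ 7 * H ^ 2) := by ring

end Crest.Agent.R079.OpLev
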