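import Crest.Agent.R079.F24b_118

/-! R079, Step II error words (helper990, second of 49): the `S₂` / `S₄` node hypotheses for kernels
DEPENDING ON THE FROZEN VARIABLE: line letters with bounded kernels, heights, scaling. -/

set_option autoImplicit false
set_option linter.unusedVariables false

namespace Crest.Agent.R079.EW990

open Finset Crest.Agent.R079.Grid Crest.Agent.R079.Pot Crest.Agent.R079.Glue Crest.Agent.R079.R244
  Crest.Agent.R079.F24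

/-- sums of box averages over arbitrary positions and frozen variables -/
lemma sum_e2_le (X : ℤ → ℤ → ℤ → ℂ) (M : ℝ)
    (hM : ∀ S : Finset (ℤ × ℤ × ℤ), ∑ t ∈ S, ‖X t.1 t.2.1 t.2.2‖ ^ 2 ≤ M) (N : ℕ) (hN : 0 < N)
    (S : Finset (ℤ × ℤ × ℤ)) : ∑ t ∈ S, e2 (X t.1) N t.2.1 t.2.2 ≤ M := by
  classical
  have hN' : (0 : ℝ) < (N : ℝ) := by exact_mod_cast hN
  have h1 : ∀ i j : ℕ, ∑ t ∈ S, ‖X t.1 (t.2.1 + (i : ℤ)) (t.2.2 + (j : ℤ))‖ ^ 2 ≤ M := by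
    intro i j
    have hinj : Set.InjOn (fun t : ℤ × ℤ × ℤ => (t.1, t.2.1 + (i : ℤ), t.2.2 + (j : ℤ))) S := by
      rintro ⟨x, y, z⟩ _ ⟨x', y', z'⟩ _ h
      simp only [Prod.mk.injEq] at h
      obtain ⟨h1, h2, h3⟩ := h
      exact Prod.ext h1 (Prod.ext (by simpa using h2) (by simpa using h3))
    have e := Finset.sum_image (f := fun t : ℤ × ℤ × ℤ => ‖X t.1 t.2.1 t.2.2‖ ^ 2) hinj
    simp only at e
    rw [← e]
    exact hM _
  have e : ∑ t ∈ S, e2 (X t.1) N t.2.1 t.2.2 = (1 / (N : ℝ) ^ 2) * ∑ i ∈ range N, ∑ j ∈ range N,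
      ∑ t ∈ S, ‖X t.1 (t.2.1 + (i : ℤ)) (t.2.2 + (j : ℤ))‖ ^ 2 := by
    unfold e2
    rw [← Finset.mul_sum]
    congr 1
    rw [Finset.sum_comm]
    exact Finset.sum_congr rfl fun i _ => Finset.sum_comm
  rw [e]
  have h2 : ∑ i ∈ range N, ∑ j ∈ range N, ∑ t ∈ S,
      ‖X t.1 (t.2.1 + (i : ℤ)) (t.2.2 + (j : ℤ))‖ ^ 2 ≤ ∑ _i ∈ range N, ∑ _j ∈ range N, M :=
    Finset.sum_le_sum fun i _ => Finset.sum_le_sum fun j _ => h1 i j
  rw [Finset.sum_const, Finset.sum_const, Finset.card_range, nsmul_eq_mul, nsmul_eq_mul] at h2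
  refine (mul_le_mul_of_nonneg_left h2 (by positivity)).trans (le_of_eq ?_)
  field_simp

/-- `e4 ≤ e2²` -/
lemma e4_le_sq (X : ℤ → ℤ → ℂ) (N : ℕ) (q p : ℤ) : e4 X N q p ≤ e2 X N q p ^ 2 := by
  have h1 : ∀ j j' : ℕ, ‖∑ i ∈ range N, X (q + (i : ℤ)) (p + (j : ℤ)) *
      (starRingEnd ℂ) (X (q + (i : ℤ)) (p + (j' : ℤ)))‖ ^ 2 ≤
      (∑ i ∈ range N, ‖X (q + (i : ℤ)) (p + (j : ℤ))‖ ^ 2) *
        ∑ i ∈ range N, ‖X (q + (i : ℤ)) (p + (j' : ℤ))‖ ^ 2 := by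
    intro j j'
    have h2 : ‖∑ i ∈ range N, X (q + (i : ℤ)) (p + (j : ℤ)) *
        (starRingEnd ℂ) (X (q + (i : ℤ)) (p + (j' : ℤ)))‖ ≤
        ∑ i ∈ range N, ‖X (q + (i : ℤ)) (p + (j : ℤ))‖ * ‖X (q + (i : ℤ)) (p + (j' : ℤ))‖ := by
      refine (norm_sum_le _ _).trans (Finset.sum_le_sum fun i _ => ?_)
      rw [norm_mul, RCLike.norm_conj]
    exact (pow_le_pow_left₀ (norm_nonneg _) h2 2).trans (Finset.sum_mul_sq_le_sq_mul_sq _ _ _)
  unfold e4 e2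
  have e : ((1 / (N : ℝ) ^ 2) * ∑ i ∈ range N, ∑ j ∈ range N,
      ‖X (q + (i : ℤ)) (p + (j : ℤ))‖ ^ 2) ^ 2 = (1 / (N : ℝ) ^ 4) * ∑ j ∈ range N,
      ∑ j' ∈ range N, (∑ i ∈ range N, ‖X (q + (i : ℤ)) (p + (j : ℤ))‖ ^ 2) *
        ∑ i ∈ range N, ‖X (q + (i : ℤ)) (p + (j' : ℤ))‖ ^ 2 := by
    rw [Finset.sum_comm, mul_pow, ← Finset.sum_mul_sum, ← sq]
    congr 1
    rw [one_div, one_div, inv_pow, ← pow_mul]
  rw [e]
  refine mul_le_mul_of_nonneg_left ?_ (by positivity)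
  exact Finset.sum_le_sum fun j _ => Finset.sum_le_sum fun j' _ => h1 j j'

lemma e2_le_of_bdd (X : ℤ → ℤ → ℂ) (H : ℝ) (hH : 0 ≤ H) (hX : ∀ z z', ‖X z z'‖ ≤ H) (N : ℕ)
    (q p : ℤ) : e2 X N q p ≤ H ^ 2 := by
  unfold e2
  have h1 : ∑ i ∈ range N, ∑ j ∈ range N, ‖X (q + (i : ℤ)) (p + (j : ℤ))‖ ^ 2 ≤
      ∑ i ∈ range N, ∑ j ∈ range N, H ^ 2 :=
    Finset.sum_le_sum fun i _ => Finset.sum_le_sum fun j _ =>
      pow_le_pow_left₀ (norm_nonneg _) (hX _ _) 2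
  refine (mul_le_mul_of_nonneg_left h1 (by positivity)).trans ?_
  simp only [Finset.sum_const, Finset.card_range, nsmul_eq_mul]
  rcases Nat.eq_zero_or_pos N with h0 | h0
  · subst h0; simpa using sq_nonneg H
  · have hN : (0 : ℝ) < N := by exact_mod_cast h0
    refine le_of_eq ?_
    field_simp

/-- node `S₂` bound, kernel depending on the frozen variable -/
def S2W (R : Finset (ℕ × ℤ)) (κ : ℕ) (V : ℝ) (α γ δ : ℤ) (T T' : Finset ℤ) (a : ℤ → ℤ → ℤ → ℂ)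
    (F : ℤ → ℂ) : Prop :=
  ∀ p ∈ R, ∀ k : ℕ, k ≤ κ → ∀ S : Finset (ℤ × ℤ × ℤ),
    ∑ t ∈ S, e2 (cK α γ δ T T' (a t.1) (res p F) t.1) (2 ^ (p.1 + k)) t.2.1 t.2.2 ≤
      2 ^ (p.1 + 7) * V

/-- node `S₄` bound (fourth power), kernel depending on the frozen variable -/
def S4W (R : Finset (ℕ × ℤ)) (κ : ℕ) (V σ : ℝ) (α γ δ : ℤ) (T T' : Finset ℤ)
    (a : ℤ → ℤ → ℤ → ℂ) (F : ℤ → ℂ) : Prop :=
  ∀ p ∈ R, ∀ k : ℕ, k ≤ κ → ∀ S : Finset (ℤ × ℤ × ℤ),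
    ∑ t ∈ S, e4 (cK α γ δ T T' (a t.1) (res p F) t.1) (2 ^ (p.1 + k)) t.2.1 t.2.2 ≤
      σ * (2 ^ (p.1 + 7) * V)

variable {R : Finset (ℕ × ℤ)} {κ : ℕ} {V σ : ℝ} {α γ δ : ℤ} {T T' : Finset ℤ}
  {a : ℤ → ℤ → ℤ → ℂ} {F : ℤ → ℂ}

/-- `S2W` from total `ℓ²` sums -/
theorem s2w_of_total (h : ∀ p ∈ R, ∀ S : Finset (ℤ × ℤ × ℤ),
      ∑ t ∈ S, ‖cK α γ δ T T' (a t.1) (res p F) t.1 t.2.1 t.2.2‖ ^ 2 ≤ 2 ^ (p.1 + 7) * V) :
    S2W R κ V α γ δ T T' a F := by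
  intro p hp k _ S
  exact sum_e2_le (fun w => cK α γ δ T T' (a w) (res p F) w) _ (h p hp) _ (by positivity) S

lemma av2_sum {p : ℕ × ℤ} {F : ℤ → ℂ} (h : av2 (p.1 + 7) p.2 F ≤ 1) :
    ∑ y ∈ dI (p.1 + 7) p.2, ‖F y‖ ^ 2 ≤ 2 ^ (p.1 + 7) := by
  unfold av2 at h
  rw [Real.sqrt_le_one] at h
  rw [one_div, inv_mul_le_iff₀ (by positivity)] at h
  simpa using h

/-- **(a)** line letter, bounded kernel -/
theorem s2w_line (hα : α ≠ 0) (ha : ∀ w z z', ‖a w z z'‖ ≤ 1)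
    (hF : ∀ p ∈ R, av2 (p.1 + 7) p.2 F ≤ 1) (hV : ((T.card : ℝ) * T'.card) ≤ V) :
    S2W R κ V α γ δ T T' a F := by
  classical
  refine s2w_of_total fun p hp S => ?_
  have h1 : ∀ z z' : ℤ, ∀ W : Finset ℤ, ∑ w ∈ W, ‖res p F (α * w + γ * z + δ * z')‖ ^ 2 ≤
      2 ^ (p.1 + 7) := by
    intro z z' W
    refine le_trans ?_ (av2_sum (hF p hp))
    have hinj : Set.InjOn (fun w : ℤ => α * w + γ * z + δ * z') W := by
      intro x _ y _ hxy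
      simp only at hxy
      exact mul_left_cancel₀ hα (by linarith)
    have e := Finset.sum_image (f := fun y : ℤ => ‖res p F y‖ ^ 2) hinj
    rw [← e]
    have h2 : ∑ y ∈ W.image (fun w : ℤ => α * w + γ * z + δ * z'), ‖res p F y‖ ^ 2 =
        ∑ y ∈ (W.image (fun w : ℤ => α * w + γ * z + δ * z')).filter
          (fun y => y ∈ dI (p.1 + 7) p.2), ‖F y‖ ^ 2 := by
      rw [Finset.sum_filter]
      refine Finset.sum_congr rfl fun y _ => ?_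
      unfold res
      split_ifs
      · rfl
      · simp
    rw [h2]
    refine Finset.sum_le_sum_of_subset_of_nonneg ?_ fun _ _ _ => by positivity
    intro y hy
    exact (Finset.mem_filter.mp hy).2
  -- enlarge `S` to a product
  set Wf : Finset ℤ := S.image (fun t => t.1) with hWf
  have h3 : ∑ t ∈ S, ‖cK α γ δ T T' (a t.1) (res p F) t.1 t.2.1 t.2.2‖ ^ 2 ≤
      ∑ t ∈ Wf ×ˢ (T ×ˢ T'), ‖res p F (α * t.1 + γ * t.2.1 + δ * t.2.2)‖ ^ 2 := by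
    have h4 : ∑ t ∈ S, ‖cK α γ δ T T' (a t.1) (res p F) t.1 t.2.1 t.2.2‖ ^ 2 ≤
        ∑ t ∈ S.filter (fun t => t.2.1 ∈ T ∧ t.2.2 ∈ T'),
          ‖res p F (α * t.1 + γ * t.2.1 + δ * t.2.2)‖ ^ 2 := by
      rw [Finset.sum_filter]
      refine Finset.sum_le_sum fun t _ => ?_
      unfold cK
      split_ifs with hT
      · refine pow_le_pow_left₀ (norm_nonneg _) ?_ 2
        rw [norm_mul]
        exact mul_le_of_le_one_left (norm_nonneg _) (ha _ _ _)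
      · simp
    refine h4.trans (Finset.sum_le_sum_of_subset_of_nonneg ?_ fun _ _ _ => by positivity)
    intro t ht
    rw [Finset.mem_filter] at ht
    rw [Finset.mem_product, Finset.mem_product]
    exact ⟨Finset.mem_image_of_mem _ ht.1, ht.2.1, ht.2.2⟩
  refine h3.trans ?_
  rw [Finset.sum_product, Finset.sum_comm]
  calc ∑ y ∈ T ×ˢ T', ∑ x ∈ Wf, ‖res p F (α * x + γ * y.1 + δ * y.2)‖ ^ 2
      ≤ ∑ _y ∈ T ×ˢ T', (2 : ℝ) ^ (p.1 + 7) := Finset.sum_le_sum fun y _ => h1 _ _ _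
    _ = (2 : ℝ) ^ (p.1 + 7) * ((T.card : ℝ) * T'.card) := by
        rw [Finset.sum_const, Finset.card_product, nsmul_eq_mul]
        push_cast
        ring
    _ ≤ _ := mul_le_mul_of_nonneg_left hV (by positivity)

lemma cK_res_le {H : ℝ} (hb : ∀ w z z', ‖cK α γ δ T T' (a w) F w z z'‖ ≤ H) (p : ℕ × ℤ)
    (w z z' : ℤ) : ‖cK α γ δ T T' (a w) (res p F) w z z'‖ ≤ H := by
  refine le_trans ?_ (hb w z z')
  unfold cK
  split_ifs
  · rw [norm_mul, norm_mul]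
    refine mul_le_mul_of_nonneg_left ?_ (norm_nonneg _)
    unfold res
    split_ifs
    · exact le_rfl
    · rw [norm_zero]; exact norm_nonneg _
  · exact le_rfl

/-- **(b)** heights turn `S₂` into `S₄` -/
theorem s4w_of_height {H : ℝ} (hH : 0 ≤ H) (h2 : S2W R κ V α γ δ T T' a F)
    (hb : ∀ w z z', ‖cK α γ δ T T' (a w) F w z z'‖ ≤ H) :
    S4W R κ V (H ^ 2) α γ δ T T' a F := by
  intro p hp k hk S
  have h1 := mul_le_mul_of_nonneg_left (h2 p hp k hk S) (by positivity : 0 ≤ H ^ 2)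
  refine le_trans ?_ h1
  rw [Finset.mul_sum]
  refine Finset.sum_le_sum fun t _ => ?_
  refine (e4_le_sq _ _ _ _).trans ?_
  rw [sq]
  exact mul_le_mul_of_nonneg_right (e2_le_of_bdd _ H hH (fun z z' => cK_res_le hb p _ z z') _ _ _)
    (e2_nonneg _ _ _ _)

lemma cK_smul (c : ℂ) (p : ℕ × ℤ) (w : ℤ) :
    cK α γ δ T T' (fun z z' => c * a w z z') (res p F) w =
      fun z z' => c * cK α γ δ T T' (a w) (res p F) w z z' := by
  funext z z'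
  unfold cK
  split_ifs
  · ring
  · simp

/-- scaling of the kernel -/
theorem S2W.smul (c : ℝ) (h2 : S2W R κ V α γ δ T T' a F) :
    S2W R κ (c ^ 2 * V) α γ δ T T' (fun w z z' => (c : ℂ) * a w z z') F := by
  intro p hp k hk S
  have h1 := mul_le_mul_of_nonneg_left (h2 p hp k hk S) (by positivity : 0 ≤ c ^ 2)
  refine le_trans (le_of_eq ?_) (h1.trans (le_of_eq (by ring)))
  rw [Finset.mul_sum]
  refine Finset.sum_congr rfl fun t _ => ?_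
  rw [cK_smul]
  unfold e2
  simp only [norm_mul, mul_pow, Complex.norm_real, Real.norm_eq_abs, sq_abs, ← Finset.mul_sum]
  ring

theorem S4W.smul (c : ℝ) (h4 : S4W R κ V σ α γ δ T T' a F) :
    S4W R κ V (c ^ 4 * σ) α γ δ T T' (fun w z z' => (c : ℂ) * a w z z') F := by
  intro p hp k hk S
  have h1 := mul_le_mul_of_nonneg_left (h4 p hp k hk S) (by positivity : 0 ≤ c ^ 4)
  refine le_trans (le_of_eq ?_) (h1.trans (le_of_eq (by ring)))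
  rw [Finset.mul_sum]
  refine Finset.sum_congr rfl fun t _ => ?_
  rw [cK_smul, e4_smul, Complex.norm_real, Real.norm_eq_abs]
  congr 1
  rw [show (4 : ℕ) = 2 * 2 by rfl, pow_mul, sq_abs, ← pow_mul]

theorem S2W.mono {V' : ℝ} (h : V ≤ V') (h2 : S2W R κ V α γ δ T T' a F) :
    S2W R κ V' α γ δ T T' a F := fun p hp k hk S =>
  (h2 p hp k hk S).trans (mul_le_mul_of_nonneg_left h (by positivity))

theorem S4W.mono {V' σ' : ℝ} (hσ : 0 ≤ σ) (hV : 0 ≤ V) (h : V ≤ V') (h' : σ ≤ σ')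
    (h4 : S4W R κ V σ α γ δ T T' a F) : S4W R κ V' σ' α γ δ T T' a F := fun p hp k hk S =>
  (h4 p hp k hk S).trans (mul_le_mul h' (mul_le_mul_of_nonneg_left h (by positivity))
    (by positivity) (hσ.trans h'))

/-- `S4W` with the weight moved from `σ` to `V` -/
theorem S4W.shift {c : ℝ} (hc : c ≠ 0) (h4 : S4W R κ V σ α γ δ T T' a F) :
    S4W R κ (c * V) (σ / c) α γ δ T T' a F := fun p hp k hk S =>
  (h4 p hp k hk S).trans (le_of_eq (by field_simp))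

end Crest.Agent.R079.EW990
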