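import Crest.Agent.R079.EW_49
import Crest.Agent.R079.EW2_990

/-! R079, Step II error words (helper990, second of 49): POWER COROLLARIES of `EW49.frozenW24`.
Edges are indexed by `e : Fin 3` (edge `e` = slot `j.succAbove (e+2)`, variables `e, e+1`). -/

set_option autoImplicit false
set_option linter.unusedVariables false

namespace Crest.Agent.R079.EW990

open Finset Crest.Agent.R079.Grid Crest.Agent.R079.Pot Crest.Agent.R079.Glue Crest.Agent.R079.R244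
  Crest.Agent.R079.F24

/-- `S₂` budget of the edge `e` -/
def W2 (R : Finset (ℕ × ℤ)) (κ : ℕ) (V : ℝ) (j : Fin 4) (T : Fin 3 → Finset ℤ)
    (k : Fin 3 → ℤ → ℤ → ℤ → ℂ) (F : Fin 4 → ℤ → ℂ) (e : Fin 3) : Prop :=
  EW49.S2W R κ V (sl j - sl (j.succAbove (e + 2))) (sl (j.succAbove e) - sl (j.succAbove (e + 2)))
    (sl (j.succAbove (e + 1)) - sl (j.succAbove (e + 2))) (T e) (T (e + 1)) (k e)
    (F (j.succAbove (e + 2)))

/-- `S₄` budget of the edge `e` -/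
def W4 (R : Finset (ℕ × ℤ)) (κ : ℕ) (V σ : ℝ) (j : Fin 4) (T : Fin 3 → Finset ℤ)
    (k : Fin 3 → ℤ → ℤ → ℤ → ℂ) (F : Fin 4 → ℤ → ℂ) (e : Fin 3) : Prop :=
  EW49.S4W R κ V σ (sl j - sl (j.succAbove (e + 2)))
    (sl (j.succAbove e) - sl (j.succAbove (e + 2)))
    (sl (j.succAbove (e + 1)) - sl (j.succAbove (e + 2))) (T e) (T (e + 1)) (k e)
    (F (j.succAbove (e + 2)))

/-- the kernel of the edge `e`, frozen variable `w` -/
noncomputable def kW (j : Fin 4) (T : Fin 3 → Finset ℤ) (k : Fin 3 → ℤ → ℤ → ℤ → ℂ)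
    (F : Fin 4 → ℤ → ℂ) (e : Fin 3) (w : ℤ) : ℤ → ℤ → ℂ :=
  cK (sl j - sl (j.succAbove (e + 2))) (sl (j.succAbove e) - sl (j.succAbove (e + 2)))
    (sl (j.succAbove (e + 1)) - sl (j.succAbove (e + 2))) (T e) (T (e + 1)) (k e w)
    (F (j.succAbove (e + 2))) w

/-- height of the edge `e` -/
def WH (H : ℝ) (j : Fin 4) (T : Fin 3 → Finset ℤ) (k : Fin 3 → ℤ → ℤ → ℤ → ℂ)
    (F : Fin 4 → ℤ → ℂ) (e : Fin 3) : Prop := ∀ w z z', ‖kW j T k F e w z z'‖ ≤ H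

/-- the word: sum over all scales and positions of the box forms -/
noncomputable def LW (bb : ℤ) (R : Finset (ℕ × ℤ)) (J : ℕ × ℤ) (j : Fin 4)
    (T : Fin 3 → Finset ℤ) (k : Fin 3 → ℤ → ℤ → ℤ → ℂ) (F : Fin 4 → ℤ → ℂ)
    (PP : Finset (ℤ × ℤ × ℤ)) : ℝ :=
  ∑ m ∈ range (J.1 + 1), ∑ p ∈ PP, (1 / (((2 ^ m : ℕ) : ℝ) + ((2 ^ m : ℕ) : ℝ))) *
    ∑ v : Fin (2 ^ m + 2 ^ m),
      ‖Lb3 (kW j T k (Fm R j F m) 0 (((v : ℕ) : ℤ) + bb * ((2 ^ m : ℕ) : ℤ) - p.1 - p.2.1 - p.2.2))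
        (kW j T k (Fm R j F m) 1 (((v : ℕ) : ℤ) + bb * ((2 ^ m : ℕ) : ℤ) - p.1 - p.2.1 - p.2.2))
        (kW j T k (Fm R j F m) 2 (((v : ℕ) : ℤ) + bb * ((2 ^ m : ℕ) : ℤ) - p.1 - p.2.1 - p.2.2))
        (2 ^ m) p.1 p.2.1 p.2.2‖

/-- `frozenW24` in the notation of this file -/
theorem fw24 : ∃ K : ℝ, 0 ≤ K ∧ ∃ κ : ℕ, ∀ (bb : ℤ), bb = -1 ∨ bb = -7 →
    ∀ (R : Finset (ℕ × ℤ)) (J : ℕ × ℤ), IsRegion R J →
    ∀ (j : Fin 4) (i : Fin 3) (s H : ℝ), 0 < s → s ≤ 1 → 1 ≤ H → ∀ (V : ℝ), 0 ≤ V →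
    ∀ (T : Fin 3 → Finset ℤ) (k : Fin 3 → ℤ → ℤ → ℤ → ℂ) (F : Fin 4 → ℤ → ℂ),
      (∀ e, W2 R κ V j T k F e) → (∀ e, e ≠ i → W4 R κ V (s ^ 2) j T k F e) → WH H j T k F i →
      ∀ PP : Finset (ℤ × ℤ × ℤ),
        LW bb R J j T k F PP ≤ K * (s * (1 + Real.log (H / s)) * 2 ^ (J.1 + 7) * V) := by
  obtain ⟨K, hK, κ, h⟩ := EW49.frozenW24
  refine ⟨K, hK, κ, ?_⟩
  intro bb hbb R J hR j i s H hs hs1 hH V hV T k F h2 h4 hb PP
  exact h bb hbb R J hR j i s H hs hs1 hH V hV T (k 0) (k 1) (k 2) F (h2 0) (h2 1) (h2 2)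
    (fun hi => h4 0 (Ne.symm hi)) (fun hi => h4 1 (Ne.symm hi)) (fun hi => h4 2 (Ne.symm hi))
    (fun hi => by subst hi; exact hb) (fun hi => by subst hi; exact hb)
    (fun hi => by subst hi; exact hb) PP

/-! ### scaling -/

/-- scaled kernels -/
def sk (c : Fin 3 → ℝ) (k : Fin 3 → ℤ → ℤ → ℤ → ℂ) : Fin 3 → ℤ → ℤ → ℤ → ℂ :=
  fun e w z z' => (c e : ℂ) * k e w z z'

lemma kW_sk (c : Fin 3 → ℝ) (j : Fin 4) (T : Fin 3 → Finset ℤ) (k : Fin 3 → ℤ → ℤ → ℤ → ℂ)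
    (F : Fin 4 → ℤ → ℂ) (e : Fin 3) (w : ℤ) :
    kW j T (sk c k) F e w = fun z z' => (c e : ℂ) * kW j T k F e w z z' := by
  funext z z'
  unfold kW cK sk
  split_ifs
  · ring
  · simp

lemma Lb3_smul (a b c : ℂ) (A B C : ℤ → ℤ → ℂ) (N : ℕ) (p0 p1 p2 : ℤ) :
    Lb3 (fun x y => a * A x y) (fun x y => b * B x y) (fun x y => c * C x y) N p0 p1 p2 =
      a * b * c * Lb3 A B C N p0 p1 p2 := by
  unfold Lb3
  rw [mul_left_comm]
  congr 1
  rw [Finset.mul_sum]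
  refine Finset.sum_congr rfl fun i0 _ => ?_
  rw [Finset.mul_sum]
  refine Finset.sum_congr rfl fun i1 _ => ?_
  rw [Finset.mul_sum]
  refine Finset.sum_congr rfl fun i2 _ => ?_
  ring

lemma LW_sk (c : Fin 3 → ℝ) (hc : ∀ e, 0 ≤ c e) (bb : ℤ) (R : Finset (ℕ × ℤ)) (J : ℕ × ℤ)
    (j : Fin 4) (T : Fin 3 → Finset ℤ) (k : Fin 3 → ℤ → ℤ → ℤ → ℂ) (F : Fin 4 → ℤ → ℂ)
    (PP : Finset (ℤ × ℤ × ℤ)) :
    LW bb R J j T (sk c k) F PP = (c 0 * c 1 * c 2) * LW bb R J j T k F PP := by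
  unfold LW
  simp only [kW_sk, Lb3_smul, norm_mul, Complex.norm_real, Real.norm_of_nonneg (hc _)]
  simp only [Finset.mul_sum]
  refine Finset.sum_congr rfl fun m _ => Finset.sum_congr rfl fun p _ =>
    Finset.sum_congr rfl fun v _ => ?_
  ring

lemma LW_nonneg (bb : ℤ) (R : Finset (ℕ × ℤ)) (J : ℕ × ℤ) (j : Fin 4) (T : Fin 3 → Finset ℤ)
    (k : Fin 3 → ℤ → ℤ → ℤ → ℂ) (F : Fin 4 → ℤ → ℂ) (PP : Finset (ℤ × ℤ × ℤ)) :
    0 ≤ LW bb R J j T k F PP := by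
  unfold LW
  positivity

variable {R : Finset (ℕ × ℤ)} {κ : ℕ} {V : ℝ} {j : Fin 4} {T : Fin 3 → Finset ℤ}
  {k : Fin 3 → ℤ → ℤ → ℤ → ℂ} {F : Fin 4 → ℤ → ℂ}

lemma W2.sk (c : Fin 3 → ℝ) {e : Fin 3} (h : W2 R κ V j T k F e) :
    W2 R κ (c e ^ 2 * V) j T (sk c k) F e :=
  S2W.smul (c e) h

lemma W4.sk (c : Fin 3 → ℝ) {σ : ℝ} {e : Fin 3} (h : W4 R κ V σ j T k F e) :
    W4 R κ V (c e ^ 4 * σ) j T (sk c k) F e :=
  S4W.smul (c e) h

lemma W4_of_height {H : ℝ} (hH : 0 ≤ H) {e : Fin 3} (h : W2 R κ V j T k F e)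
    (hb : WH H j T k F e) : W4 R κ V (H ^ 2) j T k F e :=
  s4w_of_height hH h hb

lemma exists_third (i e : Fin 3) (h : i ≠ e) : ∃ r : Fin 3, r ≠ i ∧ r ≠ e ∧
    ∀ x : Fin 3, x = i ∨ x = e ∨ x = r := by
  revert i e; decide

lemma prod_three (c : Fin 3 → ℝ) (i e r : Fin 3) (h1 : i ≠ e) (h2 : r ≠ i) (h3 : r ≠ e) :
    c 0 * c 1 * c 2 = c i * c e * c r := by
  have hu : (Finset.univ : Finset (Fin 3)) = {i, e, r} := by
    revert i e r; decide
  have h4 : i ∉ ({e, r} : Finset (Fin 3)) := by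
    simp only [Finset.mem_insert, Finset.mem_singleton, not_or]
    exact ⟨h1, h2.symm⟩
  have h5 : e ∉ ({r} : Finset (Fin 3)) := by
    simp only [Finset.mem_singleton]
    exact h3.symm
  rw [← Fin.prod_univ_three c, hu, Finset.prod_insert h4, Finset.prod_insert h5,
    Finset.prod_singleton, mul_assoc]

lemma add_one_ne : ∀ e : Fin 3, e + 1 ≠ e := by decide

/-- **error word `e_g`**: all heights `≤ H`, `S₂` budget `V` on two edges and `δ² V` on the error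
edge `e` -/
theorem word_small2 : ∃ K : ℝ, 0 ≤ K ∧ ∃ κ : ℕ, ∀ (bb : ℤ), bb = -1 ∨ bb = -7 →
    ∀ (R : Finset (ℕ × ℤ)) (J : ℕ × ℤ), IsRegion R J →
    ∀ (j : Fin 4) (e : Fin 3) (d H : ℝ), 0 < d → d ≤ 1 → 1 ≤ H → ∀ (V : ℝ), 0 ≤ V →
    ∀ (T : Fin 3 → Finset ℤ) (k : Fin 3 → ℤ → ℤ → ℤ → ℂ) (F : Fin 4 → ℤ → ℂ),
      (∀ x, x ≠ e → W2 R κ V j T k F x) → W2 R κ (d ^ 2 * V) j T k F e →
      (∀ x, WH H j T k F x) → ∀ PP : Finset (ℤ × ℤ × ℤ),
        LW bb R J j T k F PP ≤ K * (H ^ 2 * Real.sqrt d * 2 ^ (J.1 + 7) * V) := by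
  obtain ⟨K, hK, κ, h⟩ := fw24
  refine ⟨K, hK, κ, ?_⟩
  intro bb hbb R J hR j e d H hd hd1 hH V hV T k F h2 he hb PP
  have hH0 : 0 < H := by linarith
  obtain ⟨i, hie⟩ : ∃ i : Fin 3, i ≠ e := ⟨e + 1, add_one_ne e⟩
  obtain ⟨r, hri, hre, hall⟩ := exists_third i e hie
  -- scaling factors
  set x : ℝ := Real.sqrt H with hx
  set y : ℝ := Real.sqrt (H * d) with hy
  have hHd : 0 < H * d := mul_pos hH0 hd
  have hx0 : 0 < x := Real.sqrt_pos.mpr hH0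
  have hy0 : 0 < y := Real.sqrt_pos.mpr hHd
  have hx2 : x ^ 2 = H := Real.sq_sqrt hH0.le
  have hy2 : y ^ 2 = H * d := Real.sq_sqrt hHd.le
  set c : Fin 3 → ℝ := fun u => if u = r then x⁻¹ else if u = e then y⁻¹ else 1 with hc
  have cr : c r = x⁻¹ := by simp [hc]
  have ce : c e = y⁻¹ := by simp [hc, Ne.symm hre]
  have ci : c i = 1 := by simp [hc, Ne.symm hri, hie]
  have hc0 : ∀ u, 0 ≤ c u := by
    intro u
    rcases hall u with rfl | rfl | rfl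
    · rw [ci]; norm_num
    · rw [ce]; positivity
    · rw [cr]; positivity
  have hW2 : ∀ u, W2 R κ V j T (sk c k) F u := by
    intro u
    rcases hall u with rfl | rfl | rfl
    · refine S2W.mono ?_ (W2.sk c (h2 _ hie))
      rw [ci]; simp
    · refine S2W.mono ?_ (W2.sk c he)
      rw [ce, inv_pow, hy2, ← mul_assoc]
      refine mul_le_of_le_one_left hV ?_
      rw [inv_mul_le_iff₀ hHd]
      nlinarith
    · refine S2W.mono ?_ (W2.sk c (h2 _ hre))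
      rw [cr, inv_pow, hx2]
      exact mul_le_of_le_one_left hV (inv_le_one_of_one_le₀ hH)
  have hW4 : ∀ u, u ≠ i → W4 R κ V ((1 : ℝ) ^ 2) j T (sk c k) F u := by
    intro u hu
    rcases hall u with rfl | rfl | rfl
    · exact absurd rfl hu
    · -- error edge
      have h4 := W4_of_height hH0.le he (hb u)
      have h5 : W4 R κ V (H ^ 2 * d ^ 2) j T k F u := by
        intro p hp n hn S
        exact (h4 p hp n hn S).trans (le_of_eq (by ring))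
      have h6 := W4.sk c h5
      refine S4W.mono (by positivity) hV le_rfl ?_ h6
      rw [ce]
      have e1 : y⁻¹ ^ 4 * (H ^ 2 * d ^ 2) = 1 := by
        have : y⁻¹ ^ 4 = ((y ^ 2) ^ 2)⁻¹ := by rw [inv_pow, ← pow_mul]
        rw [this, hy2]
        field_simp
      rw [e1]; norm_num
    · have h4 := W4_of_height hH0.le (h2 _ hre) (hb u)
      have h6 := W4.sk c h4
      refine S4W.mono (by positivity) hV le_rfl ?_ h6
      rw [cr]
      have e1 : x⁻¹ ^ 4 * H ^ 2 = 1 := by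
        have : x⁻¹ ^ 4 = ((x ^ 2) ^ 2)⁻¹ := by rw [inv_pow, ← pow_mul]
        rw [this, hx2]
        field_simp
      rw [e1]; norm_num
  have hWH : WH H j T (sk c k) F i := by
    intro w z z'
    rw [kW_sk]
    simp only [ci]
    simpa using hb i w z z'
  have main := h bb hbb R J hR j i 1 H one_pos le_rfl hH V hV T (sk c k) F hW2 hW4 hWH PP
  rw [LW_sk c hc0, prod_three c i e r hie hri hre, ci, ce, cr] at main
  have hlog : 1 + Real.log (H / 1) ≤ H := by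
    rw [div_one]
    have := Real.log_le_sub_one_of_pos hH0
    linarith
  have hL : LW bb R J j T k F PP = (y * x) * ((1 * y⁻¹ * x⁻¹) * LW bb R J j T k F PP) := by
    field_simp
  rw [hL]
  refine (mul_le_mul_of_nonneg_left main (by positivity)).trans ?_
  have hyx : y * x = H * Real.sqrt d := by
    rw [hy, hx, Real.sqrt_mul hH0.le]
    have h9 := Real.mul_self_sqrt hH0.le
    calc Real.sqrt H * Real.sqrt d * Real.sqrt H = (Real.sqrt H * Real.sqrt H) * Real.sqrt d := by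
          ring
      _ = H * Real.sqrt d := by rw [h9]
  rw [hyx]
  have e2 : H * Real.sqrt d * (K * (1 * (1 + Real.log (H / 1)) * 2 ^ (J.1 + 7) * V)) =
      K * (H * (1 + Real.log (H / 1)) * Real.sqrt d * 2 ^ (J.1 + 7) * V) := by ring
  rw [e2]
  have hsd := Real.sqrt_nonneg d
  refine mul_le_mul_of_nonneg_left ?_ hK
  refine mul_le_mul_of_nonneg_right ?_ hV
  refine mul_le_mul_of_nonneg_right ?_ (by positivity)
  refine mul_le_mul_of_nonneg_right ?_ hsd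
  rw [sq]
  exact mul_le_mul_of_nonneg_left hlog hH0.le

/-- **error word `G_leaf`**: all heights `≤ H`, `S₂` budget `V` on all edges, `S₄` budget `d⁴` on the
error edge `e` -/
theorem word_small4 : ∃ K : ℝ, 0 ≤ K ∧ ∃ κ : ℕ, ∀ (bb : ℤ), bb = -1 ∨ bb = -7 →
    ∀ (R : Finset (ℕ × ℤ)) (J : ℕ × ℤ), IsRegion R J →
    ∀ (j : Fin 4) (e : Fin 3) (d H : ℝ), 0 < d → d ≤ 1 → 1 ≤ H → ∀ (V : ℝ), 0 ≤ V →
    ∀ (T : Fin 3 → Finset ℤ) (k : Fin 3 → ℤ → ℤ → ℤ → ℂ) (F : Fin 4 → ℤ → ℂ),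
      (∀ x, W2 R κ V j T k F x) → W4 R κ V (d ^ 4) j T k F e →
      (∀ x, x ≠ e → WH H j T k F x) → ∀ PP : Finset (ℤ × ℤ × ℤ),
        LW bb R J j T k F PP ≤ K * (H * Real.sqrt d * 2 ^ (J.1 + 7) * V) := by
  obtain ⟨K, hK, κ, h⟩ := fw24
  refine ⟨4 * K, by positivity, κ, ?_⟩
  intro bb hbb R J hR j e d H hd hd1 hH V hV T k F h2 he hb PP
  have hH0 : 0 < H := by linarith
  obtain ⟨i, hie⟩ : ∃ i : Fin 3, i ≠ e := ⟨e + 1, add_one_ne e⟩
  obtain ⟨r, hri, hre, hall⟩ := exists_third i e hie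
  set x : ℝ := Real.sqrt H with hx
  have hx0 : 0 < x := Real.sqrt_pos.mpr hH0
  have hx2 : x ^ 2 = H := Real.sq_sqrt hH0.le
  have hx1 : 1 ≤ x := Real.one_le_sqrt.mpr hH
  set c : Fin 3 → ℝ := fun u => if u = r then d * x⁻¹ else 1 with hc
  have cr : c r = d * x⁻¹ := by simp [hc]
  have ce : c e = 1 := by simp [hc, Ne.symm hre]
  have ci : c i = 1 := by simp [hc, Ne.symm hri]
  have hc0 : ∀ u, 0 ≤ c u := by
    intro u
    rcases hall u with rfl | rfl | rfl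
    · rw [ci]; norm_num
    · rw [ce]; norm_num
    · rw [cr]; positivity
  have hcr1 : (d * x⁻¹) ^ 2 ≤ 1 := by
    have : d * x⁻¹ ≤ 1 := by
      have h1 : x⁻¹ ≤ 1 := inv_le_one_of_one_le₀ hx1
      exact mul_le_one₀ hd1 (by positivity) h1
    exact pow_le_one₀ (by positivity) this
  have hW2 : ∀ u, W2 R κ V j T (sk c k) F u := by
    intro u
    rcases hall u with rfl | rfl | rfl
    · refine S2W.mono ?_ (W2.sk c (h2 _))
      rw [ci]; simp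
    · refine S2W.mono ?_ (W2.sk c (h2 _))
      rw [ce]; simp
    · refine S2W.mono ?_ (W2.sk c (h2 _))
      rw [cr]
      exact mul_le_of_le_one_left hV hcr1
  have hW4 : ∀ u, u ≠ i → W4 R κ V ((d ^ 2 : ℝ) ^ 2) j T (sk c k) F u := by
    intro u hu
    rcases hall u with rfl | rfl | rfl
    · exact absurd rfl hu
    · have h6 := W4.sk c he
      refine S4W.mono (by positivity) hV le_rfl ?_ h6
      rw [ce]
      exact le_of_eq (by ring)
    · have h4 := W4_of_height hH0.le (h2 _) (hb u hre)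
      have h6 := W4.sk c h4
      refine S4W.mono (by positivity) hV le_rfl ?_ h6
      rw [cr]
      have e1 : (d * x⁻¹) ^ 4 * H ^ 2 = (d ^ 2) ^ 2 := by
        have : (d * x⁻¹) ^ 4 = d ^ 4 * ((x ^ 2) ^ 2)⁻¹ := by
          rw [mul_pow, inv_pow, ← pow_mul]
        rw [this, hx2]
        field_simp
      rw [e1]
  have hWH : WH H j T (sk c k) F i := by
    intro w z z'
    rw [kW_sk]
    simp only [ci]
    simpa using hb i hie w z z'
  have hs0 : 0 < d ^ 2 := by positivity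
  have main := h bb hbb R J hR j i (d ^ 2) H hs0 (pow_le_one₀ hd.le hd1) hH V hV T (sk c k) F
    hW2 hW4 hWH PP
  rw [LW_sk c hc0, prod_three c i e r hie hri hre, ci, ce, cr] at main
  -- the logarithm
  set u : ℝ := Real.sqrt (x / d) with hu
  have hxd : 0 < x / d := div_pos hx0 hd
  have hu0 : 0 < u := Real.sqrt_pos.mpr hxd
  have hu2 : u ^ 2 = x / d := Real.sq_sqrt hxd.le
  have hu4 : H / d ^ 2 = u ^ 4 := by
    have : u ^ 4 = (u ^ 2) ^ 2 := by ring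
    rw [this, hu2, div_pow, hx2]
  have hlog : 1 + Real.log (H / d ^ 2) ≤ 4 * u := by
    rw [hu4, Real.log_pow]
    have := Real.log_le_sub_one_of_pos hu0
    push_cast
    linarith
  have hL : LW bb R J j T k F PP = (x / d) * ((1 * 1 * (d * x⁻¹)) * LW bb R J j T k F PP) := by
    field_simp
  rw [hL]
  refine (mul_le_mul_of_nonneg_left main (by positivity)).trans ?_
  have hsd := Real.sqrt_nonneg d
  have hP : 0 ≤ (2 : ℝ) ^ (J.1 + 7) * V := by positivity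
  have e2 : x / d * (K * (d ^ 2 * (1 + Real.log (H / d ^ 2)) * 2 ^ (J.1 + 7) * V)) =
      K * ((x * d * (1 + Real.log (H / d ^ 2))) * (2 ^ (J.1 + 7) * V)) := by
    field_simp
  have e3 : 4 * K * (H * Real.sqrt d * 2 ^ (J.1 + 7) * V) =
      K * ((4 * (H * Real.sqrt d)) * (2 ^ (J.1 + 7) * V)) := by ring
  rw [e2, e3]
  refine mul_le_mul_of_nonneg_left (mul_le_mul_of_nonneg_right ?_ hP) hK
  have h3 : x * d * (1 + Real.log (H / d ^ 2)) ≤ x * d * (4 * u) :=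
    mul_le_mul_of_nonneg_left hlog (by positivity)
  refine h3.trans ?_
  -- `x d u ≤ H √d`
  have h4 : d * u = Real.sqrt d * Real.sqrt x := by
    rw [hu, Real.sqrt_div hx0.le]
    have hd2 : Real.sqrt d * Real.sqrt d = d := Real.mul_self_sqrt hd.le
    have hd0 : Real.sqrt d ≠ 0 := (Real.sqrt_pos.mpr hd).ne'
    field_simp
    nlinarith
  have h5 : Real.sqrt x ≤ x := by
    rw [Real.sqrt_le_left hx0.le]
    nlinarith
  have h6 : x * d * (4 * u) = 4 * (x * (Real.sqrt d * Real.sqrt x)) := by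
    rw [← h4]; ring
  rw [h6, ← hx2]
  have h7 : x * (Real.sqrt d * Real.sqrt x) ≤ x * (Real.sqrt d * x) :=
    mul_le_mul_of_nonneg_left (mul_le_mul_of_nonneg_left h5 hsd) hx0.le
  nlinarith

end Crest.Agent.R079.EW990
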