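import Crest.Agent.R079.LK_990
import Crest.Agent.R079.EW3_990
import Crest.Agent.R079.Cg_408

/-! R079, Step II (g3) (helper990): the error words of `Plug_429` in the box form `LboxG` of `Cg_408`.
`KP j T k F` = kernel `K s A` of the word with the three edge kernels `k e w z_e z_(e+1)` (depending on
the frozen variable `w` of slot `j`) and the letters `F`. -/

set_option autoImplicit false
set_option linter.unusedVariables false

namespace Crest.Agent.R079.EWG990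

open Finset Crest.Agent.R079.Grid Crest.Agent.R079.Pot Crest.Agent.R079.Glue Crest.Agent.R079.GlueK
open Crest.Agent.R079.R244 Crest.Agent.R079.F24 Crest.Agent.R079.LK990 Crest.Agent.R079.EW990
open Crest.Agent.R079.Cg408 (LboxG Lbox_LboxG LboxG_add)

/-- product of the three edge kernels -/
def PhiW (k : Fin 3 → ℤ → ℤ → ℤ → ℂ) (w z0 z1 z2 : ℤ) : ℂ :=
  k 0 w z0 z1 * k 1 w z1 z2 * k 2 w z2 z0

/-- kernel `K s A` of the word (`s` = sum of the coordinates, `y_k = A - sl k * s`) -/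
noncomputable def KP (j : Fin 4) (T : Fin 3 → Finset ℤ) (k : Fin 3 → ℤ → ℤ → ℤ → ℂ)
    (F : Fin 4 → ℤ → ℂ) (s A : ℤ) : ℂ :=
  Per j T (PhiW k) (A - sl j * s) s *
    ∏ e : Fin 3, F (j.succAbove e) (A - sl (j.succAbove e) * s)

lemma yv_eq (N : ℕ) (bb x : ℤ) (u : Fin 4 → Fin (N + N)) (k : Fin 4) :
    yv N bb x u k = (x + ∑ i, sl i * ((u i : ℕ) : ℤ)) -
      sl k * (bb * N + ∑ i, ((u i : ℕ) : ℤ)) := by
  unfold yv
  simp only [Fin.sum_univ_four]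
  ring

theorem Lgen_eq_LboxG (j : Fin 4) (N : ℕ) (bb : ℤ) (G : ℤ → ℤ → ℂ) (F : Fin 4 → ℤ → ℂ) (x : ℤ) :
    Lgen j N bb G F x = LboxG N bb (fun s A => G (A - sl j * s) s *
      ∏ e : Fin 3, F (j.succAbove e) (A - sl (j.succAbove e) * s)) x := by
  unfold Lgen LboxG
  congr 1
  refine Finset.sum_congr rfl fun u _ => ?_
  simp only [yv_eq]

theorem Lgen_Per (j : Fin 4) (N : ℕ) (bb : ℤ) (T : Fin 3 → Finset ℤ)
    (k : Fin 3 → ℤ → ℤ → ℤ → ℂ) (F : Fin 4 → ℤ → ℂ) (x : ℤ) :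
    LboxG N bb (KP j T k F) x = Lgen j N bb (Per j T (PhiW k)) F x := by
  rw [Lgen_eq_LboxG]
  rfl

lemma Lgen_Fm (R : Finset (ℕ × ℤ)) (j : Fin 4) (G : ℤ → ℤ → ℂ) (F : Fin 4 → ℤ → ℂ) (m : ℕ) (l : ℤ)
    (hp : (m, l) ∈ R) (bb : ℤ) (hbb : bb = -1 ∨ bb = -7) (x : ℤ) (hx : x ∈ adm m l) :
    Lgen j (2 ^ m) bb G F x = Lgen j (2 ^ m) bb G (Fm R j F m) x := by
  unfold Lgen
  congr 1
  refine Finset.sum_congr rfl fun u _ => ?_
  congr 2
  refine Finset.prod_congr rfl fun k _ => ?_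
  unfold Fm
  rw [if_neg (Fin.succAbove_ne j k)]
  unfold msk
  have h1 := yv_mem m l bb x hbb hx u (j.succAbove k)
  rw [mem_dI_iff] at h1
  have h2 : yv (2 ^ m) bb x u (j.succAbove k) ∈ Rm R m := by
    rw [mem_Rm, h1]; exact hp
  rw [if_pos h2]

lemma region_sumG (R : Finset (ℕ × ℤ)) (J : ℕ × ℤ) (hR : IsRegion R J) (j : Fin 4)
    (G : ℤ → ℤ → ℂ) (F : Fin 4 → ℤ → ℂ) (bb : ℤ) (hbb : bb = -1 ∨ bb = -7) :
    ∑ p ∈ R, ∑ x ∈ adm p.1 p.2, ‖Lgen j (2 ^ p.1) bb G F x‖ =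
      ∑ m ∈ range (J.1 + 1), ∑ x ∈ (R.filter (fun p => p.1 = m)).biUnion (fun p => adm p.1 p.2),
        ‖Lgen j (2 ^ m) bb G (Fm R j F m) x‖ := by
  classical
  rw [← Finset.sum_fiberwise_of_maps_to (s := R) (t := range (J.1 + 1)) (g := fun p => p.1)
    (fun p hp => Finset.mem_range.mpr (Nat.lt_succ_of_le (level_le R J hR p hp)))]
  refine Finset.sum_congr rfl fun m _ => ?_
  rw [Finset.sum_biUnion]
  · refine Finset.sum_congr rfl fun p hp => ?_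
    rw [Finset.mem_filter] at hp
    obtain ⟨hp, hpm⟩ := hp
    obtain ⟨m', l⟩ := p
    simp only at hpm
    subst hpm
    refine Finset.sum_congr rfl fun x hx => ?_
    rw [Lgen_Fm R j G F m' l hp bb hbb x hx]
  · intro p hp q hq hpq
    rw [Function.onFun, Finset.disjoint_left]
    intro x hx hx'
    rw [Finset.mem_coe, Finset.mem_filter] at hp hq
    have h1 := adm_subset _ _ hx
    have h2 := adm_subset _ _ hx'
    rw [mem_dI_iff] at h1 h2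
    apply hpq
    obtain ⟨p1, p2⟩ := p
    obtain ⟨q1, q2⟩ := q
    simp only at hp hq h1 h2
    obtain ⟨_, rfl⟩ := hp
    obtain ⟨_, hq2⟩ := hq
    subst hq2
    rw [h1] at h2
    rw [h2]

lemma L3_pW (j : Fin 4) (T : Fin 3 → Finset ℤ) (k : Fin 3 → ℤ → ℤ → ℤ → ℂ) (F : Fin 4 → ℤ → ℂ)
    (w : ℤ) (N : ℕ) (p0 p1 p2 : ℤ) :
    L3 (pW j T (PhiW k) F w) N p0 p1 p2 =
      Lb3 (kW j T k F 0 w) (kW j T k F 1 w) (kW j T k F 2 w) N p0 p1 p2 :=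
  L3_pK_prod j T (k 0 w) (k 1 w) (k 2 w) F w N p0 p1 p2

/-- **region sum of a word with `w`-dependent kernels** -/
theorem sum_word_le (R : Finset (ℕ × ℤ)) (J : ℕ × ℤ) (hR : IsRegion R J) (j : Fin 4)
    (T : Fin 3 → Finset ℤ) (k : Fin 3 → ℤ → ℤ → ℤ → ℂ) (F : Fin 4 → ℤ → ℂ) (bb : ℤ)
    (hbb : bb = -1 ∨ bb = -7) : ∃ PP : Finset (ℤ × ℤ × ℤ),
    ∑ p ∈ R, ∑ x ∈ adm p.1 p.2, ‖LboxG (2 ^ p.1) bb (KP j T k F) x‖ ≤ LW bb R J j T k F PP := by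
  classical
  obtain ⟨Lt, hLt⟩ := exists_bound T
  set L1 : ℕ := Lt + 2 * 2 ^ (J.1 + 1) with hL1
  refine ⟨Icc (-(L1 : ℤ)) L1 ×ˢ (Icc (-(L1 : ℤ)) L1 ×ˢ Icc (-(L1 : ℤ)) L1), ?_⟩
  set P : Finset (ℤ × ℤ × ℤ) := Icc (-(L1 : ℤ)) L1 ×ˢ (Icc (-(L1 : ℤ)) L1 ×ˢ Icc (-(L1 : ℤ)) L1)
    with hP
  simp only [Lgen_Per]
  rw [region_sumG R J hR j _ F bb hbb]
  unfold LW
  refine Finset.sum_le_sum fun m hm => ?_
  rw [Finset.mem_range] at hm
  have hpow : 2 ^ m ≤ 2 ^ (J.1 + 1) := Nat.pow_le_pow_right (by norm_num) (by omega)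
  have hPm : ∀ t0 t1 t2 : Fin (2 ^ m + 2 ^ m), ∀ z0 ∈ T 0, ∀ z1 ∈ T 1, ∀ z2 ∈ T 2,
      (z0 - ((t0 : ℕ) : ℤ), z1 - ((t1 : ℕ) : ℤ), z2 - ((t2 : ℕ) : ℤ)) ∈ P := by
    intro t0 t1 t2 z0 h0 z1 h1 z2 h2
    have c0 := abs_le.mp (hLt 0 z0 h0)
    have c1 := abs_le.mp (hLt 1 z1 h1)
    have c2 := abs_le.mp (hLt 2 z2 h2)
    have d0 := t0.isLt
    have d1 := t1.isLt
    have d2 := t2.isLt
    rw [hP, Finset.mem_product, Finset.mem_product, Finset.mem_Icc, Finset.mem_Icc,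
      Finset.mem_Icc]
    refine ⟨?_, ?_, ?_⟩ <;> constructor <;> simp only <;> omega
  have e1 : ∀ x, Lgen j (2 ^ m) bb (Per j T (PhiW k)) (Fm R j F m) x =
      LK j (2 ^ m) bb T (PhiW k) (Fm R j F m) P x := fun x =>
    LK_eq_Lgen j (2 ^ m) bb T (PhiW k) (Fm R j F m) x P hPm
  simp only [e1]
  refine (sum_norm_LK_le j (2 ^ m) bb T (PhiW k) (Fm R j F m) P _).trans (le_of_eq ?_)
  simp only [L3_pW]

/-- **error word with one `S₂`-small edge**, box form -/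
theorem boxword_small2 : ∃ K : ℝ, 0 ≤ K ∧ ∃ κ : ℕ, ∀ (bb : ℤ), bb = -1 ∨ bb = -7 →
    ∀ (R : Finset (ℕ × ℤ)) (J : ℕ × ℤ), IsRegion R J →
    ∀ (j : Fin 4) (e : Fin 3) (d H : ℝ), 0 < d → d ≤ 1 → 1 ≤ H → ∀ (V : ℝ), 0 ≤ V →
    ∀ (T : Fin 3 → Finset ℤ) (k : Fin 3 → ℤ → ℤ → ℤ → ℂ) (F : Fin 4 → ℤ → ℂ),
      (∀ x, x ≠ e → W2 R κ V j T k F x) → W2 R κ (d ^ 2 * V) j T k F e →
      (∀ x, WH H j T k F x) →
        ∑ p ∈ R, ∑ x ∈ adm p.1 p.2, ‖LboxG (2 ^ p.1) bb (KP j T k F) x‖ ≤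
          K * (H ^ 2 * Real.sqrt d * 2 ^ (J.1 + 7) * V) := by
  obtain ⟨K, hK, κ, h⟩ := word_small2
  refine ⟨K, hK, κ, ?_⟩
  intro bb hbb R J hR j e d H hd hd1 hH V hV T k F h2 he hb
  obtain ⟨PP, hPP⟩ := sum_word_le R J hR j T k F bb hbb
  exact hPP.trans (h bb hbb R J hR j e d H hd hd1 hH V hV T k F h2 he hb PP)

/-- **error word with one `S₄`-small edge**, box form -/
theorem boxword_small4 : ∃ K : ℝ, 0 ≤ K ∧ ∃ κ : ℕ, ∀ (bb : ℤ), bb = -1 ∨ bb = -7 →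
    ∀ (R : Finset (ℕ × ℤ)) (J : ℕ × ℤ), IsRegion R J →
    ∀ (j : Fin 4) (e : Fin 3) (d H : ℝ), 0 < d → d ≤ 1 → 1 ≤ H → ∀ (V : ℝ), 0 ≤ V →
    ∀ (T : Fin 3 → Finset ℤ) (k : Fin 3 → ℤ → ℤ → ℤ → ℂ) (F : Fin 4 → ℤ → ℂ),
      (∀ x, W2 R κ V j T k F x) → W4 R κ V (d ^ 4) j T k F e →
      (∀ x, x ≠ e → WH H j T k F x) →
        ∑ p ∈ R, ∑ x ∈ adm p.1 p.2, ‖LboxG (2 ^ p.1) bb (KP j T k F) x‖ ≤
          K * (H * Real.sqrt d * 2 ^ (J.1 + 7) * V) := by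
  obtain ⟨K, hK, κ, h⟩ := word_small4
  refine ⟨K, hK, κ, ?_⟩
  intro bb hbb R J hR j e d H hd hd1 hH V hV T k F h2 he hb
  obtain ⟨PP, hPP⟩ := sum_word_le R J hR j T k F bb hbb
  exact hPP.trans (h bb hbb R J hR j e d H hd hd1 hH V hV T k F h2 he hb PP)

/-! ### the splitting of one edge -/

/-- the kernel of the edge `e` is replaced by `M` -/
def upk (g : Fin 3 → ℤ → ℤ → ℂ) (e : Fin 3) (M : ℤ → ℤ → ℤ → ℂ) : Fin 3 → ℤ → ℤ → ℤ → ℂ :=
  fun e' w => if e' = e then M w else g e'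

/-- the letter of the slot `m` is replaced by `1` -/
def upF (F : Fin 4 → ℤ → ℂ) (m : Fin 4) : Fin 4 → ℤ → ℂ :=
  fun k => if k = m then fun _ => 1 else F k

lemma Per_mul_congr (j : Fin 4) (T : Fin 3 → Finset ℤ) (Φ Φ' : ℤ → ℤ → ℤ → ℤ → ℂ) (y s : ℤ)
    (c c' : ℂ) (h : ∀ z0 ∈ T 0, ∀ z1 ∈ T 1, ∀ z2 ∈ T 2,
      cf j 0 * z0 + cf j 1 * z1 + cf j 2 * z2 = y →
      Φ (s - z0 - z1 - z2) z0 z1 z2 * c = Φ' (s - z0 - z1 - z2) z0 z1 z2 * c') :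
    Per j T Φ y s * c = Per j T Φ' y s * c' := by
  unfold Per
  simp only [Finset.sum_mul]
  refine Finset.sum_congr rfl fun z0 h0 => Finset.sum_congr rfl fun z1 h1 =>
    Finset.sum_congr rfl fun z2 h2 => ?_
  split_ifs with hc
  · exact h z0 h0 z1 h1 z2 h2 hc
  · simp

lemma Per_add (j : Fin 4) (T : Fin 3 → Finset ℤ) (Φ Φ' : ℤ → ℤ → ℤ → ℤ → ℂ) (y s : ℤ) :
    Per j T (fun w z0 z1 z2 => Φ w z0 z1 z2 + Φ' w z0 z1 z2) y s =
      Per j T Φ y s + Per j T Φ' y s := by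
  unfold Per
  simp only [← Finset.sum_add_distrib]
  refine Finset.sum_congr rfl fun z0 h0 => Finset.sum_congr rfl fun z1 h1 =>
    Finset.sum_congr rfl fun z2 h2 => ?_
  split_ifs with hc
  · rfl
  · simp

lemma PhiW_upk (g : Fin 3 → ℤ → ℤ → ℂ) (e : Fin 3) (M E X : ℤ → ℤ → ℤ → ℂ) :
    PhiW (upk g e (fun w z z' => M w z z' + E w z z' + X w z z')) =
      fun w z0 z1 z2 => (PhiW (upk g e M) w z0 z1 z2 + PhiW (upk g e E) w z0 z1 z2) +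
        PhiW (upk g e X) w z0 z1 z2 := by
  funext w z0 z1 z2
  unfold PhiW upk
  fin_cases e <;> simp <;> ring

/-- pointwise splitting of the kernel of the word -/
theorem KP_split (j : Fin 4) (e : Fin 3) (T : Fin 3 → Finset ℤ) (g : Fin 3 → ℤ → ℤ → ℂ)
    (F : Fin 4 → ℤ → ℂ) (M E X : ℤ → ℤ → ℤ → ℂ) (D : Finset ℤ)
    (hdec : ∀ w, ∀ z ∈ T e, ∀ z' ∈ T (e + 1),
      (sl j - sl (j.succAbove (e + 2))) * w + (sl (j.succAbove e) - sl (j.succAbove (e + 2))) * z +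
        (sl (j.succAbove (e + 1)) - sl (j.succAbove (e + 2))) * z' ∈ D →
      g e z z' * F (j.succAbove (e + 2)) ((sl j - sl (j.succAbove (e + 2))) * w +
        (sl (j.succAbove e) - sl (j.succAbove (e + 2))) * z +
        (sl (j.succAbove (e + 1)) - sl (j.succAbove (e + 2))) * z') =
        M w z z' + E w z z' + X w z z')
    (s A : ℤ) (hy : A - sl (j.succAbove (e + 2)) * s ∈ D) :
    KP j T (fun e' _ => g e') F s A =
      KP j T (upk g e M) (upF F (j.succAbove (e + 2))) s A +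
      KP j T (upk g e E) (upF F (j.succAbove (e + 2))) s A +
      KP j T (upk g e X) (upF F (j.succAbove (e + 2))) s A := by
  have hsum : KP j T (upk g e M) (upF F (j.succAbove (e + 2))) s A +
      KP j T (upk g e E) (upF F (j.succAbove (e + 2))) s A +
      KP j T (upk g e X) (upF F (j.succAbove (e + 2))) s A =
      KP j T (upk g e (fun w z z' => M w z z' + E w z z' + X w z z'))
        (upF F (j.succAbove (e + 2))) s A := by
    unfold KP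
    rw [← add_mul, ← add_mul, PhiW_upk, Per_add, Per_add]
  rw [hsum]
  clear hsum
  unfold KP
  refine Per_mul_congr j T _ _ _ s _ _ ?_
  intro z0 h0 z1 h1 z2 h2 hc
  have hA : A = cf j 0 * z0 + cf j 1 * z1 + cf j 2 * z2 + sl j * s := by rw [hc]; ring
  unfold cf at hA
  obtain rfl | rfl | rfl : e = 0 ∨ e = 1 ∨ e = 2 := by fin_cases e <;> simp
  · have e2 : ((0 : Fin 3) + 2) = 2 := rfl
    have e1 : ((0 : Fin 3) + 1) = 1 := rfl
    rw [e2] at hy hdec ⊢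
    rw [e1] at hdec
    have ey : (sl j - sl (j.succAbove 2)) * (s - z0 - z1 - z2) +
        (sl (j.succAbove 0) - sl (j.succAbove 2)) * z0 +
        (sl (j.succAbove 1) - sl (j.succAbove 2)) * z1 = A - sl (j.succAbove 2) * s := by
      rw [hA]; ring
    have hd := hdec (s - z0 - z1 - z2) z0 h0 z1 h1 (by rw [ey]; exact hy)
    rw [ey] at hd
    simp only [Fin.prod_univ_three, PhiW, upk, upF, Fin.succAbove_right_inj]
    simp
    rw [← hd]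
    ring
  · have e2 : ((1 : Fin 3) + 2) = 0 := rfl
    have e1 : ((1 : Fin 3) + 1) = 2 := rfl
    rw [e2] at hy hdec ⊢
    rw [e1] at hdec
    have ey : (sl j - sl (j.succAbove 0)) * (s - z0 - z1 - z2) +
        (sl (j.succAbove 1) - sl (j.succAbove 0)) * z1 +
        (sl (j.succAbove 2) - sl (j.succAbove 0)) * z2 = A - sl (j.succAbove 0) * s := by
      rw [hA]; ring
    have hd := hdec (s - z0 - z1 - z2) z1 h1 z2 h2 (by rw [ey]; exact hy)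
    rw [ey] at hd
    simp only [Fin.prod_univ_three, PhiW, upk, upF, Fin.succAbove_right_inj]
    simp
    rw [← hd]
    ring
  · have e2 : ((2 : Fin 3) + 2) = 1 := rfl
    have e1 : ((2 : Fin 3) + 1) = 0 := rfl
    rw [e2] at hy hdec ⊢
    rw [e1] at hdec
    have ey : (sl j - sl (j.succAbove 1)) * (s - z0 - z1 - z2) +
        (sl (j.succAbove 2) - sl (j.succAbove 1)) * z2 +
        (sl (j.succAbove 0) - sl (j.succAbove 1)) * z0 = A - sl (j.succAbove 1) * s := by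
      rw [hA]; ring
    have hd := hdec (s - z0 - z1 - z2) z2 h2 z0 h0 (by rw [ey]; exact hy)
    rw [ey] at hd
    simp only [Fin.prod_univ_three, PhiW, upk, upF, Fin.succAbove_right_inj]
    simp
    rw [← hd]
    ring

lemma LboxG_congr (N : ℕ) (bb : ℤ) (Κ Κ' : ℤ → ℤ → ℂ) (x : ℤ)
    (h : ∀ u : Fin 4 → Fin (N + N), Κ (bb * N + ∑ i, ((u i : ℕ) : ℤ)) (x + ∑ i, sl i * ((u i : ℕ) : ℤ)) =
      Κ' (bb * N + ∑ i, ((u i : ℕ) : ℤ)) (x + ∑ i, sl i * ((u i : ℕ) : ℤ))) :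
    LboxG N bb Κ x = LboxG N bb Κ' x := by
  unfold LboxG
  congr 1
  exact Finset.sum_congr rfl fun u _ => by rw [h u]

/-- a letter `kerF` with product kernel in slot `j` -/
lemma Lbox_KP (j : Fin 4) (N : ℕ) (bb : ℤ) (T : Fin 3 → Finset ℤ) (g : Fin 3 → ℤ → ℤ → ℂ)
    (F : Fin 4 → ℤ → ℂ)
    (hF : F j = kerF j 1 T (fun z0 z1 z2 => g 0 z0 z1 * g 1 z1 z2 * g 2 z2 z0)) (x : ℤ) :
    Lbox N bb F x = LboxG N bb (KP j T (fun e' _ => g e') F) x := by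
  rw [Lbox_eq_Lgen j, Lgen_eq_LboxG]
  congr 1
  funext s A
  unfold KP
  congr 1
  rw [hF]
  unfold kerF Per PhiW
  simp

/-- **(g3): SPLIT AND ERROR WORDS.** one static window `(R, J)` -/
theorem split_window (j : Fin 4) (e : Fin 3) (T : Fin 3 → Finset ℤ) (g : Fin 3 → ℤ → ℤ → ℂ)
    (F : Fin 4 → ℤ → ℂ)
    (hF : F j = kerF j 1 T (fun z0 z1 z2 => g 0 z0 z1 * g 1 z1 z2 * g 2 z2 z0))
    (M E X : ℤ → ℤ → ℤ → ℂ) (R : Finset (ℕ × ℤ)) (J : ℕ × ℤ)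
    (hRJ : ∀ p ∈ R, dI (p.1 + 7) p.2 ⊆ dI (J.1 + 7) J.2)
    (hdec : ∀ w, ∀ z ∈ T e, ∀ z' ∈ T (e + 1),
      (sl j - sl (j.succAbove (e + 2))) * w + (sl (j.succAbove e) - sl (j.succAbove (e + 2))) * z +
        (sl (j.succAbove (e + 1)) - sl (j.succAbove (e + 2))) * z' ∈ dI (J.1 + 7) J.2 →
      g e z z' * F (j.succAbove (e + 2)) ((sl j - sl (j.succAbove (e + 2))) * w +
        (sl (j.succAbove e) - sl (j.succAbove (e + 2))) * z +
        (sl (j.succAbove (e + 1)) - sl (j.succAbove (e + 2))) * z') =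
        M w z z' + E w z z' + X w z z')
    (bb : ℤ) (hbb : bb = -1 ∨ bb = -7) (Y : Finset (ℕ × ℤ)) (hY : Y ⊆ R) :
    ∑ p ∈ Y, ∑ x ∈ adm p.1 p.2, ‖Lbox (2 ^ p.1) bb F x‖ ≤
      ∑ p ∈ Y, ∑ x ∈ adm p.1 p.2,
        ‖LboxG (2 ^ p.1) bb (KP j T (upk g e M) (upF F (j.succAbove (e + 2)))) x‖ +
      ∑ p ∈ R, ∑ x ∈ adm p.1 p.2,
        ‖LboxG (2 ^ p.1) bb (KP j T (upk g e E) (upF F (j.succAbove (e + 2)))) x‖ +
      ∑ p ∈ R, ∑ x ∈ adm p.1 p.2,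
        ‖LboxG (2 ^ p.1) bb (KP j T (upk g e X) (upF F (j.succAbove (e + 2)))) x‖ := by
  classical
  have hpt : ∀ p ∈ Y, ∀ x ∈ adm p.1 p.2, ‖Lbox (2 ^ p.1) bb F x‖ ≤
      ‖LboxG (2 ^ p.1) bb (KP j T (upk g e M) (upF F (j.succAbove (e + 2)))) x‖ +
      ‖LboxG (2 ^ p.1) bb (KP j T (upk g e E) (upF F (j.succAbove (e + 2)))) x‖ +
      ‖LboxG (2 ^ p.1) bb (KP j T (upk g e X) (upF F (j.succAbove (e + 2)))) x‖ := by
    intro p hp x hx
    have h1 : Lbox (2 ^ p.1) bb F x = LboxG (2 ^ p.1) bb (fun s A =>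
        (KP j T (upk g e M) (upF F (j.succAbove (e + 2))) s A +
        KP j T (upk g e E) (upF F (j.succAbove (e + 2))) s A) +
        KP j T (upk g e X) (upF F (j.succAbove (e + 2))) s A) x := by
      rw [Lbox_KP j _ bb T g F hF x]
      refine LboxG_congr _ bb _ _ x fun u => ?_
      refine KP_split j e T g F M E X (dI (J.1 + 7) J.2) hdec _ _ ?_
      rw [← yv_eq]
      exact hRJ p (hY hp) (yv_mem p.1 p.2 bb x hbb hx u _)
    rw [h1, LboxG_add (2 ^ p.1) bb (fun s A => KP j T (upk g e M) (upF F (j.succAbove (e + 2))) s A +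
        KP j T (upk g e E) (upF F (j.succAbove (e + 2))) s A)
        (KP j T (upk g e X) (upF F (j.succAbove (e + 2)))) x,
      LboxG_add (2 ^ p.1) bb (KP j T (upk g e M) (upF F (j.succAbove (e + 2))))
        (KP j T (upk g e E) (upF F (j.succAbove (e + 2)))) x]
    exact (norm_add_le _ _).trans (add_le_add (norm_add_le _ _) le_rfl)
  refine (Finset.sum_le_sum fun p hp => Finset.sum_le_sum fun x hx => hpt p hp x hx).trans ?_
  simp only [Finset.sum_add_distrib]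
  have hsub : ∀ f : (ℕ × ℤ) → ℝ, (∀ p, 0 ≤ f p) → ∑ p ∈ Y, f p ≤ ∑ p ∈ R, f p := fun f hf =>
    Finset.sum_le_sum_of_subset_of_nonneg hY fun p _ _ => hf p
  refine add_le_add (add_le_add le_rfl ?_) ?_
  · exact hsub _ fun p => Finset.sum_nonneg fun x _ => norm_nonneg _
  · exact hsub _ fun p => Finset.sum_nonneg fun x _ => norm_nonneg _

end Crest.Agent.R079.EWG990
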