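import Crest.Agent.R079.EWd_49

/-! R079, Step II error words (helper49): the frozen theorem at the exponents (2,4,4) for three
kernels which depend ARBITRARILY on the frozen variable (generalises 118's `frozen24`; same proof). -/

set_option autoImplicit false
set_option linter.unusedVariables false

namespace Crest.Agent.R079.EW49

open Finset Crest.Agent.R079.Grid Crest.Agent.R079.Pot Crest.Agent.R079.Glue Crest.Agent.R079.R244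
open Crest.Agent.R079.F24

/-- all boxes near the exits -/
lemma exit_totalW {s ε : ℝ} (hs : 0 ≤ s) (hε : 0 ≤ ε) (R : Finset (ℕ × ℤ)) (m h k : ℕ)
    (hk : 6 * 2 ^ k ≤ h) (F : ℤ → ℂ) (α γ δ : ℤ)
    (hγ3 : |γ| ≤ 3) (hδ3 : |δ| ≤ 3) (T T' : Finset ℤ) (a : ℤ → ℤ → ℤ → ℂ) (B : ℝ)
    (hB : ∀ l, (m, l) ∈ R → ∀ S : Finset (ℤ × ℤ × ℤ),
      ∑ t ∈ S, UU s ε (cK α γ δ T T' (a t.1) (res (m, l) F) t.1) (2 ^ (m + k)) t.2.1 t.2.2 ≤ B)
    (Λ : Finset (ℤ × ℤ × ℤ))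
    (hΛ : ∀ t ∈ Λ, ∀ i j : ℕ, i < 2 ^ (m + k) → j < 2 ^ (m + k) →
      α * t.1 + γ * (t.2.1 + (i : ℤ)) + δ * (t.2.2 + (j : ℤ)) ∈ Dp R m h) :
    ∑ t ∈ Λ, UU s ε (cK α γ δ T T' (a t.1) (msk (Rm R m) F) t.1) (2 ^ (m + k)) t.2.1 t.2.2 ≤
      (2 * h + 1) ^ 3 * ((En R m h).card * B) := by
  refine (Finset.sum_le_sum fun t ht => UU_box_le hs hε R m h k hk F α γ δ hγ3 hδ3 T T' (a t.1)
    t.1 t.2.1 t.2.2 (hΛ t ht)).trans ?_
  rw [← Finset.mul_sum, Finset.sum_comm]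
  refine mul_le_mul_of_nonneg_left ?_ (by positivity)
  refine (Finset.sum_le_sum fun l hl => hB l (mem_En R m h l hl) Λ).trans (le_of_eq ?_)
  rw [Finset.sum_const, nsmul_eq_mul]

/-- what is used about one edge at level `m`: budget on the masked kernels, node totals -/
structure EdgeW (R : Finset (ℕ × ℤ)) (κ : ℕ) (g : Bud) (s ε V : ℝ) (α γ δ : ℤ) (T T' : Finset ℤ)
    (a : ℤ → ℤ → ℤ → ℂ) (F : ℤ → ℂ) : Prop where
  good : GoodB g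
  hε : 0 ≤ ε
  hγ : |γ| ≤ 3
  hδ : |δ| ≤ 3
  bud : ∀ (σ : Bool) (m : ℕ) (w : ℤ) (N : ℕ) (q p : ℤ),
    g (fK σ α γ δ T T' (a w) (msk (Rm R m) F) w) N q p ≤
      UU s ε (cK α γ δ T T' (a w) (msk (Rm R m) F) w) N q p
  node : ∀ (m k : ℕ), k ≤ κ → ∀ l, (m, l) ∈ R → ∀ S : Finset (ℤ × ℤ × ℤ),
    ∑ t ∈ S, UU s ε (cK α γ δ T T' (a t.1) (res (m, l) F) t.1) (2 ^ (m + k)) t.2.1 t.2.2 ≤
      3 * s * (2 ^ (m + 7) * V)

variable {R : Finset (ℕ × ℤ)} {J : ℕ × ℤ} {κ : ℕ} {s V : ℝ}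

lemma EdgeW.total (hs : 0 ≤ s) {g : Bud} {ε : ℝ} {α γ δ : ℤ} {T T' : Finset ℤ}
    {a : ℤ → ℤ → ℤ → ℂ}
    {F : ℤ → ℂ} (hE : EdgeW R κ g s ε V α γ δ T T' a F) (m h k : ℕ) (hk : k ≤ κ)
    (hkh : 6 * 2 ^ k ≤ h) (Λ : Finset (ℤ × ℤ × ℤ))
    (hΛ : ∀ t ∈ Λ, ∀ i j : ℕ, i < 2 ^ (m + k) → j < 2 ^ (m + k) →
      α * t.1 + γ * (t.2.1 + (i : ℤ)) + δ * (t.2.2 + (j : ℤ)) ∈ Dp R m h) :
    ∑ t ∈ Λ, UU s ε (cK α γ δ T T' (a t.1) (msk (Rm R m) F) t.1) (2 ^ (m + k)) t.2.1 t.2.2 ≤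
      Lv R m h s V :=
  exit_totalW hs hE.hε R m h k hkh F α γ δ hE.hγ hE.hδ T T' a _
    (fun l hl S => hE.node m k hk l hl S) Λ hΛ

/-- **own potentials of one level** -/
lemma sumE_leW (hs : 0 ≤ s) (hR : IsRegion R J) {g : Bud} {ε : ℝ} {α γ δ : ℤ} {T T' : Finset ℤ}
    {a : ℤ → ℤ → ℤ → ℂ} {F : ℤ → ℂ} (hE : EdgeW R κ g s ε V α γ δ T T' a F) (m h k : ℕ)
    (hm : m ≤ J.1) (hk : k ≤ κ) (hkh : 12 * 2 ^ k ≤ h) (σ : Bool) (Wf : Finset ℤ) (Lw : ℤ → ℕ) :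
    ∑ w ∈ Wf, EgZ g (Lw w) (fK σ α γ δ T T' (a w) (msk (Rs R (m + 1)) F) w)
      (fK σ α γ δ T T' (a w) (msk (Rs R m) F) w) (2 ^ (m + k)) ≤ Lv R m h s V := by
  classical
  obtain ⟨LL, hLL⟩ := Wsup Wf Lw
  set N := 2 ^ (m + k) with hN
  have hNz : (N : ℤ) = 2 ^ k * 2 ^ m := by rw [hN]; push_cast; rw [pow_add]; ring
  refine (Finset.sum_le_sum fun w hw => EgZ_mono hE.good _ _ N (Lw w) LL (hLL w hw)).trans ?_
  set P : ℤ × ℤ × ℤ → Prop := fun t => SeesZ (fK σ α γ δ T T' (a t.1) (msk (Rs R (m + 1)) F) t.1)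
      (fK σ α γ δ T T' (a t.1) (msk (Rs R m) F) t.1) N t.2.1 t.2.2 with hP
  set Λ := (Wf ×ˢ (Icc (-(LL : ℤ)) LL ×ˢ Icc (-(LL : ℤ)) LL)).filter P with hΛ
  have e : ∑ w ∈ Wf, EgZ g LL (fK σ α γ δ T T' (a w) (msk (Rs R (m + 1)) F) w)
      (fK σ α γ δ T T' (a w) (msk (Rs R m) F) w) N =
      ∑ t ∈ Λ, g (fK σ α γ δ T T' (a t.1) (msk (Rm R m) F) t.1) N t.2.1 t.2.2 := by
    rw [hΛ, Finset.sum_filter, Finset.sum_product]
    refine Finset.sum_congr rfl fun w _ => ?_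
    unfold EgZ
    rw [Finset.sum_product]
    rfl
  rw [e]
  refine (Finset.sum_le_sum fun t _ => hE.bud σ m t.1 N t.2.1 t.2.2).trans ?_
  refine hE.total hs m h k hk (by omega) Λ ?_
  intro t ht i j hi hj
  rw [hΛ, Finset.mem_filter] at ht
  obtain ⟨i', j', hi', hj', hd⟩ := fK_sees R J hR m hm F σ α γ δ T T' (a t.1) t.1 N t.2.1 t.2.2 ht.2
  refine mem_Dp R m h _ _ hd ?_
  have a1 := abs_smul_le γ i N hE.hγ hi
  have a2 := abs_smul_le γ i' N hE.hγ hi'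
  have a3 := abs_smul_le δ j N hE.hδ hj
  have a4 := abs_smul_le δ j' N hE.hδ hj'
  have e : α * t.1 + γ * (t.2.1 + (i : ℤ)) + δ * (t.2.2 + (j : ℤ)) -
      (α * t.1 + γ * (t.2.1 + (i' : ℤ)) + δ * (t.2.2 + (j' : ℤ))) =
      γ * (i : ℤ) + δ * (j : ℤ) - γ * (i' : ℤ) - δ * (j' : ℤ) := by ring
  have hhz : (12 * 2 ^ k : ℤ) ≤ h := by exact_mod_cast hkh
  have hb : 12 * (N : ℤ) ≤ h * 2 ^ m := by
    rw [hNz]
    have : (0 : ℤ) ≤ 2 ^ m := by positivity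
    nlinarith
  rw [e]
  refine le_trans ?_ hb
  rw [abs_le] at a1 a2 a3 a4 ⊢
  constructor <;> linarith [a1.1, a1.2, a2.1, a2.2, a3.1, a3.2, a4.1, a4.2]

/-- **joint potentials of one level** -/
lemma sumV_leW (hs : 0 ≤ s) (hR : IsRegion R J) {gA gB gC : Bud} {εA εB εC : ℝ}
    {sj s0 s1 s2 : ℤ} (hsl : Slopes sj s0 s1 s2) {T0 T1 T2 : Finset ℤ}
    {a b c : ℤ → ℤ → ℤ → ℂ} {F0 F1 F2 : ℤ → ℂ}
    (hA : EdgeW R κ gA s εA V (sj - s2) (s0 - s2) (s1 - s2) T0 T1 a F2)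
    (hB : EdgeW R κ gB s εB V (sj - s0) (s1 - s0) (s2 - s0) T1 T2 b F0)
    (hC : EdgeW R κ gC s εC V (sj - s1) (s2 - s1) (s0 - s1) T2 T0 c F1) (m h : ℕ)
    (hm : m ≤ J.1) (hh : 24 ≤ h) (σ0 σ1 σ2 : Bool) (Wf : Finset ℤ) (Lw : ℤ → ℕ) :
    ∑ w ∈ Wf, VgZ gA gB gC (Lw w) w
      (fK σ2 (sj - s2) (s0 - s2) (s1 - s2) T0 T1 (a w) (msk (Rs R (m + 1)) F2) w)
      (fK σ0 (sj - s0) (s1 - s0) (s2 - s0) T1 T2 (b w) (msk (Rs R (m + 1)) F0) w)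
      (fK σ1 (sj - s1) (s2 - s1) (s0 - s1) T2 T0 (c w) (msk (Rs R (m + 1)) F1) w)
      (fK σ2 (sj - s2) (s0 - s2) (s1 - s2) T0 T1 (a w) (msk (Rs R m) F2) w)
      (fK σ0 (sj - s0) (s1 - s0) (s2 - s0) T1 T2 (b w) (msk (Rs R m) F0) w)
      (fK σ1 (sj - s1) (s2 - s1) (s0 - s1) T2 T0 (c w) (msk (Rs R m) F1) w) (2 ^ m) ≤
      3 * Lv R m h s V := by
  classical
  obtain ⟨LL, hLL⟩ := Wsup Wf Lw
  refine (Finset.sum_le_sum fun w hw => VgZ_mono hA.good hB.good hC.good w _ _ _ _ _ _ _ (Lw w) LL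
    (hLL w hw)).trans ?_
  set N := 2 ^ m with hN
  have hN0 : (0 : ℝ) < (N : ℝ) := by rw [hN]; positivity
  set uA : ℤ × ℤ × ℤ → ℝ := fun t =>
    UU s εA (cK (sj - s2) (s0 - s2) (s1 - s2) T0 T1 (a t.1) (msk (Rm R m) F2) t.1) N t.2.1 t.2.2
      with huA
  set uB : ℤ × ℤ × ℤ → ℝ := fun t =>
    UU s εB (cK (sj - s0) (s1 - s0) (s2 - s0) T1 T2 (b t.1) (msk (Rm R m) F0) t.1) N t.2.1 t.2.2
      with huB
  set uC : ℤ × ℤ × ℤ → ℝ := fun t =>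
    UU s εC (cK (sj - s1) (s2 - s1) (s0 - s1) T2 T0 (c t.1) (msk (Rm R m) F1) t.1) N t.2.1 t.2.2
      with huC
  set P : ℕ → ℤ × ℤ × ℤ → Prop := fun i t =>
    SeesZ (fK σ2 (sj - s2) (s0 - s2) (s1 - s2) T0 T1 (a t.1) (msk (Rs R (m + 1)) F2) t.1)
          (fK σ2 (sj - s2) (s0 - s2) (s1 - s2) T0 T1 (a t.1) (msk (Rs R m) F2) t.1) N t.2.1 t.2.2 ∨
        SeesZ (fK σ0 (sj - s0) (s1 - s0) (s2 - s0) T1 T2 (b t.1) (msk (Rs R (m + 1)) F0) t.1)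
          (fK σ0 (sj - s0) (s1 - s0) (s2 - s0) T1 T2 (b t.1) (msk (Rs R m) F0) t.1) N t.2.2
            (tc N i t.1 t.2.1 t.2.2) ∨
        SeesZ (fK σ1 (sj - s1) (s2 - s1) (s0 - s1) T2 T0 (c t.1) (msk (Rs R (m + 1)) F1) t.1)
          (fK σ1 (sj - s1) (s2 - s1) (s0 - s1) T2 T0 (c t.1) (msk (Rs R m) F1) t.1) N
            (tc N i t.1 t.2.1 t.2.2) t.2.1 with hP
  set Λ : ℕ → Finset (ℤ × ℤ × ℤ) := fun i =>
    (Wf ×ˢ (Icc (-(LL : ℤ)) LL ×ˢ Icc (-(LL : ℤ)) LL)).filter (P i) with hΛ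
  set φ : ℕ → ℤ × ℤ × ℤ → ℤ × ℤ × ℤ := fun i t => (t.1, t.2.2, tc N i t.1 t.2.1 t.2.2) with hφ
  set ψ : ℕ → ℤ × ℤ × ℤ → ℤ × ℤ × ℤ := fun i t => (t.1, tc N i t.1 t.2.1 t.2.2, t.2.1) with hψ
  have hφi : ∀ i, Function.Injective (φ i) := by
    rintro i ⟨x, y, z⟩ ⟨x', y', z'⟩ h
    simp only [hφ, Prod.mk.injEq, tc] at h
    obtain ⟨h1, h2, h3⟩ := h
    refine Prod.ext h1 (Prod.ext ?_ h2)
    simp only
    linarith
  have hψi : ∀ i, Function.Injective (ψ i) := by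
    rintro i ⟨x, y, z⟩ ⟨x', y', z'⟩ h
    simp only [hψ, Prod.mk.injEq, tc] at h
    obtain ⟨h1, h2, h3⟩ := h
    refine Prod.ext h1 (Prod.ext h3 ?_)
    simp only
    linarith
  have hclose : ∀ i, i < N → ∀ t ∈ Λ i, _ := fun i hi t ht =>
    close_all (J := J) hR m h hm hh F0 F1 F2 σ0 σ1 σ2 sj s0 s1 s2 hsl T0 T1 T2 (a t.1) (b t.1)
      (c t.1) t.1 i hi t.2.1 t.2.2 (Finset.mem_filter.mp ht).2
  have tA : ∀ i, i < N → ∑ t ∈ Λ i, uA t ≤ Lv R m h s V := by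
    intro i hi
    exact hA.total hs m h 0 (Nat.zero_le _) (by omega) (Λ i)
      (fun t ht i0 i1 h0 h1 => (hclose i hi t ht).1 i0 i1 h0 h1)
  have tB : ∀ i, i < N → ∑ t ∈ Λ i, uB (φ i t) ≤ Lv R m h s V := by
    intro i hi
    rw [← Finset.sum_image (f := uB) (g := φ i) ((hφi i).injOn)]
    refine hB.total hs m h 0 (Nat.zero_le _) (by omega) ((Λ i).image (φ i)) ?_
    intro t ht i0 i1 h0 h1
    rw [Finset.mem_image] at ht
    obtain ⟨t', ht', rfl⟩ := ht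
    exact (hclose i hi t' ht').2.1 i0 i1 h0 h1
  have tC : ∀ i, i < N → ∑ t ∈ Λ i, uC (ψ i t) ≤ Lv R m h s V := by
    intro i hi
    rw [← Finset.sum_image (f := uC) (g := ψ i) ((hψi i).injOn)]
    refine hC.total hs m h 0 (Nat.zero_le _) (by omega) ((Λ i).image (ψ i)) ?_
    intro t ht i0 i1 h0 h1
    rw [Finset.mem_image] at ht
    obtain ⟨t', ht', rfl⟩ := ht
    exact (hclose i hi t' ht').2.2 i0 i1 h0 h1
  -- value for one `i`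
  set val : ℕ → ℤ × ℤ × ℤ → ℝ := fun i t =>
    gA (fK σ2 (sj - s2) (s0 - s2) (s1 - s2) T0 T1 (a t.1) (msk (Rm R m) F2) t.1) N t.2.1 t.2.2 +
    gB (fK σ0 (sj - s0) (s1 - s0) (s2 - s0) T1 T2 (b t.1) (msk (Rm R m) F0) t.1) N t.2.2
      (tc N i t.1 t.2.1 t.2.2) +
    gC (fK σ1 (sj - s1) (s2 - s1) (s0 - s1) T2 T0 (c t.1) (msk (Rm R m) F1) t.1) N
      (tc N i t.1 t.2.1 t.2.2) t.2.1 with hval
  have e : ∑ w ∈ Wf, VgZ gA gB gC LL w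
      (fK σ2 (sj - s2) (s0 - s2) (s1 - s2) T0 T1 (a w) (msk (Rs R (m + 1)) F2) w)
      (fK σ0 (sj - s0) (s1 - s0) (s2 - s0) T1 T2 (b w) (msk (Rs R (m + 1)) F0) w)
      (fK σ1 (sj - s1) (s2 - s1) (s0 - s1) T2 T0 (c w) (msk (Rs R (m + 1)) F1) w)
      (fK σ2 (sj - s2) (s0 - s2) (s1 - s2) T0 T1 (a w) (msk (Rs R m) F2) w)
      (fK σ0 (sj - s0) (s1 - s0) (s2 - s0) T1 T2 (b w) (msk (Rs R m) F0) w)
      (fK σ1 (sj - s1) (s2 - s1) (s0 - s1) T2 T0 (c w) (msk (Rs R m) F1) w) N =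
      (1 / (N : ℝ)) * ∑ i ∈ range N, ∑ t ∈ Λ i, val i t := by
    unfold VgZ
    rw [← Finset.mul_sum, Finset.sum_comm]
    congr 1
    refine Finset.sum_congr rfl fun i _ => ?_
    rw [hΛ]
    simp only
    rw [Finset.sum_filter, Finset.sum_product]
    refine Finset.sum_congr rfl fun w _ => ?_
    rw [Finset.sum_product]
    rfl
  rw [e]
  have h3 : ∀ i ∈ range N, ∑ t ∈ Λ i, val i t ≤ 3 * Lv R m h s V := by
    intro i hi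
    rw [Finset.mem_range] at hi
    have h4 : ∀ t ∈ Λ i, val i t ≤ uA t + uB (φ i t) + uC (ψ i t) := by
      intro t _
      exact add_le_add (add_le_add (hA.bud _ _ _ _ _ _) (hB.bud _ _ _ _ _ _))
        (hC.bud _ _ _ _ _ _)
    refine (Finset.sum_le_sum h4).trans ?_
    rw [Finset.sum_add_distrib, Finset.sum_add_distrib]
    linarith [tA i hi, tB i hi, tC i hi]
  refine (mul_le_mul_of_nonneg_left (Finset.sum_le_sum h3) (by positivity)).trans ?_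
  rw [Finset.sum_const, Finset.card_range, nsmul_eq_mul]
  refine le_of_eq ?_
  field_simp

/-! ### edges from the node budgets -/

lemma node_ofW (hs : 0 < s) {α γ δ : ℤ} (T T' : Finset ℤ) (a : ℤ → ℤ → ℤ → ℂ)
    (F : ℤ → ℂ) {ε : ℝ} (hε : 0 ≤ ε) (hε1 : ε ≤ 1) (hV : 0 ≤ V)
    (h2 : S2W R κ V α γ δ T T' a F)
    (h4 : ε ≠ 0 → S4W R κ V (s ^ 2) α γ δ T T' a F)
    (m k : ℕ) (hk : k ≤ κ) (l : ℤ) (hl : (m, l) ∈ R) (S : Finset (ℤ × ℤ × ℤ)) :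
    ∑ t ∈ S, UU s ε (cK α γ δ T T' (a t.1) (res (m, l) F) t.1) (2 ^ (m + k)) t.2.1 t.2.2 ≤
      3 * s * (2 ^ (m + 7) * V) := by
  have e : ∑ t ∈ S, UU s ε (cK α γ δ T T' (a t.1) (res (m, l) F) t.1) (2 ^ (m + k)) t.2.1 t.2.2 =
      2 * s * ∑ t ∈ S, e2 (cK α γ δ T T' (a t.1) (res (m, l) F) t.1) (2 ^ (m + k)) t.2.1 t.2.2 +
      ε * (s⁻¹ * ∑ t ∈ S, e4 (cK α γ δ T T' (a t.1) (res (m, l) F) t.1) (2 ^ (m + k)) t.2.1
        t.2.2) := by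
    unfold UU
    rw [Finset.sum_add_distrib, ← Finset.mul_sum, ← Finset.mul_sum, ← Finset.mul_sum]
  rw [e]
  have hB : 0 ≤ (2 : ℝ) ^ (m + 7) * V := by positivity
  have a2 : ∑ t ∈ S, e2 (cK α γ δ T T' (a t.1) (res (m, l) F) t.1) (2 ^ (m + k)) t.2.1 t.2.2 ≤
      2 ^ (m + 7) * V := h2 (m, l) hl k hk S
  have a4 : ε * (s⁻¹ * ∑ t ∈ S, e4 (cK α γ δ T T' (a t.1) (res (m, l) F) t.1) (2 ^ (m + k)) t.2.1
      t.2.2) ≤ s * (2 ^ (m + 7) * V) := by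
    by_cases h0 : ε = 0
    · rw [h0, zero_mul]
      positivity
    · have b4 : ∑ t ∈ S, e4 (cK α γ δ T T' (a t.1) (res (m, l) F) t.1) (2 ^ (m + k)) t.2.1 t.2.2 ≤
          s ^ 2 * (2 ^ (m + 7) * V) := h4 h0 (m, l) hl k hk S
      have c4 := mul_le_mul_of_nonneg_left b4 (inv_nonneg.mpr hs.le)
      have d4 : s⁻¹ * (s ^ 2 * (2 ^ (m + 7) * V)) = s * (2 ^ (m + 7) * V) := by
        field_simp
      rw [d4] at c4
      have n4 : 0 ≤ s⁻¹ * ∑ t ∈ S, e4 (cK α γ δ T T' (a t.1) (res (m, l) F) t.1) (2 ^ (m + k)) t.2.1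
          t.2.2 := mul_nonneg (inv_nonneg.mpr hs.le) (Finset.sum_nonneg fun t _ => e4_nonneg _ _ _ _)
      exact (mul_le_of_le_one_left n4 hε1).trans c4
  have c2 := mul_le_mul_of_nonneg_left a2 (by positivity : 0 ≤ 2 * s)
  linarith

/-- an edge with the `S₂` information and a height -/
lemma edge2W (hs : 0 < s) {H : ℝ} (hH : 1 ≤ H) {α γ δ : ℤ} (hγ : |γ| ≤ 3)
    (hδ : |δ| ≤ 3) (T T' : Finset ℤ) (a : ℤ → ℤ → ℤ → ℂ) (F : ℤ → ℂ) (hV : 0 ≤ V)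
    (h2 : S2W R κ V α γ δ T T' a F)
    (hb : ∀ w z z', ‖cK α γ δ T T' (a w) F w z z'‖ ≤ H) :
    EdgeW R κ (g2Z s (H ^ 2)⁻¹) s 0 V α γ δ T T' a F where
  good := good2 hs.le (by positivity)
  hε := le_rfl
  hγ := hγ
  hδ := hδ
  bud σ m w N q p := by
    rw [fK_eq]
    refine g2_UU hs.le hH σ _ (fun z z' => ?_) N q p
    refine le_trans ?_ (hb w z z')
    unfold cK
    split_ifs
    · rw [norm_mul, norm_mul]
      refine mul_le_mul_of_nonneg_left ?_ (norm_nonneg _)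
      unfold msk
      split_ifs
      · exact le_rfl
      · rw [norm_zero]; exact norm_nonneg _
    · exact le_rfl
  node m k hk l hl S := node_ofW hs T T' a F le_rfl zero_le_one hV h2 (fun h => absurd rfl h)
    m k hk l hl S

/-- an edge with the `S₄` information -/
lemma edge4W (hs : 0 < s) {α γ δ : ℤ} (hγ : |γ| ≤ 3)
    (hδ : |δ| ≤ 3) (T T' : Finset ℤ) (a : ℤ → ℤ → ℤ → ℂ) (F : ℤ → ℂ) (hV : 0 ≤ V)
    (h2 : S2W R κ V α γ δ T T' a F)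
    (h4 : S4W R κ V (s ^ 2) α γ δ T T' a F) :
    EdgeW R κ (g4Z s) s 1 V α γ δ T T' a F where
  good := good4 hs.le
  hε := zero_le_one
  hγ := hγ
  hδ := hδ
  bud σ m w N q p := by
    rw [fK_eq]
    exact g4_UU hs.le σ _ N q p
  node m k hk l hl S := node_ofW hs T T' a F zero_le_one le_rfl hV h2 (fun _ => h4)
    m k hk l hl S

/-- **one block, one choice of real parts** -/
lemma block24W {c : ℝ} (hc : 0 ≤ c) {κ : ℕ} {gA gB gC : Bud} (hTri : TriG c κ gA gB gC)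
    {s V : ℝ} (hs : 0 ≤ s) (hV : 0 ≤ V) {εA εB εC : ℝ}
    (l : ℤ) (hl : |l| ≤ 7) (R : Finset (ℕ × ℤ)) (J : ℕ × ℤ) (hR : IsRegion R J) (j : Fin 4)
    (T : Fin 3 → Finset ℤ) (a b d : ℤ → ℤ → ℤ → ℂ) (F : Fin 4 → ℤ → ℂ)
    (hA : EdgeW R κ gA s εA V (sl j - sl (j.succAbove 2))
      (sl (j.succAbove 0) - sl (j.succAbove 2)) (sl (j.succAbove 1) - sl (j.succAbove 2))
      (T 0) (T 1) a (F (j.succAbove 2)))
    (hB : EdgeW R κ gB s εB V (sl j - sl (j.succAbove 0))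
      (sl (j.succAbove 1) - sl (j.succAbove 0)) (sl (j.succAbove 2) - sl (j.succAbove 0))
      (T 1) (T 2) b (F (j.succAbove 0)))
    (hC : EdgeW R κ gC s εC V (sl j - sl (j.succAbove 1))
      (sl (j.succAbove 2) - sl (j.succAbove 1)) (sl (j.succAbove 0) - sl (j.succAbove 1))
      (T 2) (T 0) d (F (j.succAbove 1)))
    (σ2 σ0 σ1 : Bool) (Wf : Finset ℤ) (L1 : ℕ) :
    ∑ w ∈ Wf, ∑ m ∈ range (J.1 + 1), (1 / (2 : ℝ) ^ m) * ∑ i ∈ range (2 ^ m),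
      ∑ p0 ∈ Icc (-(L1 : ℤ)) L1, ∑ p1 ∈ Icc (-(L1 : ℤ)) L1,
      |Lb3r (famA R j T (a w) F σ2 w (m + 1)) (famB R j T (b w) F σ0 w (m + 1))
        (famC R j T (d w) F σ1 w (m + 1)) (2 ^ m) p0 p1 (l * 2 ^ m + (i : ℤ) - w - p0 - p1)| ≤
    C24 c κ * (s * 2 ^ (J.1 + 7) * V) := by
  classical
  obtain ⟨L, hL⟩ := exists_bound T
  set h : ℕ := 12 * 2 ^ κ + 24 with hh
  have hsl := slopes_sl j
  have h1 : ∀ w, ∃ L' : ℕ,
    ∑ m ∈ range (J.1 + 1), (1 / (2 : ℝ) ^ m) * ∑ i ∈ range (2 ^ m), ∑ p0 ∈ Icc (-(L1 : ℤ)) L1,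
      ∑ p1 ∈ Icc (-(L1 : ℤ)) L1,
      |Lb3r (famA R j T (a w) F σ2 w (m + 1)) (famB R j T (b w) F σ0 w (m + 1))
        (famC R j T (d w) F σ1 w (m + 1)) (2 ^ m) p0 p1 (l * 2 ^ m + (i : ℤ) - w - p0 - p1)| ≤
    c * ∑ m ∈ range (J.1 + 1),
      (VgZ gA gB gC L' w (famA R j T (a w) F σ2 w (m + 1)) (famB R j T (b w) F σ0 w (m + 1))
        (famC R j T (d w) F σ1 w (m + 1)) (famA R j T (a w) F σ2 w m) (famB R j T (b w) F σ0 w m)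
        (famC R j T (d w) F σ1 w m) (2 ^ m) +
        ∑ s ∈ range κ, (EgZ gA L' (famA R j T (a w) F σ2 w (m + 1)) (famA R j T (a w) F σ2 w m)
            (2 ^ (m + s)) +
          EgZ gB L' (famB R j T (b w) F σ0 w (m + 1)) (famB R j T (b w) F σ0 w m) (2 ^ (m + s)) +
          EgZ gC L' (famC R j T (d w) F σ1 w (m + 1)) (famC R j T (d w) F σ1 w m)
            (2 ^ (m + s)))) := by
    intro w
    exact hTri l hl w (famA R j T (a w) F σ2 w) (famB R j T (b w) F σ0 w) (famC R j T (d w) F σ1 w) L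
      (fun m x y hxy => fK_support _ _ _ _ _ _ _ _ _ L (hL 0) (hL 1) x y hxy)
      (fun m x y hxy => fK_support _ _ _ _ _ _ _ _ _ L (hL 1) (hL 2) x y hxy)
      (fun m x y hxy => fK_support _ _ _ _ _ _ _ _ _ L (hL 2) (hL 0) x y hxy)
      (fK_zero _ _ _ _ _ _ _ _ _ _) (fK_zero _ _ _ _ _ _ _ _ _ _) (fK_zero _ _ _ _ _ _ _ _ _ _)
      (J.1 + 1) L1
  choose L' hL' using h1
  refine (Finset.sum_le_sum fun w _ => hL' w).trans ?_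
  rw [← Finset.mul_sum, Finset.sum_comm]
  -- one level
  have h2 : ∀ m ∈ range (J.1 + 1), ∑ w ∈ Wf,
      (VgZ gA gB gC (L' w) w (famA R j T (a w) F σ2 w (m + 1)) (famB R j T (b w) F σ0 w (m + 1))
        (famC R j T (d w) F σ1 w (m + 1)) (famA R j T (a w) F σ2 w m) (famB R j T (b w) F σ0 w m)
        (famC R j T (d w) F σ1 w m) (2 ^ m) +
        ∑ s ∈ range κ, (EgZ gA (L' w) (famA R j T (a w) F σ2 w (m + 1)) (famA R j T (a w) F σ2 w m)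
            (2 ^ (m + s)) +
          EgZ gB (L' w) (famB R j T (b w) F σ0 w (m + 1)) (famB R j T (b w) F σ0 w m)
            (2 ^ (m + s)) +
          EgZ gC (L' w) (famC R j T (d w) F σ1 w (m + 1)) (famC R j T (d w) F σ1 w m)
            (2 ^ (m + s)))) ≤
      (3 * (1 + κ)) * Lv R m h s V := by
    intro m hm
    rw [Finset.mem_range] at hm
    have v1 := sumV_leW hs hR hsl hA hB hC m h (by omega) (by omega) σ0 σ1 σ2 Wf L'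
    have v2 : ∀ k ∈ range κ, ∑ w ∈ Wf,
        (EgZ gA (L' w) (famA R j T (a w) F σ2 w (m + 1)) (famA R j T (a w) F σ2 w m) (2 ^ (m + k)) +
          EgZ gB (L' w) (famB R j T (b w) F σ0 w (m + 1)) (famB R j T (b w) F σ0 w m)
            (2 ^ (m + k)) +
          EgZ gC (L' w) (famC R j T (d w) F σ1 w (m + 1)) (famC R j T (d w) F σ1 w m)
            (2 ^ (m + k))) ≤
        3 * Lv R m h s V := by
      intro k hk
      rw [Finset.mem_range] at hk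
      have hsh : 12 * 2 ^ k ≤ h := by
        have : 2 ^ k ≤ 2 ^ κ := Nat.pow_le_pow_right (by norm_num) hk.le
        omega
      rw [Finset.sum_add_distrib, Finset.sum_add_distrib]
      have e1 := sumE_leW hs hR hA m h k (by omega) hk.le hsh σ2 Wf L'
      have e2 := sumE_leW hs hR hB m h k (by omega) hk.le hsh σ0 Wf L'
      have e3 := sumE_leW hs hR hC m h k (by omega) hk.le hsh σ1 Wf L'
      have e1' : ∑ w ∈ Wf, EgZ gA (L' w) (famA R j T (a w) F σ2 w (m + 1))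
        (famA R j T (a w) F σ2 w m) (2 ^ (m + k)) ≤ Lv R m h s V := e1
      have e2' : ∑ w ∈ Wf, EgZ gB (L' w) (famB R j T (b w) F σ0 w (m + 1))
        (famB R j T (b w) F σ0 w m) (2 ^ (m + k)) ≤ Lv R m h s V := e2
      have e3' : ∑ w ∈ Wf, EgZ gC (L' w) (famC R j T (d w) F σ1 w (m + 1))
        (famC R j T (d w) F σ1 w m) (2 ^ (m + k)) ≤ Lv R m h s V := e3
      linarith
    have v3 := Finset.sum_le_sum v2
    rw [Finset.sum_const, Finset.card_range, nsmul_eq_mul] at v3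
    rw [Finset.sum_add_distrib]
    rw [Finset.sum_comm (s := Wf) (t := range κ)]
    have v1' : ∑ w ∈ Wf, VgZ gA gB gC (L' w) w (famA R j T (a w) F σ2 w (m + 1))
        (famB R j T (b w) F σ0 w (m + 1)) (famC R j T (d w) F σ1 w (m + 1))
        (famA R j T (a w) F σ2 w m)
        (famB R j T (b w) F σ0 w m) (famC R j T (d w) F σ1 w m) (2 ^ m) ≤ 3 * Lv R m h s V := v1
    linarith
  refine (mul_le_mul_of_nonneg_left (Finset.sum_le_sum h2) hc).trans ?_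
  rw [← Finset.mul_sum]
  -- the levels
  have h3 : ∀ m ∈ range (J.1 + 1), Lv R m h s V ≤
      ((2 * (h : ℝ) + 1) ^ 3 * (2 * (2 * ((h : ℝ) + 128) + 1)) * 3) * (s * V) * (Dm R m).card := by
    intro m _
    unfold Lv
    have h4 := card_En R m h
    have e : (2 * (h : ℝ) + 1) ^ 3 * (((En R m h).card : ℝ) * (3 * s * (2 ^ (m + 7) * V))) =
        ((2 * (h : ℝ) + 1) ^ 3 * 3 * (s * V)) * (((En R m h).card : ℝ) * 2 ^ (m + 7)) := by ring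
    rw [e]
    refine (mul_le_mul_of_nonneg_left h4 (by positivity)).trans (le_of_eq ?_)
    ring
  have h5 : ∑ m ∈ range (J.1 + 1), Lv R m h s V ≤
      ((2 * (h : ℝ) + 1) ^ 3 * (2 * (2 * ((h : ℝ) + 128) + 1)) * 3) * (s * V) * 2 ^ (J.1 + 7) := by
    refine (Finset.sum_le_sum h3).trans ?_
    rw [← Finset.mul_sum]
    exact mul_le_mul_of_nonneg_left (sum_card_Dm R J hR) (by positivity)
  have h6 := mul_le_mul_of_nonneg_left h5 (by positivity : (0 : ℝ) ≤ c * (3 * (1 + κ)))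
  rw [← mul_assoc]
  refine h6.trans (le_of_eq ?_)
  unfold C24
  rw [← hh]
  ring

/-! ### from the blocks to the boxes -/

/-- **the region sum for `w`-dependent kernels**: all positions of a finite set `P`, all scales -/
lemma frozen_sumW (Kb : ℝ) (bb : ℤ) (hbb : bb = -1 ∨ bb = -7)
    (R : Finset (ℕ × ℤ)) (J : ℕ × ℤ) (hR : IsRegion R J) (j : Fin 4)
    (T : Fin 3 → Finset ℤ) (a b c : ℤ → ℤ → ℤ → ℂ) (F : Fin 4 → ℤ → ℂ)
    (hblock : ∀ l : ℤ, |l| ≤ 7 → ∀ (σ2 σ0 σ1 : Bool) (Wf : Finset ℤ) (L1 : ℕ),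
      ∑ w ∈ Wf, ∑ m ∈ range (J.1 + 1), (1 / (2 : ℝ) ^ m) * ∑ i ∈ range (2 ^ m),
      ∑ p0 ∈ Icc (-(L1 : ℤ)) L1, ∑ p1 ∈ Icc (-(L1 : ℤ)) L1,
      |Lb3r (famA R j T (a w) F σ2 w (m + 1)) (famB R j T (b w) F σ0 w (m + 1))
        (famC R j T (c w) F σ1 w (m + 1)) (2 ^ m) p0 p1 (l * 2 ^ m + (i : ℤ) - w - p0 - p1)| ≤ Kb)
    (PP : Finset (ℤ × ℤ × ℤ)) :
    ∑ m ∈ range (J.1 + 1), ∑ p ∈ PP, (1 / (((2 ^ m : ℕ) : ℝ) + ((2 ^ m : ℕ) : ℝ))) *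
        ∑ v : Fin (2 ^ m + 2 ^ m),
        ‖Lb3 (frA j T (a (((v : ℕ) : ℤ) + bb * ((2 ^ m : ℕ) : ℤ) - p.1 - p.2.1 - p.2.2))
              (Fm R j F m) (((v : ℕ) : ℤ) + bb * ((2 ^ m : ℕ) : ℤ) - p.1 - p.2.1 - p.2.2))
            (frB j T (b (((v : ℕ) : ℤ) + bb * ((2 ^ m : ℕ) : ℤ) - p.1 - p.2.1 - p.2.2))
              (Fm R j F m) (((v : ℕ) : ℤ) + bb * ((2 ^ m : ℕ) : ℤ) - p.1 - p.2.1 - p.2.2))
            (frC j T (c (((v : ℕ) : ℤ) + bb * ((2 ^ m : ℕ) : ℤ) - p.1 - p.2.1 - p.2.2))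
              (Fm R j F m) (((v : ℕ) : ℤ) + bb * ((2 ^ m : ℕ) : ℤ) - p.1 - p.2.1 - p.2.2))
            (2 ^ m) p.1 p.2.1 p.2.2‖ ≤ 8 * Kb := by
  classical
  obtain ⟨L1, hL1⟩ : ∃ L1 : ℕ, ∀ p ∈ PP, |p.1| ≤ L1 ∧ |p.2.1| ≤ L1 ∧ |p.2.2| ≤ L1 := by
    refine ⟨PP.sup fun p => p.1.natAbs + p.2.1.natAbs + p.2.2.natAbs, fun p hp => ?_⟩
    have h1 : p.1.natAbs + p.2.1.natAbs + p.2.2.natAbs ≤
        PP.sup fun p => p.1.natAbs + p.2.1.natAbs + p.2.2.natAbs :=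
      Finset.le_sup (f := fun p : ℤ × ℤ × ℤ => p.1.natAbs + p.2.1.natAbs + p.2.2.natAbs) hp
    refine ⟨?_, ?_, ?_⟩ <;> rw [Int.abs_eq_natAbs] <;> exact_mod_cast by omega
  set W0 : ℕ := 3 * L1 + 8 * 2 ^ (J.1 + 1) with hW0
  set P : Finset (ℤ × ℤ × ℤ) := Icc (-(L1 : ℤ)) L1 ×ˢ (Icc (-(L1 : ℤ)) L1 ×ˢ Icc (-(L1 : ℤ)) L1)
    with hP
  set Wf := Icc (-(W0 : ℤ)) W0 with hWf
  have hPP : PP ⊆ P := by
    intro p hp
    have h := hL1 p hp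
    rw [hP, Finset.mem_product, Finset.mem_product, Finset.mem_Icc, Finset.mem_Icc,
      Finset.mem_Icc]
    exact ⟨abs_le.mp h.1, abs_le.mp h.2.1, abs_le.mp h.2.2⟩
  -- one level
  set X : ℤ → Bool × Bool × Bool → ℕ → ℕ → ℤ → ℤ → ℤ → ℝ := fun l σ m i w p0 p1 =>
    |Lb3r (famA R j T (a w) F σ.1 w (m + 1)) (famB R j T (b w) F σ.2.1 w (m + 1))
        (famC R j T (c w) F σ.2.2 w (m + 1)) (2 ^ m) p0 p1 (l * 2 ^ m + (i : ℤ) - w - p0 - p1)|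
    with hX
  set G : ℕ → ℤ → ℤ → ℤ → ℤ → ℝ := fun m w p0 p1 p2 =>
    ‖Lb3 (frA j T (a w) (Fm R j F m) w) (frB j T (b w) (Fm R j F m) w)
      (frC j T (c w) (Fm R j F m) w) (2 ^ m) p0 p1 p2‖ with hG
  have hG0 : ∀ m w x y z, 0 ≤ G m w x y z := fun m w x y z => norm_nonneg _
  have hGX : ∀ (l : ℤ) (m i : ℕ) (w p0 p1 : ℤ), G m w p0 p1 (l * 2 ^ m + (i : ℤ) - w - p0 - p1) ≤
      ∑ σ : Bool × Bool × Bool, X l σ m i w p0 p1 := by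
    intro l m i w p0 p1
    simp only [hG, hX]
    refine (norm_Lb3_le' _ _ _ _ _ _ _).trans (le_of_eq ?_)
    refine Finset.sum_congr rfl fun σ _ => ?_
    have e1 : (fun z z' => pr σ.1 (frA j T (a w) (Fm R j F m) w z z')) =
        famA R j T (a w) F σ.1 w (m + 1) := by
      funext z z'
      unfold frA famA
      rw [pr_frz]
      unfold Fm
      rw [if_neg (Fin.succAbove_ne j 2)]
      rfl
    have e2 : (fun z z' => pr σ.2.1 (frB j T (b w) (Fm R j F m) w z z')) =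
        famB R j T (b w) F σ.2.1 w (m + 1) := by
      funext z z'
      unfold frB famB
      rw [pr_frz]
      unfold Fm
      rw [if_neg (Fin.succAbove_ne j 0)]
      rfl
    have e3 : (fun z z' => pr σ.2.2 (frC j T (c w) (Fm R j F m) w z z')) =
        famC R j T (c w) F σ.2.2 w (m + 1) := by
      funext z z'
      unfold frC famC
      rw [pr_frz]
      unfold Fm
      rw [if_neg (Fin.succAbove_ne j 1)]
      rfl
    rw [e1, e2, e3]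
  have hlevel : ∀ m ∈ range (J.1 + 1),
      ∑ p ∈ PP, (1 / (((2 ^ m : ℕ) : ℝ) + ((2 ^ m : ℕ) : ℝ))) *
        ∑ v : Fin (2 ^ m + 2 ^ m),
          G m (((v : ℕ) : ℤ) + bb * ((2 ^ m : ℕ) : ℤ) - p.1 - p.2.1 - p.2.2) p.1 p.2.1 p.2.2 ≤
      ((1 / 2) * ((∑ σ : Bool × Bool × Bool, ∑ w ∈ Wf, (1 / (2 : ℝ) ^ m) *
        ∑ i ∈ range (2 ^ m), ∑ p0 ∈ Icc (-(L1 : ℤ)) L1, ∑ p1 ∈ Icc (-(L1 : ℤ)) L1,
          X bb σ m i w p0 p1) +
        (∑ σ : Bool × Bool × Bool, ∑ w ∈ Wf, (1 / (2 : ℝ) ^ m) *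
        ∑ i ∈ range (2 ^ m), ∑ p0 ∈ Icc (-(L1 : ℤ)) L1, ∑ p1 ∈ Icc (-(L1 : ℤ)) L1,
          X (bb + 1) σ m i w p0 p1))) := by
    intro m hm
    rw [Finset.mem_range] at hm
    have hpow : 2 ^ m ≤ 2 ^ (J.1 + 1) := Nat.pow_le_pow_right (by norm_num) (by omega)
    refine (Finset.sum_le_sum_of_subset_of_nonneg hPP fun p _ _ => ?_).trans ?_
    · have : 0 ≤ ∑ v : Fin (2 ^ m + 2 ^ m),
          G m (((v : ℕ) : ℤ) + bb * ((2 ^ m : ℕ) : ℤ) - p.1 - p.2.1 - p.2.2) p.1 p.2.1 p.2.2 :=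
        Finset.sum_nonneg fun v _ => hG0 _ _ _ _ _
      positivity
    -- two blocks
    have hsplit : ∀ p : ℤ × ℤ × ℤ, (1 / (((2 ^ m : ℕ) : ℝ) + ((2 ^ m : ℕ) : ℝ))) *
        ∑ v : Fin (2 ^ m + 2 ^ m),
          G m (((v : ℕ) : ℤ) + bb * ((2 ^ m : ℕ) : ℤ) - p.1 - p.2.1 - p.2.2) p.1 p.2.1 p.2.2 =
        (1 / 2) * ((1 / (2 : ℝ) ^ m) * ∑ i ∈ range (2 ^ m),
          G m ((i : ℤ) + bb * ((2 ^ m : ℕ) : ℤ) - p.1 - p.2.1 - p.2.2) p.1 p.2.1 p.2.2 +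
          (1 / (2 : ℝ) ^ m) * ∑ i ∈ range (2 ^ m),
          G m ((i : ℤ) + (bb + 1) * ((2 ^ m : ℕ) : ℤ) - p.1 - p.2.1 - p.2.2) p.1 p.2.1 p.2.2) := by
      intro p
      have e1 := sum_fin_two (2 ^ m) (fun v => G m ((v : ℤ) + bb * ((2 ^ m : ℕ) : ℤ) - p.1 - p.2.1 -
        p.2.2) p.1 p.2.1 p.2.2)
      rw [e1]
      have e3 : ∀ i ∈ range (2 ^ m), G m (((2 ^ m + i : ℕ) : ℤ) + bb * ((2 ^ m : ℕ) : ℤ) - p.1 -
          p.2.1 - p.2.2) p.1 p.2.1 p.2.2 =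
          G m ((i : ℤ) + (bb + 1) * ((2 ^ m : ℕ) : ℤ) - p.1 - p.2.1 - p.2.2) p.1 p.2.1 p.2.2 := by
        intro i _
        congr 1
        push_cast
        ring
      rw [Finset.sum_congr rfl e3]
      push_cast
      have h2m : (2 : ℝ) ^ m ≠ 0 := by positivity
      field_simp
      ring
    rw [Finset.sum_congr rfl fun p _ => hsplit p, ← Finset.mul_sum, Finset.sum_add_distrib,
      ← Finset.mul_sum, ← Finset.mul_sum]
    refine mul_le_mul_of_nonneg_left ?_ (by norm_num)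
    have hone : ∀ l : ℤ, |l| ≤ 7 → (1 / (2 : ℝ) ^ m) * ∑ p ∈ P, ∑ i ∈ range (2 ^ m),
          G m ((i : ℤ) + l * ((2 ^ m : ℕ) : ℤ) - p.1 - p.2.1 - p.2.2) p.1 p.2.1 p.2.2 ≤
        ∑ σ : Bool × Bool × Bool, ∑ w ∈ Wf, (1 / (2 : ℝ) ^ m) *
        ∑ i ∈ range (2 ^ m), ∑ p0 ∈ Icc (-(L1 : ℤ)) L1, ∑ p1 ∈ Icc (-(L1 : ℤ)) L1,
          X l σ m i w p0 p1 := by
      intro l hl
      have e4 : ∑ σ : Bool × Bool × Bool, ∑ w ∈ Wf, (1 / (2 : ℝ) ^ m) *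
        ∑ i ∈ range (2 ^ m), ∑ p0 ∈ Icc (-(L1 : ℤ)) L1, ∑ p1 ∈ Icc (-(L1 : ℤ)) L1,
          X l σ m i w p0 p1 = (1 / (2 : ℝ) ^ m) * ∑ i ∈ range (2 ^ m), ∑ w ∈ Wf,
          ∑ p0 ∈ Icc (-(L1 : ℤ)) L1, ∑ p1 ∈ Icc (-(L1 : ℤ)) L1,
          ∑ σ : Bool × Bool × Bool, X l σ m i w p0 p1 := by
        rw [swap5 (range (2 ^ m)) Wf (Icc (-(L1 : ℤ)) L1) (fun σ i w p0 p1 => X l σ m i w p0 p1)]
        rw [Finset.mul_sum]
        refine Finset.sum_congr rfl fun σ _ => ?_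
        rw [Finset.mul_sum]
      rw [e4]
      refine mul_le_mul_of_nonneg_left ?_ (by positivity)
      rw [Finset.sum_comm]
      refine Finset.sum_le_sum fun i hi => ?_
      rw [Finset.mem_range] at hi
      refine (sum_cube_le L1 (2 ^ m) l i hi hl W0 (by rw [hW0]; omega) (G m) (hG0 m)).trans ?_
      refine Finset.sum_le_sum fun w _ => Finset.sum_le_sum fun p0 _ =>
        Finset.sum_le_sum fun p1 _ => ?_
      have := hGX l m i w p0 p1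
      rw [show (l * ((2 ^ m : ℕ) : ℤ) + (i : ℤ) - w - p0 - p1) =
        l * 2 ^ m + (i : ℤ) - w - p0 - p1 by push_cast; ring]
      exact this
    have hl0 : |bb| ≤ 7 := by rcases hbb with rfl | rfl <;> norm_num
    have hl1 : |bb + 1| ≤ 7 := by rcases hbb with rfl | rfl <;> norm_num
    exact add_le_add (hone bb hl0) (hone (bb + 1) hl1)
  refine (Finset.sum_le_sum hlevel).trans ?_
  rw [← Finset.mul_sum, Finset.sum_add_distrib]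
  have htot : ∀ l : ℤ, |l| ≤ 7 → ∑ m ∈ range (J.1 + 1), ∑ σ : Bool × Bool × Bool, ∑ w ∈ Wf,
      (1 / (2 : ℝ) ^ m) * ∑ i ∈ range (2 ^ m), ∑ p0 ∈ Icc (-(L1 : ℤ)) L1,
        ∑ p1 ∈ Icc (-(L1 : ℤ)) L1, X l σ m i w p0 p1 ≤ 8 * Kb := by
    intro l hl
    rw [Finset.sum_comm]
    have h1 : ∀ σ ∈ (Finset.univ : Finset (Bool × Bool × Bool)), ∑ m ∈ range (J.1 + 1),
        ∑ w ∈ Wf, (1 / (2 : ℝ) ^ m) * ∑ i ∈ range (2 ^ m), ∑ p0 ∈ Icc (-(L1 : ℤ)) L1,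
        ∑ p1 ∈ Icc (-(L1 : ℤ)) L1, X l σ m i w p0 p1 ≤ Kb := by
      intro σ _
      rw [Finset.sum_comm]
      exact hblock l hl σ.1 σ.2.1 σ.2.2 Wf L1
    refine (Finset.sum_le_sum h1).trans (le_of_eq ?_)
    rw [Finset.sum_const, Finset.card_univ]
    simp
  have hl0 : |bb| ≤ 7 := by rcases hbb with rfl | rfl <;> norm_num
  have hl1 : |bb + 1| ≤ 7 := by rcases hbb with rfl | rfl <;> norm_num
  have t0 := htot bb hl0
  have t1 := htot (bb + 1) hl1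
  linarith

/-- **the frozen theorem at (2,4,4) with three kernels depending arbitrarily on the frozen
variable** -/
theorem frozenW24 : ∃ K : ℝ, 0 ≤ K ∧ ∃ κ : ℕ, ∀ (bb : ℤ), bb = -1 ∨ bb = -7 →
    ∀ (R : Finset (ℕ × ℤ)) (J : ℕ × ℤ), IsRegion R J →
    ∀ (j : Fin 4) (i : Fin 3) (s H : ℝ), 0 < s → s ≤ 1 → 1 ≤ H → ∀ (V : ℝ), 0 ≤ V →
    ∀ (T : Fin 3 → Finset ℤ) (a b c : ℤ → ℤ → ℤ → ℂ) (F : Fin 4 → ℤ → ℂ),
      S2W R κ V (sl j - sl (j.succAbove 2)) (sl (j.succAbove 0) - sl (j.succAbove 2))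
        (sl (j.succAbove 1) - sl (j.succAbove 2)) (T 0) (T 1) a (F (j.succAbove 2)) →
      S2W R κ V (sl j - sl (j.succAbove 0)) (sl (j.succAbove 1) - sl (j.succAbove 0))
        (sl (j.succAbove 2) - sl (j.succAbove 0)) (T 1) (T 2) b (F (j.succAbove 0)) →
      S2W R κ V (sl j - sl (j.succAbove 1)) (sl (j.succAbove 2) - sl (j.succAbove 1))
        (sl (j.succAbove 0) - sl (j.succAbove 1)) (T 2) (T 0) c (F (j.succAbove 1)) →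
      (i ≠ 0 → S4W R κ V (s ^ 2) (sl j - sl (j.succAbove 2))
        (sl (j.succAbove 0) - sl (j.succAbove 2))
        (sl (j.succAbove 1) - sl (j.succAbove 2)) (T 0) (T 1) a (F (j.succAbove 2))) →
      (i ≠ 1 → S4W R κ V (s ^ 2) (sl j - sl (j.succAbove 0))
        (sl (j.succAbove 1) - sl (j.succAbove 0))
        (sl (j.succAbove 2) - sl (j.succAbove 0)) (T 1) (T 2) b (F (j.succAbove 0))) →
      (i ≠ 2 → S4W R κ V (s ^ 2) (sl j - sl (j.succAbove 1))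
        (sl (j.succAbove 2) - sl (j.succAbove 1))
        (sl (j.succAbove 0) - sl (j.succAbove 1)) (T 2) (T 0) c (F (j.succAbove 1))) →
      (i = 0 → ∀ w z z', ‖frA j T (a w) F w z z'‖ ≤ H) →
      (i = 1 → ∀ w z z', ‖frB j T (b w) F w z z'‖ ≤ H) →
      (i = 2 → ∀ w z z', ‖frC j T (c w) F w z z'‖ ≤ H) →
      ∀ PP : Finset (ℤ × ℤ × ℤ),
      ∑ m ∈ range (J.1 + 1), ∑ p ∈ PP, (1 / (((2 ^ m : ℕ) : ℝ) + ((2 ^ m : ℕ) : ℝ))) *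
        ∑ v : Fin (2 ^ m + 2 ^ m),
        ‖Lb3 (frA j T (a (((v : ℕ) : ℤ) + bb * ((2 ^ m : ℕ) : ℤ) - p.1 - p.2.1 - p.2.2))
              (Fm R j F m) (((v : ℕ) : ℤ) + bb * ((2 ^ m : ℕ) : ℤ) - p.1 - p.2.1 - p.2.2))
            (frB j T (b (((v : ℕ) : ℤ) + bb * ((2 ^ m : ℕ) : ℤ) - p.1 - p.2.1 - p.2.2))
              (Fm R j F m) (((v : ℕ) : ℤ) + bb * ((2 ^ m : ℕ) : ℤ) - p.1 - p.2.1 - p.2.2))
            (frC j T (c (((v : ℕ) : ℤ) + bb * ((2 ^ m : ℕ) : ℤ) - p.1 - p.2.1 - p.2.2))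
              (Fm R j F m) (((v : ℕ) : ℤ) + bb * ((2 ^ m : ℕ) : ℤ) - p.1 - p.2.1 - p.2.2))
            (2 ^ m) p.1 p.2.1 p.2.2‖ ≤
        K * (s * (1 + Real.log (H / s)) * 2 ^ (J.1 + 7) * V) := by
  obtain ⟨K, hK, κ, hTri⟩ := triG
  refine ⟨8 * C24 K κ, by unfold C24; positivity, κ, ?_⟩
  intro bb hbb R J hR j i s H hs hs1 hH V hV T a b d F h2a h2b h2c h4a h4b h4c hba hbb' hbc PP
  have hlog : 0 ≤ Real.log (H / s) := Real.log_nonneg (by rw [le_div_iff₀ hs]; linarith)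
  set c : ℝ := K * (1 + Real.log (H / s)) with hc
  have hc0 : 0 ≤ c := by positivity
  have hsl := slopes_sl j
  have b2 : |sl (j.succAbove 0) - sl (j.succAbove 2)| ≤ 3 ∧
      |sl (j.succAbove 1) - sl (j.succAbove 2)| ≤ 3 := by
    constructor <;> rw [abs_le] <;> constructor <;>
      linarith [hsl.h0.1, hsl.h0.2, hsl.h1.1, hsl.h1.2, hsl.h2.1, hsl.h2.2]
  have b0 : |sl (j.succAbove 1) - sl (j.succAbove 0)| ≤ 3 ∧
      |sl (j.succAbove 2) - sl (j.succAbove 0)| ≤ 3 := by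
    constructor <;> rw [abs_le] <;> constructor <;>
      linarith [hsl.h0.1, hsl.h0.2, hsl.h1.1, hsl.h1.2, hsl.h2.1, hsl.h2.2]
  have b1 : |sl (j.succAbove 2) - sl (j.succAbove 1)| ≤ 3 ∧
      |sl (j.succAbove 0) - sl (j.succAbove 1)| ≤ 3 := by
    constructor <;> rw [abs_le] <;> constructor <;>
      linarith [hsl.h0.1, hsl.h0.2, hsl.h1.1, hsl.h1.2, hsl.h2.1, hsl.h2.2]
  have hT := hTri s hs hs1 H hH i
  -- the three edges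
  obtain ⟨εA, hA⟩ : ∃ ε, EdgeW R κ (gi s (H ^ 2)⁻¹ i 0) s ε V (sl j - sl (j.succAbove 2))
      (sl (j.succAbove 0) - sl (j.succAbove 2)) (sl (j.succAbove 1) - sl (j.succAbove 2))
      (T 0) (T 1) a (F (j.succAbove 2)) := by
    by_cases hi : i = 0
    · refine ⟨0, ?_⟩
      rw [gi, if_pos hi.symm]
      exact edge2W hs hH b2.1 b2.2 (T 0) (T 1) a _ hV h2a (hba hi)
    · refine ⟨1, ?_⟩
      rw [gi, if_neg (fun h => hi h.symm)]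
      exact edge4W hs b2.1 b2.2 (T 0) (T 1) a _ hV h2a (h4a hi)
  obtain ⟨εB, hB⟩ : ∃ ε, EdgeW R κ (gi s (H ^ 2)⁻¹ i 1) s ε V (sl j - sl (j.succAbove 0))
      (sl (j.succAbove 1) - sl (j.succAbove 0)) (sl (j.succAbove 2) - sl (j.succAbove 0))
      (T 1) (T 2) b (F (j.succAbove 0)) := by
    by_cases hi : i = 1
    · refine ⟨0, ?_⟩
      rw [gi, if_pos hi.symm]
      exact edge2W hs hH b0.1 b0.2 (T 1) (T 2) b _ hV h2b (hbb' hi)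
    · refine ⟨1, ?_⟩
      rw [gi, if_neg (fun h => hi h.symm)]
      exact edge4W hs b0.1 b0.2 (T 1) (T 2) b _ hV h2b (h4b hi)
  obtain ⟨εC, hC⟩ : ∃ ε, EdgeW R κ (gi s (H ^ 2)⁻¹ i 2) s ε V (sl j - sl (j.succAbove 1))
      (sl (j.succAbove 2) - sl (j.succAbove 1)) (sl (j.succAbove 0) - sl (j.succAbove 1))
      (T 2) (T 0) d (F (j.succAbove 1)) := by
    by_cases hi : i = 2
    · refine ⟨0, ?_⟩
      rw [gi, if_pos hi.symm]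
      exact edge2W hs hH b1.1 b1.2 (T 2) (T 0) d _ hV h2c (hbc hi)
    · refine ⟨1, ?_⟩
      rw [gi, if_neg (fun h => hi h.symm)]
      exact edge4W hs b1.1 b1.2 (T 2) (T 0) d _ hV h2c (h4c hi)
  have hfin := frozen_sumW (C24 c κ * (s * 2 ^ (J.1 + 7) * V)) bb hbb R J hR j T a b d F
    (fun l hl σ2 σ0 σ1 Wf L1 => block24W hc0 hT hs.le hV l hl R J hR j T a b d F hA hB hC
      σ2 σ0 σ1 Wf L1) PP
  refine hfin.trans (le_of_eq ?_)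
  have e : C24 c κ = (1 + Real.log (H / s)) * C24 K κ := by
    unfold C24
    rw [hc]
    ring
  rw [e]
  ring

end Crest.Agent.R079.EW49
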