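import Crest.Agent.R079.F24d_118

/-! R079, Step II error words (helper49): node budgets for frozen kernels which depend arbitrarily on
the frozen variable `w`. -/

set_option autoImplicit false
set_option linter.unusedVariables false

namespace Crest.Agent.R079.EW49

open Finset Crest.Agent.R079.Grid Crest.Agent.R079.Pot Crest.Agent.R079.Glue Crest.Agent.R079.R244
open Crest.Agent.R079.F24

/-- node `S₂` budget of the `w`-dependent kernel `a w z z' · F (α w + γ z + δ z')` -/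
def S2W (R : Finset (ℕ × ℤ)) (κ : ℕ) (V : ℝ) (α γ δ : ℤ) (T T' : Finset ℤ)
    (a : ℤ → ℤ → ℤ → ℂ) (F : ℤ → ℂ) : Prop :=
  ∀ p ∈ R, ∀ k : ℕ, k ≤ κ → ∀ S : Finset (ℤ × ℤ × ℤ),
    ∑ t ∈ S, e2 (cK α γ δ T T' (a t.1) (res p F) t.1) (2 ^ (p.1 + k)) t.2.1 t.2.2 ≤
      2 ^ (p.1 + 7) * V

/-- node `S₄` budget (fourth power `≤ σ`) -/
def S4W (R : Finset (ℕ × ℤ)) (κ : ℕ) (V σ : ℝ) (α γ δ : ℤ) (T T' : Finset ℤ)
    (a : ℤ → ℤ → ℤ → ℂ) (F : ℤ → ℂ) : Prop :=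
  ∀ p ∈ R, ∀ k : ℕ, k ≤ κ → ∀ S : Finset (ℤ × ℤ × ℤ),
    ∑ t ∈ S, e4 (cK α γ δ T T' (a t.1) (res p F) t.1) (2 ^ (p.1 + k)) t.2.1 t.2.2 ≤
      σ * (2 ^ (p.1 + 7) * V)

end Crest.Agent.R079.EW49
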