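import Crest.Agent.R079.ThQ_653

/-! R079 Step I, leaf (e) (helper440): Euler-Lagrange at the glued exit minimiser with ARBITRARY
replacement kernels for the parts above the thresholds. -/

set_option autoImplicit false

namespace Crest.Agent.R079.ElS440

open Finset Crest.Agent.R079.Grid Crest.Agent.R079.Growth Crest.Agent.R079.QRed
  Crest.Agent.R079.Qh249 Crest.Agent.R079.QVar181 Crest.Agent.R079.TWin
open Crest.Agent.R079.RelW653 (vl NMP Jv Dv av_par sum_av' lf_sum_eq')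
open Crest.Agent.R079.RelV653 Crest.Agent.R079.ThP653 Crest.Agent.R079.ThQ653

section one

variable {Ω : Type*} {Bd : Nd → Finset Ω} {pos : Ω → ℤ} {N : (Ω → ℂ) → ℝ} {ν : ℝ}

open Classical in
/-- line function of a kernel: average over the fibre against the gauge -/
noncomputable def Ln (Bd : Nd → Finset Ω) (pos : Ω → ℤ) (ν : ℝ) (a : Ω → ℂ) (p : Nd)
    (U : Ω → ℂ) : Fn :=
  fun y => ν * ∑ ω ∈ (Bd p).filter (fun ω => pos ω = y), starRingEnd ℂ (a ω) * U ω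

lemma Gr_eq (a : Ω → ℂ) (r : ℝ) (p : Nd) (g : Fn) :
    Gr Bd pos N ν a r p g = Ln Bd pos ν a p (Rs Bd pos N a r p g) := rfl

lemma Ln_sub (a : Ω → ℂ) (p : Nd) (U U' : Ω → ℂ) (y : ℤ) :
    Ln Bd pos ν a p U y - Ln Bd pos ν a p U' y = Ln Bd pos ν a p (fun ω => U ω - U' ω) y := by
  classical
  unfold Ln
  rw [← mul_sub, ← Finset.sum_sub_distrib]
  congr 1
  refine Finset.sum_congr rfl fun ω _ => ?_
  ring

/-- pointwise bound -/
lemma Ln_pt (hB : Bnd Bd pos N ν) {a : Ω → ℂ} (ha : ∀ ω, ‖a ω‖ ≤ 1) (p : Nd) (U : Ω → ℂ) (y : ℤ) :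
    ‖Ln Bd pos ν a p U y‖ ^ 2
      ≤ ν * ∑ ω ∈ (Bd p).filter (fun ω => pos ω = y), ‖U ω‖ ^ 2 := by
  classical
  set S := (Bd p).filter (fun ω => pos ω = y) with hS
  have h1 : ‖Ln Bd pos ν a p U y‖ ≤ ν * ∑ ω ∈ S, ‖U ω‖ := by
    unfold Ln
    rw [norm_mul, Complex.norm_real, Real.norm_eq_abs, abs_of_pos hB.nu]
    refine mul_le_mul_of_nonneg_left ?_ hB.nu.le
    refine (norm_sum_le _ _).trans (Finset.sum_le_sum fun ω _ => ?_)
    rw [norm_mul, RCLike.norm_conj]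
    exact mul_le_of_le_one_left (norm_nonneg _) (ha ω)
  have h2 : (∑ ω ∈ S, ‖U ω‖) ^ 2 ≤ S.card * ∑ ω ∈ S, ‖U ω‖ ^ 2 := sq_sum_le_card_mul_sum_sq
  have h3 : ν * (S.card : ℝ) ≤ 1 := hB.fib p y
  have h4 : 0 ≤ ∑ ω ∈ S, ‖U ω‖ ^ 2 := Finset.sum_nonneg fun _ _ => sq_nonneg _
  have h0 : 0 ≤ ν * ∑ ω ∈ S, ‖U ω‖ :=
    mul_nonneg hB.nu.le (Finset.sum_nonneg fun _ _ => norm_nonneg _)
  calc ‖Ln Bd pos ν a p U y‖ ^ 2 ≤ (ν * ∑ ω ∈ S, ‖U ω‖) ^ 2 :=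
        pow_le_pow_left₀ (norm_nonneg _) h1 2
    _ = ν * (ν * (∑ ω ∈ S, ‖U ω‖) ^ 2) := by ring
    _ ≤ ν * (ν * (S.card * ∑ ω ∈ S, ‖U ω‖ ^ 2)) :=
        mul_le_mul_of_nonneg_left (mul_le_mul_of_nonneg_left h2 hB.nu.le) hB.nu.le
    _ = ν * ((ν * S.card) * ∑ ω ∈ S, ‖U ω‖ ^ 2) := by ring
    _ ≤ ν * (1 * ∑ ω ∈ S, ‖U ω‖ ^ 2) :=
        mul_le_mul_of_nonneg_left (mul_le_mul_of_nonneg_right h3 h4) hB.nu.le
    _ = ν * ∑ ω ∈ S, ‖U ω‖ ^ 2 := by ring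

/-- the line function is `ℓ²` bounded by the kernel on the band -/
theorem Ln_av (hB : Bnd Bd pos N ν) {a : Ω → ℂ} (ha : ∀ ω, ‖a ω‖ ≤ 1) (p : Nd) (U : Ω → ℂ) :
    len p * av p (Ln Bd pos ν a p U) ^ 2 ≤ ν * ∑ ω ∈ Bd p, ‖U ω‖ ^ 2 := by
  classical
  rw [← sum_av', ← Finset.sum_fiberwise_of_maps_to (g := pos) (t := iv p)
    (fun ω hω => hB.mem p ω hω), Finset.mul_sum]
  exact Finset.sum_le_sum fun y _ => Ln_pt hB ha p U y

theorem Ln_dst (hB : Bnd Bd pos N ν) {a : Ω → ℂ} (ha : ∀ ω, ‖a ω‖ ≤ 1) (p : Nd)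
    (U U' : Ω → ℂ) :
    len p * av p (fun y => Ln Bd pos ν a p U y - Ln Bd pos ν a p U' y) ^ 2
      ≤ ν * dst Bd p U U' := by
  have h1 := Ln_av hB ha p (fun ω => U ω - U' ω)
  have e : (fun y => Ln Bd pos ν a p U y - Ln Bd pos ν a p U' y)
      = Ln Bd pos ν a p (fun ω => U ω - U' ω) := by
    funext y
    exact Ln_sub a p U U' y
  rw [e]
  exact h1

end one

section family

variable {ι : Type*} [Fintype ι] {Ω : ι → Type*} {Bd : ∀ i, Nd → Finset (Ω i)}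
  {pos : ∀ i, Ω i → ℤ} {N : ∀ i, (Ω i → ℂ) → ℝ} {ν : ι → ℝ} {a : ∀ i, Ω i → ℂ} {r : ι → ℝ}
  {κ : ι → ℝ} {X : Fn} {η : ℝ} {f : Nd → Fn}

/-- the frozen letter with kernels `Z` -/
noncomputable def LnF (Bd : ∀ i, Nd → Finset (Ω i)) (pos : ∀ i, Ω i → ℤ) (ν : ι → ℝ)
    (a : ∀ i, Ω i → ℂ) (κ : ι → ℝ) (p : Nd) (Z : ∀ i, Ω i → ℂ) : Fn :=
  fun y => ∑ i, (κ i : ℂ) * Ln (Bd i) (pos i) (ν i) (a i) p (Z i) y

lemma GrF_eq (p : Nd) (g : Fn) :
    GrF Bd pos N ν a r κ p g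
      = LnF Bd pos ν a κ p (fun i => Rs (Bd i) (pos i) (N i) (a i) (r i) p g) := rfl

/-- replacement of the kernels -/
theorem LnF_dst (hB : ∀ i, Bnd (Bd i) (pos i) (N i) (ν i)) (ha : ∀ i ω, ‖a i ω‖ ≤ 1)
    (hκ : ∀ i, 0 ≤ κ i) (p : Nd) (Z Z' : ∀ i, Ω i → ℂ) :
    len p * av p (fun y => LnF Bd pos ν a κ p Z y - LnF Bd pos ν a κ p Z' y) ^ 2
      ≤ (∑ i, κ i) * ∑ i, κ i * (ν i * dst (Bd i) p (Z i) (Z' i)) := by
  classical
  rw [← sum_av']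
  have h1 : ∀ y, ‖LnF Bd pos ν a κ p Z y - LnF Bd pos ν a κ p Z' y‖ ^ 2
      ≤ (∑ i, κ i) * ∑ i, κ i * ‖Ln (Bd i) (pos i) (ν i) (a i) p (Z i) y
        - Ln (Bd i) (pos i) (ν i) (a i) p (Z' i) y‖ ^ 2 := by
    intro y
    set D : ι → ℂ := fun i => Ln (Bd i) (pos i) (ν i) (a i) p (Z i) y
        - Ln (Bd i) (pos i) (ν i) (a i) p (Z' i) y with hD
    have e : LnF Bd pos ν a κ p Z y - LnF Bd pos ν a κ p Z' y = ∑ i, (κ i : ℂ) * D i := by
      unfold LnF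
      rw [← Finset.sum_sub_distrib]
      exact Finset.sum_congr rfl fun i _ => by rw [hD]; ring
    rw [e]
    have h2 : ‖∑ i, (κ i : ℂ) * D i‖ ≤ ∑ i, κ i * ‖D i‖ := by
      refine (norm_sum_le _ _).trans (le_of_eq ?_)
      refine Finset.sum_congr rfl fun i _ => ?_
      rw [norm_mul, Complex.norm_real, Real.norm_eq_abs, abs_of_nonneg (hκ i)]
    have h3 : (∑ i, κ i * ‖D i‖) ^ 2 ≤ (∑ i, κ i) * ∑ i, κ i * ‖D i‖ ^ 2 := by
      have h4 := Finset.sum_mul_sq_le_sq_mul_sq Finset.univ (fun i => Real.sqrt (κ i))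
        (fun i => Real.sqrt (κ i) * ‖D i‖)
      have e1 : ∀ i, Real.sqrt (κ i) * (Real.sqrt (κ i) * ‖D i‖) = κ i * ‖D i‖ := fun i => by
        rw [← mul_assoc, Real.mul_self_sqrt (hκ i)]
      have e2 : ∀ i, Real.sqrt (κ i) ^ 2 = κ i := fun i => Real.sq_sqrt (hκ i)
      have e3 : ∀ i, (Real.sqrt (κ i) * ‖D i‖) ^ 2 = κ i * ‖D i‖ ^ 2 := fun i => by
        rw [mul_pow, Real.sq_sqrt (hκ i)]
      simpa only [e1, e2, e3] using h4
    exact (pow_le_pow_left₀ (norm_nonneg _) h2 2).trans h3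
  refine (Finset.sum_le_sum fun y _ => h1 y).trans ?_
  rw [← Finset.mul_sum, Finset.sum_comm]
  refine mul_le_mul_of_nonneg_left ?_ (Finset.sum_nonneg fun i _ => hκ i)
  refine Finset.sum_le_sum fun i _ => ?_
  rw [← Finset.mul_sum]
  refine mul_le_mul_of_nonneg_left ?_ (hκ i)
  have h5 := Ln_dst (hB i) (ha i) p (Z i) (Z' i)
  rw [← sum_av'] at h5
  exact h5

/-- **EL + SWAP at every node of a window, arbitrary replacement kernels** -/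
theorem el_swap (hB : ∀ i, Bnd (Bd i) (pos i) (N i) (ν i)) (ha : ∀ i ω, ‖a i ω‖ ≤ 1)
    (hr : ∀ i, 0 ≤ r i) (hκ : ∀ i, 0 ≤ κ i)
    (h : NMP (fun _ _ => True) (ThF Bd pos N ν a r κ) X η f)
    {W : Finset Nd} {I : Nd} (hW : Full W I) {δ : ℝ}
    (hG : GdP (ThF Bd pos N ν a r κ) X η f δ W I) {p : Nd} (hp : p ∈ W)
    (Z : ∀ i, Ω i → ℂ) :
    av p (fun y => X y - gl W f y - LnF Bd pos ν a κ p Z y) ^ 2
      ≤ 2 * ((1 + ∑ i, κ i) * (δ + η))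
        + 2 * ((∑ i, κ i) * ∑ i, κ i * (ν i * dst (Bd i) p
          (Rs (Bd i) (pos i) (N i) (a i) (r i) p (gl W f)) (Z i))) / len p := by
  have hP := pen_ThF (a := a) (κ := κ) hB hr hκ
  have hM : 0 ≤ ∑ i, κ i := Finset.sum_nonneg fun i _ => hκ i
  have hL := Growth.len_pos p
  have h1 := el_win (Ψ := GrF Bd pos N ν a r κ p (gl W f)) hP h hW hG hp hM
    (fv_ThF hB ha hr hκ p _ _) trivial
  have h2 := LnF_dst hB ha hκ p (fun i => Rs (Bd i) (pos i) (N i) (a i) (r i) p (gl W f)) Z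
  rw [← GrF_eq] at h2
  set g := gl W f with hg
  set G := GrF Bd pos N ν a r κ p g with hGG
  set L := LnF Bd pos ν a κ p Z with hLL
  have h3 : av p (fun y => X y - g y - L y) ^ 2
      ≤ 2 * av p (fun y => X y - g y - G y) ^ 2 + 2 * av p (fun y => G y - L y) ^ 2 := by
    have h4 : len p * av p (fun y => X y - g y - L y) ^ 2
        ≤ len p * (2 * av p (fun y => X y - g y - G y) ^ 2
          + 2 * av p (fun y => G y - L y) ^ 2) := by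
      rw [mul_add, mul_left_comm (len p) 2, mul_left_comm (len p) 2, ← sum_av', ← sum_av',
        ← sum_av', Finset.mul_sum, Finset.mul_sum, ← Finset.sum_add_distrib]
      refine Finset.sum_le_sum fun y _ => ?_
      have e : X y - g y - L y = (X y - g y - G y) + (G y - L y) := by ring
      rw [e]
      have h5 := norm_add_le (X y - g y - G y) (G y - L y)
      have h6 := pow_le_pow_left₀ (norm_nonneg _) h5 2
      nlinarith [sq_nonneg (‖X y - g y - G y‖ - ‖G y - L y‖)]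
    exact le_of_mul_le_mul_left h4 hL
  have h7 : av p (fun y => G y - L y) ^ 2
      ≤ ((∑ i, κ i) * ∑ i, κ i * (ν i * dst (Bd i) p
          (Rs (Bd i) (pos i) (N i) (a i) (r i) p g) (Z i))) / len p := by
    rw [le_div_iff₀ hL, mul_comm]
    exact h2
  have h8 : 2 * ((∑ i, κ i) * ∑ i, κ i * (ν i * dst (Bd i) p
          (Rs (Bd i) (pos i) (N i) (a i) (r i) p g) (Z i))) / len p
      = 2 * (((∑ i, κ i) * ∑ i, κ i * (ν i * dst (Bd i) p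
          (Rs (Bd i) (pos i) (N i) (a i) (r i) p g) (Z i))) / len p) := by ring
  rw [h8]
  linarith

end family

end Crest.Agent.R079.ElS440
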