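import Crest.Agent.R079.ElT_440
import Crest.Agent.R079.PjD_881

/-! R079 Step I, leaf (e) without the hypothesis `top` (helper440): penalties for the thresholds
`j < K` only, the last kernel of the ladder is the letter itself; corollary over 881's `Split`
cells (Whitney cells), where `comp` is automatic. -/

set_option autoImplicit false

namespace Crest.Agent.R079.ElU440

open Finset Crest.Agent.R079.Grid Crest.Agent.R079.Growth Crest.Agent.R079.QRed
  Crest.Agent.R079.Qh249 Crest.Agent.R079.QVar181 Crest.Agent.R079.TWin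
open Crest.Agent.R079.RelW653 (vl NMP Jv Dv av_par sum_av' lf_sum_eq')
open Crest.Agent.R079.RelV653 Crest.Agent.R079.ThA159 Crest.Agent.R079.ThB159
open Crest.Agent.R079.ElS440 (Ln LnF Ln_sub)
open Crest.Agent.R079.ElW778 (Ln_congr Ln_sum tele)
open Crest.Agent.R079.ElT440 (lad lad_dst LnF_dst GrF_eq)

section one

variable {Ω : Type*} {Bd : Nd → Finset Ω} {pos : Ω → ℤ} {N : Nd → (Ω → ℂ) → ℝ} {ν : ℝ}

/-- the kernels of the ladder: `C i` below `K`, the letter `A` from `K` on -/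
def upto (K : ℕ) (C : ℕ → Ω → ℂ) (A : Ω → ℂ) (i : ℕ) : Ω → ℂ := if i < K then C i else A

/-- the sum of the parts above the thresholds `j < K` is the ladder -/
theorem lad_eq0 {r : ℕ → ℝ} {K : ℕ} {p : Nd} {A : Ω → ℂ}
    (comp : ∀ i, i + 1 < K → ∀ ω ∈ Bd p,
      Pj Bd N (r i) p (Pj Bd N (r (i + 1)) p A) ω = Pj Bd N (r i) p A ω)
    (ω : Ω) (hω : ω ∈ Bd p) :
    ∑ j ∈ range K, (A ω - Pj Bd N (r j) p A ω)
      = lad Bd N r K p (upto K (fun i => Pj Bd N (r i) p A) A) ω := by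
  set u : ℕ → ℂ := fun i => if i < K then Pj Bd N (r i) p A ω else A ω with hu
  have h1 : lad Bd N r K p (upto K (fun i => Pj Bd N (r i) p A) A) ω
      = ∑ i ∈ range K, ((i : ℂ) + 1) * (u (i + 1) - u i) := by
    unfold lad
    refine Finset.sum_congr rfl fun i hi => ?_
    have hiK := Finset.mem_range.1 hi
    congr 1
    by_cases h : i + 1 < K
    · simp only [upto, hu, if_pos h, if_pos hiK]
      rw [comp i h ω hω]
    · simp only [upto, hu, if_neg h, if_pos hiK]
  rw [h1, tele u K, Finset.sum_sub_distrib, Finset.sum_const, Finset.card_range, nsmul_eq_mul]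
  have h2 : u K = A ω := by simp only [hu, if_neg (lt_irrefl K)]
  have h3 : ∑ j ∈ range K, u j = ∑ j ∈ range K, Pj Bd N (r j) p A ω :=
    Finset.sum_congr rfl fun j hj => by simp only [hu, if_pos (Finset.mem_range.1 hj)]
  rw [h2, h3]

end one

section family

variable {ι : Type*} [Fintype ι] {Ω : ι → Type*} {Bd : ∀ i, Nd → Finset (Ω i)}
  {pos : ∀ i, Ω i → ℤ} {N : ∀ i, Nd → (Ω i → ℂ) → ℝ} {ν : ι → ℝ} {a : ∀ i, Ω i → ℂ}
  {r : ι → ℕ → ℝ} {κ : ι → ℝ} {X : Fn} {η : ℝ} {f : Nd → Fn}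

/-- threshold penalties of the gauges `w` and the ladder `r w 0, …, r w (K-1)` -/
noncomputable def ThL0 (K : ℕ) (Bd : ∀ i, Nd → Finset (Ω i)) (pos : ∀ i, Ω i → ℤ)
    (N : ∀ i, Nd → (Ω i → ℂ) → ℝ) (ν : ι → ℝ) (a : ∀ i, Ω i → ℂ) (r : ι → ℕ → ℝ) (κ : ι → ℝ) :
    Nd → Fn → ℝ :=
  ThF (ι := ι × Fin K) (fun i => Bd i.1) (fun i => pos i.1) (fun i => N i.1)
    (fun i => ν i.1) (fun i => a i.1) (fun i => r i.1 i.2) (fun i => κ i.1)

/-- **(e): `X = g_Λ + Ψ' + e` at every node of a good window**: `g_Λ` = glued exit minimisers,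
`Ψ'` = ladder of the glued exit projections in the calculus of the node -/
theorem el_ladder0 {K : ℕ} (hB : ∀ i, Bnd (Bd i) (pos i) (N i) (ν i)) (ha : ∀ i ω, ‖a i ω‖ ≤ 1)
    (hr : ∀ i j, 0 ≤ r i j) (hκ : ∀ i, 0 ≤ κ i)
    (h : NMP (fun _ _ => True) (ThL0 K Bd pos N ν a r κ) X η f)
    {W : Finset Nd} {I : Nd} (hW : Full W I) {δ : ℝ}
    (hG : GdP (ThL0 K Bd pos N ν a r κ) X η f δ W I) {p : Nd} (hp : p ∈ W)
    (comp : ∀ w, ∀ i, i + 1 < K → ∀ ω ∈ Bd w p,
      Pj (Bd w) (N w) (r w i) p (Pj (Bd w) (N w) (r w (i + 1)) p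
        (ag (Bd w) (pos w) (a w) p (gl W f))) ω
      = Pj (Bd w) (N w) (r w i) p (ag (Bd w) (pos w) (a w) p (gl W f)) ω) :
    av p (fun y => X y - gl W f y - LnF Bd pos ν a κ p (fun w => lad (Bd w) (N w) (r w) K p
      (upto K (fun i => Bgl (Bd w) (pos w) (N w) (a w) (r w i) W p (gl W f))
        (ag (Bd w) (pos w) (a w) p (gl W f)))) y) ^ 2
      ≤ (2 * (1 + K * ∑ i, κ i) + 4 * ((∑ i, κ i) * (K : ℝ) ^ 3)) * (δ + η) := by
  have hP : PenC 0 (fun _ _ => True) (ThL0 K Bd pos N ν a r κ) :=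
    pen_ThF (fun i => hB i.1) (fun i => hr i.1 i.2) (fun i => hκ i.1)
  have hM0 : 0 ≤ ∑ i, κ i := Finset.sum_nonneg fun i _ => hκ i
  have hM : ∑ i : ι × Fin K, κ i.1 = K * ∑ i, κ i := by
    rw [Fintype.sum_prod_type, Finset.mul_sum]
    refine Finset.sum_congr rfl fun i _ => ?_
    simp
  have hL := Growth.len_pos p
  set g := gl W f with hg
  set A : ∀ w, Ω w → ℂ := fun w => ag (Bd w) (pos w) (a w) p g with hA
  have h1 := el_win (Ψ := GrF (ι := ι × Fin K) (fun i => Bd i.1) (fun i => pos i.1)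
    (fun i => N i.1) (fun i => ν i.1) (fun i => a i.1) (fun i => r i.1 i.2) (fun i => κ i.1) p
    (gl W f)) (M := ∑ i : ι × Fin K, κ i.1) hP h hW hG hp
    (Finset.sum_nonneg fun i _ => hκ i.1)
    (fv_ThF (ι := ι × Fin K) (a := fun i => a i.1) (r := fun i => r i.1 i.2)
      (κ := fun i => κ i.1) (fun i => hB i.1) (fun i => ha i.1) (fun i => hr i.1 i.2)
      (fun i => hκ i.1) p _ _)
    trivial
  rw [← hg, hM] at h1
  -- the half gradient is the ladder of the own projections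
  have h2 : GrF (ι := ι × Fin K) (fun i => Bd i.1) (fun i => pos i.1)
      (fun i => N i.1) (fun i => ν i.1) (fun i => a i.1) (fun i => r i.1 i.2) (fun i => κ i.1) p g
      = LnF Bd pos ν a κ p (fun w => lad (Bd w) (N w) (r w) K p
        (upto K (fun i => Pj (Bd w) (N w) (r w i) p (A w)) (A w))) := by
    rw [GrF_eq]
    funext y
    unfold LnF
    rw [Fintype.sum_prod_type]
    refine Finset.sum_congr rfl fun w _ => ?_
    show ∑ j : Fin K, (κ w : ℂ) * Ln (Bd w) (pos w) (ν w) (a w) p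
      (Rs (Bd w) (pos w) (N w) (a w) (r w j) p g) y = _
    rw [← Finset.mul_sum]
    congr 1
    have h3 := Ln_sum (Bd := Bd w) (pos := pos w) (ν := ν w) (a := a w) (p := p)
      (Finset.univ : Finset (Fin K))
      (fun j => Rs (Bd w) (pos w) (N w) (a w) (r w j) p g) y
    refine h3.trans ?_
    refine congrFun (Ln_congr fun ω hω => ?_) y
    refine Eq.trans ?_ (lad_eq0 (comp w) ω hω)
    exact Fin.sum_univ_eq_sum_range (fun j => A w ω - Pj (Bd w) (N w) (r w j) p (A w) ω) K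
  rw [h2] at h1
  have h3 := LnF_dst hB ha hκ p (fun w => lad (Bd w) (N w) (r w) K p
        (upto K (fun i => Pj (Bd w) (N w) (r w i) p (A w)) (A w)))
        (fun w => lad (Bd w) (N w) (r w) K p
      (upto K (fun i => Bgl (Bd w) (pos w) (N w) (a w) (r w i) W p g) (A w)))
  have h4 : ∑ w, κ w * (ν w * dst (Bd w) p (lad (Bd w) (N w) (r w) K p
        (upto K (fun i => Pj (Bd w) (N w) (r w i) p (A w)) (A w)))
        (lad (Bd w) (N w) (r w) K p
      (upto K (fun i => Bgl (Bd w) (pos w) (N w) (a w) (r w i) W p g) (A w))))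
      ≤ (K : ℝ) ^ 3 * (2 * (len p * (δ + η))) := by
    have h5 := thr_win (ι := ι × Fin K) (fun i => hB i.1) (fun i => hr i.1 i.2)
      (fun i => hκ i.1) h hW hG hp
    rw [Fintype.sum_prod_type] at h5
    have h6 : ∀ w, κ w * (ν w * dst (Bd w) p (lad (Bd w) (N w) (r w) K p
        (upto K (fun i => Pj (Bd w) (N w) (r w i) p (A w)) (A w)))
        (lad (Bd w) (N w) (r w) K p
      (upto K (fun i => Bgl (Bd w) (pos w) (N w) (a w) (r w i) W p g) (A w))))
        ≤ (K : ℝ) ^ 3 * (2 * ∑ j : Fin K, κ w * (ν w / 2 * dst (Bd w) p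
          (Pj (Bd w) (N w) (r w j) p (A w))
          (Bgl (Bd w) (pos w) (N w) (a w) (r w j) W p g))) := by
      intro w
      have h7 := lad_dst (hB w) (hr w) K p (upto K (fun i => Pj (Bd w) (N w) (r w i) p (A w)) (A w))
        (upto K (fun i => Bgl (Bd w) (pos w) (N w) (a w) (r w i) W p g) (A w))
      have h8 : ∑ j : Fin K, κ w * (ν w / 2 * dst (Bd w) p
          (Pj (Bd w) (N w) (r w j) p (A w))
          (Bgl (Bd w) (pos w) (N w) (a w) (r w j) W p g))
          = κ w * ν w / 2 * ∑ j ∈ range K, dst (Bd w) p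
          (Pj (Bd w) (N w) (r w j) p (A w))
          (Bgl (Bd w) (pos w) (N w) (a w) (r w j) W p g) := by
        rw [← Fin.sum_univ_eq_sum_range (fun j => dst (Bd w) p
          (Pj (Bd w) (N w) (r w j) p (A w))
          (Bgl (Bd w) (pos w) (N w) (a w) (r w j) W p g)) K, Finset.mul_sum]
        refine Finset.sum_congr rfl fun j _ => ?_
        ring
      set Fd : ℕ → ℝ := fun j => dst (Bd w) p
        (upto K (fun i => Pj (Bd w) (N w) (r w i) p (A w)) (A w) j)
        (upto K (fun i => Bgl (Bd w) (pos w) (N w) (a w) (r w i) W p g) (A w) j) with hFd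
      have hFK : Fd K = 0 := by
        simp only [hFd, upto, if_neg (lt_irrefl K)]
        unfold dst
        simp
      have hF0 : 0 ≤ Fd 0 := dst_nonneg (Bd := Bd w) p _ _
      have h9 : ∑ i ∈ range K, Fd (i + 1)
          ≤ ∑ j ∈ range K, dst (Bd w) p
          (Pj (Bd w) (N w) (r w j) p (A w))
          (Bgl (Bd w) (pos w) (N w) (a w) (r w j) W p g) := by
        have e1 := Finset.sum_range_succ' Fd K
        have e2 := Finset.sum_range_succ Fd K
        have e3 : ∑ j ∈ range K, Fd j = ∑ j ∈ range K, dst (Bd w) p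
          (Pj (Bd w) (N w) (r w j) p (A w))
          (Bgl (Bd w) (pos w) (N w) (a w) (r w j) W p g) :=
          Finset.sum_congr rfl fun j hj => by
            simp only [hFd, upto, if_pos (Finset.mem_range.1 hj)]
        linarith
      rw [h8]
      have hκν : 0 ≤ κ w * ν w := mul_nonneg (hκ w) (hB w).nu.le
      have hK3 : (0 : ℝ) ≤ (K : ℝ) ^ 3 := by positivity
      have h10 := h7.trans (mul_le_mul_of_nonneg_left h9 hK3)
      have h11 := mul_le_mul_of_nonneg_left h10 hκν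
      refine le_trans (le_of_eq ?_) (h11.trans (le_of_eq ?_))
      · ring
      · ring
    refine (Finset.sum_le_sum fun w _ => h6 w).trans ?_
    rw [← Finset.mul_sum, ← Finset.mul_sum]
    exact mul_le_mul_of_nonneg_left (mul_le_mul_of_nonneg_left h5 (by norm_num)) (by positivity)
  set G := LnF Bd pos ν a κ p (fun w => lad (Bd w) (N w) (r w) K p
        (upto K (fun i => Pj (Bd w) (N w) (r w i) p (A w)) (A w)))
  set L := LnF Bd pos ν a κ p (fun w => lad (Bd w) (N w) (r w) K p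
      (upto K (fun i => Bgl (Bd w) (pos w) (N w) (a w) (r w i) W p g) (A w)))
  have h5 : av p (fun y => G y - L y) ^ 2 ≤ (∑ i, κ i) * ((K : ℝ) ^ 3 * (2 * (δ + η))) := by
    have h6 := h3.trans (mul_le_mul_of_nonneg_left h4 hM0)
    have h7 : len p * av p (fun y => G y - L y) ^ 2
        ≤ len p * ((∑ i, κ i) * ((K : ℝ) ^ 3 * (2 * (δ + η)))) := by
      refine h6.trans (le_of_eq ?_)
      ring
    exact le_of_mul_le_mul_left h7 hL
  have h6 : av p (fun y => X y - g y - L y) ^ 2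
      ≤ 2 * av p (fun y => X y - g y - G y) ^ 2 + 2 * av p (fun y => G y - L y) ^ 2 := by
    have h4 : len p * av p (fun y => X y - g y - L y) ^ 2
        ≤ len p * (2 * av p (fun y => X y - g y - G y) ^ 2
          + 2 * av p (fun y => G y - L y) ^ 2) := by
      rw [mul_add, mul_left_comm (len p) 2, mul_left_comm (len p) 2, ← sum_av', ← sum_av',
        ← sum_av', Finset.mul_sum, Finset.mul_sum, ← Finset.sum_add_distrib]
      refine Finset.sum_le_sum fun y _ => ?_
      have e : X y - g y - L y = (X y - g y - G y) + (G y - L y) := by ring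
      rw [e]
      have h5 := norm_add_le (X y - g y - G y) (G y - L y)
      have h6 := pow_le_pow_left₀ (norm_nonneg _) h5 2
      nlinarith [sq_nonneg (‖X y - g y - G y‖ - ‖G y - L y‖)]
    exact le_of_mul_le_mul_left h4 hL
  refine h6.trans ?_
  nlinarith [h1, h5]

end family


/-- **(e) on cells**: `comp` is automatic for 881's `Split` nodes and monotone thresholds -/
theorem el_cells {ι : Type*} [Fintype ι] {Bd : ι → Nd → Finset (ℤ × ℤ × ℤ)}
    {pos : ι → ℤ × ℤ × ℤ → ℤ} {N : ι → Nd → (ℤ × ℤ × ℤ → ℂ) → ℝ} {ν : ι → ℝ}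
    {a : ι → ℤ × ℤ × ℤ → ℂ} {r : ι → ℕ → ℝ} {κ : ι → ℝ} {X : Fn} {η : ℝ} {f : Nd → Fn}
    {K : ℕ} (hB : ∀ i, Bnd (Bd i) (pos i) (N i) (ν i)) (ha : ∀ i ω, ‖a i ω‖ ≤ 1)
    (hr : ∀ i j, 0 ≤ r i j) (hmono : ∀ i j, r i j ≤ r i (j + 1)) (hκ : ∀ i, 0 ≤ κ i)
    (h : NMP (fun _ _ => True) (ThL0 K Bd pos N ν a r κ) X η f)
    {W : Finset Nd} {I : Nd} (hW : Full W I) {δ : ℝ}
    (hG : GdP (ThL0 K Bd pos N ν a r κ) X η f δ W I) {p : Nd} (hp : p ∈ W)
    {C : ι → Type*} {cells : ∀ i, Finset (C i)} {z : ∀ i, C i → ℤ} {S T : ∀ i, C i → Finset ℤ}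
    {wt : ∀ i, C i → ℝ}
    (hs : ∀ i, Crest.Agent.R079.PjC881.Split (Bd i) (N i) p (cells i) (z i) (S i) (T i) (wt i)) :
    av p (fun y => X y - gl W f y - LnF Bd pos ν a κ p (fun w => lad (Bd w) (N w) (r w) K p
      (upto K (fun i => Bgl (Bd w) (pos w) (N w) (a w) (r w i) W p (gl W f))
        (ag (Bd w) (pos w) (a w) p (gl W f)))) y) ^ 2
      ≤ (2 * (1 + K * ∑ i, κ i) + 4 * ((∑ i, κ i) * (K : ℝ) ^ 3)) * (δ + η) :=
  el_ladder0 hB ha hr hκ h hW hG hp fun w i _ =>
    Crest.Agent.R079.PjC881.Pj_comp (hB w) (hs w) (hr w i) (hmono w i) _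

end Crest.Agent.R079.ElU440
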