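import Crest.Agent.R079.ElU_440
import Crest.Agent.R079.PjE_881

/-! R079 Step I, leaf (e) on the WHITNEY CELLS of the line model (helper440): plug of
ElU_440.el_ladder0, 159's `bnd_cell` and 881's `comp_cells`. -/

set_option autoImplicit false

namespace Crest.Agent.R079.ElV440

open Finset Crest.Agent.R079.Grid Crest.Agent.R079.Growth Crest.Agent.R079.QRed
  Crest.Agent.R079.Qh249 Crest.Agent.R079.QVar181 Crest.Agent.R079.TWin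
open Crest.Agent.R079.RelW653 (vl NMP Jv Dv av_par sum_av' lf_sum_eq')
open Crest.Agent.R079.RelV653 Crest.Agent.R079.ThA159 Crest.Agent.R079.ThB159
open Crest.Agent.R079.ElS440 (Ln LnF)
open Crest.Agent.R079.ElT440 (lad)
open Crest.Agent.R079.ElU440 Crest.Agent.R079.Cel159 Crest.Agent.R079.PjC881

/-- positions of the gauge `w` on the strip of `p` -/
noncomputable def bdc {ι : Type*} (Y : ι → ℤ → ℤ → ℤ → ℤ) (T₀ T₁ T₂ : ι → Finset ℤ) (w : ι) (p : Nd) :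
    Finset (ℤ × ℤ × ℤ) :=
  (T₀ w ×ˢ (T₁ w ×ˢ T₂ w)).filter (fun ω => Y w ω.1 ω.2.1 ω.2.2 ∈ iv p)

/-- **leaf (e) on Whitney cells: no hypothesis besides the fibre count and monotone thresholds** -/
theorem el_whitney {ι : Type*} [Fintype ι] {Y : ι → ℤ → ℤ → ℤ → ℤ} {k : ι → ℕ}
    {T₀ T₁ T₂ : ι → Finset ℤ} {ν : ι → ℝ} {a : ι → ℤ × ℤ × ℤ → ℂ} {r : ι → ℕ → ℝ} {κ : ι → ℝ}
    {X : Fn} {η : ℝ} {f : Nd → Fn} {K : ℕ}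
    (hB : ∀ w, Bnd (bdc Y T₀ T₁ T₂ w) (fun ω => Y w ω.1 ω.2.1 ω.2.2)
      (NmP (T₀ w ×ˢ (T₁ w ×ˢ T₂ w)) cf (okc (Y w) (k w))) (ν w))
    (ha : ∀ i ω, ‖a i ω‖ ≤ 1)
    (hr : ∀ i j, 0 ≤ r i j) (hmono : ∀ i j, r i j ≤ r i (j + 1)) (hκ : ∀ i, 0 ≤ κ i)
    (h : NMP (fun _ _ => True) (ThL0 K (bdc Y T₀ T₁ T₂) (fun w ω => Y w ω.1 ω.2.1 ω.2.2)
      (fun w => NmP (T₀ w ×ˢ (T₁ w ×ˢ T₂ w)) cf (okc (Y w) (k w))) ν a r κ) X η f)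
    {W : Finset Nd} {I : Nd} (hW : Full W I) {δ : ℝ}
    (hG : GdP (ThL0 K (bdc Y T₀ T₁ T₂) (fun w ω => Y w ω.1 ω.2.1 ω.2.2)
      (fun w => NmP (T₀ w ×ˢ (T₁ w ×ˢ T₂ w)) cf (okc (Y w) (k w))) ν a r κ) X η f δ W I)
    {p : Nd} (hp : p ∈ W) :
    av p (fun y => X y - gl W f y - LnF (bdc Y T₀ T₁ T₂) (fun w ω => Y w ω.1 ω.2.1 ω.2.2) ν a κ p
      (fun w => lad (bdc Y T₀ T₁ T₂ w) (NmP (T₀ w ×ˢ (T₁ w ×ˢ T₂ w)) cf (okc (Y w) (k w))) (r w) K p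
      (upto K (fun i => Bgl (bdc Y T₀ T₁ T₂ w) (fun ω => Y w ω.1 ω.2.1 ω.2.2)
        (NmP (T₀ w ×ˢ (T₁ w ×ˢ T₂ w)) cf (okc (Y w) (k w))) (a w) (r w i) W p (gl W f))
        (ag (bdc Y T₀ T₁ T₂ w) (fun ω => Y w ω.1 ω.2.1 ω.2.2) (a w) p (gl W f)))) y) ^ 2
      ≤ (2 * (1 + K * ∑ i, κ i) + 4 * ((∑ i, κ i) * (K : ℝ) ^ 3)) * (δ + η) :=
  el_ladder0 hB ha hr hκ h hW hG hp fun w i _ =>
    comp_cells (hB w) (hr w i) (hmono w i) p _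

end Crest.Agent.R079.ElV440
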