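import Mathlib

/-!
# R079, Step I (`28031 (3)`): the exit average

A product kernel `k (x, x') = Sum_y C x y * conj (C' x' y)` of the *top* calculus (columns in an
interval of length `L`) is, on every exit box, an average of the window kernels of length `N` (`N` = the
side of the exit box): every column lies in exactly `N` windows of length `N`.  Hence its Hilbert-Schmidt
size on the box is at most the average of the fourth-power (`S_4`) box forms of the exit scale.  Nothing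
ages; the only loss is the boundary factor `(L + N) / L`.

* `win_avg`, `win_cs`   : one vector valued function;
* `box_cs`              : the kernels, summed over an arbitrary finite set of pairs `(x, x')`;
* `exit_avg`, `exit_avg_lab` : normalised form, right hand side = average of `E4` (the body of
  `R244.e4`) resp. of `E4K` (the body of `Sgn.e4K`, labels at the summed variable);
* `E4_symm`, `E4_sub`   : `S_4` is symmetric, and sub-averaging over the four half boxes.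
-/

open Finset
open scoped BigOperators ComplexConjugate

namespace Crest.Agent.R079.ExA999

/-- every column lies in exactly `N` windows of length `N` -/
theorem win_avg {E : Type*} [AddCommGroup E] (f : ℤ → E) (a : ℤ) (L N : ℕ)
    (hf : ∀ y, ¬ (a ≤ y ∧ y < a + L) → f y = 0) :
    ∑ b ∈ Ico (a - N + 1) (a + L), ∑ i ∈ range N, f (b + i)
      = N • ∑ y ∈ Ico a (a + L), f y := by
  rw [sum_comm]
  have h : ∀ i ∈ range N, ∑ b ∈ Ico (a - N + 1) (a + L), f (b + i) = ∑ y ∈ Ico a (a + L), f y := by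
    intro i hi
    have hi' : i < N := mem_range.1 hi
    have e1 : ∑ b ∈ Ico (a - N + 1) (a + L), f (b + i)
        = ∑ y ∈ Ico (a - N + 1 + i) (a + L + i), f y := by
      have := Finset.map_add_right_Ico (a - (N : ℤ) + 1) (a + (L : ℤ)) (i : ℤ)
      rw [← this, sum_map]
      rfl
    rw [e1]
    symm
    apply sum_subset
    · intro y hy
      rw [mem_Ico] at hy ⊢
      constructor
      · have := hy.1; omega
      · have := hy.2; omega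
    · intro y _ hy
      apply hf
      intro hc
      exact hy (mem_Ico.2 hc)
  rw [sum_congr rfl h, sum_const, card_range]

/-- Cauchy-Schwarz over the at most `L + N` offsets -/
theorem win_cs {E : Type*} [NormedAddCommGroup E] [NormedSpace ℝ E] (f : ℤ → E) (a : ℤ) (L N : ℕ)
    (hN : 0 < N) (hf : ∀ y, ¬ (a ≤ y ∧ y < a + L) → f y = 0) :
    (N : ℝ) ^ 2 * ‖∑ y ∈ Ico a (a + L), f y‖ ^ 2 ≤
      ((L : ℝ) + N) * ∑ b ∈ Ico (a - N + 1) (a + L), ‖∑ i ∈ range N, f (b + i)‖ ^ 2 := by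
  have h0 := win_avg f a L N hf
  have h1 : (N : ℝ) * ‖∑ y ∈ Ico a (a + L), f y‖
      ≤ ∑ b ∈ Ico (a - N + 1) (a + L), ‖∑ i ∈ range N, f (b + i)‖ := by
    have h2 : ‖N • ∑ y ∈ Ico a (a + L), f y‖ = (N : ℝ) * ‖∑ y ∈ Ico a (a + L), f y‖ := by
      rw [← Nat.cast_smul_eq_nsmul ℝ, norm_smul]
      simp
    rw [← h2, ← h0]
    exact norm_sum_le _ _
  have h3 : (∑ b ∈ Ico (a - N + 1) (a + L), ‖∑ i ∈ range N, f (b + i)‖) ^ 2 ≤
      ((Ico (a - (N : ℤ) + 1) (a + L)).card : ℝ) *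
        ∑ b ∈ Ico (a - N + 1) (a + L), ‖∑ i ∈ range N, f (b + i)‖ ^ 2 :=
    sq_sum_le_card_mul_sum_sq
  have h4 : ((Ico (a - (N : ℤ) + 1) (a + L)).card : ℝ) ≤ (L : ℝ) + N := by
    rw [Int.card_Ico]
    have : (a + (L : ℤ) - (a - (N : ℤ) + 1)).toNat ≤ L + N := by omega
    exact_mod_cast this
  have h5 : 0 ≤ ∑ b ∈ Ico (a - N + 1) (a + L), ‖∑ i ∈ range N, f (b + i)‖ ^ 2 :=
    sum_nonneg fun _ _ => sq_nonneg _
  calc (N : ℝ) ^ 2 * ‖∑ y ∈ Ico a (a + L), f y‖ ^ 2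
      = ((N : ℝ) * ‖∑ y ∈ Ico a (a + L), f y‖) ^ 2 := by ring
    _ ≤ (∑ b ∈ Ico (a - N + 1) (a + L), ‖∑ i ∈ range N, f (b + i)‖) ^ 2 := by
        apply pow_le_pow_left₀ (by positivity) h1
    _ ≤ _ := h3
    _ ≤ _ := mul_le_mul_of_nonneg_right h4 h5

/-- summed over an arbitrary finite set of pairs -/
theorem box_cs {E : Type*} [NormedAddCommGroup E] [NormedSpace ℝ E] {τ : Type*} (B : Finset τ)
    (f : τ → ℤ → E) (a : ℤ) (L N : ℕ)
    (hN : 0 < N) (hf : ∀ t ∈ B, ∀ y, ¬ (a ≤ y ∧ y < a + L) → f t y = 0) :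
    (N : ℝ) ^ 2 * ∑ t ∈ B, ‖∑ y ∈ Ico a (a + L), f t y‖ ^ 2 ≤
      ((L : ℝ) + N) * ∑ b ∈ Ico (a - N + 1) (a + L), ∑ t ∈ B, ‖∑ i ∈ range N, f t (b + i)‖ ^ 2 := by
  rw [sum_comm, mul_sum, mul_sum]
  exact sum_le_sum fun t ht => win_cs (f t) a L N hN (hf t ht)

/-- the body of `R244.e4` (first variable summed) -/
noncomputable def E4 (X : ℤ → ℤ → ℂ) (N : ℕ) (q p : ℤ) : ℝ :=
  (1 / (N : ℝ) ^ 4) * ∑ j ∈ range N, ∑ j' ∈ range N,
    ‖∑ i ∈ range N, X (q + (i : ℤ)) (p + (j : ℤ)) *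
      (starRingEnd ℂ) (X (q + (i : ℤ)) (p + (j' : ℤ)))‖ ^ 2

/-- the body of `Sgn.e4K` (labels at the summed variable) -/
noncomputable def E4K {κ : Type*} [Fintype κ] (X : ℤ → ℤ → κ → ℂ) (N : ℕ) (q p : ℤ) : ℝ :=
  (1 / (N : ℝ) ^ 4) * ∑ j ∈ range N, ∑ j' ∈ range N,
    ‖∑ i ∈ range N, ∑ k, X (q + (i : ℤ)) (p + (j : ℤ)) k *
      (starRingEnd ℂ) (X (q + (i : ℤ)) (p + (j' : ℤ)) k)‖ ^ 2

/-- **exit average, labelled**: top kernel (columns `y` in an interval of length `L`, top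
normalisation `1/L`) in the normalised Hilbert-Schmidt norm of an exit box of side `N`
`<=` `(L + N)/L` times the average over the columns of the exit `S_4` forms. -/
theorem exit_avg_lab {κ : Type*} [Fintype κ] (X : ℤ → ℤ → κ → ℂ) (a : ℤ) (L N : ℕ) (hL : 0 < L)
    (hN : 0 < N) (p : ℤ)
    (hX : ∀ y, ¬ (a ≤ y ∧ y < a + L) → ∀ j : ℕ, j < N → ∀ k, X y (p + (j : ℤ)) k = 0) :
    (1 / (N : ℝ) ^ 2) * ∑ j ∈ range N, ∑ j' ∈ range N,
        ‖(1 / (L : ℝ) : ℝ) • ∑ y ∈ Ico a (a + L), ∑ k, X y (p + (j : ℤ)) k *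
          (starRingEnd ℂ) (X y (p + (j' : ℤ)) k)‖ ^ 2 ≤
      (((L : ℝ) + N) / L) * ((1 / (L : ℝ)) * ∑ b ∈ Ico (a - N + 1) (a + L), E4K X N b p) := by
  have hL' : (0 : ℝ) < L := by exact_mod_cast hL
  have hN' : (0 : ℝ) < N := by exact_mod_cast hN
  have h := box_cs (range N ×ˢ range N)
    (fun t y => ∑ k, X y (p + (t.1 : ℤ)) k * (starRingEnd ℂ) (X y (p + (t.2 : ℤ)) k)) a L N hN
    (by
      intro t ht y hy
      refine sum_eq_zero fun k _ => ?_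
      rw [hX y hy t.1 (mem_range.1 (mem_product.1 ht).1) k, zero_mul])
  rw [sum_product] at h
  simp only [sum_product] at h
  have e1 : ∑ b ∈ Ico (a - N + 1) (a + L), E4K X N b p = (1 / (N : ℝ) ^ 4) *
      ∑ b ∈ Ico (a - (N : ℤ) + 1) (a + L), ∑ j ∈ range N, ∑ j' ∈ range N,
        ‖∑ i ∈ range N, ∑ k, X (b + (i : ℤ)) (p + (j : ℤ)) k *
          (starRingEnd ℂ) (X (b + (i : ℤ)) (p + (j' : ℤ)) k)‖ ^ 2 := by
    unfold E4K
    rw [mul_sum]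
  rw [e1]
  have e2 : ∀ j j' : ℕ, ‖(1 / (L : ℝ) : ℝ) • ∑ y ∈ Ico a (a + L), ∑ k, X y (p + (j : ℤ)) k *
          (starRingEnd ℂ) (X y (p + (j' : ℤ)) k)‖ ^ 2 = (1 / (L : ℝ)) ^ 2 *
        ‖∑ y ∈ Ico a (a + L), ∑ k, X y (p + (j : ℤ)) k *
          (starRingEnd ℂ) (X y (p + (j' : ℤ)) k)‖ ^ 2 := by
    intro j j'
    rw [norm_smul, mul_pow, Real.norm_eq_abs, sq_abs]
  simp only [e2, ← mul_sum]
  set A := ∑ j ∈ range N, ∑ j' ∈ range N, ‖∑ y ∈ Ico a (a + L), ∑ k, X y (p + (j : ℤ)) k *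
          (starRingEnd ℂ) (X y (p + (j' : ℤ)) k)‖ ^ 2 with hA
  set B := ∑ b ∈ Ico (a - (N : ℤ) + 1) (a + L), ∑ j ∈ range N, ∑ j' ∈ range N,
        ‖∑ i ∈ range N, ∑ k, X (b + (i : ℤ)) (p + (j : ℤ)) k *
          (starRingEnd ℂ) (X (b + (i : ℤ)) (p + (j' : ℤ)) k)‖ ^ 2 with hB
  have h' : (N : ℝ) ^ 2 * A ≤ ((L : ℝ) + N) * B := h
  have h6 : 1 / (N : ℝ) ^ 2 * ((1 / (L : ℝ)) ^ 2 * A)
      = (1 / ((N : ℝ) ^ 4 * L ^ 2)) * ((N : ℝ) ^ 2 * A) := by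
    field_simp
  have h7 : ((L : ℝ) + N) / L * (1 / L * (1 / (N : ℝ) ^ 4 * B))
      = (1 / ((N : ℝ) ^ 4 * L ^ 2)) * (((L : ℝ) + N) * B) := by
    field_simp
  rw [h6, h7]
  exact mul_le_mul_of_nonneg_left h' (by positivity)

/-- **exit average**, without labels -/
theorem exit_avg (X : ℤ → ℤ → ℂ) (a : ℤ) (L N : ℕ) (hL : 0 < L) (hN : 0 < N) (p : ℤ)
    (hX : ∀ y, ¬ (a ≤ y ∧ y < a + L) → ∀ j : ℕ, j < N → X y (p + (j : ℤ)) = 0) :
    (1 / (N : ℝ) ^ 2) * ∑ j ∈ range N, ∑ j' ∈ range N,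
        ‖(1 / (L : ℝ) : ℝ) • ∑ y ∈ Ico a (a + L), X y (p + (j : ℤ)) *
          (starRingEnd ℂ) (X y (p + (j' : ℤ)))‖ ^ 2 ≤
      (((L : ℝ) + N) / L) * ((1 / (L : ℝ)) * ∑ b ∈ Ico (a - N + 1) (a + L), E4 X N b p) := by
  have h := exit_avg_lab (κ := Unit) (fun y x _ => X y x) a L N hL hN p
    (fun y hy j hj _ => hX y hy j hj)
  simpa [E4K, E4] using h

/-- unnormalised rectangular `S_4` form: `M` rows (summed), `N` columns -/
noncomputable def S4 (X : ℤ → ℤ → ℂ) (M N : ℕ) (q p : ℤ) : ℝ :=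
  ∑ j ∈ range N, ∑ j' ∈ range N,
    ‖∑ i ∈ range M, X (q + (i : ℤ)) (p + (j : ℤ)) *
      (starRingEnd ℂ) (X (q + (i : ℤ)) (p + (j' : ℤ)))‖ ^ 2

theorem E4_eq (X : ℤ → ℤ → ℂ) (N : ℕ) (q p : ℤ) :
    E4 X N q p = (1 / (N : ℝ) ^ 4) * S4 X N N q p := rfl

theorem swap4 (s t : Finset ℕ) (F : ℕ → ℕ → ℕ → ℕ → ℂ) :
    ∑ j ∈ t, ∑ j' ∈ t, ∑ i ∈ s, ∑ i' ∈ s, F j j' i i' =
      ∑ i ∈ s, ∑ i' ∈ s, ∑ j ∈ t, ∑ j' ∈ t, F j j' i i' := by
  calc ∑ j ∈ t, ∑ j' ∈ t, ∑ i ∈ s, ∑ i' ∈ s, F j j' i i'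
      = ∑ j ∈ t, ∑ i ∈ s, ∑ j' ∈ t, ∑ i' ∈ s, F j j' i i' :=
        sum_congr rfl fun j _ => sum_comm
    _ = ∑ i ∈ s, ∑ j ∈ t, ∑ j' ∈ t, ∑ i' ∈ s, F j j' i i' := sum_comm
    _ = ∑ i ∈ s, ∑ j ∈ t, ∑ i' ∈ s, ∑ j' ∈ t, F j j' i i' :=
        sum_congr rfl fun i _ => sum_congr rfl fun j _ => sum_comm
    _ = ∑ i ∈ s, ∑ i' ∈ s, ∑ j ∈ t, ∑ j' ∈ t, F j j' i i' :=
        sum_congr rfl fun i _ => sum_comm

theorem S4_expand (s t : Finset ℕ) (u : ℕ → ℕ → ℂ) :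
    ((∑ j ∈ t, ∑ j' ∈ t, ‖∑ i ∈ s, u i j * (starRingEnd ℂ) (u i j')‖ ^ 2 : ℝ) : ℂ)
      = ∑ j ∈ t, ∑ j' ∈ t, ∑ i ∈ s, ∑ i' ∈ s,
          (u i j * (starRingEnd ℂ) (u i j')) *
            (starRingEnd ℂ) (u i' j * (starRingEnd ℂ) (u i' j')) := by
  push_cast
  refine sum_congr rfl fun j _ => sum_congr rfl fun j' _ => ?_
  rw [← Complex.mul_conj', map_sum, sum_mul_sum]

/-- `S_4` is symmetric in rows and columns -/
theorem S4_symm (X : ℤ → ℤ → ℂ) (M N : ℕ) (q p : ℤ) :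
    S4 X M N q p = S4 (fun x y => X y x) N M p q := by
  have h : ((S4 X M N q p : ℝ) : ℂ) = ((S4 (fun x y => X y x) N M p q : ℝ) : ℂ) := by
    unfold S4
    rw [S4_expand (range M) (range N) (fun i j => X (q + (i : ℤ)) (p + (j : ℤ))),
      S4_expand (range N) (range M) (fun i j => X (q + (j : ℤ)) (p + (i : ℤ))), swap4]
    refine sum_congr rfl fun i _ => sum_congr rfl fun i' _ => sum_congr rfl fun j _ =>
      sum_congr rfl fun j' _ => ?_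
    simp only [map_mul, Complex.conj_conj]
    ring
  exact_mod_cast h

theorem E4_symm (X : ℤ → ℤ → ℂ) (N : ℕ) (q p : ℤ) :
    E4 X N q p = E4 (fun x y => X y x) N p q := by
  rw [E4_eq, E4_eq, S4_symm]

/-- splitting the rows -/
theorem S4_rows (X : ℤ → ℤ → ℂ) (M M' N : ℕ) (q p : ℤ) :
    S4 X (M + M') N q p ≤ 2 * (S4 X M N q p + S4 X M' N (q + M) p) := by
  unfold S4
  rw [← sum_add_distrib, mul_sum]
  refine sum_le_sum fun j _ => ?_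
  rw [← sum_add_distrib, mul_sum]
  refine sum_le_sum fun j' _ => ?_
  rw [sum_range_add]
  have e : ∀ x : ℕ, X (q + ((M + x : ℕ) : ℤ)) (p + (j : ℤ)) *
      (starRingEnd ℂ) (X (q + ((M + x : ℕ) : ℤ)) (p + (j' : ℤ))) =
      X (q + (M : ℤ) + (x : ℤ)) (p + (j : ℤ)) *
      (starRingEnd ℂ) (X (q + (M : ℤ) + (x : ℤ)) (p + (j' : ℤ))) := by
    intro x
    have : q + ((M + x : ℕ) : ℤ) = q + (M : ℤ) + (x : ℤ) := by push_cast; ring
    rw [this]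
  simp only [e]
  set u := ∑ x ∈ range M, X (q + (x : ℤ)) (p + (j : ℤ)) *
    (starRingEnd ℂ) (X (q + (x : ℤ)) (p + (j' : ℤ))) with hu
  set v := ∑ x ∈ range M', X (q + (M : ℤ) + (x : ℤ)) (p + (j : ℤ)) *
    (starRingEnd ℂ) (X (q + (M : ℤ) + (x : ℤ)) (p + (j' : ℤ))) with hv
  have h1 : ‖u + v‖ ≤ ‖u‖ + ‖v‖ := norm_add_le _ _
  have h2 : ‖u + v‖ ^ 2 ≤ (‖u‖ + ‖v‖) ^ 2 := pow_le_pow_left₀ (norm_nonneg _) h1 2
  nlinarith [sq_nonneg (‖u‖ - ‖v‖)]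

/-- splitting the columns -/
theorem S4_cols (X : ℤ → ℤ → ℂ) (M N N' : ℕ) (q p : ℤ) :
    S4 X M (N + N') q p ≤ 2 * (S4 X M N q p + S4 X M N' q (p + N)) := by
  rw [S4_symm X M (N + N'), S4_symm X M N, S4_symm X M N']
  exact S4_rows _ _ _ _ _ _

/-- **sub-averaging** of the normalised `S_4` form over the four half boxes -/
theorem E4_sub (X : ℤ → ℤ → ℂ) (N : ℕ) (q p : ℤ) :
    E4 X (2 * N) q p ≤ (1 / 4) * (E4 X N q p + E4 X N (q + N) p + E4 X N q (p + N) +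
      E4 X N (q + N) (p + N)) := by
  rcases Nat.eq_zero_or_pos N with h0 | hN
  · subst h0
    simp [E4]
  have hN' : (0 : ℝ) < N := by exact_mod_cast hN
  simp only [E4_eq]
  rw [two_mul]
  have h1 := S4_rows X N N (N + N) q p
  have h2 := S4_cols X N N N q p
  have h3 := S4_cols X N N N (q + N) p
  have h4 : S4 X (N + N) (N + N) q p ≤ 4 * (S4 X N N q p + S4 X N N (q + N) p +
      S4 X N N q (p + N) + S4 X N N (q + N) (p + N)) := by linarith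
  have e1 : 1 / (((N + N : ℕ) : ℝ)) ^ 4 = (1 / 16) * (1 / (N : ℝ) ^ 4) := by
    push_cast
    field_simp
    ring
  rw [e1]
  have h5 := mul_le_mul_of_nonneg_left h4 (by positivity : (0 : ℝ) ≤ 1 / (N : ℝ) ^ 4)
  linarith

end Crest.Agent.R079.ExA999
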