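import Crest.Agent.R079.ExB_999
import Crest.Agent.R079.ClW_59

/-!
# R079, Step I: from dyadic cells (`ClW59.OpS`, e.g. `ClW59.G_op`) to `exit_cost_mul`

`OpS` with `r 2^n` on every ALIGNED cell `dI n a x dI n b` gives operator bound `2 r 2^n` on every box of
side `2^n` at an arbitrary position (four blocks), hence the exit cost with `s = 2 r`.
-/

open Finset
open scoped BigOperators ComplexConjugate

namespace Crest.Agent.R079.ExA999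

open Crest.Agent.R079.Grid Crest.Agent.R079.ClW59

theorem opS_mono {S S' T T' : Finset ℤ} {B : ℤ → ℤ → ℂ} {s : ℝ} (hT : T ⊆ S) (hT' : T' ⊆ S')
    (h : OpS S S' B s) : OpS T T' B s := by
  classical
  intro f
  have h1 := h (fun y => if y ∈ T' then f y else 0)
  have e1 : ∀ x, ∑ y ∈ S', B x y * (if y ∈ T' then f y else 0) = ∑ y ∈ T', B x y * f y := by
    intro x
    rw [← sum_subset hT']
    · exact sum_congr rfl fun y hy => by rw [if_pos hy]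
    · intro y _ hy
      rw [if_neg hy, mul_zero]
  have e2 : ∑ y ∈ S', ‖(if y ∈ T' then f y else 0 : ℂ)‖ ^ 2 = ∑ y ∈ T', ‖f y‖ ^ 2 := by
    rw [← sum_subset hT']
    · exact sum_congr rfl fun y hy => by rw [if_pos hy]
    · intro y _ hy
      rw [if_neg hy]; simp
  simp only [e1, e2] at h1
  exact (sum_le_sum_of_subset_of_nonneg hT fun _ _ _ => sq_nonneg _).trans h1

/-- four blocks -/
theorem opS_union {S1 S2 T1 T2 : Finset ℤ} {B : ℤ → ℤ → ℂ} {s : ℝ} (hT : Disjoint T1 T2)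
    (h11 : OpS S1 T1 B s) (h12 : OpS S1 T2 B s) (h21 : OpS S2 T1 B s) (h22 : OpS S2 T2 B s) :
    OpS (S1 ∪ S2) (T1 ∪ T2) B (2 * s) := by
  intro f
  have e : ∀ x, ‖∑ y ∈ T1 ∪ T2, B x y * f y‖ ^ 2 ≤
      2 * (‖∑ y ∈ T1, B x y * f y‖ ^ 2 + ‖∑ y ∈ T2, B x y * f y‖ ^ 2) := by
    intro x
    rw [sum_union hT]
    set u := ∑ y ∈ T1, B x y * f y
    set v := ∑ y ∈ T2, B x y * f y
    have h1 : ‖u + v‖ ≤ ‖u‖ + ‖v‖ := norm_add_le _ _
    have h2 : ‖u + v‖ ^ 2 ≤ (‖u‖ + ‖v‖) ^ 2 := pow_le_pow_left₀ (norm_nonneg _) h1 2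
    nlinarith [sq_nonneg (‖u‖ - ‖v‖)]
  have hS : ∀ g : ℤ → ℝ, (∀ x, 0 ≤ g x) → ∑ x ∈ S1 ∪ S2, g x ≤ ∑ x ∈ S1, g x + ∑ x ∈ S2, g x := by
    intro g hg
    rw [← sum_union_inter]
    have : 0 ≤ ∑ x ∈ S1 ∩ S2, g x := sum_nonneg fun x _ => hg x
    linarith
  have a1 := h11 f
  have a2 := h12 f
  have a3 := h21 f
  have a4 := h22 f
  rw [sum_union hT]
  calc ∑ x ∈ S1 ∪ S2, ‖∑ y ∈ T1 ∪ T2, B x y * f y‖ ^ 2
      ≤ ∑ x ∈ S1 ∪ S2, 2 * (‖∑ y ∈ T1, B x y * f y‖ ^ 2 + ‖∑ y ∈ T2, B x y * f y‖ ^ 2) :=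
        sum_le_sum fun x _ => e x
    _ ≤ ∑ x ∈ S1, 2 * (‖∑ y ∈ T1, B x y * f y‖ ^ 2 + ‖∑ y ∈ T2, B x y * f y‖ ^ 2) +
        ∑ x ∈ S2, 2 * (‖∑ y ∈ T1, B x y * f y‖ ^ 2 + ‖∑ y ∈ T2, B x y * f y‖ ^ 2) :=
        hS _ fun x => by positivity
    _ = 2 * (∑ x ∈ S1, ‖∑ y ∈ T1, B x y * f y‖ ^ 2 + ∑ x ∈ S1, ‖∑ y ∈ T2, B x y * f y‖ ^ 2) +
        2 * (∑ x ∈ S2, ‖∑ y ∈ T1, B x y * f y‖ ^ 2 + ∑ x ∈ S2, ‖∑ y ∈ T2, B x y * f y‖ ^ 2) := by
        rw [← mul_sum, ← mul_sum, sum_add_distrib, sum_add_distrib]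
    _ ≤ (2 * s) ^ 2 * (∑ y ∈ T1, ‖f y‖ ^ 2 + ∑ y ∈ T2, ‖f y‖ ^ 2) := by nlinarith

/-- a box of side `2^n` at an arbitrary position -/
theorem opS_box {B : ℤ → ℤ → ℂ} {s : ℝ} {n : ℕ} (h : ∀ a b, OpS (dI n a) (dI n b) B s) (q p : ℤ) :
    OpS (Ico q (q + 2 ^ n)) (Ico p (p + 2 ^ n)) B (2 * s) := by
  have hsub : ∀ q : ℤ, Ico q (q + 2 ^ n) ⊆ dI n (q / 2 ^ n) ∪ dI n (q / 2 ^ n + 1) := by
    intro q y hy
    rw [mem_Ico] at hy
    have hpos : (0 : ℤ) < 2 ^ n := by positivity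
    have h1 := Int.emod_add_mul_ediv q (2 ^ n)
    have h2 := Int.emod_nonneg q (ne_of_gt hpos)
    have h3 := Int.emod_lt_of_pos q hpos
    unfold dI
    rw [mem_union, mem_Ico, mem_Ico]
    by_cases hc : y < (q / 2 ^ n + 1) * 2 ^ n
    · left
      constructor
      · nlinarith [hy.1]
      · exact hc
    · right
      constructor
      · exact not_lt.1 hc
      · nlinarith [hy.2]
  have hdis : Disjoint (dI n (p / 2 ^ n)) (dI n (p / 2 ^ n + 1)) := by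
    unfold dI
    rw [Finset.disjoint_left]
    intro y hy hy'
    rw [mem_Ico] at hy hy'
    linarith [hy.2, hy'.1]
  exact opS_mono (hsub q) (hsub p) (opS_union hdis (h _ _) (h _ _) (h _ _) (h _ _))

/-- bridge to `OpB` (rows `y`, columns `x`) -/
theorem opB_of_opS {B : ℤ → ℤ → ℂ} {s : ℝ} {M N : ℕ} {q p : ℤ}
    (h : OpS (Ico p (p + N)) (Ico q (q + M)) B s) : OpB (fun y x => B x y) M N q p s := by
  have hI : ∀ (c : ℤ) (K : ℕ) (E : Type) (_ : AddCommMonoid E) (g : ℤ → E),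
      ∑ y ∈ Ico c (c + K), g y = ∑ i ∈ range K, g (c + (i : ℤ)) := by
    intro c K E _ g
    symm
    apply sum_bij (fun (i : ℕ) _ => c + (i : ℤ))
    · intro i hi
      rw [mem_range] at hi
      rw [mem_Ico]
      constructor <;> omega
    · intro i _ j _ hij
      have : (i : ℤ) = j := by linarith
      exact_mod_cast this
    · intro y hy
      rw [mem_Ico] at hy
      refine ⟨(y - c).toNat, ?_, ?_⟩
      · rw [mem_range]; omega
      · have := Int.toNat_of_nonneg (by omega : 0 ≤ y - c)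
        rw [this]; ring
    · intro i _; rfl
  intro f
  have h1 := h (fun y => f (y - q).toNat)
  simp only [hI] at h1
  have e : ∀ i : ℕ, (q + (i : ℤ) - q).toNat = i := by
    intro i
    have : q + (i : ℤ) - q = i := by ring
    rw [this, Int.toNat_natCast]
  simp only [e] at h1
  exact h1

/-- **exit cost from dyadic cells**: `OpS` with `r 2^n` on every aligned cell of side `N = 2^n` -/
theorem exit_cost_cells (B : ℤ → ℤ → ℂ) (n : ℕ) (r c : ℝ)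
    (h : ∀ a b, OpS (dI n a) (dI n b) B (r * 2 ^ n)) (a : ℤ) (L : ℕ) (hNL : 2 ^ n ≤ L) (p : ℤ)
    (hB : ∀ y, ¬ (a ≤ y ∧ y < a + L) → ∀ x, B x y = 0) :
    (1 / ((2 : ℝ) ^ n) ^ 2) * ∑ j ∈ range (2 ^ n), ∑ j' ∈ range (2 ^ n),
        ‖(c * (1 / (L : ℝ)) : ℝ) • ∑ y ∈ Ico a (a + L), B (p + (j : ℤ)) y *
          (starRingEnd ℂ) (B (p + (j' : ℤ)) y)‖ ^ 2 ≤
      8 * (c * r) ^ 2 * ((1 / ((L : ℝ) * 2 ^ n)) *
        ∑ y ∈ Ico a (a + L), ∑ j ∈ range (2 ^ n), ‖B (p + (j : ℤ)) y‖ ^ 2) := by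
  have hN : 0 < 2 ^ n := by positivity
  have hL : 0 < L := lt_of_lt_of_le hN hNL
  have h0 := exit_cost_mul (fun y x => B x y) a L (2 ^ n) hL hN hNL p
    (fun y hy j _ => hB y hy _) (2 * r) c (by
      intro b _
      have h1 := opS_box h p b
      have h2 : OpS (Ico p (p + ((2 ^ n : ℕ) : ℤ))) (Ico b (b + ((2 ^ n : ℕ) : ℤ))) B
          (2 * r * ((2 ^ n : ℕ) : ℝ)) := by
        have e1 : ((2 ^ n : ℕ) : ℤ) = 2 ^ n := by push_cast; rfl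
        have e2 : 2 * r * ((2 ^ n : ℕ) : ℝ) = 2 * (r * 2 ^ n) := by push_cast; ring
        rw [e1, e2]
        exact h1
      exact opB_of_opS h2)
  have e3 : ((2 ^ n : ℕ) : ℝ) = 2 ^ n := by push_cast; rfl
  rw [e3] at h0
  refine h0.trans (le_of_eq ?_)
  ring

end Crest.Agent.R079.ExA999
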