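import Crest.Agent.R079.Tri24_815
import Crest.Agent.R079.E4_815

/-! R079, AL4 part A (helper118): `Tri24` on `ZMod Q` implies the statement `TriG` on `ℤ` with
arbitrary budgets, a frozen offset `w`, and is invariant under cyclic rotation. -/

set_option autoImplicit false
set_option linter.unusedVariables false

namespace Crest.Agent.R079.F24

open Finset Crest.Agent.R079.Grid Crest.Agent.R079.Pot Crest.Agent.R079.Glue Crest.Agent.R079.R244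

/-- budgets -/
abbrev Bud := (ℤ → ℤ → ℝ) → ℕ → ℤ → ℤ → ℝ

/-- nonnegative, translation invariant -/
structure GoodB (g : Bud) : Prop where
  nn : ∀ A N q p, 0 ≤ g A N q p
  sr : ∀ (B : ℤ → ℤ → ℝ) (N : ℕ) (w q p : ℤ), g (fun x y => B x (y - w)) N q (p + w) = g B N q p
  sl : ∀ (B : ℤ → ℤ → ℝ) (N : ℕ) (w q p : ℤ), g (fun x y => B (x - w) y) N (q + w) p = g B N q p

/-- the `ZMod Q` budget is dominated -/
def DomB (gQ : ∀ (Q : ℕ) [NeZero Q], (ZMod Q → ZMod Q → ℝ) → ℕ → ZMod Q → ZMod Q → ℝ) (g : Bud) :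
    Prop :=
  ∀ (Q : ℕ) [NeZero Q] (A : ℤ → ℤ → ℝ) (L N : ℕ),
    (∀ x y, ((L : ℤ) < |x| ∨ (L : ℤ) < |y|) → A x y = 0) → 2 * (L + N) < Q →
    ∀ q p : ZMod Q, gQ Q (em Q A) N q p ≤ g A N q.valMinAbs p.valMinAbs

noncomputable def g2Z (s h : ℝ) : Bud := fun X N q p => s * (bxZ X N q p + h * bxZ X N q p ^ 2)

noncomputable def g4Z (s : ℝ) : Bud := fun X N q p => s * bxZ X N q p + s⁻¹ * e4Z X N q p

open Classical in
noncomputable def VgZ (g1 g2 g3 : Bud) (L : ℕ) (w : ℤ) (A B C A' B' C' : ℤ → ℤ → ℝ) (N : ℕ) : ℝ :=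
  (1 / (N : ℝ)) * ∑ i ∈ range N, ∑ p0 ∈ Icc (-(L : ℤ)) L, ∑ p1 ∈ Icc (-(L : ℤ)) L,
    if SeesZ A A' N p0 p1 ∨ SeesZ B B' N p1 (tc N i w p0 p1) ∨ SeesZ C C' N (tc N i w p0 p1) p0 then
      g1 A N p0 p1 + g2 B N p1 (tc N i w p0 p1) + g3 C N (tc N i w p0 p1) p0
    else 0

open Classical in
noncomputable def EgZ (g : Bud) (L : ℕ) (A A' : ℤ → ℤ → ℝ) (N : ℕ) : ℝ :=
  ∑ q ∈ Icc (-(L : ℤ)) L, ∑ p ∈ Icc (-(L : ℤ)) L,
    if SeesZ A A' N q p then g A N q p else 0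

/-- triangle statement on `ℤ` with budgets -/
def TriG (c : ℝ) (κ : ℕ) (g1 g2 g3 : Bud) : Prop :=
  ∀ l : ℤ, |l| ≤ 7 → ∀ (w : ℤ) (A B C : ℕ → ℤ → ℤ → ℝ) (L : ℕ),
    (∀ m x y, ((L : ℤ) < |x| ∨ (L : ℤ) < |y|) → A m x y = 0) →
    (∀ m x y, ((L : ℤ) < |x| ∨ (L : ℤ) < |y|) → B m x y = 0) →
    (∀ m x y, ((L : ℤ) < |x| ∨ (L : ℤ) < |y|) → C m x y = 0) →
    A 0 = 0 → B 0 = 0 → C 0 = 0 → ∀ M L1 : ℕ, ∃ L' : ℕ,
    ∑ m ∈ range M, (1 / (2 : ℝ) ^ m) * ∑ i ∈ range (2 ^ m), ∑ p0 ∈ Icc (-(L1 : ℤ)) L1,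
      ∑ p1 ∈ Icc (-(L1 : ℤ)) L1,
      |Lb3r (A (m + 1)) (B (m + 1)) (C (m + 1)) (2 ^ m) p0 p1
        (l * 2 ^ m + (i : ℤ) - w - p0 - p1)| ≤
    c * ∑ m ∈ range M,
      (VgZ g1 g2 g3 L' w (A (m + 1)) (B (m + 1)) (C (m + 1)) (A m) (B m) (C m) (2 ^ m) +
        ∑ s ∈ range κ, (EgZ g1 L' (A (m + 1)) (A m) (2 ^ (m + s)) +
          EgZ g2 L' (B (m + 1)) (B m) (2 ^ (m + s)) + EgZ g3 L' (C (m + 1)) (C m) (2 ^ (m + s))))

section basic

lemma e4Z_shift_right (B : ℤ → ℤ → ℝ) (N : ℕ) (w q p : ℤ) :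
    e4Z (fun x y => B x (y - w)) N q (p + w) = e4Z B N q p := by
  unfold e4Z
  congr 1
  refine Finset.sum_congr rfl fun j _ => Finset.sum_congr rfl fun j' _ => ?_
  congr 1
  refine Finset.sum_congr rfl fun i _ => ?_
  simp only
  rw [show p + w + (j : ℤ) - w = p + (j : ℤ) by ring, show p + w + (j' : ℤ) - w = p + (j' : ℤ) by ring]

lemma e4Z_shift_left (B : ℤ → ℤ → ℝ) (N : ℕ) (w q p : ℤ) :
    e4Z (fun x y => B (x - w) y) N (q + w) p = e4Z B N q p := by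
  unfold e4Z
  congr 1
  refine Finset.sum_congr rfl fun j _ => Finset.sum_congr rfl fun j' _ => ?_
  congr 1
  refine Finset.sum_congr rfl fun i _ => ?_
  simp only
  rw [show q + w + (i : ℤ) - w = q + (i : ℤ) by ring]

lemma good2 {s h : ℝ} (hs : 0 ≤ s) (hh : 0 ≤ h) : GoodB (g2Z s h) where
  nn A N q p := by
    unfold g2Z
    have := bxZ_nonneg A N q p
    positivity
  sr B N w q p := by
    unfold g2Z
    rw [bxZ_shift_right]
  sl B N w q p := by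
    unfold g2Z
    rw [bxZ_shift_left]

lemma good4 {s : ℝ} (hs : 0 ≤ s) : GoodB (g4Z s) where
  nn A N q p := by
    unfold g4Z
    have := bxZ_nonneg A N q p
    have := e4Z_nonneg A N q p
    positivity
  sr B N w q p := by
    unfold g4Z
    rw [bxZ_shift_right, e4Z_shift_right]
  sl B N w q p := by
    unfold g4Z
    rw [bxZ_shift_left, e4Z_shift_left]

lemma dom2 (s h : ℝ) : DomB (fun Q _ => g2 s h) (g2Z s h) := by
  intro Q _ A L N hA hQ q p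
  show g2 s h (em Q A) N q p ≤ _
  unfold g2 g2Z
  rw [bx_em A L N hA hQ]

lemma dom4 (s : ℝ) : DomB (fun Q _ => g4 s) (g4Z s) := by
  intro Q _ A L N hA hQ q p
  show g4 s (em Q A) N q p ≤ _
  unfold g4 g4Z
  rw [bx_em A L N hA hQ, e4r_em A L N hA hQ]

end basic

/-- own potentials: `ZMod Q → ℤ` -/
lemma E24_em_le {Q : ℕ} [NeZero Q]
    {gQ : ∀ (Q : ℕ) [NeZero Q], (ZMod Q → ZMod Q → ℝ) → ℕ → ZMod Q → ZMod Q → ℝ} {g : Bud}
    (hg : GoodB g) (hd : DomB gQ g) (A A' : ℤ → ℤ → ℝ) (L N : ℕ)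
    (hA : ∀ x y, ((L : ℤ) < |x| ∨ (L : ℤ) < |y|) → A x y = 0)
    (hA' : ∀ x y, ((L : ℤ) < |x| ∨ (L : ℤ) < |y|) → A' x y = 0) (hQ : 2 * (L + N) < Q) :
    E24 (gQ Q) (em Q A) (em Q A') N ≤ EgZ g Q A A' N := by
  classical
  unfold E24 EgZ
  have h0 : ∀ q p, (0 : ℝ) ≤ if SeesZ A A' N q p then g A N q p else 0 := by
    intro q p
    split_ifs
    · exact hg.nn _ _ _ _
    · exact le_rfl
  refine sum_zmod_le _ (fun q => ∑ p ∈ Icc (-(Q : ℤ)) Q,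
    if SeesZ A A' N q p then g A N q p else 0) (fun q => Finset.sum_nonneg fun p _ => h0 q p) ?_
  intro q
  refine sum_zmod_le _ (fun p => if SeesZ A A' N q.valMinAbs p then
      g A N q.valMinAbs p else 0) (h0 _) ?_
  intro p
  by_cases h : Sees (em Q A) (em Q A') N q p
  · rw [if_pos h, if_pos (sees_em A A' L N hA hA' hQ q p h).1]
    exact hd Q A L N hA hQ q p
  · rw [if_neg h]
    exact h0 _ _

lemma EgZ_mono {g : Bud} (hg : GoodB g) (A A' : ℤ → ℤ → ℝ) (N Q Q' : ℕ) (hQ : Q ≤ Q') :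
    EgZ g Q A A' N ≤ EgZ g Q' A A' N := by
  classical
  unfold EgZ
  have h0 : ∀ q p, (0 : ℝ) ≤ if SeesZ A A' N q p then g A N q p else 0 := by
    intro q p
    split_ifs
    · exact hg.nn _ _ _ _
    · exact le_rfl
  refine (Finset.sum_le_sum fun q _ => sum_Icc_mono _ (h0 q) Q Q' hQ).trans ?_
  exact sum_Icc_mono _ (fun q => Finset.sum_nonneg fun p _ => h0 q p) Q Q' hQ

lemma EgZ_shift_right {g : Bud} (hg : GoodB g) (A A' : ℤ → ℤ → ℝ) (N Q : ℕ) (w : ℤ) :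
    EgZ g Q (fun x y => A x (y - w)) (fun x y => A' x (y - w)) N ≤
      EgZ g (Q + w.natAbs) A A' N := by
  classical
  unfold EgZ
  have h0 : ∀ q p, (0 : ℝ) ≤ if SeesZ A A' N q p then g A N q p else 0 := by
    intro q p
    split_ifs
    · exact hg.nn _ _ _ _
    · exact le_rfl
  have h1 : ∀ q, ∑ p ∈ Icc (-(Q : ℤ)) Q, (if SeesZ (fun x y => A x (y - w))
      (fun x y => A' x (y - w)) N q p then g (fun x y => A x (y - w)) N q p else 0) ≤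
      ∑ p ∈ Icc (-((Q + w.natAbs : ℕ) : ℤ)) ((Q + w.natAbs : ℕ) : ℤ),
        if SeesZ A A' N q p then g A N q p else 0 := by
    intro q
    refine le_trans (le_of_eq ?_) (sum_Icc_shift_le _ (h0 q) w Q)
    refine Finset.sum_congr rfl fun p _ => ?_
    have e1 := SeesZ_shift_right A A' N w q (p - w)
    have e2 := hg.sr A N w q (p - w)
    rw [sub_add_cancel] at e1 e2
    rw [e2]
    exact if_congr e1 rfl rfl
  refine (Finset.sum_le_sum fun q _ => h1 q).trans ?_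
  exact sum_Icc_mono _ (fun q => Finset.sum_nonneg fun p _ => h0 q p) Q _ (Nat.le_add_right _ _)

lemma EgZ_shift_left {g : Bud} (hg : GoodB g) (A A' : ℤ → ℤ → ℝ) (N Q : ℕ) (w : ℤ) :
    EgZ g Q (fun x y => A (x - w) y) (fun x y => A' (x - w) y) N ≤
      EgZ g (Q + w.natAbs) A A' N := by
  classical
  unfold EgZ
  have h0 : ∀ q p, (0 : ℝ) ≤ if SeesZ A A' N q p then g A N q p else 0 := by
    intro q p
    split_ifs
    · exact hg.nn _ _ _ _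
    · exact le_rfl
  have h2 : ∀ q : ℤ, 0 ≤ ∑ p ∈ Icc (-((Q + w.natAbs : ℕ) : ℤ)) ((Q + w.natAbs : ℕ) : ℤ),
      (if SeesZ A A' N q p then g A N q p else 0) :=
    fun q => Finset.sum_nonneg fun p _ => h0 q p
  refine le_trans (Finset.sum_le_sum fun q _ => ?_) (sum_Icc_shift_le _ h2 w Q)
  have e : ∀ p ∈ Icc (-(Q : ℤ)) Q, (if SeesZ (fun x y => A (x - w) y)
      (fun x y => A' (x - w) y) N q p then g (fun x y => A (x - w) y) N q p else 0) =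
      if SeesZ A A' N (q - w) p then g A N (q - w) p else 0 := by
    intro p _
    have e1 := SeesZ_shift_left A A' N w (q - w) p
    have e2 := hg.sl A N w (q - w) p
    rw [sub_add_cancel] at e1 e2
    rw [e2]
    exact if_congr e1 rfl rfl
  rw [Finset.sum_congr rfl e]
  exact sum_Icc_mono _ (h0 _) Q _ (Nat.le_add_right _ _)

lemma Vnn {g1 g2 g3 : Bud} (h1 : GoodB g1) (h2 : GoodB g2) (h3 : GoodB g3)
    (A B C : ℤ → ℤ → ℝ) (N : ℕ) (p0 p1 p2 : ℤ) (P : Prop) [Decidable P] :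
    (0 : ℝ) ≤ if P then g1 A N p0 p1 + g2 B N p1 p2 + g3 C N p2 p0 else 0 := by
  split_ifs
  · have a1 := h1.nn A N p0 p1
    have a2 := h2.nn B N p1 p2
    have a3 := h3.nn C N p2 p0
    linarith
  · exact le_rfl

/-- joint potentials: `ZMod Q → ℤ` -/
lemma V24_em_le {Q : ℕ} [NeZero Q] (s t : ℝ) (hs : 0 ≤ s) (hh : 0 ≤ t)
    (w : ℤ) (A B C A' B' C' : ℤ → ℤ → ℝ) (L N : ℕ)
    (hA : ∀ x y, ((L : ℤ) < |x| ∨ (L : ℤ) < |y|) → A x y = 0)
    (hA' : ∀ x y, ((L : ℤ) < |x| ∨ (L : ℤ) < |y|) → A' x y = 0)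
    (hB : ∀ x y, ((L : ℤ) < |x| ∨ (L : ℤ) < |y|) → B x (y - w) = 0)
    (hB' : ∀ x y, ((L : ℤ) < |x| ∨ (L : ℤ) < |y|) → B' x (y - w) = 0)
    (hC : ∀ x y, ((L : ℤ) < |x| ∨ (L : ℤ) < |y|) → C (x - w) y = 0)
    (hC' : ∀ x y, ((L : ℤ) < |x| ∨ (L : ℤ) < |y|) → C' (x - w) y = 0)
    (hQ : 2 * (4 * L + 14 * N) < Q) :
    V24 s t (em Q A) (em Q (fun x y => B x (y - w))) (em Q (fun x y => C (x - w) y))
      (em Q A') (em Q (fun x y => B' x (y - w))) (em Q (fun x y => C' (x - w) y)) N ≤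
      VgZ (g2Z s t) (g4Z s) (g4Z s) Q w A B C A' B' C' N := by
  classical
  set B1 : ℤ → ℤ → ℝ := fun x y => B x (y - w) with hB1
  set B1' : ℤ → ℤ → ℝ := fun x y => B' x (y - w) with hB1'
  set C1 : ℤ → ℤ → ℝ := fun x y => C (x - w) y with hC1
  set C1' : ℤ → ℤ → ℝ := fun x y => C' (x - w) y with hC1'
  have G2 := good2 hs hh
  have G4 := good4 hs
  unfold V24 VgZ
  refine mul_le_mul_of_nonneg_left ?_ (by positivity)
  refine Finset.sum_le_sum fun i hi => ?_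
  rw [Finset.mem_range] at hi
  have hnn : ∀ p0 p1 : ℤ, (0 : ℝ) ≤ if SeesZ A A' N p0 p1 ∨ SeesZ B B' N p1 (tc N i w p0 p1) ∨
      SeesZ C C' N (tc N i w p0 p1) p0 then
      g2Z s t A N p0 p1 + g4Z s B N p1 (tc N i w p0 p1) +
      g4Z s C N (tc N i w p0 p1) p0 else 0 := by
    intro p0 p1
    exact Vnn G2 G4 G4 A B C N p0 p1 _ _
  refine sum_zmod_le _ (fun p0 => ∑ p1 ∈ Icc (-(Q : ℤ)) Q,
    if SeesZ A A' N p0 p1 ∨ SeesZ B B' N p1 (tc N i w p0 p1) ∨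
      SeesZ C C' N (tc N i w p0 p1) p0 then
      g2Z s t A N p0 p1 + g4Z s B N p1 (tc N i w p0 p1) +
      g4Z s C N (tc N i w p0 p1) p0 else 0)
    (fun p0 => Finset.sum_nonneg fun p1 _ => hnn p0 p1) fun p0 => ?_
  refine sum_zmod_le _ (fun p1 => if SeesZ A A' N p0.valMinAbs p1 ∨
      SeesZ B B' N p1 (tc N i w p0.valMinAbs p1) ∨
      SeesZ C C' N (tc N i w p0.valMinAbs p1) p0.valMinAbs then
      g2Z s t A N p0.valMinAbs p1 + g4Z s B N p1 (tc N i w p0.valMinAbs p1) +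
      g4Z s C N (tc N i w p0.valMinAbs p1) p0.valMinAbs else 0)
    (fun p1 => hnn p0.valMinAbs p1) fun p1 => ?_
  set p2 : ZMod Q := -(2 * (N : ZMod Q)) + (i : ZMod Q) - p0 - p1 with hp2
  by_cases h : Sees (em Q A) (em Q A') N p0 p1 ∨ Sees (em Q B1) (em Q B1') N p1 p2 ∨
      Sees (em Q C1) (em Q C1') N p2 p0
  swap
  · rw [if_neg h]
    exact hnn _ _
  rw [if_pos h]
  have hQ1 : 2 * (L + N) < Q := by omega
  have hi' : (i : ℤ) < N := by exact_mod_cast hi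
  have hi0 : (0 : ℤ) ≤ i := by positivity
  have hQz : (2 * (4 * L + 14 * N) : ℤ) < Q := by exact_mod_cast hQ
  have hN0 : (0 : ℤ) ≤ N := by positivity
  have hL0 : (0 : ℤ) ≤ L := by positivity
  -- all three representatives
  have hsmall : |p0.valMinAbs| ≤ 2 * L + 5 * N ∧ |p1.valMinAbs| ≤ 2 * L + 5 * N := by
    rcases h with h | h | h
    · obtain ⟨_, b1, b2⟩ := sees_em A A' L N hA hA' hQ1 p0 p1 h
      constructor <;> linarith
    · obtain ⟨_, b1, b2⟩ := sees_em B1 B1' L N hB hB' hQ1 p1 p2 h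
      refine ⟨?_, by linarith⟩
      have e : p0 = ((-(2 * (N : ℤ)) + (i : ℤ) - p1.valMinAbs - p2.valMinAbs : ℤ) : ZMod Q) := by
        push_cast
        rw [hp2]
        ring
      rw [abs_le] at b1 b2
      have hb : |(-(2 * (N : ℤ)) + (i : ℤ) - p1.valMinAbs - p2.valMinAbs)| ≤ 2 * L + 5 * N := by
        rw [abs_le]; constructor <;> linarith [b1.1, b1.2, b2.1, b2.2]
      rw [e, Crest.Agent.R072.LatticeInt.vma _ (by linarith)]
      exact hb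
    · obtain ⟨_, b1, b2⟩ := sees_em C1 C1' L N hC hC' hQ1 p2 p0 h
      refine ⟨by linarith, ?_⟩
      have e : p1 = ((-(2 * (N : ℤ)) + (i : ℤ) - p2.valMinAbs - p0.valMinAbs : ℤ) : ZMod Q) := by
        push_cast
        rw [hp2]
        ring
      rw [abs_le] at b1 b2
      have hb : |(-(2 * (N : ℤ)) + (i : ℤ) - p2.valMinAbs - p0.valMinAbs)| ≤ 2 * L + 5 * N := by
        rw [abs_le]; constructor <;> linarith [b1.1, b1.2, b2.1, b2.2]
      rw [e, Crest.Agent.R072.LatticeInt.vma _ (by linarith)]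
      exact hb
  have hp2v : p2.valMinAbs = tc N i w p0.valMinAbs p1.valMinAbs + w := by
    have e : p2 = ((-(2 * (N : ℤ)) + (i : ℤ) - p0.valMinAbs - p1.valMinAbs : ℤ) : ZMod Q) := by
      push_cast
      rw [hp2]
    have h1 := abs_le.mp hsmall.1
    have h2 := abs_le.mp hsmall.2
    have hb : |(-(2 * (N : ℤ)) + (i : ℤ) - p0.valMinAbs - p1.valMinAbs)| ≤ 4 * L + 13 * N := by
      rw [abs_le]; constructor <;> linarith [h1.1, h1.2, h2.1, h2.2]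
    rw [e, Crest.Agent.R072.LatticeInt.vma _ (by linarith)]
    unfold tc
    ring
  have hbB : g4 s (em Q B1) N p1 p2 ≤ g4Z s B N p1.valMinAbs (tc N i w p0.valMinAbs p1.valMinAbs) := by
    have := dom4 s Q B1 L N hB hQ1 p1 p2
    rw [hp2v] at this
    rwa [hB1, G4.sr] at this
  have hbC : g4 s (em Q C1) N p2 p0 ≤ g4Z s C N (tc N i w p0.valMinAbs p1.valMinAbs) p0.valMinAbs := by
    have := dom4 s Q C1 L N hC hQ1 p2 p0
    rw [hp2v] at this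
    rwa [hC1, G4.sl] at this
  have hbA : g2 s t (em Q A) N p0 p1 ≤ g2Z s t A N p0.valMinAbs p1.valMinAbs :=
    dom2 s t Q A L N hA hQ1 p0 p1
  rw [if_pos]
  · exact add_le_add (add_le_add hbA hbB) hbC
  · rcases h with h | h | h
    · exact Or.inl (sees_em A A' L N hA hA' hQ1 p0 p1 h).1
    · refine Or.inr (Or.inl ?_)
      have := (sees_em B1 B1' L N hB hB' hQ1 p1 p2 h).1
      rw [hp2v] at this
      exact (SeesZ_shift_right B B' N w _ _).mp this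
    · refine Or.inr (Or.inr ?_)
      have := (sees_em C1 C1' L N hC hC' hQ1 p2 p0 h).1
      rw [hp2v] at this
      exact (SeesZ_shift_left C C' N w _ _).mp this

lemma VgZ_mono {g1 g2 g3 : Bud} (h1 : GoodB g1) (h2 : GoodB g2) (h3 : GoodB g3)
    (w : ℤ) (A B C A' B' C' : ℤ → ℤ → ℝ) (N Q Q' : ℕ) (hQ : Q ≤ Q') :
    VgZ g1 g2 g3 Q w A B C A' B' C' N ≤ VgZ g1 g2 g3 Q' w A B C A' B' C' N := by
  classical
  unfold VgZ
  refine mul_le_mul_of_nonneg_left ?_ (by positivity)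
  refine Finset.sum_le_sum fun i hi => ?_
  have hnn : ∀ p0 p1 : ℤ, (0 : ℝ) ≤ if SeesZ A A' N p0 p1 ∨ SeesZ B B' N p1 (tc N i w p0 p1) ∨
      SeesZ C C' N (tc N i w p0 p1) p0 then
      g1 A N p0 p1 + g2 B N p1 (tc N i w p0 p1) + g3 C N (tc N i w p0 p1) p0 else 0 :=
    fun p0 p1 => Vnn h1 h2 h3 A B C N p0 p1 _ _
  refine (Finset.sum_le_sum fun p0 _ => sum_Icc_mono _ (hnn p0) Q Q' hQ).trans ?_
  exact sum_Icc_mono _ (fun q => Finset.sum_nonneg fun p _ => hnn q p) Q Q' hQ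

/-- **`Tri24 → TriG`** -/
theorem triG_base : ∃ K : ℝ, 0 ≤ K ∧ ∃ κ : ℕ, ∀ s : ℝ, 0 < s → s ≤ 1 → ∀ H : ℝ, 1 ≤ H →
    TriG (K * (1 + Real.log (H / s))) κ (g2Z s (H ^ 2)⁻¹) (g4Z s) (g4Z s) := by
  obtain ⟨K, hK, κ, h⟩ := tri24
  refine ⟨K, hK, κ, ?_⟩
  intro s hs hs1 H hH l hl w A B C L hA hB hC hA0 hB0 hC0 M L1
  have hh0 : (0 : ℝ) ≤ (H ^ 2)⁻¹ := by positivity
  have hlog : 0 ≤ Real.log (H / s) := Real.log_nonneg (by rw [le_div_iff₀ hs]; linarith)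
  set L2 : ℕ := L + w.natAbs with hL2
  set Q : ℕ := 2 * (100 * (L2 + L1 + 2 ^ (M + κ))) + 1 with hQdef
  have hne : NeZero Q := ⟨by omega⟩
  have hw1 := le_abs_self w
  have hw2 := neg_abs_le w
  have hL2z : (L2 : ℤ) = L + |w| := by rw [hL2]; push_cast; rfl
  -- supports of the translated functions
  have sA : ∀ m x y, ((L2 : ℤ) < |x| ∨ (L2 : ℤ) < |y|) → A m x y = 0 := by
    intro m x y hxy
    have hw0 := abs_nonneg w
    exact hA m x y (hxy.imp (fun h => by linarith) fun h => by linarith)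
  have sB : ∀ m x y, ((L2 : ℤ) < |x| ∨ (L2 : ℤ) < |y|) → B m x (y - w) = 0 := by
    intro m x y hxy
    have hw0 := abs_nonneg w
    have h3 : |y| ≤ |y - w| + |w| := by
      have := abs_add_le (y - w) w
      rwa [sub_add_cancel] at this
    exact hB m x _ (hxy.imp (fun h => by linarith) fun h => by linarith)
  have sC : ∀ m x y, ((L2 : ℤ) < |x| ∨ (L2 : ℤ) < |y|) → C m (x - w) y = 0 := by
    intro m x y hxy
    have hw0 := abs_nonneg w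
    have h3 : |x| ≤ |x - w| + |w| := by
      have := abs_add_le (x - w) w
      rwa [sub_add_cancel] at this
    exact hC m _ y (hxy.imp (fun h => by linarith) fun h => by linarith)
  have hmain := h s hs hs1 H hH l hl Q (fun m => em Q (A m)) (fun m => em Q (fun x y => B m x (y - w)))
    (fun m => em Q (fun x y => C m (x - w) y))
    (by funext x y; simp [Glue.em, hA0]) (by funext x y; simp [Glue.em, hB0])
    (by funext x y; simp [Glue.em, hC0]) M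
  refine ⟨Q + w.natAbs, ?_⟩
  have hpow : ∀ m ∈ range M, 2 ^ m ≤ 2 ^ (M + κ) := by
    intro m hm
    rw [Finset.mem_range] at hm
    exact Nat.pow_le_pow_right (by norm_num) (by omega)
  have hpow2 : ∀ m ∈ range M, ∀ s ∈ range κ, 2 ^ (m + s) ≤ 2 ^ (M + κ) := by
    intro m hm s hs
    rw [Finset.mem_range] at hm hs
    exact Nat.pow_le_pow_right (by norm_num) (by omega)
  refine le_trans ?_ (hmain.trans ?_)
  · -- left side
    refine Finset.sum_le_sum fun m hm => ?_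
    refine mul_le_mul_of_nonneg_left ?_ (by positivity)
    refine Finset.sum_le_sum fun i hi => ?_
    rw [Finset.mem_range] at hi
    set f : ZMod Q → ZMod Q → ℝ := fun p0 p1 =>
      |Crest.Agent.R072.Lattice.Lbox (em Q (A (m + 1))) (em Q (fun x y => B (m + 1) x (y - w)))
        (em Q (fun x y => C (m + 1) (x - w) y)) (2 ^ m) p0 p1
        ((l : ZMod Q) * ((2 ^ m : ℕ) : ZMod Q) + (i : ZMod Q) - p0 - p1)| with hf
    have hf0 : ∀ p0 p1, 0 ≤ f p0 p1 := fun p0 p1 => abs_nonneg _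
    have e1 : ∀ p0 ∈ Icc (-(L1 : ℤ)) L1, ∀ p1 ∈ Icc (-(L1 : ℤ)) L1,
        |Lb3r (A (m + 1)) (B (m + 1)) (C (m + 1)) (2 ^ m) p0 p1
          (l * 2 ^ m + (i : ℤ) - w - p0 - p1)| = f (p0 : ZMod Q) (p1 : ZMod Q) := by
      intro p0 h0 p1 h1
      have hNz : ((2 ^ m : ℕ) : ℤ) ≤ ((2 ^ (M + κ) : ℕ) : ℤ) := by exact_mod_cast hpow m hm
      have hiz : (i : ℤ) < ((2 ^ m : ℕ) : ℤ) := by exact_mod_cast hi
      have hi0 : (0 : ℤ) ≤ i := by positivity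
      have hP0 : (0 : ℤ) < ((2 ^ m : ℕ) : ℤ) := by positivity
      have hQz : (Q : ℤ) = 2 * (100 * ((L2 : ℤ) + L1 + ((2 ^ (M + κ) : ℕ) : ℤ))) + 1 := by
        rw [hQdef]; push_cast; ring
      have hL20 : (0 : ℤ) ≤ L2 := by positivity
      have hL10 : (0 : ℤ) ≤ L1 := by positivity
      have hp0 : |p0| ≤ L1 := abs_le.2 (by simpa using Finset.mem_Icc.mp h0)
      have hp1 : |p1| ≤ L1 := abs_le.2 (by simpa using Finset.mem_Icc.mp h1)
      have hcast : (l : ZMod Q) * ((2 ^ m : ℕ) : ZMod Q) + (i : ZMod Q) - (p0 : ZMod Q) -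
          (p1 : ZMod Q) = ((l * ((2 ^ m : ℕ) : ℤ) + (i : ℤ) - p0 - p1 : ℤ) : ZMod Q) := by
        push_cast; rfl
      have hlm : |l * ((2 ^ m : ℕ) : ℤ)| ≤ 7 * ((2 ^ m : ℕ) : ℤ) := by
        rw [abs_mul, abs_of_pos hP0]
        exact mul_le_mul_of_nonneg_right hl hP0.le
      have hp2 : |l * ((2 ^ m : ℕ) : ℤ) + (i : ℤ) - p0 - p1| ≤ 8 * ((2 ^ m : ℕ) : ℤ) + 2 * L1 := by
        rw [abs_le] at hlm hp0 hp1 ⊢
        constructor <;> linarith [hlm.1, hlm.2, hp0.1, hp0.2, hp1.1, hp1.2]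
      simp only [hf]
      rw [hcast, Lbox_em _ _ _ _ _ _ _ (by linarith) (by linarith) (by linarith)]
      rw [show l * ((2 ^ m : ℕ) : ℤ) + (i : ℤ) - p0 - p1 =
        (l * 2 ^ m + (i : ℤ) - w - p0 - p1) + w by push_cast; ring, Lb3r_shift]
    have e2 : ∑ p0 ∈ Icc (-(L1 : ℤ)) L1, ∑ p1 ∈ Icc (-(L1 : ℤ)) L1,
        |Lb3r (A (m + 1)) (B (m + 1)) (C (m + 1)) (2 ^ m) p0 p1
          (l * 2 ^ m + (i : ℤ) - w - p0 - p1)| =
        ∑ p0 ∈ Icc (-(L1 : ℤ)) L1, ∑ p1 ∈ Icc (-(L1 : ℤ)) L1, f (p0 : ZMod Q) (p1 : ZMod Q) :=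
      Finset.sum_congr rfl fun p0 h0 => Finset.sum_congr rfl fun p1 h1 => e1 p0 h0 p1 h1
    rw [e2]
    have hLQ : 2 * L1 < Q := by
      have : 0 < 2 ^ (M + κ) := by positivity
      rw [hQdef]; omega
    have e3 : ∑ p0 ∈ Icc (-(L1 : ℤ)) L1, ∑ p1 ∈ Icc (-(L1 : ℤ)) L1, f (p0 : ZMod Q) (p1 : ZMod Q) ≤
        ∑ p0 ∈ Icc (-(L1 : ℤ)) L1, (fun q => ∑ z : ZMod Q, f q z) (p0 : ZMod Q) :=
      Finset.sum_le_sum fun p0 _ => sum_int_le (f (p0 : ZMod Q)) (hf0 _) L1 hLQ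
    refine e3.trans ?_
    exact sum_int_le (fun q => ∑ z : ZMod Q, f q z)
      (fun q => Finset.sum_nonneg fun z _ => hf0 q z) L1 hLQ
  · -- right side
    refine mul_le_mul_of_nonneg_left ?_ (by positivity)
    refine Finset.sum_le_sum fun m hm => ?_
    have G2 := good2 hs.le hh0
    have G4 := good4 hs.le
    refine add_le_add ?_ ?_
    · refine (V24_em_le s _ hs.le hh0 w _ _ _ _ _ _ L2 (2 ^ m) (sA _) (sA _) (sB _) (sB _) (sC _)
        (sC _) ?_).trans (VgZ_mono G2 G4 G4 w _ _ _ _ _ _ _ _ _ (Nat.le_add_right _ _))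
      have := hpow m hm
      rw [hQdef]; omega
    · refine Finset.sum_le_sum fun s' hs' => ?_
      have h2 := hpow2 m hm s' hs'
      have hQ2 : 2 * (L2 + 2 ^ (m + s')) < Q := by rw [hQdef]; omega
      refine add_le_add (add_le_add ?_ ?_) ?_
      · exact (E24_em_le G2 (dom2 s _) _ _ L2 _ (sA _) (sA _) hQ2).trans
          (EgZ_mono G2 _ _ _ _ _ (Nat.le_add_right _ _))
      · exact (E24_em_le G4 (dom4 s) _ _ L2 _ (sB _) (sB _) hQ2).trans (EgZ_shift_right G4 _ _ _ _ w)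
      · exact (E24_em_le G4 (dom4 s) _ _ L2 _ (sC _) (sC _) hQ2).trans (EgZ_shift_left G4 _ _ _ _ w)

/-! ### rotation -/

/-- a sum over positions, rotated -/
lemma rot_sum (c : ℤ) (f : ℤ → ℤ → ℝ) (hf : ∀ x y, 0 ≤ f x y) (L L' : ℕ)
    (hL : 2 * L + c.natAbs ≤ L') :
    ∑ p0 ∈ Icc (-(L : ℤ)) L, ∑ p1 ∈ Icc (-(L : ℤ)) L, f p1 (c - p0 - p1) ≤
      ∑ q0 ∈ Icc (-(L' : ℤ)) L', ∑ q1 ∈ Icc (-(L' : ℤ)) L', f q0 q1 := by
  classical
  rw [← Finset.sum_product', ← Finset.sum_product']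
  set φ : ℤ × ℤ → ℤ × ℤ := fun x => (x.2, c - x.1 - x.2) with hφ
  rw [← Finset.sum_image (f := fun y : ℤ × ℤ => f y.1 y.2) (g := φ)]
  · refine Finset.sum_le_sum_of_subset_of_nonneg ?_ fun x _ _ => hf _ _
    intro x hx
    rw [Finset.mem_image] at hx
    obtain ⟨z, hz, rfl⟩ := hx
    rw [Finset.mem_product, Finset.mem_Icc, Finset.mem_Icc] at hz
    rw [Finset.mem_product, Finset.mem_Icc, Finset.mem_Icc]
    simp only [hφ]
    have hc := Int.natCast_natAbs c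
    have h1 := le_abs_self c
    have h2 := neg_abs_le c
    have h3 : ((2 * L + c.natAbs : ℕ) : ℤ) ≤ L' := by exact_mod_cast hL
    push_cast at h3
    obtain ⟨⟨a1, a2⟩, a3, a4⟩ := hz
    have h4 := abs_nonneg c
    have h5 : (0 : ℤ) ≤ L := by positivity
    refine ⟨⟨?_, ?_⟩, ?_, ?_⟩ <;> linarith
  · intro x _ y _ hxy
    simp only [hφ, Prod.mk.injEq] at hxy
    refine Prod.ext ?_ hxy.1
    have := hxy.1
    linarith [hxy.2]

lemma Lb3r_rot (A B C : ℤ → ℤ → ℝ) (N : ℕ) (p0 p1 p2 : ℤ) :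
    Lb3r A B C N p0 p1 p2 = Lb3r B C A N p1 p2 p0 := by
  unfold Lb3r
  congr 1
  calc ∑ i0 : Fin (N + N), ∑ i1 : Fin (N + N), ∑ i2 : Fin (N + N),
        hsg N i0 * hsg N i1 * hsg N i2 *
          (A (p0 + ((i0 : ℕ) : ℤ)) (p1 + ((i1 : ℕ) : ℤ)) *
           B (p1 + ((i1 : ℕ) : ℤ)) (p2 + ((i2 : ℕ) : ℤ)) *
           C (p2 + ((i2 : ℕ) : ℤ)) (p0 + ((i0 : ℕ) : ℤ)))
      = ∑ i1 : Fin (N + N), ∑ i0 : Fin (N + N), ∑ i2 : Fin (N + N),
        hsg N i0 * hsg N i1 * hsg N i2 *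
          (A (p0 + ((i0 : ℕ) : ℤ)) (p1 + ((i1 : ℕ) : ℤ)) *
           B (p1 + ((i1 : ℕ) : ℤ)) (p2 + ((i2 : ℕ) : ℤ)) *
           C (p2 + ((i2 : ℕ) : ℤ)) (p0 + ((i0 : ℕ) : ℤ))) := Finset.sum_comm
    _ = ∑ i1 : Fin (N + N), ∑ i2 : Fin (N + N), ∑ i0 : Fin (N + N),
        hsg N i0 * hsg N i1 * hsg N i2 *
          (A (p0 + ((i0 : ℕ) : ℤ)) (p1 + ((i1 : ℕ) : ℤ)) *
           B (p1 + ((i1 : ℕ) : ℤ)) (p2 + ((i2 : ℕ) : ℤ)) *
           C (p2 + ((i2 : ℕ) : ℤ)) (p0 + ((i0 : ℕ) : ℤ))) :=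
        Finset.sum_congr rfl fun i1 _ => Finset.sum_comm
    _ = _ := by
        refine Finset.sum_congr rfl fun i1 _ => Finset.sum_congr rfl fun i2 _ =>
          Finset.sum_congr rfl fun i0 _ => ?_
        ring

lemma VgZ_rot {g1 g2 g3 : Bud} (h1 : GoodB g1) (h2 : GoodB g2) (h3 : GoodB g3)
    (w : ℤ) (A B C A' B' C' : ℤ → ℤ → ℝ) (N Q Q' : ℕ)
    (hQ : 2 * Q + (3 * N + w.natAbs) ≤ Q') :
    VgZ g1 g2 g3 Q w B C A B' C' A' N ≤ VgZ g3 g1 g2 Q' w A B C A' B' C' N := by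
  classical
  unfold VgZ
  refine mul_le_mul_of_nonneg_left ?_ (by positivity)
  refine Finset.sum_le_sum fun i hi => ?_
  rw [Finset.mem_range] at hi
  -- old: (q0,q1) with B q0 q1, C q1 tc, A tc q0; new p0 = tc q0 q1, p1 = q0: p0 in terms
  set f : ℤ → ℤ → ℝ := fun p0 p1 =>
    if SeesZ A A' N p0 p1 ∨ SeesZ B B' N p1 (tc N i w p0 p1) ∨ SeesZ C C' N (tc N i w p0 p1) p0 then
      g3 A N p0 p1 + g1 B N p1 (tc N i w p0 p1) + g2 C N (tc N i w p0 p1) p0 else 0 with hf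
  have hf0 : ∀ x y, 0 ≤ f x y := fun x y => Vnn h3 h1 h2 A B C N x y _ _
  have e : ∀ q0 q1 : ℤ, (if SeesZ B B' N q0 q1 ∨ SeesZ C C' N q1 (tc N i w q0 q1) ∨
      SeesZ A A' N (tc N i w q0 q1) q0 then
      g1 B N q0 q1 + g2 C N q1 (tc N i w q0 q1) + g3 A N (tc N i w q0 q1) q0 else 0) =
      f ((-(2 * (N : ℤ)) + (i : ℤ) - w) - q1 - q0) q0 := by
    intro q0 q1
    have e1 : tc N i w q0 q1 = (-(2 * (N : ℤ)) + (i : ℤ) - w) - q1 - q0 := by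
      unfold tc; ring
    have e2 : tc N i w ((-(2 * (N : ℤ)) + (i : ℤ) - w) - q1 - q0) q0 = q1 := by
      unfold tc; ring
    simp only [hf]
    rw [e1, e2]
    refine if_congr ?_ ?_ rfl
    · tauto
    · ring
  -- swap roles to use `rot_sum` with `f'(q0, c - q1 - q0) := f (second, first)`
  have e3 : ∑ q0 ∈ Icc (-(Q : ℤ)) Q, ∑ q1 ∈ Icc (-(Q : ℤ)) Q,
      (if SeesZ B B' N q0 q1 ∨ SeesZ C C' N q1 (tc N i w q0 q1) ∨
      SeesZ A A' N (tc N i w q0 q1) q0 then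
      g1 B N q0 q1 + g2 C N q1 (tc N i w q0 q1) + g3 A N (tc N i w q0 q1) q0 else 0) =
      ∑ q1 ∈ Icc (-(Q : ℤ)) Q, ∑ q0 ∈ Icc (-(Q : ℤ)) Q,
        (fun x y => f y x) q0 ((-(2 * (N : ℤ)) + (i : ℤ) - w) - q1 - q0) := by
    rw [Finset.sum_comm]
    refine Finset.sum_congr rfl fun q1 _ => Finset.sum_congr rfl fun q0 _ => ?_
    rw [e]
  rw [e3]
  refine (rot_sum _ (fun x y => f y x) (fun x y => hf0 y x) Q Q' ?_).trans (le_of_eq ?_)
  · refine le_trans ?_ hQ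
    have : (-(2 * (N : ℤ)) + (i : ℤ) - w).natAbs ≤ 3 * N + w.natAbs := by omega
    omega
  · rw [Finset.sum_comm]

/-- rotation -/
theorem TriG.rot {c : ℝ} {κ : ℕ} {g1 g2 g3 : Bud} (hc : 0 ≤ c) (h1 : GoodB g1) (h2 : GoodB g2)
    (h3 : GoodB g3) (h : TriG c κ g1 g2 g3) : TriG c κ g3 g1 g2 := by
  intro l hl w A B C L hA hB hC hA0 hB0 hC0 M L1
  obtain ⟨LL, hLL⟩ : ∃ n : ℕ, n = 2 * L1 + (8 * 2 ^ M + w.natAbs) := ⟨_, rfl⟩
  obtain ⟨L', h⟩ := h l hl w B C A L hB hC hA hB0 hC0 hA0 M LL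
  obtain ⟨L'', hL''⟩ : ∃ n : ℕ, n = 2 * L' + (3 * 2 ^ M + w.natAbs) := ⟨_, rfl⟩
  refine ⟨L'', ?_⟩
  have hp : ∀ m ∈ range M, 2 ^ m ≤ 2 ^ M := by
    intro m hm
    rw [Finset.mem_range] at hm
    exact Nat.pow_le_pow_right (by norm_num) hm.le
  refine le_trans ?_ (h.trans ?_)
  · refine Finset.sum_le_sum fun m hm => ?_
    refine mul_le_mul_of_nonneg_left ?_ (by positivity)
    refine Finset.sum_le_sum fun i hi => ?_
    rw [Finset.mem_range] at hi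
    have hpm := hp m hm
    obtain ⟨cc, hcc⟩ : ∃ z : ℤ, z = l * 2 ^ m + (i : ℤ) - w := ⟨_, rfl⟩
    rw [← hcc]
    obtain ⟨f, hf⟩ : ∃ f : ℤ → ℤ → ℝ, f = fun q0 q1 =>
      |Lb3r (B (m + 1)) (C (m + 1)) (A (m + 1)) (2 ^ m) q0 q1 (cc - q0 - q1)| := ⟨_, rfl⟩
    have hf0 : ∀ x y, 0 ≤ f x y := fun x y => by rw [hf]; exact abs_nonneg _
    have e : ∀ p0 p1 : ℤ, |Lb3r (A (m + 1)) (B (m + 1)) (C (m + 1)) (2 ^ m) p0 p1 (cc - p0 - p1)| =
        f p1 (cc - p0 - p1) := by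
      intro p0 p1
      rw [hf]
      simp only
      rw [Lb3r_rot, show cc - p1 - (cc - p0 - p1) = p0 by ring]
    have e' : ∑ p0 ∈ Icc (-(L1 : ℤ)) L1, ∑ p1 ∈ Icc (-(L1 : ℤ)) L1,
        |Lb3r (A (m + 1)) (B (m + 1)) (C (m + 1)) (2 ^ m) p0 p1 (cc - p0 - p1)| =
        ∑ p0 ∈ Icc (-(L1 : ℤ)) L1, ∑ p1 ∈ Icc (-(L1 : ℤ)) L1, f p1 (cc - p0 - p1) :=
      Finset.sum_congr rfl fun p0 _ => Finset.sum_congr rfl fun p1 _ => e p0 p1
    have e'' : ∑ q0 ∈ Icc (-(LL : ℤ)) LL, ∑ q1 ∈ Icc (-(LL : ℤ)) LL,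
        |Lb3r (B (m + 1)) (C (m + 1)) (A (m + 1)) (2 ^ m) q0 q1 (cc - q0 - q1)| =
        ∑ q0 ∈ Icc (-(LL : ℤ)) LL, ∑ q1 ∈ Icc (-(LL : ℤ)) LL, f q0 q1 := by rw [hf]
    rw [e', e'']
    refine rot_sum cc f hf0 L1 LL ?_
    have h5 : cc.natAbs ≤ 8 * 2 ^ M + w.natAbs := by
      have hlm : |l * 2 ^ m| ≤ 7 * 2 ^ m := by
        rw [abs_mul, abs_of_pos (by positivity : (0 : ℤ) < 2 ^ m)]
        exact mul_le_mul_of_nonneg_right hl (by positivity)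
      have hpz : (2 : ℤ) ^ m ≤ 2 ^ M := by exact_mod_cast hpm
      have hiz : (i : ℤ) < 2 ^ m := by exact_mod_cast hi
      have hw1 := le_abs_self w
      have hw2 := neg_abs_le w
      rw [abs_le] at hlm
      zify
      rw [hcc, abs_le]
      constructor <;> linarith [hlm.1, hlm.2, (Nat.cast_nonneg i : (0 : ℤ) ≤ i)]
    omega
  · refine mul_le_mul_of_nonneg_left ?_ hc
    refine Finset.sum_le_sum fun m hm => ?_
    have hpm := hp m hm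
    refine add_le_add ?_ ?_
    · exact VgZ_rot h1 h2 h3 w (A (m + 1)) (B (m + 1)) (C (m + 1)) (A m) (B m) (C m) (2 ^ m) L' L''
        (by omega)
    · refine Finset.sum_le_sum fun s _ => ?_
      have m1 := EgZ_mono h1 (B (m + 1)) (B m) (2 ^ (m + s)) L'
        L'' (by omega)
      have m2 := EgZ_mono h2 (C (m + 1)) (C m) (2 ^ (m + s)) L'
        L'' (by omega)
      have m3 := EgZ_mono h3 (A (m + 1)) (A m) (2 ^ (m + s)) L'
        L'' (by omega)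
      linarith

/-- budgets of the three edges: `S₂` on the edge `i`, `S₄` on the others -/
noncomputable def gi (s h : ℝ) (i k : Fin 3) : Bud := if k = i then g2Z s h else g4Z s

/-- **`Tri24` on `ℤ`**, any position of the `S₂` edge -/
theorem triG : ∃ K : ℝ, 0 ≤ K ∧ ∃ κ : ℕ, ∀ s : ℝ, 0 < s → s ≤ 1 → ∀ H : ℝ, 1 ≤ H → ∀ i : Fin 3,
    TriG (K * (1 + Real.log (H / s))) κ (gi s (H ^ 2)⁻¹ i 0) (gi s (H ^ 2)⁻¹ i 1)
      (gi s (H ^ 2)⁻¹ i 2) := by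
  obtain ⟨K, hK, κ, h⟩ := triG_base
  refine ⟨K, hK, κ, ?_⟩
  intro s hs hs1 H hH i
  have h0 := h s hs hs1 H hH
  have hh0 : (0 : ℝ) ≤ (H ^ 2)⁻¹ := by positivity
  have hlog : 0 ≤ Real.log (H / s) := Real.log_nonneg (by rw [le_div_iff₀ hs]; linarith)
  have hc : 0 ≤ K * (1 + Real.log (H / s)) := by positivity
  have G2 := good2 hs.le hh0
  have G4 := good4 hs.le
  have h1 := TriG.rot hc G2 G4 G4 h0
  have h2 := TriG.rot hc G4 G2 G4 h1
  fin_cases i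
  · simpa [gi] using h0
  · simpa [gi] using h1
  · simpa [gi] using h2

end Crest.Agent.R079.F24
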