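import Crest.Agent.R079.F24a_118
import Crest.Agent.R079.Frozen_569

/-! R079, AL4 part B (helper118): sums over the boxes near the exits of the region, with the budgets
of `Tri24`, from the node hypotheses of `Frozen24`. -/

set_option autoImplicit false
set_option linter.unusedVariables false

namespace Crest.Agent.R079.F24

open Finset Crest.Agent.R079.Grid Crest.Agent.R079.Pot Crest.Agent.R079.Glue Crest.Agent.R079.R244

/-- complex frozen kernel with linear form `α w + γ z + δ z'` -/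
noncomputable def cK (α γ δ : ℤ) (T T' : Finset ℤ) (a : ℤ → ℤ → ℂ) (G : ℤ → ℂ) (w z z' : ℤ) : ℂ :=
  if z ∈ T ∧ z' ∈ T' then a z z' * G (α * w + γ * z + δ * z') else 0

/-- common budget, complex version -/
noncomputable def UU (s ε : ℝ) (X : ℤ → ℤ → ℂ) (N : ℕ) (q p : ℤ) : ℝ :=
  2 * s * e2 X N q p + ε * (s⁻¹ * e4 X N q p)

lemma e2_nonneg (X : ℤ → ℤ → ℂ) (N : ℕ) (q p : ℤ) : 0 ≤ e2 X N q p := by
  unfold e2; positivity

lemma UU_nonneg {s ε : ℝ} (hs : 0 ≤ s) (hε : 0 ≤ ε) (X : ℤ → ℤ → ℂ) (N : ℕ) (q p : ℤ) :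
    0 ≤ UU s ε X N q p := by
  unfold UU
  have := e2_nonneg X N q p
  have := e4_nonneg X N q p
  positivity

lemma e2_congr (X Y : ℤ → ℤ → ℂ) (N : ℕ) (q p : ℤ)
    (h : ∀ i j : ℕ, i < N → j < N → X (q + (i : ℤ)) (p + (j : ℤ)) = Y (q + (i : ℤ)) (p + (j : ℤ))) :
    e2 X N q p = e2 Y N q p := by
  unfold e2
  congr 1
  refine Finset.sum_congr rfl fun i hi => Finset.sum_congr rfl fun j hj => ?_
  rw [Finset.mem_range] at hi hj
  rw [h i j hi hj]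

lemma UU_congr (s ε : ℝ) (X Y : ℤ → ℤ → ℂ) (N : ℕ) (q p : ℤ)
    (h : ∀ i j : ℕ, i < N → j < N → X (q + (i : ℤ)) (p + (j : ℤ)) = Y (q + (i : ℤ)) (p + (j : ℤ))) :
    UU s ε X N q p = UU s ε Y N q p := by
  unfold UU
  rw [e2_congr X Y N q p h, e4_congr X Y N q p h]

lemma norm_sum_sq_le {σ : Type*} (S : Finset σ) (x : σ → ℂ) :
    ‖∑ t ∈ S, x t‖ ^ 2 ≤ (S.card : ℝ) * ∑ t ∈ S, ‖x t‖ ^ 2 := by
  have h1 := norm_sum_le S x
  have h2 := sq_sum_le_card_mul_sum_sq (s := S) (f := fun t => ‖x t‖)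
  exact (pow_le_pow_left₀ (norm_nonneg _) h1 2).trans h2

lemma e2_sum_le {σ : Type*} (S : Finset σ) (X : σ → ℤ → ℤ → ℂ) (N : ℕ) (q p : ℤ) :
    e2 (fun x y => ∑ t ∈ S, X t x y) N q p ≤ (S.card : ℝ) * ∑ t ∈ S, e2 (X t) N q p := by
  unfold e2
  have e : (S.card : ℝ) * ∑ t ∈ S, (1 / (N : ℝ) ^ 2) * ∑ i ∈ range N, ∑ j ∈ range N,
      ‖X t (q + (i : ℤ)) (p + (j : ℤ))‖ ^ 2 = (1 / (N : ℝ) ^ 2) * ∑ i ∈ range N, ∑ j ∈ range N,
        (S.card : ℝ) * ∑ t ∈ S, ‖X t (q + (i : ℤ)) (p + (j : ℤ))‖ ^ 2 := by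
    have e1 : ∑ t ∈ S, ∑ i ∈ range N, ∑ j ∈ range N, ‖X t (q + (i : ℤ)) (p + (j : ℤ))‖ ^ 2 =
        ∑ i ∈ range N, ∑ j ∈ range N, ∑ t ∈ S, ‖X t (q + (i : ℤ)) (p + (j : ℤ))‖ ^ 2 := by
      rw [Finset.sum_comm]
      exact Finset.sum_congr rfl fun i _ => Finset.sum_comm
    simp only [← Finset.mul_sum]
    rw [e1]
    ring
  rw [e]
  refine mul_le_mul_of_nonneg_left ?_ (by positivity)
  exact Finset.sum_le_sum fun i _ => Finset.sum_le_sum fun j _ => norm_sum_sq_le S _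

lemma nat_le_cube (n : ℕ) : (n : ℝ) ≤ (n : ℝ) ^ 3 := by
  rcases Nat.eq_zero_or_pos n with h | h
  · subst h; simp
  · have : (1 : ℝ) ≤ n := by exact_mod_cast h
    nlinarith [sq_nonneg ((n : ℝ) - 1)]

lemma UU_sum_le {s ε : ℝ} (hs : 0 ≤ s) (hε : 0 ≤ ε) {σ : Type*} (S : Finset σ)
    (X : σ → ℤ → ℤ → ℂ) (N : ℕ) (q p : ℤ) :
    UU s ε (fun x y => ∑ t ∈ S, X t x y) N q p ≤ (S.card : ℝ) ^ 3 * ∑ t ∈ S, UU s ε (X t) N q p := by
  unfold UU
  have h1 := e2_sum_le S X N q p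
  have h2 := e4_sum_le S X N q p
  have h3 : 0 ≤ ∑ t ∈ S, e2 (X t) N q p := Finset.sum_nonneg fun t _ => e2_nonneg _ _ _ _
  have h4 : e2 (fun x y => ∑ t ∈ S, X t x y) N q p ≤ (S.card : ℝ) ^ 3 * ∑ t ∈ S, e2 (X t) N q p :=
    h1.trans (mul_le_mul_of_nonneg_right (nat_le_cube _) h3)
  have e : (S.card : ℝ) ^ 3 * ∑ t ∈ S, (2 * s * e2 (X t) N q p + ε * (s⁻¹ * e4 (X t) N q p)) =
      2 * s * ((S.card : ℝ) ^ 3 * ∑ t ∈ S, e2 (X t) N q p) +
      ε * (s⁻¹ * ((S.card : ℝ) ^ 3 * ∑ t ∈ S, e4 (X t) N q p)) := by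
    rw [Finset.sum_add_distrib, ← Finset.mul_sum, ← Finset.mul_sum, ← Finset.mul_sum]
    ring
  rw [e]
  have hsi : 0 ≤ s⁻¹ := inv_nonneg.mpr hs
  exact add_le_add (mul_le_mul_of_nonneg_left h4 (by positivity))
    (mul_le_mul_of_nonneg_left (mul_le_mul_of_nonneg_left h2 hsi) hε)

/-! ### nodes near the exits -/

/-- nodes of level `m` which meet the neighbourhood of the exits -/
noncomputable def En (R : Finset (ℕ × ℤ)) (m h : ℕ) : Finset ℤ :=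
  ((Dp R m h).filter (fun y => y ∈ Rm R m)).image (fun y => y / 2 ^ (m + 7))

lemma mem_En (R : Finset (ℕ × ℤ)) (m h : ℕ) (l : ℤ) (hl : l ∈ En R m h) : (m, l) ∈ R := by
  unfold En at hl
  rw [Finset.mem_image] at hl
  obtain ⟨y, hy, rfl⟩ := hl
  rw [Finset.mem_filter] at hy
  exact (mem_Rm R m y).mp hy.2

lemma card_En (R : Finset (ℕ × ℤ)) (m h : ℕ) :
    ((En R m h).card : ℝ) * 2 ^ (m + 7) ≤ 2 * (2 * (h + 128) + 1) * (Dm R m).card := by
  classical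
  set E := (Dm R m).image fun y => y / 2 ^ (m + 7) with hE
  have hsub : En R m h ⊆ E.biUnion fun l =>
      Icc (l - ((h + 128 : ℕ) : ℤ)) (l + ((h + 128 : ℕ) : ℤ)) := by
    intro l' hl'
    unfold En at hl'
    rw [Finset.mem_image] at hl'
    obtain ⟨y, hy, rfl⟩ := hl'
    rw [Finset.mem_filter] at hy
    have hy := hy.1
    unfold Dp at hy
    rw [Finset.mem_biUnion] at hy ⊢
    obtain ⟨d, hd, hy⟩ := hy
    refine ⟨d / 2 ^ (m + 7), Finset.mem_image_of_mem _ hd, ?_⟩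
    have hP : (0 : ℤ) < 2 ^ (m + 7) := by positivity
    rw [Finset.mem_Icc] at hy ⊢
    have h2 : (h : ℤ) * 2 ^ m ≤ ((h + 128 : ℕ) : ℤ) * 2 ^ (m + 7) := by
      have h3 : (2 : ℤ) ^ m ≤ 2 ^ (m + 7) := pow_le_pow_right₀ (by norm_num) (by omega)
      have h4 : (h : ℤ) * 2 ^ m ≤ h * 2 ^ (m + 7) := mul_le_mul_of_nonneg_left h3 (by positivity)
      push_cast
      nlinarith
    constructor
    · have h3 : (d + (-((h + 128 : ℕ) : ℤ)) * 2 ^ (m + 7)) / 2 ^ (m + 7) ≤ y / 2 ^ (m + 7) :=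
        Int.ediv_le_ediv hP (by linarith [hy.1])
      rw [Int.add_mul_ediv_right _ _ hP.ne'] at h3
      linarith
    · have h3 : y / 2 ^ (m + 7) ≤ (d + ((h + 128 : ℕ) : ℤ) * 2 ^ (m + 7)) / 2 ^ (m + 7) :=
        Int.ediv_le_ediv hP (by linarith [hy.2])
      rw [Int.add_mul_ediv_right _ _ hP.ne'] at h3
      linarith
  have h1 : (En R m h).card ≤ E.card * (2 * (h + 128) + 1) := by
    refine (Finset.card_le_card hsub).trans (Finset.card_biUnion_le_card_mul _ _ _ fun l _ => ?_)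
    rw [Int.card_Icc]
    omega
  have h2 : E.card * 2 ^ (m + 6) ≤ (Dm R m).card := card_nodes R m
  have h3 : (En R m h).card * 2 ^ (m + 7) ≤ 2 * (2 * (h + 128) + 1) * (Dm R m).card := by
    calc (En R m h).card * 2 ^ (m + 7) ≤ (E.card * (2 * (h + 128) + 1)) * 2 ^ (m + 7) :=
          Nat.mul_le_mul_right _ h1
      _ = 2 * (2 * (h + 128) + 1) * (E.card * 2 ^ (m + 6)) := by
          rw [pow_succ 2 (m + 6)]; ring
      _ ≤ 2 * (2 * (h + 128) + 1) * (Dm R m).card := Nat.mul_le_mul_left _ h2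
  exact_mod_cast h3

/-- the masked function on a box near the exits is a short sum of node restrictions -/
lemma msk_eq_sum (R : Finset (ℕ × ℤ)) (m h k : ℕ) (hk : 6 * 2 ^ k ≤ h) (F : ℤ → ℂ) (α γ δ : ℤ)
    (hγ3 : |γ| ≤ 3) (hδ3 : |δ| ≤ 3) (w q p : ℤ)
    (hD : ∀ i j : ℕ, i < 2 ^ (m + k) → j < 2 ^ (m + k) →
      α * w + γ * (q + (i : ℤ)) + δ * (p + (j : ℤ)) ∈ Dp R m h)
    (i j : ℕ) (hi : i < 2 ^ (m + k)) (hj : j < 2 ^ (m + k)) :
    msk (Rm R m) F (α * w + γ * (q + (i : ℤ)) + δ * (p + (j : ℤ))) =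
      ∑ l ∈ (En R m h).filter (fun l => |l - (α * w + γ * q + δ * p) / 2 ^ (m + 7)| ≤ h),
        res (m, l) F (α * w + γ * (q + (i : ℤ)) + δ * (p + (j : ℤ))) := by
  classical
  have hy := hD i j hi hj
  set y := α * w + γ * (q + (i : ℤ)) + δ * (p + (j : ℤ)) with hyd
  set b := α * w + γ * q + δ * p with hb
  have hP : (0 : ℤ) < 2 ^ (m + 7) := by positivity
  have hres : ∀ l : ℤ, res (m, l) F y = if y / 2 ^ (m + 7) = l then F y else 0 := by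
    intro l
    unfold res
    exact if_congr (mem_dI_iff _ _ _) rfl rfl
  by_cases hyR : y ∈ Rm R m
  · unfold msk
    rw [if_pos hyR]
    rw [Finset.sum_eq_single_of_mem (y / 2 ^ (m + 7))]
    · rw [hres, if_pos rfl]
    · rw [Finset.mem_filter]
      refine ⟨?_, ?_⟩
      · unfold En
        exact Finset.mem_image_of_mem _ (Finset.mem_filter.mpr ⟨hy, hyR⟩)
      · have a1 := abs_smul_le γ i (2 ^ (m + k)) hγ3 hi
        have a2 := abs_smul_le δ j (2 ^ (m + k)) hδ3 hj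
        have e : y - b = γ * (i : ℤ) + δ * (j : ℤ) := by rw [hyd, hb]; ring
        have hkz : (6 * 2 ^ k : ℤ) ≤ h := by exact_mod_cast hk
        have hb6 : 6 * (2 : ℤ) ^ (m + k) ≤ h * 2 ^ (m + 7) := by
          have h3 : (2 : ℤ) ^ m ≤ 2 ^ (m + 7) := pow_le_pow_right₀ (by norm_num) (by omega)
          have h4 : (0 : ℤ) < 2 ^ m := by positivity
          have h5 : 6 * (2 : ℤ) ^ (m + k) = (6 * 2 ^ k) * 2 ^ m := by rw [pow_add]; ring
          rw [h5]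
          have h0 : (0 : ℤ) ≤ h := by positivity
          exact mul_le_mul hkz h3 h4.le h0
        push_cast at a1 a2
        rw [abs_le] at a1 a2 ⊢
        have y1 : y ≤ b + h * 2 ^ (m + 7) := by linarith [a1.2, a2.2]
        have y2 : b + (-(h : ℤ)) * 2 ^ (m + 7) ≤ y := by linarith [a1.1, a2.1]
        have z1 := Int.ediv_le_ediv hP y1
        have z2 := Int.ediv_le_ediv hP y2
        rw [Int.add_mul_ediv_right _ _ hP.ne'] at z1 z2
        constructor <;> linarith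
    · intro l _ hl
      rw [hres, if_neg (fun e => hl e.symm)]
  · unfold msk
    rw [if_neg hyR]
    symm
    refine Finset.sum_eq_zero fun l hl => ?_
    rw [hres, if_neg]
    intro e
    apply hyR
    rw [mem_Rm, e]
    exact mem_En R m h l (Finset.mem_filter.mp hl).1

/-- one box near the exits -/
lemma UU_box_le {s ε : ℝ} (hs : 0 ≤ s) (hε : 0 ≤ ε) (R : Finset (ℕ × ℤ)) (m h k : ℕ)
    (hk : 6 * 2 ^ k ≤ h) (F : ℤ → ℂ) (α γ δ : ℤ)
    (hγ3 : |γ| ≤ 3) (hδ3 : |δ| ≤ 3) (T T' : Finset ℤ) (a : ℤ → ℤ → ℂ) (w q p : ℤ)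
    (hD : ∀ i j : ℕ, i < 2 ^ (m + k) → j < 2 ^ (m + k) →
      α * w + γ * (q + (i : ℤ)) + δ * (p + (j : ℤ)) ∈ Dp R m h) :
    UU s ε (cK α γ δ T T' a (msk (Rm R m) F) w) (2 ^ (m + k)) q p ≤
      (2 * h + 1) ^ 3 * ∑ l ∈ En R m h,
        UU s ε (cK α γ δ T T' a (res (m, l) F) w) (2 ^ (m + k)) q p := by
  classical
  set S := (En R m h).filter (fun l => |l - (α * w + γ * q + δ * p) / 2 ^ (m + 7)| ≤ h) with hS
  have e : UU s ε (cK α γ δ T T' a (msk (Rm R m) F) w) (2 ^ (m + k)) q p =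
      UU s ε (fun x y => ∑ l ∈ S, cK α γ δ T T' a (res (m, l) F) w x y) (2 ^ (m + k)) q p := by
    refine UU_congr _ _ _ _ _ _ _ fun i j hi hj => ?_
    unfold cK
    split_ifs with hT
    · rw [msk_eq_sum R m h k hk F α γ δ hγ3 hδ3 w q p hD i j hi hj, Finset.mul_sum]
    · simp
  rw [e]
  refine (UU_sum_le hs hε S _ _ _ _).trans ?_
  have hcard : (S.card : ℝ) ≤ 2 * h + 1 := by
    have h1 : S ⊆ Icc ((α * w + γ * q + δ * p) / 2 ^ (m + 7) - (h : ℤ))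
        ((α * w + γ * q + δ * p) / 2 ^ (m + 7) + h) := by
      intro l hl
      rw [hS, Finset.mem_filter, abs_le] at hl
      rw [Finset.mem_Icc]
      constructor <;> linarith [hl.2.1, hl.2.2]
    have h2 := Finset.card_le_card h1
    rw [Int.card_Icc] at h2
    have h3 : S.card ≤ 2 * h + 1 := by omega
    exact_mod_cast h3
  have hn : ∀ l, 0 ≤ UU s ε (cK α γ δ T T' a (res (m, l) F) w) (2 ^ (m + k)) q p :=
    fun l => UU_nonneg hs hε _ _ _ _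
  refine mul_le_mul (pow_le_pow_left₀ (by positivity) hcard 3) ?_
    (Finset.sum_nonneg fun l _ => hn l) (by positivity)
  exact Finset.sum_le_sum_of_subset_of_nonneg (Finset.filter_subset _ _) fun l _ _ => hn l

/-- **all boxes near the exits** -/
lemma exit_total {s ε : ℝ} (hs : 0 ≤ s) (hε : 0 ≤ ε) (R : Finset (ℕ × ℤ)) (m h k : ℕ)
    (hk : 6 * 2 ^ k ≤ h) (F : ℤ → ℂ) (α γ δ : ℤ)
    (hγ3 : |γ| ≤ 3) (hδ3 : |δ| ≤ 3) (T T' : Finset ℤ) (a : ℤ → ℤ → ℂ) (B : ℝ)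
    (hB : ∀ l, (m, l) ∈ R → ∀ S : Finset (ℤ × ℤ × ℤ),
      ∑ t ∈ S, UU s ε (cK α γ δ T T' a (res (m, l) F) t.1) (2 ^ (m + k)) t.2.1 t.2.2 ≤ B)
    (Λ : Finset (ℤ × ℤ × ℤ))
    (hΛ : ∀ t ∈ Λ, ∀ i j : ℕ, i < 2 ^ (m + k) → j < 2 ^ (m + k) →
      α * t.1 + γ * (t.2.1 + (i : ℤ)) + δ * (t.2.2 + (j : ℤ)) ∈ Dp R m h) :
    ∑ t ∈ Λ, UU s ε (cK α γ δ T T' a (msk (Rm R m) F) t.1) (2 ^ (m + k)) t.2.1 t.2.2 ≤
      (2 * h + 1) ^ 3 * ((En R m h).card * B) := by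
  refine (Finset.sum_le_sum fun t ht => UU_box_le hs hε R m h k hk F α γ δ hγ3 hδ3 T T' a
    t.1 t.2.1 t.2.2 (hΛ t ht)).trans ?_
  rw [← Finset.mul_sum, Finset.sum_comm]
  refine mul_le_mul_of_nonneg_left ?_ (by positivity)
  refine (Finset.sum_le_sum fun l hl => hB l (mem_En R m h l hl) Λ).trans (le_of_eq ?_)
  rw [Finset.sum_const, nsmul_eq_mul]

/-! ### budgets of real parts -/

lemma fK_eq (σ : Bool) (α γ δ : ℤ) (T T' : Finset ℤ) (a : ℤ → ℤ → ℂ) (G : ℤ → ℂ) (w : ℤ) :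
    fK σ α γ δ T T' a G w = fun z z' => pr σ (cK α γ δ T T' a G w z z') := by
  funext z z'
  unfold fK cK
  split_ifs
  · rfl
  · exact (pr_zero σ).symm

lemma bxZ_pr_le (σ : Bool) (X : ℤ → ℤ → ℂ) (N : ℕ) (q p : ℤ) :
    bxZ (fun z z' => pr σ (X z z')) N q p ≤ e2 X N q p := by
  unfold bxZ e2
  refine mul_le_mul_of_nonneg_left ?_ (by positivity)
  refine Finset.sum_le_sum fun i _ => Finset.sum_le_sum fun j _ => ?_
  rw [← sq_abs]
  exact pow_le_pow_left₀ (abs_nonneg _) (abs_pr_le σ _) 2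

lemma e4Z_pr_le (σ : Bool) (X : ℤ → ℤ → ℂ) (N : ℕ) (q p : ℤ) :
    e4Z (fun z z' => pr σ (X z z')) N q p ≤ e4 X N q p := by
  cases σ
  · have e : (fun z z' => pr false (X z z')) = fun z z' => (X z z').im := by
      funext z z'; simp [pr]
    rw [e]
    exact e4Z_im_le X N q p
  · have e : (fun z z' => pr true (X z z')) = fun z z' => (X z z').re := by
      funext z z'; simp [pr]
    rw [e]
    exact e4Z_re_le X N q p

lemma bxZ_le_of_bdd (A : ℤ → ℤ → ℝ) (H : ℝ) (hH : 0 ≤ H) (hA : ∀ z z', |A z z'| ≤ H) (N : ℕ)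
    (q p : ℤ) : bxZ A N q p ≤ H ^ 2 := by
  unfold bxZ
  have h1 : ∑ i ∈ range N, ∑ j ∈ range N, A (q + (i : ℤ)) (p + (j : ℤ)) ^ 2 ≤
      ∑ i ∈ range N, ∑ j ∈ range N, H ^ 2 := by
    refine Finset.sum_le_sum fun i _ => Finset.sum_le_sum fun j _ => ?_
    rw [← sq_abs]
    exact pow_le_pow_left₀ (abs_nonneg _) (hA _ _) 2
  refine (mul_le_mul_of_nonneg_left h1 (by positivity)).trans ?_
  simp only [Finset.sum_const, Finset.card_range, nsmul_eq_mul]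
  rcases Nat.eq_zero_or_pos N with h0 | h0
  · subst h0; simpa using sq_nonneg H
  · have hN : (0 : ℝ) < N := by exact_mod_cast h0
    refine le_of_eq ?_
    field_simp

lemma g2_UU {s H : ℝ} (hs : 0 ≤ s) (hH : 1 ≤ H) (σ : Bool) (X : ℤ → ℤ → ℂ)
    (hX : ∀ z z', ‖X z z'‖ ≤ H) (N : ℕ) (q p : ℤ) :
    g2Z s (H ^ 2)⁻¹ (fun z z' => pr σ (X z z')) N q p ≤ UU s 0 X N q p := by
  unfold g2Z UU
  have h1 := bxZ_pr_le σ X N q p
  have h2 := bxZ_nonneg (fun z z' => pr σ (X z z')) N q p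
  have h3 := bxZ_le_of_bdd (fun z z' => pr σ (X z z')) H (by linarith)
    (fun z z' => (abs_pr_le σ _).trans (hX z z')) N q p
  set b := bxZ (fun z z' => pr σ (X z z')) N q p with hb
  have hH2 : 0 < H ^ 2 := by positivity
  have h4 : (H ^ 2)⁻¹ * b ^ 2 ≤ b := by
    rw [inv_mul_le_iff₀ hH2]
    nlinarith
  have h5 : s * (b + (H ^ 2)⁻¹ * b ^ 2) ≤ s * (2 * e2 X N q p) :=
    mul_le_mul_of_nonneg_left (by linarith) hs
  linarith

lemma g4_UU {s : ℝ} (hs : 0 ≤ s) (σ : Bool) (X : ℤ → ℤ → ℂ) (N : ℕ) (q p : ℤ) :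
    g4Z s (fun z z' => pr σ (X z z')) N q p ≤ UU s 1 X N q p := by
  unfold g4Z UU
  have h1 := bxZ_pr_le σ X N q p
  have h2 := e4Z_pr_le σ X N q p
  have h3 := e2_nonneg X N q p
  have h4 := mul_le_mul_of_nonneg_left h1 hs
  have h5 := mul_le_mul_of_nonneg_left h2 (inv_nonneg.mpr hs)
  have h6 : 0 ≤ s * e2 X N q p := by positivity
  linarith

end Crest.Agent.R079.F24
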