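import Crest.Agent.R079.F24b_118

/-! R079, AL4 part B (helper118): the potentials of one level, summed over the frozen variable. -/

set_option autoImplicit false
set_option linter.unusedVariables false

namespace Crest.Agent.R079.F24

open Finset Crest.Agent.R079.Grid Crest.Agent.R079.Pot Crest.Agent.R079.Glue Crest.Agent.R079.R244

/-- what is used about one edge at level `m`: budget on the masked kernels, node totals -/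
structure EdgeH (R : Finset (ℕ × ℤ)) (κ : ℕ) (g : Bud) (s ε V : ℝ) (α γ δ : ℤ) (T T' : Finset ℤ)
    (a : ℤ → ℤ → ℂ) (F : ℤ → ℂ) : Prop where
  good : GoodB g
  hε : 0 ≤ ε
  hγ : |γ| ≤ 3
  hδ : |δ| ≤ 3
  bud : ∀ (σ : Bool) (m : ℕ) (w : ℤ) (N : ℕ) (q p : ℤ),
    g (fK σ α γ δ T T' a (msk (Rm R m) F) w) N q p ≤
      UU s ε (cK α γ δ T T' a (msk (Rm R m) F) w) N q p
  node : ∀ (m k : ℕ), k ≤ κ → ∀ l, (m, l) ∈ R → ∀ S : Finset (ℤ × ℤ × ℤ),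
    ∑ t ∈ S, UU s ε (cK α γ δ T T' a (res (m, l) F) t.1) (2 ^ (m + k)) t.2.1 t.2.2 ≤
      3 * s * (2 ^ (m + 7) * V)

/-- bound of one level -/
noncomputable def Lv (R : Finset (ℕ × ℤ)) (m h : ℕ) (s V : ℝ) : ℝ :=
  (2 * h + 1) ^ 3 * ((En R m h).card * (3 * s * (2 ^ (m + 7) * V)))

variable {R : Finset (ℕ × ℤ)} {J : ℕ × ℤ} {κ : ℕ} {s V : ℝ}

lemma EdgeH.total (hs : 0 ≤ s) {g : Bud} {ε : ℝ} {α γ δ : ℤ} {T T' : Finset ℤ} {a : ℤ → ℤ → ℂ}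
    {F : ℤ → ℂ} (hE : EdgeH R κ g s ε V α γ δ T T' a F) (m h k : ℕ) (hk : k ≤ κ)
    (hkh : 6 * 2 ^ k ≤ h) (Λ : Finset (ℤ × ℤ × ℤ))
    (hΛ : ∀ t ∈ Λ, ∀ i j : ℕ, i < 2 ^ (m + k) → j < 2 ^ (m + k) →
      α * t.1 + γ * (t.2.1 + (i : ℤ)) + δ * (t.2.2 + (j : ℤ)) ∈ Dp R m h) :
    ∑ t ∈ Λ, UU s ε (cK α γ δ T T' a (msk (Rm R m) F) t.1) (2 ^ (m + k)) t.2.1 t.2.2 ≤
      Lv R m h s V :=
  exit_total hs hE.hε R m h k hkh F α γ δ hE.hγ hE.hδ T T' a _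
    (fun l hl S => hE.node m k hk l hl S) Λ hΛ

lemma Wsup (Wf : Finset ℤ) (Lw : ℤ → ℕ) : ∃ LL : ℕ, ∀ w ∈ Wf, Lw w ≤ LL :=
  ⟨Wf.sup Lw, fun w hw => Finset.le_sup (f := Lw) hw⟩

/-- **own potentials of one level** -/
lemma sumE_le (hs : 0 ≤ s) (hR : IsRegion R J) {g : Bud} {ε : ℝ} {α γ δ : ℤ} {T T' : Finset ℤ}
    {a : ℤ → ℤ → ℂ} {F : ℤ → ℂ} (hE : EdgeH R κ g s ε V α γ δ T T' a F) (m h k : ℕ)
    (hm : m ≤ J.1) (hk : k ≤ κ) (hkh : 12 * 2 ^ k ≤ h) (σ : Bool) (Wf : Finset ℤ) (Lw : ℤ → ℕ) :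
    ∑ w ∈ Wf, EgZ g (Lw w) (fK σ α γ δ T T' a (msk (Rs R (m + 1)) F) w)
      (fK σ α γ δ T T' a (msk (Rs R m) F) w) (2 ^ (m + k)) ≤ Lv R m h s V := by
  classical
  obtain ⟨LL, hLL⟩ := Wsup Wf Lw
  set N := 2 ^ (m + k) with hN
  have hNz : (N : ℤ) = 2 ^ k * 2 ^ m := by rw [hN]; push_cast; rw [pow_add]; ring
  refine (Finset.sum_le_sum fun w hw => EgZ_mono hE.good _ _ N (Lw w) LL (hLL w hw)).trans ?_
  set P : ℤ × ℤ × ℤ → Prop := fun t => SeesZ (fK σ α γ δ T T' a (msk (Rs R (m + 1)) F) t.1)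
      (fK σ α γ δ T T' a (msk (Rs R m) F) t.1) N t.2.1 t.2.2 with hP
  set Λ := (Wf ×ˢ (Icc (-(LL : ℤ)) LL ×ˢ Icc (-(LL : ℤ)) LL)).filter P with hΛ
  have e : ∑ w ∈ Wf, EgZ g LL (fK σ α γ δ T T' a (msk (Rs R (m + 1)) F) w)
      (fK σ α γ δ T T' a (msk (Rs R m) F) w) N =
      ∑ t ∈ Λ, g (fK σ α γ δ T T' a (msk (Rm R m) F) t.1) N t.2.1 t.2.2 := by
    rw [hΛ, Finset.sum_filter, Finset.sum_product]
    refine Finset.sum_congr rfl fun w _ => ?_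
    unfold EgZ
    rw [Finset.sum_product]
    rfl
  rw [e]
  refine (Finset.sum_le_sum fun t _ => hE.bud σ m t.1 N t.2.1 t.2.2).trans ?_
  refine hE.total hs m h k hk (by omega) Λ ?_
  intro t ht i j hi hj
  rw [hΛ, Finset.mem_filter] at ht
  obtain ⟨i', j', hi', hj', hd⟩ := fK_sees R J hR m hm F σ α γ δ T T' a t.1 N t.2.1 t.2.2 ht.2
  refine mem_Dp R m h _ _ hd ?_
  have a1 := abs_smul_le γ i N hE.hγ hi
  have a2 := abs_smul_le γ i' N hE.hγ hi'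
  have a3 := abs_smul_le δ j N hE.hδ hj
  have a4 := abs_smul_le δ j' N hE.hδ hj'
  have e : α * t.1 + γ * (t.2.1 + (i : ℤ)) + δ * (t.2.2 + (j : ℤ)) -
      (α * t.1 + γ * (t.2.1 + (i' : ℤ)) + δ * (t.2.2 + (j' : ℤ))) =
      γ * (i : ℤ) + δ * (j : ℤ) - γ * (i' : ℤ) - δ * (j' : ℤ) := by ring
  have hhz : (12 * 2 ^ k : ℤ) ≤ h := by exact_mod_cast hkh
  have hb : 12 * (N : ℤ) ≤ h * 2 ^ m := by
    rw [hNz]
    have : (0 : ℤ) ≤ 2 ^ m := by positivity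
    nlinarith
  rw [e]
  refine le_trans ?_ hb
  rw [abs_le] at a1 a2 a3 a4 ⊢
  constructor <;> linarith [a1.1, a1.2, a2.1, a2.2, a3.1, a3.2, a4.1, a4.2]

/-- all three shadows of a position are close to the exits once one of the letters changes -/
lemma close_all (hR : IsRegion R J) (m h : ℕ) (hm : m ≤ J.1)
    (hh : 24 ≤ h) (F0 F1 F2 : ℤ → ℂ) (σ0 σ1 σ2 : Bool) (sj s0 s1 s2 : ℤ)
    (hs : Slopes sj s0 s1 s2) (T0 T1 T2 : Finset ℤ) (a b c : ℤ → ℤ → ℂ) (w : ℤ)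
    (i : ℕ) (hi : i < 2 ^ m) (p0 p1 : ℤ)
    (hse : SeesZ (fK σ2 (sj - s2) (s0 - s2) (s1 - s2) T0 T1 a (msk (Rs R (m + 1)) F2) w)
          (fK σ2 (sj - s2) (s0 - s2) (s1 - s2) T0 T1 a (msk (Rs R m) F2) w) (2 ^ m) p0 p1 ∨
        SeesZ (fK σ0 (sj - s0) (s1 - s0) (s2 - s0) T1 T2 b (msk (Rs R (m + 1)) F0) w)
          (fK σ0 (sj - s0) (s1 - s0) (s2 - s0) T1 T2 b (msk (Rs R m) F0) w) (2 ^ m) p1
            (tc (2 ^ m) i w p0 p1) ∨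
        SeesZ (fK σ1 (sj - s1) (s2 - s1) (s0 - s1) T2 T0 c (msk (Rs R (m + 1)) F1) w)
          (fK σ1 (sj - s1) (s2 - s1) (s0 - s1) T2 T0 c (msk (Rs R m) F1) w) (2 ^ m)
            (tc (2 ^ m) i w p0 p1) p0) :
    (∀ i0 i1 : ℕ, i0 < 2 ^ m → i1 < 2 ^ m → (sj - s2) * w + (s0 - s2) * (p0 + (i0 : ℤ)) +
          (s1 - s2) * (p1 + (i1 : ℤ)) ∈ Dp R m h) ∧
    (∀ i0 i1 : ℕ, i0 < 2 ^ m → i1 < 2 ^ m → (sj - s0) * w + (s1 - s0) * (p1 + (i0 : ℤ)) +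
          (s2 - s0) * (tc (2 ^ m) i w p0 p1 + (i1 : ℤ)) ∈ Dp R m h) ∧
    (∀ i0 i1 : ℕ, i0 < 2 ^ m → i1 < 2 ^ m → (sj - s1) * w + (s2 - s1) *
          (tc (2 ^ m) i w p0 p1 + (i0 : ℤ)) + (s0 - s1) * (p0 + (i1 : ℤ)) ∈ Dp R m h) := by
  set N := 2 ^ m with hN
  have hNz : (N : ℤ) = 2 ^ m := by rw [hN]; push_cast; ring
  have b2 : |s0 - s2| ≤ 3 ∧ |s1 - s2| ≤ 3 := by
    constructor <;> rw [abs_le] <;> constructor <;> linarith [hs.h0.1, hs.h0.2, hs.h1.1, hs.h1.2, hs.h2.1, hs.h2.2]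
  have b0 : |s1 - s0| ≤ 3 ∧ |s2 - s0| ≤ 3 := by
    constructor <;> rw [abs_le] <;> constructor <;> linarith [hs.h0.1, hs.h0.2, hs.h1.1, hs.h1.2, hs.h2.1, hs.h2.2]
  have b1 : |s2 - s1| ≤ 3 ∧ |s0 - s1| ≤ 3 := by
    constructor <;> rw [abs_le] <;> constructor <;> linarith [hs.h0.1, hs.h0.2, hs.h1.1, hs.h1.2, hs.h2.1, hs.h2.2]
  have hbh : 24 * (N : ℤ) ≤ h * 2 ^ m := by
    rw [hNz]
    have h24 : (24 : ℤ) ≤ h := by exact_mod_cast hh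
    exact mul_le_mul_of_nonneg_right h24 (by positivity)
  set p2 := tc N i w p0 p1 with hp2
  set G0 : ℤ := sj * w + s0 * p0 + s1 * p1 + s2 * p2 with hG0
  set t0 : ℤ := w + p0 + p1 + p2 with ht0
  have ht : t0 = -(2 * (N : ℤ)) + i := by rw [ht0, hp2]; unfold tc; ring
  have hi' : (i : ℤ) < N := by exact_mod_cast hi
  have hi0 : (0 : ℤ) ≤ i := by positivity
  have hst : ∀ s : ℤ, 0 ≤ s ∧ s ≤ 3 → |s * t0| ≤ 6 * N := by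
    intro s hs
    rw [abs_mul]
    have h1 : |s| ≤ 3 := by rw [abs_le]; constructor <;> linarith [hs.1, hs.2]
    have h2 : |t0| ≤ 2 * N := by rw [ht, abs_le]; constructor <;> linarith
    have := mul_le_mul h1 h2 (abs_nonneg _) (by norm_num)
    linarith
  -- all points are close to `G0`
  have cA : ∀ i0 i1 : ℕ, i0 < N → i1 < N → |((sj - s2) * w + (s0 - s2) * (p0 + (i0 : ℤ)) +
      (s1 - s2) * (p1 + (i1 : ℤ))) - G0| ≤ 12 * N := by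
    intro i0 i1 hi0 hi1
    have e : ((sj - s2) * w + (s0 - s2) * (p0 + (i0 : ℤ)) + (s1 - s2) * (p1 + (i1 : ℤ))) - G0 =
        -(s2 * t0) + (s0 - s2) * (i0 : ℤ) + (s1 - s2) * (i1 : ℤ) := by
      rw [hG0, ht0]; ring
    have a1 := abs_smul_le (s0 - s2) i0 N b2.1 hi0
    have a2 := abs_smul_le (s1 - s2) i1 N b2.2 hi1
    have a3 := hst s2 hs.h2
    rw [e]
    rw [abs_le] at a1 a2 a3 ⊢
    constructor <;> linarith [a1.1, a1.2, a2.1, a2.2, a3.1, a3.2]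
  have cB : ∀ i0 i1 : ℕ, i0 < N → i1 < N → |((sj - s0) * w + (s1 - s0) * (p1 + (i0 : ℤ)) +
      (s2 - s0) * (p2 + (i1 : ℤ))) - G0| ≤ 12 * N := by
    intro i0 i1 hi0 hi1
    have e : ((sj - s0) * w + (s1 - s0) * (p1 + (i0 : ℤ)) + (s2 - s0) * (p2 + (i1 : ℤ))) - G0 =
        -(s0 * t0) + (s1 - s0) * (i0 : ℤ) + (s2 - s0) * (i1 : ℤ) := by
      rw [hG0, ht0]; ring
    have a1 := abs_smul_le (s1 - s0) i0 N b0.1 hi0
    have a2 := abs_smul_le (s2 - s0) i1 N b0.2 hi1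
    have a3 := hst s0 hs.h0
    rw [e]
    rw [abs_le] at a1 a2 a3 ⊢
    constructor <;> linarith [a1.1, a1.2, a2.1, a2.2, a3.1, a3.2]
  have cC : ∀ i0 i1 : ℕ, i0 < N → i1 < N → |((sj - s1) * w + (s2 - s1) * (p2 + (i0 : ℤ)) +
      (s0 - s1) * (p0 + (i1 : ℤ))) - G0| ≤ 12 * N := by
    intro i0 i1 hi0 hi1
    have e : ((sj - s1) * w + (s2 - s1) * (p2 + (i0 : ℤ)) + (s0 - s1) * (p0 + (i1 : ℤ))) - G0 =
        -(s1 * t0) + (s2 - s1) * (i0 : ℤ) + (s0 - s1) * (i1 : ℤ) := by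
      rw [hG0, ht0]; ring
    have a1 := abs_smul_le (s2 - s1) i0 N b1.1 hi0
    have a2 := abs_smul_le (s0 - s1) i1 N b1.2 hi1
    have a3 := hst s1 hs.h1
    rw [e]
    rw [abs_le] at a1 a2 a3 ⊢
    constructor <;> linarith [a1.1, a1.2, a2.1, a2.2, a3.1, a3.2]
  obtain ⟨d, hd, hdG⟩ : ∃ d ∈ Dm R m, |d - G0| ≤ 12 * N := by
    rcases hse with hse | hse | hse
    · obtain ⟨i', j', hi', hj', hd⟩ := fK_sees R J hR m hm F2 σ2 _ _ _ T0 T1 a w N p0 p1 hse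
      exact ⟨_, hd, cA i' j' hi' hj'⟩
    · obtain ⟨i', j', hi', hj', hd⟩ := fK_sees R J hR m hm F0 σ0 _ _ _ T1 T2 b w N p1 p2 hse
      exact ⟨_, hd, cB i' j' hi' hj'⟩
    · obtain ⟨i', j', hi', hj', hd⟩ := fK_sees R J hR m hm F1 σ1 _ _ _ T2 T0 c w N p2 p0 hse
      exact ⟨_, hd, cC i' j' hi' hj'⟩
  have close : ∀ y : ℤ, |y - G0| ≤ 12 * N → y ∈ Dp R m h := by
    intro y hy
    refine mem_Dp R m h d y hd (le_trans ?_ hbh)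
    rw [abs_le] at hy hdG ⊢
    constructor <;> linarith [hy.1, hy.2, hdG.1, hdG.2]
  exact ⟨fun i0 i1 h0 h1 => close _ (cA i0 i1 h0 h1), fun i0 i1 h0 h1 => close _ (cB i0 i1 h0 h1),
    fun i0 i1 h0 h1 => close _ (cC i0 i1 h0 h1)⟩

/-- **joint potentials of one level** -/
lemma sumV_le (hs : 0 ≤ s) (hR : IsRegion R J) {gA gB gC : Bud} {εA εB εC : ℝ}
    {sj s0 s1 s2 : ℤ} (hsl : Slopes sj s0 s1 s2) {T0 T1 T2 : Finset ℤ}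
    {a b c : ℤ → ℤ → ℂ} {F0 F1 F2 : ℤ → ℂ}
    (hA : EdgeH R κ gA s εA V (sj - s2) (s0 - s2) (s1 - s2) T0 T1 a F2)
    (hB : EdgeH R κ gB s εB V (sj - s0) (s1 - s0) (s2 - s0) T1 T2 b F0)
    (hC : EdgeH R κ gC s εC V (sj - s1) (s2 - s1) (s0 - s1) T2 T0 c F1) (m h : ℕ)
    (hm : m ≤ J.1) (hh : 24 ≤ h) (σ0 σ1 σ2 : Bool) (Wf : Finset ℤ) (Lw : ℤ → ℕ) :
    ∑ w ∈ Wf, VgZ gA gB gC (Lw w) w
      (fK σ2 (sj - s2) (s0 - s2) (s1 - s2) T0 T1 a (msk (Rs R (m + 1)) F2) w)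
      (fK σ0 (sj - s0) (s1 - s0) (s2 - s0) T1 T2 b (msk (Rs R (m + 1)) F0) w)
      (fK σ1 (sj - s1) (s2 - s1) (s0 - s1) T2 T0 c (msk (Rs R (m + 1)) F1) w)
      (fK σ2 (sj - s2) (s0 - s2) (s1 - s2) T0 T1 a (msk (Rs R m) F2) w)
      (fK σ0 (sj - s0) (s1 - s0) (s2 - s0) T1 T2 b (msk (Rs R m) F0) w)
      (fK σ1 (sj - s1) (s2 - s1) (s0 - s1) T2 T0 c (msk (Rs R m) F1) w) (2 ^ m) ≤
      3 * Lv R m h s V := by
  classical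
  obtain ⟨LL, hLL⟩ := Wsup Wf Lw
  refine (Finset.sum_le_sum fun w hw => VgZ_mono hA.good hB.good hC.good w _ _ _ _ _ _ _ (Lw w) LL
    (hLL w hw)).trans ?_
  set N := 2 ^ m with hN
  have hN0 : (0 : ℝ) < (N : ℝ) := by rw [hN]; positivity
  set uA : ℤ × ℤ × ℤ → ℝ := fun t =>
    UU s εA (cK (sj - s2) (s0 - s2) (s1 - s2) T0 T1 a (msk (Rm R m) F2) t.1) N t.2.1 t.2.2 with huA
  set uB : ℤ × ℤ × ℤ → ℝ := fun t =>
    UU s εB (cK (sj - s0) (s1 - s0) (s2 - s0) T1 T2 b (msk (Rm R m) F0) t.1) N t.2.1 t.2.2 with huB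
  set uC : ℤ × ℤ × ℤ → ℝ := fun t =>
    UU s εC (cK (sj - s1) (s2 - s1) (s0 - s1) T2 T0 c (msk (Rm R m) F1) t.1) N t.2.1 t.2.2 with huC
  set P : ℕ → ℤ × ℤ × ℤ → Prop := fun i t =>
    SeesZ (fK σ2 (sj - s2) (s0 - s2) (s1 - s2) T0 T1 a (msk (Rs R (m + 1)) F2) t.1)
          (fK σ2 (sj - s2) (s0 - s2) (s1 - s2) T0 T1 a (msk (Rs R m) F2) t.1) N t.2.1 t.2.2 ∨
        SeesZ (fK σ0 (sj - s0) (s1 - s0) (s2 - s0) T1 T2 b (msk (Rs R (m + 1)) F0) t.1)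
          (fK σ0 (sj - s0) (s1 - s0) (s2 - s0) T1 T2 b (msk (Rs R m) F0) t.1) N t.2.2
            (tc N i t.1 t.2.1 t.2.2) ∨
        SeesZ (fK σ1 (sj - s1) (s2 - s1) (s0 - s1) T2 T0 c (msk (Rs R (m + 1)) F1) t.1)
          (fK σ1 (sj - s1) (s2 - s1) (s0 - s1) T2 T0 c (msk (Rs R m) F1) t.1) N
            (tc N i t.1 t.2.1 t.2.2) t.2.1 with hP
  set Λ : ℕ → Finset (ℤ × ℤ × ℤ) := fun i =>
    (Wf ×ˢ (Icc (-(LL : ℤ)) LL ×ˢ Icc (-(LL : ℤ)) LL)).filter (P i) with hΛ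
  set φ : ℕ → ℤ × ℤ × ℤ → ℤ × ℤ × ℤ := fun i t => (t.1, t.2.2, tc N i t.1 t.2.1 t.2.2) with hφ
  set ψ : ℕ → ℤ × ℤ × ℤ → ℤ × ℤ × ℤ := fun i t => (t.1, tc N i t.1 t.2.1 t.2.2, t.2.1) with hψ
  have hφi : ∀ i, Function.Injective (φ i) := by
    rintro i ⟨x, y, z⟩ ⟨x', y', z'⟩ h
    simp only [hφ, Prod.mk.injEq, tc] at h
    obtain ⟨h1, h2, h3⟩ := h
    refine Prod.ext h1 (Prod.ext ?_ h2)
    simp only
    linarith
  have hψi : ∀ i, Function.Injective (ψ i) := by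
    rintro i ⟨x, y, z⟩ ⟨x', y', z'⟩ h
    simp only [hψ, Prod.mk.injEq, tc] at h
    obtain ⟨h1, h2, h3⟩ := h
    refine Prod.ext h1 (Prod.ext h3 ?_)
    simp only
    linarith
  have hclose : ∀ i, i < N → ∀ t ∈ Λ i, _ := fun i hi t ht =>
    close_all (J := J) hR m h hm hh F0 F1 F2 σ0 σ1 σ2 sj s0 s1 s2 hsl T0 T1 T2 a b c t.1 i hi
      t.2.1 t.2.2 (Finset.mem_filter.mp ht).2
  have tA : ∀ i, i < N → ∑ t ∈ Λ i, uA t ≤ Lv R m h s V := by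
    intro i hi
    exact hA.total hs m h 0 (Nat.zero_le _) (by omega) (Λ i)
      (fun t ht i0 i1 h0 h1 => (hclose i hi t ht).1 i0 i1 h0 h1)
  have tB : ∀ i, i < N → ∑ t ∈ Λ i, uB (φ i t) ≤ Lv R m h s V := by
    intro i hi
    rw [← Finset.sum_image (f := uB) (g := φ i) ((hφi i).injOn)]
    refine hB.total hs m h 0 (Nat.zero_le _) (by omega) ((Λ i).image (φ i)) ?_
    intro t ht i0 i1 h0 h1
    rw [Finset.mem_image] at ht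
    obtain ⟨t', ht', rfl⟩ := ht
    exact (hclose i hi t' ht').2.1 i0 i1 h0 h1
  have tC : ∀ i, i < N → ∑ t ∈ Λ i, uC (ψ i t) ≤ Lv R m h s V := by
    intro i hi
    rw [← Finset.sum_image (f := uC) (g := ψ i) ((hψi i).injOn)]
    refine hC.total hs m h 0 (Nat.zero_le _) (by omega) ((Λ i).image (ψ i)) ?_
    intro t ht i0 i1 h0 h1
    rw [Finset.mem_image] at ht
    obtain ⟨t', ht', rfl⟩ := ht
    exact (hclose i hi t' ht').2.2 i0 i1 h0 h1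
  -- value for one `i`
  set val : ℕ → ℤ × ℤ × ℤ → ℝ := fun i t =>
    gA (fK σ2 (sj - s2) (s0 - s2) (s1 - s2) T0 T1 a (msk (Rm R m) F2) t.1) N t.2.1 t.2.2 +
    gB (fK σ0 (sj - s0) (s1 - s0) (s2 - s0) T1 T2 b (msk (Rm R m) F0) t.1) N t.2.2
      (tc N i t.1 t.2.1 t.2.2) +
    gC (fK σ1 (sj - s1) (s2 - s1) (s0 - s1) T2 T0 c (msk (Rm R m) F1) t.1) N
      (tc N i t.1 t.2.1 t.2.2) t.2.1 with hval
  have e : ∑ w ∈ Wf, VgZ gA gB gC LL w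
      (fK σ2 (sj - s2) (s0 - s2) (s1 - s2) T0 T1 a (msk (Rs R (m + 1)) F2) w)
      (fK σ0 (sj - s0) (s1 - s0) (s2 - s0) T1 T2 b (msk (Rs R (m + 1)) F0) w)
      (fK σ1 (sj - s1) (s2 - s1) (s0 - s1) T2 T0 c (msk (Rs R (m + 1)) F1) w)
      (fK σ2 (sj - s2) (s0 - s2) (s1 - s2) T0 T1 a (msk (Rs R m) F2) w)
      (fK σ0 (sj - s0) (s1 - s0) (s2 - s0) T1 T2 b (msk (Rs R m) F0) w)
      (fK σ1 (sj - s1) (s2 - s1) (s0 - s1) T2 T0 c (msk (Rs R m) F1) w) N =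
      (1 / (N : ℝ)) * ∑ i ∈ range N, ∑ t ∈ Λ i, val i t := by
    unfold VgZ
    rw [← Finset.mul_sum, Finset.sum_comm]
    congr 1
    refine Finset.sum_congr rfl fun i _ => ?_
    rw [hΛ]
    simp only
    rw [Finset.sum_filter, Finset.sum_product]
    refine Finset.sum_congr rfl fun w _ => ?_
    rw [Finset.sum_product]
    rfl
  rw [e]
  have h3 : ∀ i ∈ range N, ∑ t ∈ Λ i, val i t ≤ 3 * Lv R m h s V := by
    intro i hi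
    rw [Finset.mem_range] at hi
    have h4 : ∀ t ∈ Λ i, val i t ≤ uA t + uB (φ i t) + uC (ψ i t) := by
      intro t _
      exact add_le_add (add_le_add (hA.bud _ _ _ _ _ _) (hB.bud _ _ _ _ _ _))
        (hC.bud _ _ _ _ _ _)
    refine (Finset.sum_le_sum h4).trans ?_
    rw [Finset.sum_add_distrib, Finset.sum_add_distrib]
    linarith [tA i hi, tB i hi, tC i hi]
  refine (mul_le_mul_of_nonneg_left (Finset.sum_le_sum h3) (by positivity)).trans ?_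
  rw [Finset.sum_const, Finset.card_range, nsmul_eq_mul]
  refine le_of_eq ?_
  field_simp

end Crest.Agent.R079.F24
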