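import Crest.Agent.R079.F24c_118

/-! R079, AL4 (helper118): **`frozen24 : R244.Frozen24`**, the frozen atom theorem at the exponents
(2,4,4). -/

set_option autoImplicit false
set_option linter.unusedVariables false

namespace Crest.Agent.R079.F24

open Finset Crest.Agent.R079.Grid Crest.Agent.R079.Pot Crest.Agent.R079.Glue Crest.Agent.R079.R244

/-! ### finite sums and `finsum` -/

lemma sum_le_finsum_of_nonneg {ι : Type*} (f : ι → ℝ) (hf : ∀ i, 0 ≤ f i)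
    (hfin : (Function.support f).Finite) (S : Finset ι) : ∑ t ∈ S, f t ≤ ∑ᶠ t, f t := by
  classical
  rw [finsum_eq_sum_of_support_subset f (s := hfin.toFinset ∪ S) (by
    intro x hx
    rw [Finset.coe_union]
    exact Or.inl (by simpa using hx))]
  exact Finset.sum_le_sum_of_subset_of_nonneg Finset.subset_union_right fun x _ _ => hf x

/-- the box values of a node kernel have finite support in the position -/
lemma support_finite {α γ δ : ℤ} (hα : α ≠ 0) (T T' : Finset ℤ) (a : ℤ → ℤ → ℂ) (p : ℕ × ℤ)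
    (F : ℤ → ℂ) (N : ℕ) (E : (ℤ → ℤ → ℂ) → ℕ → ℤ → ℤ → ℝ)
    (hE : ∀ X Y N q p, (∀ i j : ℕ, i < N → j < N →
      X (q + (i : ℤ)) (p + (j : ℤ)) = Y (q + (i : ℤ)) (p + (j : ℤ))) → E X N q p = E Y N q p)
    (hE0 : ∀ N q p, E (fun _ _ => 0) N q p = 0) :
    (Function.support fun t : ℤ × ℤ × ℤ =>
      E (cK α γ δ T T' a (res p F) t.1) N t.2.1 t.2.2).Finite := by
  classical
  -- candidates
  set SI : Finset (ℤ × ℤ × ℤ × ℕ × ℕ) :=
    dI (p.1 + 7) p.2 ×ˢ (T ×ˢ (T' ×ˢ (range N ×ˢ range N))) with hSI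
  set f : ℤ × ℤ × ℤ × ℕ × ℕ → ℤ × ℤ × ℤ := fun u =>
    ((u.1 - γ * u.2.1 - δ * u.2.2.1) / α, u.2.1 - (u.2.2.2.1 : ℤ), u.2.2.1 - (u.2.2.2.2 : ℤ)) with hf
  refine (SI.image f).finite_toSet.subset ?_
  rintro ⟨w, q, r⟩ ht
  rw [Function.mem_support] at ht
  by_contra hc
  apply ht
  simp only
  rw [hE _ (fun _ _ => 0) N q r, hE0]
  intro i j hi hj
  unfold cK
  split_ifs with hT
  · by_cases hy : α * w + γ * (q + (i : ℤ)) + δ * (r + (j : ℤ)) ∈ dI (p.1 + 7) p.2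
    · exfalso
      apply hc
      rw [Finset.mem_coe, Finset.mem_image]
      refine ⟨(α * w + γ * (q + (i : ℤ)) + δ * (r + (j : ℤ)), q + i, r + j, i, j), ?_, ?_⟩
      · rw [hSI]
        simp only [Finset.mem_product, Finset.mem_range]
        exact ⟨hy, hT.1, hT.2, hi, hj⟩
      · simp only [hf]
        refine Prod.ext ?_ (Prod.ext ?_ ?_)
        · simp only
          rw [show α * w + γ * (q + (i : ℤ)) + δ * (r + (j : ℤ)) - γ * (q + (i : ℤ)) -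
            δ * (r + (j : ℤ)) = α * w by ring]
          exact Int.mul_ediv_cancel_left w hα
        · simp only
          ring
        · simp only
          ring
    · unfold res
      rw [if_neg hy, mul_zero]
  · rfl

lemma e2_zero (N : ℕ) (q p : ℤ) : e2 (fun _ _ => 0) N q p = 0 := by
  unfold e2; simp

lemma e4_zero (N : ℕ) (q p : ℤ) : e4 (fun _ _ => 0) N q p = 0 := by
  unfold e4; simp

section nodes

variable {R : Finset (ℕ × ℤ)} {κ : ℕ} {s V : ℝ}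

lemma node_of (hs : 0 < s) {α γ δ : ℤ} (hα : α ≠ 0) (T T' : Finset ℤ) (a : ℤ → ℤ → ℂ) (F : ℤ → ℂ)
    {ε : ℝ} (hε : 0 ≤ ε) (hε1 : ε ≤ 1) (hV : 0 ≤ V)
    (h2 : S2At R κ V (fun G w => cK α γ δ T T' a G w) F)
    (h4 : ε ≠ 0 → S4At R κ V (s ^ 2) (fun G w => cK α γ δ T T' a G w) F)
    (m k : ℕ) (hk : k ≤ κ) (l : ℤ) (hl : (m, l) ∈ R) (S : Finset (ℤ × ℤ × ℤ)) :
    ∑ t ∈ S, UU s ε (cK α γ δ T T' a (res (m, l) F) t.1) (2 ^ (m + k)) t.2.1 t.2.2 ≤
      3 * s * (2 ^ (m + 7) * V) := by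
  have e : ∑ t ∈ S, UU s ε (cK α γ δ T T' a (res (m, l) F) t.1) (2 ^ (m + k)) t.2.1 t.2.2 =
      2 * s * ∑ t ∈ S, e2 (cK α γ δ T T' a (res (m, l) F) t.1) (2 ^ (m + k)) t.2.1 t.2.2 +
      ε * (s⁻¹ * ∑ t ∈ S, e4 (cK α γ δ T T' a (res (m, l) F) t.1) (2 ^ (m + k)) t.2.1 t.2.2) := by
    unfold UU
    rw [Finset.sum_add_distrib, ← Finset.mul_sum, ← Finset.mul_sum, ← Finset.mul_sum]
  rw [e]
  have hB : 0 ≤ (2 : ℝ) ^ (m + 7) * V := by positivity
  have a2 : ∑ t ∈ S, e2 (cK α γ δ T T' a (res (m, l) F) t.1) (2 ^ (m + k)) t.2.1 t.2.2 ≤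
      2 ^ (m + 7) * V :=
    (sum_le_finsum_of_nonneg _ (fun t => e2_nonneg _ _ _ _)
      (support_finite hα T T' a (m, l) F (2 ^ (m + k)) e2 e2_congr e2_zero) S).trans
      (h2 (m, l) hl k hk)
  have a4 : ε * (s⁻¹ * ∑ t ∈ S, e4 (cK α γ δ T T' a (res (m, l) F) t.1) (2 ^ (m + k)) t.2.1 t.2.2)
      ≤ s * (2 ^ (m + 7) * V) := by
    by_cases h0 : ε = 0
    · rw [h0, zero_mul]
      positivity
    · have b4 : ∑ t ∈ S, e4 (cK α γ δ T T' a (res (m, l) F) t.1) (2 ^ (m + k)) t.2.1 t.2.2 ≤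
          s ^ 2 * (2 ^ (m + 7) * V) :=
        (sum_le_finsum_of_nonneg _ (fun t => e4_nonneg _ _ _ _)
          (support_finite hα T T' a (m, l) F (2 ^ (m + k)) e4 e4_congr e4_zero) S).trans
          (h4 h0 (m, l) hl k hk)
      have c4 := mul_le_mul_of_nonneg_left b4 (inv_nonneg.mpr hs.le)
      have d4 : s⁻¹ * (s ^ 2 * (2 ^ (m + 7) * V)) = s * (2 ^ (m + 7) * V) := by
        field_simp
      rw [d4] at c4
      have n4 : 0 ≤ s⁻¹ * ∑ t ∈ S, e4 (cK α γ δ T T' a (res (m, l) F) t.1) (2 ^ (m + k)) t.2.1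
          t.2.2 := mul_nonneg (inv_nonneg.mpr hs.le) (Finset.sum_nonneg fun t _ => e4_nonneg _ _ _ _)
      exact (mul_le_of_le_one_left n4 hε1).trans c4
  have c2 := mul_le_mul_of_nonneg_left a2 (by positivity : 0 ≤ 2 * s)
  linarith

/-- an edge with the `S₂` information and a height -/
lemma edge2 (hs : 0 < s) {H : ℝ} (hH : 1 ≤ H) {α γ δ : ℤ} (hα : α ≠ 0) (hγ : |γ| ≤ 3)
    (hδ : |δ| ≤ 3) (T T' : Finset ℤ) (a : ℤ → ℤ → ℂ) (F : ℤ → ℂ) (hV : 0 ≤ V)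
    (h2 : S2At R κ V (fun G w => cK α γ δ T T' a G w) F)
    (hb : ∀ w z z', ‖cK α γ δ T T' a F w z z'‖ ≤ H) :
    EdgeH R κ (g2Z s (H ^ 2)⁻¹) s 0 V α γ δ T T' a F where
  good := good2 hs.le (by positivity)
  hε := le_rfl
  hγ := hγ
  hδ := hδ
  bud σ m w N q p := by
    rw [fK_eq]
    refine g2_UU hs.le hH σ _ (fun z z' => ?_) N q p
    refine le_trans ?_ (hb w z z')
    unfold cK
    split_ifs
    · rw [norm_mul, norm_mul]
      refine mul_le_mul_of_nonneg_left ?_ (norm_nonneg _)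
      unfold msk
      split_ifs
      · exact le_rfl
      · rw [norm_zero]; exact norm_nonneg _
    · exact le_rfl
  node m k hk l hl S := node_of hs hα T T' a F le_rfl zero_le_one hV h2 (fun h => absurd rfl h)
    m k hk l hl S

/-- an edge with the `S₄` information -/
lemma edge4 (hs : 0 < s) {α γ δ : ℤ} (hα : α ≠ 0) (hγ : |γ| ≤ 3)
    (hδ : |δ| ≤ 3) (T T' : Finset ℤ) (a : ℤ → ℤ → ℂ) (F : ℤ → ℂ) (hV : 0 ≤ V)
    (h2 : S2At R κ V (fun G w => cK α γ δ T T' a G w) F)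
    (h4 : S4At R κ V (s ^ 2) (fun G w => cK α γ δ T T' a G w) F) :
    EdgeH R κ (g4Z s) s 1 V α γ δ T T' a F where
  good := good4 hs.le
  hε := zero_le_one
  hγ := hγ
  hδ := hδ
  bud σ m w N q p := by
    rw [fK_eq]
    exact g4_UU hs.le σ _ N q p
  node m k hk l hl S := node_of hs hα T T' a F zero_le_one le_rfl hV h2 (fun _ => h4)
    m k hk l hl S

end nodes

/-- constant of one block -/
noncomputable def C24 (K : ℝ) (κ : ℕ) : ℝ :=
  K * (3 * (1 + κ)) * ((2 * ((12 * 2 ^ κ + 24 : ℕ) : ℝ) + 1) ^ 3 *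
    (2 * (2 * (((12 * 2 ^ κ + 24 : ℕ) : ℝ) + 128) + 1)) * 3)

/-- **one block, one choice of real parts** -/
lemma block24 {c : ℝ} (hc : 0 ≤ c) {κ : ℕ} {gA gB gC : Bud} (hTri : TriG c κ gA gB gC)
    {s V : ℝ} (hs : 0 ≤ s) (hV : 0 ≤ V) {εA εB εC : ℝ}
    (l : ℤ) (hl : |l| ≤ 7) (R : Finset (ℕ × ℤ)) (J : ℕ × ℤ) (hR : IsRegion R J) (j : Fin 4)
    (T : Fin 3 → Finset ℤ) (a b d : ℤ → ℤ → ℂ) (F : Fin 4 → ℤ → ℂ)
    (hA : EdgeH R κ gA s εA V (sl j - sl (j.succAbove 2))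
      (sl (j.succAbove 0) - sl (j.succAbove 2)) (sl (j.succAbove 1) - sl (j.succAbove 2))
      (T 0) (T 1) a (F (j.succAbove 2)))
    (hB : EdgeH R κ gB s εB V (sl j - sl (j.succAbove 0))
      (sl (j.succAbove 1) - sl (j.succAbove 0)) (sl (j.succAbove 2) - sl (j.succAbove 0))
      (T 1) (T 2) b (F (j.succAbove 0)))
    (hC : EdgeH R κ gC s εC V (sl j - sl (j.succAbove 1))
      (sl (j.succAbove 2) - sl (j.succAbove 1)) (sl (j.succAbove 0) - sl (j.succAbove 1))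
      (T 2) (T 0) d (F (j.succAbove 1)))
    (σ2 σ0 σ1 : Bool) (Wf : Finset ℤ) (L1 : ℕ) :
    ∑ w ∈ Wf, ∑ m ∈ range (J.1 + 1), (1 / (2 : ℝ) ^ m) * ∑ i ∈ range (2 ^ m),
      ∑ p0 ∈ Icc (-(L1 : ℤ)) L1, ∑ p1 ∈ Icc (-(L1 : ℤ)) L1,
      |Lb3r (famA R j T a F σ2 w (m + 1)) (famB R j T b F σ0 w (m + 1))
        (famC R j T d F σ1 w (m + 1)) (2 ^ m) p0 p1 (l * 2 ^ m + (i : ℤ) - w - p0 - p1)| ≤
    C24 c κ * (s * 2 ^ (J.1 + 7) * V) := by
  classical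
  obtain ⟨L, hL⟩ := exists_bound T
  set h : ℕ := 12 * 2 ^ κ + 24 with hh
  have hsl := slopes_sl j
  have h1 : ∀ w, ∃ L' : ℕ,
    ∑ m ∈ range (J.1 + 1), (1 / (2 : ℝ) ^ m) * ∑ i ∈ range (2 ^ m), ∑ p0 ∈ Icc (-(L1 : ℤ)) L1,
      ∑ p1 ∈ Icc (-(L1 : ℤ)) L1,
      |Lb3r (famA R j T a F σ2 w (m + 1)) (famB R j T b F σ0 w (m + 1))
        (famC R j T d F σ1 w (m + 1)) (2 ^ m) p0 p1 (l * 2 ^ m + (i : ℤ) - w - p0 - p1)| ≤
    c * ∑ m ∈ range (J.1 + 1),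
      (VgZ gA gB gC L' w (famA R j T a F σ2 w (m + 1)) (famB R j T b F σ0 w (m + 1))
        (famC R j T d F σ1 w (m + 1)) (famA R j T a F σ2 w m) (famB R j T b F σ0 w m)
        (famC R j T d F σ1 w m) (2 ^ m) +
        ∑ s ∈ range κ, (EgZ gA L' (famA R j T a F σ2 w (m + 1)) (famA R j T a F σ2 w m) (2 ^ (m + s)) +
          EgZ gB L' (famB R j T b F σ0 w (m + 1)) (famB R j T b F σ0 w m) (2 ^ (m + s)) +
          EgZ gC L' (famC R j T d F σ1 w (m + 1)) (famC R j T d F σ1 w m) (2 ^ (m + s)))) := by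
    intro w
    exact hTri l hl w (famA R j T a F σ2 w) (famB R j T b F σ0 w) (famC R j T d F σ1 w) L
      (fun m x y hxy => fK_support _ _ _ _ _ _ _ _ _ L (hL 0) (hL 1) x y hxy)
      (fun m x y hxy => fK_support _ _ _ _ _ _ _ _ _ L (hL 1) (hL 2) x y hxy)
      (fun m x y hxy => fK_support _ _ _ _ _ _ _ _ _ L (hL 2) (hL 0) x y hxy)
      (fK_zero _ _ _ _ _ _ _ _ _ _) (fK_zero _ _ _ _ _ _ _ _ _ _) (fK_zero _ _ _ _ _ _ _ _ _ _)
      (J.1 + 1) L1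
  choose L' hL' using h1
  refine (Finset.sum_le_sum fun w _ => hL' w).trans ?_
  rw [← Finset.mul_sum, Finset.sum_comm]
  -- one level
  have h2 : ∀ m ∈ range (J.1 + 1), ∑ w ∈ Wf,
      (VgZ gA gB gC (L' w) w (famA R j T a F σ2 w (m + 1)) (famB R j T b F σ0 w (m + 1))
        (famC R j T d F σ1 w (m + 1)) (famA R j T a F σ2 w m) (famB R j T b F σ0 w m)
        (famC R j T d F σ1 w m) (2 ^ m) +
        ∑ s ∈ range κ, (EgZ gA (L' w) (famA R j T a F σ2 w (m + 1)) (famA R j T a F σ2 w m) (2 ^ (m + s)) +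
          EgZ gB (L' w) (famB R j T b F σ0 w (m + 1)) (famB R j T b F σ0 w m) (2 ^ (m + s)) +
          EgZ gC (L' w) (famC R j T d F σ1 w (m + 1)) (famC R j T d F σ1 w m) (2 ^ (m + s)))) ≤
      (3 * (1 + κ)) * Lv R m h s V := by
    intro m hm
    rw [Finset.mem_range] at hm
    have v1 := sumV_le hs hR hsl hA hB hC m h (by omega) (by omega) σ0 σ1 σ2 Wf L'
    have v2 : ∀ k ∈ range κ, ∑ w ∈ Wf,
        (EgZ gA (L' w) (famA R j T a F σ2 w (m + 1)) (famA R j T a F σ2 w m) (2 ^ (m + k)) +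
          EgZ gB (L' w) (famB R j T b F σ0 w (m + 1)) (famB R j T b F σ0 w m) (2 ^ (m + k)) +
          EgZ gC (L' w) (famC R j T d F σ1 w (m + 1)) (famC R j T d F σ1 w m) (2 ^ (m + k))) ≤
        3 * Lv R m h s V := by
      intro k hk
      rw [Finset.mem_range] at hk
      have hsh : 12 * 2 ^ k ≤ h := by
        have : 2 ^ k ≤ 2 ^ κ := Nat.pow_le_pow_right (by norm_num) hk.le
        omega
      rw [Finset.sum_add_distrib, Finset.sum_add_distrib]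
      have e1 := sumE_le hs hR hA m h k (by omega) hk.le hsh σ2 Wf L'
      have e2 := sumE_le hs hR hB m h k (by omega) hk.le hsh σ0 Wf L'
      have e3 := sumE_le hs hR hC m h k (by omega) hk.le hsh σ1 Wf L'
      have e1' : ∑ w ∈ Wf, EgZ gA (L' w) (famA R j T a F σ2 w (m + 1)) (famA R j T a F σ2 w m)
        (2 ^ (m + k)) ≤ Lv R m h s V := e1
      have e2' : ∑ w ∈ Wf, EgZ gB (L' w) (famB R j T b F σ0 w (m + 1)) (famB R j T b F σ0 w m)
        (2 ^ (m + k)) ≤ Lv R m h s V := e2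
      have e3' : ∑ w ∈ Wf, EgZ gC (L' w) (famC R j T d F σ1 w (m + 1)) (famC R j T d F σ1 w m)
        (2 ^ (m + k)) ≤ Lv R m h s V := e3
      linarith
    have v3 := Finset.sum_le_sum v2
    rw [Finset.sum_const, Finset.card_range, nsmul_eq_mul] at v3
    rw [Finset.sum_add_distrib]
    have e : ∑ w ∈ Wf, ∑ k ∈ range κ,
        (EgZ gA (L' w) (famA R j T a F σ2 w (m + 1)) (famA R j T a F σ2 w m) (2 ^ (m + k)) +
          EgZ gB (L' w) (famB R j T b F σ0 w (m + 1)) (famB R j T b F σ0 w m) (2 ^ (m + k)) +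
          EgZ gC (L' w) (famC R j T d F σ1 w (m + 1)) (famC R j T d F σ1 w m) (2 ^ (m + k))) =
        ∑ k ∈ range κ, ∑ w ∈ Wf,
        (EgZ gA (L' w) (famA R j T a F σ2 w (m + 1)) (famA R j T a F σ2 w m) (2 ^ (m + k)) +
          EgZ gB (L' w) (famB R j T b F σ0 w (m + 1)) (famB R j T b F σ0 w m) (2 ^ (m + k)) +
          EgZ gC (L' w) (famC R j T d F σ1 w (m + 1)) (famC R j T d F σ1 w m) (2 ^ (m + k))) :=
      Finset.sum_comm
    rw [e]
    have v1' : ∑ w ∈ Wf, VgZ gA gB gC (L' w) w (famA R j T a F σ2 w (m + 1))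
        (famB R j T b F σ0 w (m + 1)) (famC R j T d F σ1 w (m + 1)) (famA R j T a F σ2 w m)
        (famB R j T b F σ0 w m) (famC R j T d F σ1 w m) (2 ^ m) ≤ 3 * Lv R m h s V := v1
    linarith
  refine (mul_le_mul_of_nonneg_left (Finset.sum_le_sum h2) hc).trans ?_
  rw [← Finset.mul_sum]
  -- the levels
  have h3 : ∀ m ∈ range (J.1 + 1), Lv R m h s V ≤
      ((2 * (h : ℝ) + 1) ^ 3 * (2 * (2 * ((h : ℝ) + 128) + 1)) * 3) * (s * V) * (Dm R m).card := by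
    intro m _
    unfold Lv
    have h4 := card_En R m h
    have e : (2 * (h : ℝ) + 1) ^ 3 * (((En R m h).card : ℝ) * (3 * s * (2 ^ (m + 7) * V))) =
        ((2 * (h : ℝ) + 1) ^ 3 * 3 * (s * V)) * (((En R m h).card : ℝ) * 2 ^ (m + 7)) := by ring
    rw [e]
    refine (mul_le_mul_of_nonneg_left h4 (by positivity)).trans (le_of_eq ?_)
    ring
  have h5 : ∑ m ∈ range (J.1 + 1), Lv R m h s V ≤
      ((2 * (h : ℝ) + 1) ^ 3 * (2 * (2 * ((h : ℝ) + 128) + 1)) * 3) * (s * V) * 2 ^ (J.1 + 7) := by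
    refine (Finset.sum_le_sum h3).trans ?_
    rw [← Finset.mul_sum]
    exact mul_le_mul_of_nonneg_left (sum_card_Dm R J hR) (by positivity)
  have h6 := mul_le_mul_of_nonneg_left h5 (by positivity : (0 : ℝ) ≤ c * (3 * (1 + κ)))
  rw [← mul_assoc]
  refine h6.trans (le_of_eq ?_)
  unfold C24
  rw [← hh]
  ring

/-- **(R244) Frozen24** -/
theorem frozen24 : Frozen24 := by
  obtain ⟨K, hK, κ, hTri⟩ := triG
  refine ⟨8 * C24 K κ, by unfold C24; positivity, κ, ?_⟩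
  intro bb hbb R J hR j i s H hs hs1 hH μ V hμ hV T a b d F h2a h2b h2c h4a h4b h4c hba hbb' hbc hFj
  have hlog : 0 ≤ Real.log (H / s) := Real.log_nonneg (by rw [le_div_iff₀ hs]; linarith)
  set c : ℝ := K * (1 + Real.log (H / s)) with hc
  have hc0 : 0 ≤ c := by positivity
  have hsl := slopes_sl j
  have b2 : |sl (j.succAbove 0) - sl (j.succAbove 2)| ≤ 3 ∧
      |sl (j.succAbove 1) - sl (j.succAbove 2)| ≤ 3 := by
    constructor <;> rw [abs_le] <;> constructor <;>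
      linarith [hsl.h0.1, hsl.h0.2, hsl.h1.1, hsl.h1.2, hsl.h2.1, hsl.h2.2]
  have b0 : |sl (j.succAbove 1) - sl (j.succAbove 0)| ≤ 3 ∧
      |sl (j.succAbove 2) - sl (j.succAbove 0)| ≤ 3 := by
    constructor <;> rw [abs_le] <;> constructor <;>
      linarith [hsl.h0.1, hsl.h0.2, hsl.h1.1, hsl.h1.2, hsl.h2.1, hsl.h2.2]
  have b1 : |sl (j.succAbove 2) - sl (j.succAbove 1)| ≤ 3 ∧
      |sl (j.succAbove 0) - sl (j.succAbove 1)| ≤ 3 := by
    constructor <;> rw [abs_le] <;> constructor <;>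
      linarith [hsl.h0.1, hsl.h0.2, hsl.h1.1, hsl.h1.2, hsl.h2.1, hsl.h2.2]
  have hT := hTri s hs hs1 H hH i
  -- the three edges
  obtain ⟨εA, hA⟩ : ∃ ε, EdgeH R κ (gi s (H ^ 2)⁻¹ i 0) s ε V (sl j - sl (j.succAbove 2))
      (sl (j.succAbove 0) - sl (j.succAbove 2)) (sl (j.succAbove 1) - sl (j.succAbove 2))
      (T 0) (T 1) a (F (j.succAbove 2)) := by
    by_cases hi : i = 0
    · refine ⟨0, ?_⟩
      rw [gi, if_pos hi.symm]
      exact edge2 hs hH hsl.nj2 b2.1 b2.2 (T 0) (T 1) a _ hV h2a (hba hi)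
    · refine ⟨1, ?_⟩
      rw [gi, if_neg (fun h => hi h.symm)]
      exact edge4 hs hsl.nj2 b2.1 b2.2 (T 0) (T 1) a _ hV h2a (h4a hi)
  obtain ⟨εB, hB⟩ : ∃ ε, EdgeH R κ (gi s (H ^ 2)⁻¹ i 1) s ε V (sl j - sl (j.succAbove 0))
      (sl (j.succAbove 1) - sl (j.succAbove 0)) (sl (j.succAbove 2) - sl (j.succAbove 0))
      (T 1) (T 2) b (F (j.succAbove 0)) := by
    by_cases hi : i = 1
    · refine ⟨0, ?_⟩
      rw [gi, if_pos hi.symm]
      exact edge2 hs hH hsl.nj0 b0.1 b0.2 (T 1) (T 2) b _ hV h2b (hbb' hi)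
    · refine ⟨1, ?_⟩
      rw [gi, if_neg (fun h => hi h.symm)]
      exact edge4 hs hsl.nj0 b0.1 b0.2 (T 1) (T 2) b _ hV h2b (h4b hi)
  obtain ⟨εC, hC⟩ : ∃ ε, EdgeH R κ (gi s (H ^ 2)⁻¹ i 2) s ε V (sl j - sl (j.succAbove 1))
      (sl (j.succAbove 2) - sl (j.succAbove 1)) (sl (j.succAbove 0) - sl (j.succAbove 1))
      (T 2) (T 0) d (F (j.succAbove 1)) := by
    by_cases hi : i = 2
    · refine ⟨0, ?_⟩
      rw [gi, if_pos hi.symm]
      exact edge2 hs hH hsl.nj1 b1.1 b1.2 (T 2) (T 0) d _ hV h2c (hbc hi)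
    · refine ⟨1, ?_⟩
      rw [gi, if_neg (fun h => hi h.symm)]
      exact edge4 hs hsl.nj1 b1.1 b1.2 (T 2) (T 0) d _ hV h2c (h4c hi)
  have hfin := frozen_sum (C24 c κ * (s * 2 ^ (J.1 + 7) * V)) bb hbb R J hR j T a b d F
    (fun l hl σ2 σ0 σ1 Wf L1 => block24 hc0 hT hs.le hV l hl R J hR j T a b d F hA hB hC
      σ2 σ0 σ1 Wf L1) μ hμ hFj
  refine hfin.trans (le_of_eq ?_)
  have e : C24 c κ = (1 + Real.log (H / s)) * C24 K κ := by
    unfold C24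
    rw [hc]
    ring
  rw [e]
  ring

end Crest.Agent.R079.F24
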