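import Crest.Agent.R079.F24d_118

/-! R079, AL4 (helper118): the LINEAR form of `Frozen24` (bound by totals of the node budgets) and the
version for MIXTURES of atoms, weights inside the sum. -/

set_option autoImplicit false
set_option linter.unusedVariables false

namespace Crest.Agent.R079.F24

open Finset Crest.Agent.R079.Grid Crest.Agent.R079.Pot Crest.Agent.R079.Glue Crest.Agent.R079.R244

/-- what is used about one edge: budget on the masked kernels, totals near the exits -/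
structure EdgeT (R : Finset (ℕ × ℤ)) (κ h : ℕ) (g : Bud) (s ε : ℝ) (α γ δ : ℤ) (T T' : Finset ℤ)
    (a : ℤ → ℤ → ℂ) (F : ℤ → ℂ) (tt : ℕ → ℕ → ℝ) : Prop where
  good : GoodB g
  hγ : |γ| ≤ 3
  hδ : |δ| ≤ 3
  bud : ∀ (σ : Bool) (m : ℕ) (w : ℤ) (N : ℕ) (q p : ℤ),
    g (fK σ α γ δ T T' a (msk (Rm R m) F) w) N q p ≤
      UU s ε (cK α γ δ T T' a (msk (Rm R m) F) w) N q p
  total : ∀ (m k : ℕ), k ≤ κ → ∀ Λ : Finset (ℤ × ℤ × ℤ),
    (∀ t ∈ Λ, ∀ i j : ℕ, i < 2 ^ (m + k) → j < 2 ^ (m + k) →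
      α * t.1 + γ * (t.2.1 + (i : ℤ)) + δ * (t.2.2 + (j : ℤ)) ∈ Dp R m h) →
    ∑ t ∈ Λ, UU s ε (cK α γ δ T T' a (msk (Rm R m) F) t.1) (2 ^ (m + k)) t.2.1 t.2.2 ≤ tt m k

variable {R : Finset (ℕ × ℤ)} {J : ℕ × ℤ} {κ h : ℕ} {s : ℝ}

/-- **own potentials of one level** -/
lemma sumE_leT (hR : IsRegion R J) {g : Bud} {ε : ℝ} {α γ δ : ℤ} {T T' : Finset ℤ}
    {a : ℤ → ℤ → ℂ} {F : ℤ → ℂ} {tt : ℕ → ℕ → ℝ} (hE : EdgeT R κ h g s ε α γ δ T T' a F tt)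
    (m k : ℕ)
    (hm : m ≤ J.1) (hk : k ≤ κ) (hkh : 12 * 2 ^ k ≤ h) (σ : Bool) (Wf : Finset ℤ) (Lw : ℤ → ℕ) :
    ∑ w ∈ Wf, EgZ g (Lw w) (fK σ α γ δ T T' a (msk (Rs R (m + 1)) F) w)
      (fK σ α γ δ T T' a (msk (Rs R m) F) w) (2 ^ (m + k)) ≤ tt m k := by
  classical
  obtain ⟨LL, hLL⟩ := Wsup Wf Lw
  set N := 2 ^ (m + k) with hN
  have hNz : (N : ℤ) = 2 ^ k * 2 ^ m := by rw [hN]; push_cast; rw [pow_add]; ring
  refine (Finset.sum_le_sum fun w hw => EgZ_mono hE.good _ _ N (Lw w) LL (hLL w hw)).trans ?_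
  set P : ℤ × ℤ × ℤ → Prop := fun t => SeesZ (fK σ α γ δ T T' a (msk (Rs R (m + 1)) F) t.1)
      (fK σ α γ δ T T' a (msk (Rs R m) F) t.1) N t.2.1 t.2.2 with hP
  set Λ := (Wf ×ˢ (Icc (-(LL : ℤ)) LL ×ˢ Icc (-(LL : ℤ)) LL)).filter P with hΛ
  have e : ∑ w ∈ Wf, EgZ g LL (fK σ α γ δ T T' a (msk (Rs R (m + 1)) F) w)
      (fK σ α γ δ T T' a (msk (Rs R m) F) w) N =
      ∑ t ∈ Λ, g (fK σ α γ δ T T' a (msk (Rm R m) F) t.1) N t.2.1 t.2.2 := by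
    rw [hΛ, Finset.sum_filter, Finset.sum_product]
    refine Finset.sum_congr rfl fun w _ => ?_
    unfold EgZ
    rw [Finset.sum_product]
    rfl
  rw [e]
  refine (Finset.sum_le_sum fun t _ => hE.bud σ m t.1 N t.2.1 t.2.2).trans ?_
  refine hE.total m k hk Λ ?_
  intro t ht i j hi hj
  rw [hΛ, Finset.mem_filter] at ht
  obtain ⟨i', j', hi', hj', hd⟩ := fK_sees R J hR m hm F σ α γ δ T T' a t.1 N t.2.1 t.2.2 ht.2
  refine mem_Dp R m h _ _ hd ?_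
  have a1 := abs_smul_le γ i N hE.hγ hi
  have a2 := abs_smul_le γ i' N hE.hγ hi'
  have a3 := abs_smul_le δ j N hE.hδ hj
  have a4 := abs_smul_le δ j' N hE.hδ hj'
  have e : α * t.1 + γ * (t.2.1 + (i : ℤ)) + δ * (t.2.2 + (j : ℤ)) -
      (α * t.1 + γ * (t.2.1 + (i' : ℤ)) + δ * (t.2.2 + (j' : ℤ))) =
      γ * (i : ℤ) + δ * (j : ℤ) - γ * (i' : ℤ) - δ * (j' : ℤ) := by ring
  have hhz : (12 * 2 ^ k : ℤ) ≤ h := by exact_mod_cast hkh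
  have hb : 12 * (N : ℤ) ≤ h * 2 ^ m := by
    rw [hNz]
    have : (0 : ℤ) ≤ 2 ^ m := by positivity
    nlinarith
  rw [e]
  refine le_trans ?_ hb
  rw [abs_le] at a1 a2 a3 a4 ⊢
  constructor <;> linarith [a1.1, a1.2, a2.1, a2.2, a3.1, a3.2, a4.1, a4.2]

/-- **joint potentials of one level** -/
lemma sumV_leT (hR : IsRegion R J) {gA gB gC : Bud} {εA εB εC : ℝ}
    {sj s0 s1 s2 : ℤ} (hsl : Slopes sj s0 s1 s2) {T0 T1 T2 : Finset ℤ}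
    {a b c : ℤ → ℤ → ℂ} {F0 F1 F2 : ℤ → ℂ} {tA' tB' tC' : ℕ → ℕ → ℝ}
    (hA : EdgeT R κ h gA s εA (sj - s2) (s0 - s2) (s1 - s2) T0 T1 a F2 tA')
    (hB : EdgeT R κ h gB s εB (sj - s0) (s1 - s0) (s2 - s0) T1 T2 b F0 tB')
    (hC : EdgeT R κ h gC s εC (sj - s1) (s2 - s1) (s0 - s1) T2 T0 c F1 tC') (m : ℕ)
    (hm : m ≤ J.1) (hh : 24 ≤ h) (σ0 σ1 σ2 : Bool) (Wf : Finset ℤ) (Lw : ℤ → ℕ) :
    ∑ w ∈ Wf, VgZ gA gB gC (Lw w) w
      (fK σ2 (sj - s2) (s0 - s2) (s1 - s2) T0 T1 a (msk (Rs R (m + 1)) F2) w)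
      (fK σ0 (sj - s0) (s1 - s0) (s2 - s0) T1 T2 b (msk (Rs R (m + 1)) F0) w)
      (fK σ1 (sj - s1) (s2 - s1) (s0 - s1) T2 T0 c (msk (Rs R (m + 1)) F1) w)
      (fK σ2 (sj - s2) (s0 - s2) (s1 - s2) T0 T1 a (msk (Rs R m) F2) w)
      (fK σ0 (sj - s0) (s1 - s0) (s2 - s0) T1 T2 b (msk (Rs R m) F0) w)
      (fK σ1 (sj - s1) (s2 - s1) (s0 - s1) T2 T0 c (msk (Rs R m) F1) w) (2 ^ m) ≤
      tA' m 0 + tB' m 0 + tC' m 0 := by
  classical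
  obtain ⟨LL, hLL⟩ := Wsup Wf Lw
  refine (Finset.sum_le_sum fun w hw => VgZ_mono hA.good hB.good hC.good w _ _ _ _ _ _ _ (Lw w) LL
    (hLL w hw)).trans ?_
  set N := 2 ^ m with hN
  have hN0 : (0 : ℝ) < (N : ℝ) := by rw [hN]; positivity
  set uA : ℤ × ℤ × ℤ → ℝ := fun t =>
    UU s εA (cK (sj - s2) (s0 - s2) (s1 - s2) T0 T1 a (msk (Rm R m) F2) t.1) N t.2.1 t.2.2 with huA
  set uB : ℤ × ℤ × ℤ → ℝ := fun t =>
    UU s εB (cK (sj - s0) (s1 - s0) (s2 - s0) T1 T2 b (msk (Rm R m) F0) t.1) N t.2.1 t.2.2 with huB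
  set uC : ℤ × ℤ × ℤ → ℝ := fun t =>
    UU s εC (cK (sj - s1) (s2 - s1) (s0 - s1) T2 T0 c (msk (Rm R m) F1) t.1) N t.2.1 t.2.2 with huC
  set P : ℕ → ℤ × ℤ × ℤ → Prop := fun i t =>
    SeesZ (fK σ2 (sj - s2) (s0 - s2) (s1 - s2) T0 T1 a (msk (Rs R (m + 1)) F2) t.1)
          (fK σ2 (sj - s2) (s0 - s2) (s1 - s2) T0 T1 a (msk (Rs R m) F2) t.1) N t.2.1 t.2.2 ∨
        SeesZ (fK σ0 (sj - s0) (s1 - s0) (s2 - s0) T1 T2 b (msk (Rs R (m + 1)) F0) t.1)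
          (fK σ0 (sj - s0) (s1 - s0) (s2 - s0) T1 T2 b (msk (Rs R m) F0) t.1) N t.2.2
            (tc N i t.1 t.2.1 t.2.2) ∨
        SeesZ (fK σ1 (sj - s1) (s2 - s1) (s0 - s1) T2 T0 c (msk (Rs R (m + 1)) F1) t.1)
          (fK σ1 (sj - s1) (s2 - s1) (s0 - s1) T2 T0 c (msk (Rs R m) F1) t.1) N
            (tc N i t.1 t.2.1 t.2.2) t.2.1 with hP
  set Λ : ℕ → Finset (ℤ × ℤ × ℤ) := fun i =>
    (Wf ×ˢ (Icc (-(LL : ℤ)) LL ×ˢ Icc (-(LL : ℤ)) LL)).filter (P i) with hΛ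
  set φ : ℕ → ℤ × ℤ × ℤ → ℤ × ℤ × ℤ := fun i t => (t.1, t.2.2, tc N i t.1 t.2.1 t.2.2) with hφ
  set ψ : ℕ → ℤ × ℤ × ℤ → ℤ × ℤ × ℤ := fun i t => (t.1, tc N i t.1 t.2.1 t.2.2, t.2.1) with hψ
  have hφi : ∀ i, Function.Injective (φ i) := by
    rintro i ⟨x, y, z⟩ ⟨x', y', z'⟩ h
    simp only [hφ, Prod.mk.injEq, tc] at h
    obtain ⟨h1, h2, h3⟩ := h
    refine Prod.ext h1 (Prod.ext ?_ h2)
    simp only
    linarith
  have hψi : ∀ i, Function.Injective (ψ i) := by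
    rintro i ⟨x, y, z⟩ ⟨x', y', z'⟩ h
    simp only [hψ, Prod.mk.injEq, tc] at h
    obtain ⟨h1, h2, h3⟩ := h
    refine Prod.ext h1 (Prod.ext h3 ?_)
    simp only
    linarith
  have hclose : ∀ i, i < N → ∀ t ∈ Λ i, _ := fun i hi t ht =>
    close_all (J := J) hR m h hm hh F0 F1 F2 σ0 σ1 σ2 sj s0 s1 s2 hsl T0 T1 T2 a b c t.1 i hi
      t.2.1 t.2.2 (Finset.mem_filter.mp ht).2
  have tA : ∀ i, i < N → ∑ t ∈ Λ i, uA t ≤ tA' m 0 := by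
    intro i hi
    exact hA.total m 0 (Nat.zero_le _) (Λ i)
      (fun t ht i0 i1 h0 h1 => (hclose i hi t ht).1 i0 i1 h0 h1)
  have tB : ∀ i, i < N → ∑ t ∈ Λ i, uB (φ i t) ≤ tB' m 0 := by
    intro i hi
    rw [← Finset.sum_image (f := uB) (g := φ i) ((hφi i).injOn)]
    refine hB.total m 0 (Nat.zero_le _) ((Λ i).image (φ i)) ?_
    intro t ht i0 i1 h0 h1
    rw [Finset.mem_image] at ht
    obtain ⟨t', ht', rfl⟩ := ht
    exact (hclose i hi t' ht').2.1 i0 i1 h0 h1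
  have tC : ∀ i, i < N → ∑ t ∈ Λ i, uC (ψ i t) ≤ tC' m 0 := by
    intro i hi
    rw [← Finset.sum_image (f := uC) (g := ψ i) ((hψi i).injOn)]
    refine hC.total m 0 (Nat.zero_le _) ((Λ i).image (ψ i)) ?_
    intro t ht i0 i1 h0 h1
    rw [Finset.mem_image] at ht
    obtain ⟨t', ht', rfl⟩ := ht
    exact (hclose i hi t' ht').2.2 i0 i1 h0 h1
  -- value for one `i`
  set val : ℕ → ℤ × ℤ × ℤ → ℝ := fun i t =>
    gA (fK σ2 (sj - s2) (s0 - s2) (s1 - s2) T0 T1 a (msk (Rm R m) F2) t.1) N t.2.1 t.2.2 +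
    gB (fK σ0 (sj - s0) (s1 - s0) (s2 - s0) T1 T2 b (msk (Rm R m) F0) t.1) N t.2.2
      (tc N i t.1 t.2.1 t.2.2) +
    gC (fK σ1 (sj - s1) (s2 - s1) (s0 - s1) T2 T0 c (msk (Rm R m) F1) t.1) N
      (tc N i t.1 t.2.1 t.2.2) t.2.1 with hval
  have e : ∑ w ∈ Wf, VgZ gA gB gC LL w
      (fK σ2 (sj - s2) (s0 - s2) (s1 - s2) T0 T1 a (msk (Rs R (m + 1)) F2) w)
      (fK σ0 (sj - s0) (s1 - s0) (s2 - s0) T1 T2 b (msk (Rs R (m + 1)) F0) w)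
      (fK σ1 (sj - s1) (s2 - s1) (s0 - s1) T2 T0 c (msk (Rs R (m + 1)) F1) w)
      (fK σ2 (sj - s2) (s0 - s2) (s1 - s2) T0 T1 a (msk (Rs R m) F2) w)
      (fK σ0 (sj - s0) (s1 - s0) (s2 - s0) T1 T2 b (msk (Rs R m) F0) w)
      (fK σ1 (sj - s1) (s2 - s1) (s0 - s1) T2 T0 c (msk (Rs R m) F1) w) N =
      (1 / (N : ℝ)) * ∑ i ∈ range N, ∑ t ∈ Λ i, val i t := by
    unfold VgZ
    rw [← Finset.mul_sum, Finset.sum_comm]
    congr 1
    refine Finset.sum_congr rfl fun i _ => ?_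
    rw [hΛ]
    simp only
    rw [Finset.sum_filter, Finset.sum_product]
    refine Finset.sum_congr rfl fun w _ => ?_
    rw [Finset.sum_product]
    rfl
  rw [e]
  have h3 : ∀ i ∈ range N, ∑ t ∈ Λ i, val i t ≤ tA' m 0 + tB' m 0 + tC' m 0 := by
    intro i hi
    rw [Finset.mem_range] at hi
    have h4 : ∀ t ∈ Λ i, val i t ≤ uA t + uB (φ i t) + uC (ψ i t) := by
      intro t _
      exact add_le_add (add_le_add (hA.bud _ _ _ _ _ _) (hB.bud _ _ _ _ _ _))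
        (hC.bud _ _ _ _ _ _)
    refine (Finset.sum_le_sum h4).trans ?_
    rw [Finset.sum_add_distrib, Finset.sum_add_distrib]
    linarith [tA i hi, tB i hi, tC i hi]
  refine (mul_le_mul_of_nonneg_left (Finset.sum_le_sum h3) (by positivity)).trans ?_
  rw [Finset.sum_const, Finset.card_range, nsmul_eq_mul]
  refine le_of_eq ?_
  field_simp

/-! ### the linear form -/

/-- node total of one edge -/
noncomputable def nbt (s ε : ℝ) (α γ δ : ℤ) (T T' : Finset ℤ) (a : ℤ → ℤ → ℂ) (F : ℤ → ℂ)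
    (m k : ℕ) (l : ℤ) : ℝ :=
  2 * s * (∑ᶠ t : ℤ × ℤ × ℤ, e2 (cK α γ δ T T' a (res (m, l) F) t.1) (2 ^ (m + k)) t.2.1 t.2.2) +
  ε * (s⁻¹ *
    ∑ᶠ t : ℤ × ℤ × ℤ, e4 (cK α γ δ T T' a (res (m, l) F) t.1) (2 ^ (m + k)) t.2.1 t.2.2)

lemma UU_le_nbt {ε : ℝ} (hs : 0 ≤ s) (hε : 0 ≤ ε) {α γ δ : ℤ} (hα : α ≠ 0) (T T' : Finset ℤ)
    (a : ℤ → ℤ → ℂ) (F : ℤ → ℂ) (m k : ℕ) (l : ℤ) (S : Finset (ℤ × ℤ × ℤ)) :
    ∑ t ∈ S, UU s ε (cK α γ δ T T' a (res (m, l) F) t.1) (2 ^ (m + k)) t.2.1 t.2.2 ≤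
      nbt s ε α γ δ T T' a F m k l := by
  have e : ∑ t ∈ S, UU s ε (cK α γ δ T T' a (res (m, l) F) t.1) (2 ^ (m + k)) t.2.1 t.2.2 =
      2 * s * ∑ t ∈ S, e2 (cK α γ δ T T' a (res (m, l) F) t.1) (2 ^ (m + k)) t.2.1 t.2.2 +
      ε * (s⁻¹ * ∑ t ∈ S, e4 (cK α γ δ T T' a (res (m, l) F) t.1) (2 ^ (m + k)) t.2.1 t.2.2) := by
    unfold UU
    rw [Finset.sum_add_distrib, ← Finset.mul_sum, ← Finset.mul_sum, ← Finset.mul_sum]
  rw [e]
  have a2 := sum_le_finsum_of_nonneg _ (fun t => e2_nonneg _ _ _ _)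
      (support_finite (γ := γ) (δ := δ) hα T T' a (m, l) F (2 ^ (m + k)) e2 e2_congr e2_zero) S
  have a4 := sum_le_finsum_of_nonneg _ (fun t => e4_nonneg _ _ _ _)
      (support_finite (γ := γ) (δ := δ) hα T T' a (m, l) F (2 ^ (m + k)) e4 e4_congr e4_zero) S
  unfold nbt
  exact add_le_add (mul_le_mul_of_nonneg_left a2 (by positivity))
    (mul_le_mul_of_nonneg_left (mul_le_mul_of_nonneg_left a4 (inv_nonneg.mpr hs)) hε)

/-- total of one edge near the exits of level `m` -/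
noncomputable def ttL (R : Finset (ℕ × ℤ)) (h : ℕ) (s ε : ℝ) (α γ δ : ℤ) (T T' : Finset ℤ)
    (a : ℤ → ℤ → ℂ) (F : ℤ → ℂ) (m k : ℕ) : ℝ :=
  (2 * h + 1) ^ 3 * ∑ l ∈ En R m h, nbt s ε α γ δ T T' a F m k l

lemma total_le {ε : ℝ} (hs : 0 ≤ s) (hε : 0 ≤ ε) {α γ δ : ℤ} (hα : α ≠ 0)
    (hγ3 : |γ| ≤ 3) (hδ3 : |δ| ≤ 3) (hκh : 6 * 2 ^ κ ≤ h) (T T' : Finset ℤ)
    (a : ℤ → ℤ → ℂ) (F : ℤ → ℂ) (m k : ℕ) (hk : k ≤ κ) (Λ : Finset (ℤ × ℤ × ℤ))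
    (hΛ : ∀ t ∈ Λ, ∀ i j : ℕ, i < 2 ^ (m + k) → j < 2 ^ (m + k) →
      α * t.1 + γ * (t.2.1 + (i : ℤ)) + δ * (t.2.2 + (j : ℤ)) ∈ Dp R m h) :
    ∑ t ∈ Λ, UU s ε (cK α γ δ T T' a (msk (Rm R m) F) t.1) (2 ^ (m + k)) t.2.1 t.2.2 ≤
      ttL R h s ε α γ δ T T' a F m k := by
  have hkh : 6 * 2 ^ k ≤ h := by
    have : 2 ^ k ≤ 2 ^ κ := Nat.pow_le_pow_right (by norm_num) hk
    omega
  refine (Finset.sum_le_sum fun t ht => UU_box_le hs hε R m h k hkh F α γ δ hγ3 hδ3 T T' a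
    t.1 t.2.1 t.2.2 (hΛ t ht)).trans ?_
  rw [← Finset.mul_sum, Finset.sum_comm]
  unfold ttL
  refine mul_le_mul_of_nonneg_left ?_ (by positivity)
  exact Finset.sum_le_sum fun l _ => UU_le_nbt hs hε hα T T' a F m k l Λ

lemma edgeT2 (hs : 0 < s) {H : ℝ} (hH : 1 ≤ H) {α γ δ : ℤ} (hα : α ≠ 0) (hγ : |γ| ≤ 3)
    (hδ : |δ| ≤ 3) (hκh : 6 * 2 ^ κ ≤ h) (T T' : Finset ℤ) (a : ℤ → ℤ → ℂ) (F : ℤ → ℂ)
    (hb : ∀ w z z', ‖cK α γ δ T T' a F w z z'‖ ≤ H) :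
    EdgeT R κ h (g2Z s (H ^ 2)⁻¹) s 0 α γ δ T T' a F (ttL R h s 0 α γ δ T T' a F) where
  good := good2 hs.le (by positivity)
  hγ := hγ
  hδ := hδ
  bud σ m w N q p := by
    rw [fK_eq]
    refine g2_UU hs.le hH σ _ (fun z z' => ?_) N q p
    refine le_trans ?_ (hb w z z')
    unfold cK
    split_ifs
    · rw [norm_mul, norm_mul]
      refine mul_le_mul_of_nonneg_left ?_ (norm_nonneg _)
      unfold msk
      split_ifs
      · exact le_rfl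
      · rw [norm_zero]; exact norm_nonneg _
    · exact le_rfl
  total m k hk Λ hΛ := total_le hs.le le_rfl hα hγ hδ hκh T T' a F m k hk Λ hΛ

lemma edgeT4 (hs : 0 < s) {α γ δ : ℤ} (hα : α ≠ 0) (hγ : |γ| ≤ 3)
    (hδ : |δ| ≤ 3) (hκh : 6 * 2 ^ κ ≤ h) (T T' : Finset ℤ) (a : ℤ → ℤ → ℂ) (F : ℤ → ℂ) :
    EdgeT R κ h (g4Z s) s 1 α γ δ T T' a F (ttL R h s 1 α γ δ T T' a F) where
  good := good4 hs.le
  hγ := hγ
  hδ := hδ
  bud σ m w N q p := by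
    rw [fK_eq]
    exact g4_UU hs.le σ _ N q p
  total m k hk Λ hΛ := total_le hs.le zero_le_one hα hγ hδ hκh T T' a F m k hk Λ hΛ

/-- **one block, linear form** -/
lemma block24T {c : ℝ} (hc : 0 ≤ c) {gA gB gC : Bud} (hTri : TriG c κ gA gB gC)
    {εA εB εC : ℝ} {tA tB tC : ℕ → ℕ → ℝ}
    (l : ℤ) (hl : |l| ≤ 7) (hh : h = 12 * 2 ^ κ + 24) (hR : IsRegion R J) (j : Fin 4)
    (T : Fin 3 → Finset ℤ) (a b d : ℤ → ℤ → ℂ) (F : Fin 4 → ℤ → ℂ)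
    (hA : EdgeT R κ h gA s εA (sl j - sl (j.succAbove 2))
      (sl (j.succAbove 0) - sl (j.succAbove 2)) (sl (j.succAbove 1) - sl (j.succAbove 2))
      (T 0) (T 1) a (F (j.succAbove 2)) tA)
    (hB : EdgeT R κ h gB s εB (sl j - sl (j.succAbove 0))
      (sl (j.succAbove 1) - sl (j.succAbove 0)) (sl (j.succAbove 2) - sl (j.succAbove 0))
      (T 1) (T 2) b (F (j.succAbove 0)) tB)
    (hC : EdgeT R κ h gC s εC (sl j - sl (j.succAbove 1))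
      (sl (j.succAbove 2) - sl (j.succAbove 1)) (sl (j.succAbove 0) - sl (j.succAbove 1))
      (T 2) (T 0) d (F (j.succAbove 1)) tC)
    (σ2 σ0 σ1 : Bool) (Wf : Finset ℤ) (L1 : ℕ) :
    ∑ w ∈ Wf, ∑ m ∈ range (J.1 + 1), (1 / (2 : ℝ) ^ m) * ∑ i ∈ range (2 ^ m),
      ∑ p0 ∈ Icc (-(L1 : ℤ)) L1, ∑ p1 ∈ Icc (-(L1 : ℤ)) L1,
      |Lb3r (famA R j T a F σ2 w (m + 1)) (famB R j T b F σ0 w (m + 1))
        (famC R j T d F σ1 w (m + 1)) (2 ^ m) p0 p1 (l * 2 ^ m + (i : ℤ) - w - p0 - p1)| ≤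
    c * ∑ m ∈ range (J.1 + 1), (tA m 0 + tB m 0 + tC m 0 +
      ∑ k ∈ range κ, (tA m k + tB m k + tC m k)) := by
  classical
  obtain ⟨L, hL⟩ := exists_bound T
  have hsl := slopes_sl j
  have h1 : ∀ w, ∃ L' : ℕ,
    ∑ m ∈ range (J.1 + 1), (1 / (2 : ℝ) ^ m) * ∑ i ∈ range (2 ^ m), ∑ p0 ∈ Icc (-(L1 : ℤ)) L1,
      ∑ p1 ∈ Icc (-(L1 : ℤ)) L1,
      |Lb3r (famA R j T a F σ2 w (m + 1)) (famB R j T b F σ0 w (m + 1))
        (famC R j T d F σ1 w (m + 1)) (2 ^ m) p0 p1 (l * 2 ^ m + (i : ℤ) - w - p0 - p1)| ≤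
    c * ∑ m ∈ range (J.1 + 1),
      (VgZ gA gB gC L' w (famA R j T a F σ2 w (m + 1)) (famB R j T b F σ0 w (m + 1))
        (famC R j T d F σ1 w (m + 1)) (famA R j T a F σ2 w m) (famB R j T b F σ0 w m)
        (famC R j T d F σ1 w m) (2 ^ m) +
        ∑ s ∈ range κ, (EgZ gA L' (famA R j T a F σ2 w (m + 1)) (famA R j T a F σ2 w m) (2 ^ (m + s)) +
          EgZ gB L' (famB R j T b F σ0 w (m + 1)) (famB R j T b F σ0 w m) (2 ^ (m + s)) +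
          EgZ gC L' (famC R j T d F σ1 w (m + 1)) (famC R j T d F σ1 w m) (2 ^ (m + s)))) := by
    intro w
    exact hTri l hl w (famA R j T a F σ2 w) (famB R j T b F σ0 w) (famC R j T d F σ1 w) L
      (fun m x y hxy => fK_support _ _ _ _ _ _ _ _ _ L (hL 0) (hL 1) x y hxy)
      (fun m x y hxy => fK_support _ _ _ _ _ _ _ _ _ L (hL 1) (hL 2) x y hxy)
      (fun m x y hxy => fK_support _ _ _ _ _ _ _ _ _ L (hL 2) (hL 0) x y hxy)
      (fK_zero _ _ _ _ _ _ _ _ _ _) (fK_zero _ _ _ _ _ _ _ _ _ _) (fK_zero _ _ _ _ _ _ _ _ _ _)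
      (J.1 + 1) L1
  choose L' hL' using h1
  refine (Finset.sum_le_sum fun w _ => hL' w).trans ?_
  rw [← Finset.mul_sum, Finset.sum_comm]
  refine mul_le_mul_of_nonneg_left (Finset.sum_le_sum fun m hm => ?_) hc
  rw [Finset.mem_range] at hm
  have v1 := sumV_leT hR hsl hA hB hC m (by omega) (by omega) σ0 σ1 σ2 Wf L'
  have v2 : ∀ k ∈ range κ, ∑ w ∈ Wf,
      (EgZ gA (L' w) (famA R j T a F σ2 w (m + 1)) (famA R j T a F σ2 w m) (2 ^ (m + k)) +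
        EgZ gB (L' w) (famB R j T b F σ0 w (m + 1)) (famB R j T b F σ0 w m) (2 ^ (m + k)) +
        EgZ gC (L' w) (famC R j T d F σ1 w (m + 1)) (famC R j T d F σ1 w m) (2 ^ (m + k))) ≤
      tA m k + tB m k + tC m k := by
    intro k hk
    rw [Finset.mem_range] at hk
    have hsh : 12 * 2 ^ k ≤ h := by
      have : 2 ^ k ≤ 2 ^ κ := Nat.pow_le_pow_right (by norm_num) hk.le
      omega
    rw [Finset.sum_add_distrib, Finset.sum_add_distrib]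
    have e1 : ∑ w ∈ Wf, EgZ gA (L' w) (famA R j T a F σ2 w (m + 1)) (famA R j T a F σ2 w m)
      (2 ^ (m + k)) ≤ tA m k := sumE_leT hR hA m k (by omega) hk.le hsh σ2 Wf L'
    have e2 : ∑ w ∈ Wf, EgZ gB (L' w) (famB R j T b F σ0 w (m + 1)) (famB R j T b F σ0 w m)
      (2 ^ (m + k)) ≤ tB m k := sumE_leT hR hB m k (by omega) hk.le hsh σ0 Wf L'
    have e3 : ∑ w ∈ Wf, EgZ gC (L' w) (famC R j T d F σ1 w (m + 1)) (famC R j T d F σ1 w m)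
      (2 ^ (m + k)) ≤ tC m k := sumE_leT hR hC m k (by omega) hk.le hsh σ1 Wf L'
    linarith
  have v3 := Finset.sum_le_sum v2
  rw [Finset.sum_add_distrib]
  have e : ∑ w ∈ Wf, ∑ k ∈ range κ,
      (EgZ gA (L' w) (famA R j T a F σ2 w (m + 1)) (famA R j T a F σ2 w m) (2 ^ (m + k)) +
        EgZ gB (L' w) (famB R j T b F σ0 w (m + 1)) (famB R j T b F σ0 w m) (2 ^ (m + k)) +
        EgZ gC (L' w) (famC R j T d F σ1 w (m + 1)) (famC R j T d F σ1 w m) (2 ^ (m + k))) =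
      ∑ k ∈ range κ, ∑ w ∈ Wf,
      (EgZ gA (L' w) (famA R j T a F σ2 w (m + 1)) (famA R j T a F σ2 w m) (2 ^ (m + k)) +
        EgZ gB (L' w) (famB R j T b F σ0 w (m + 1)) (famB R j T b F σ0 w m) (2 ^ (m + k)) +
        EgZ gC (L' w) (famC R j T d F σ1 w (m + 1)) (famC R j T d F σ1 w m) (2 ^ (m + k))) :=
    Finset.sum_comm
  rw [e]
  have v1' : ∑ w ∈ Wf, VgZ gA gB gC (L' w) w (famA R j T a F σ2 w (m + 1))
      (famB R j T b F σ0 w (m + 1)) (famC R j T d F σ1 w (m + 1)) (famA R j T a F σ2 w m)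
      (famB R j T b F σ0 w m) (famC R j T d F σ1 w m) (2 ^ m) ≤ tA m 0 + tB m 0 + tC m 0 := v1
  linarith

/-- node totals of the three edges (`i` = the edge with the `S₂` budget) -/
noncomputable def nb3 (s : ℝ) (i : Fin 3) (j : Fin 4) (T : Fin 3 → Finset ℤ)
    (a b d : ℤ → ℤ → ℂ) (F : Fin 4 → ℤ → ℂ) (m k : ℕ) (l : ℤ) : ℝ :=
  nbt s (if i = 0 then 0 else 1) (sl j - sl (j.succAbove 2))
      (sl (j.succAbove 0) - sl (j.succAbove 2)) (sl (j.succAbove 1) - sl (j.succAbove 2))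
      (T 0) (T 1) a (F (j.succAbove 2)) m k l +
  nbt s (if i = 1 then 0 else 1) (sl j - sl (j.succAbove 0))
      (sl (j.succAbove 1) - sl (j.succAbove 0)) (sl (j.succAbove 2) - sl (j.succAbove 0))
      (T 1) (T 2) b (F (j.succAbove 0)) m k l +
  nbt s (if i = 2 then 0 else 1) (sl j - sl (j.succAbove 1))
      (sl (j.succAbove 2) - sl (j.succAbove 1)) (sl (j.succAbove 0) - sl (j.succAbove 1))
      (T 2) (T 0) d (F (j.succAbove 1)) m k l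

/-- **linear form of `Frozen24`**: bound by the node totals over the nodes near the exits -/
theorem frozenLin : ∃ K : ℝ, 0 ≤ K ∧ ∃ κ h : ℕ, ∀ (bb : ℤ), bb = -1 ∨ bb = -7 →
    ∀ (R : Finset (ℕ × ℤ)) (J : ℕ × ℤ), IsRegion R J →
    ∀ (j : Fin 4) (i : Fin 3) (s H : ℝ), 0 < s → s ≤ 1 → 1 ≤ H → ∀ (μ : ℝ), 0 ≤ μ →
    ∀ (T : Fin 3 → Finset ℤ) (a b c : ℤ → ℤ → ℂ) (F : Fin 4 → ℤ → ℂ),
      (i = 0 → ∀ w z z', ‖frAk j T a (F (j.succAbove 2)) w z z'‖ ≤ H) →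
      (i = 1 → ∀ w z z', ‖frBk j T b (F (j.succAbove 0)) w z z'‖ ≤ H) →
      (i = 2 → ∀ w z z', ‖frCk j T c (F (j.succAbove 1)) w z z'‖ ≤ H) →
      F j = atom j μ T a b c →
      ∑ p ∈ R, ∑ x ∈ adm p.1 p.2, ‖Lbox (2 ^ p.1) bb F x‖ ≤
        μ * (K * (1 + Real.log (H / s)) * ∑ m ∈ range (J.1 + 1),
          (∑ l ∈ En R m h, nb3 s i j T a b c F m 0 l +
            ∑ k ∈ range κ, ∑ l ∈ En R m h, nb3 s i j T a b c F m k l)) := by
  obtain ⟨K, hK, κ, hTri⟩ := triG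
  obtain ⟨h, hh⟩ : ∃ h : ℕ, h = 12 * 2 ^ κ + 24 := ⟨_, rfl⟩
  refine ⟨8 * (K * (2 * h + 1) ^ 3), by positivity, κ, h, ?_⟩
  intro bb hbb R J hR j i s H hs hs1 hH μ hμ T a b d F hba hbb' hbc hFj
  have hlog : 0 ≤ Real.log (H / s) := Real.log_nonneg (by rw [le_div_iff₀ hs]; linarith)
  set c : ℝ := K * (1 + Real.log (H / s)) with hc
  have hc0 : 0 ≤ c := by positivity
  have hκh : 6 * 2 ^ κ ≤ h := by omega
  have hsl := slopes_sl j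
  have b2 : |sl (j.succAbove 0) - sl (j.succAbove 2)| ≤ 3 ∧
      |sl (j.succAbove 1) - sl (j.succAbove 2)| ≤ 3 := by
    constructor <;> rw [abs_le] <;> constructor <;>
      linarith [hsl.h0.1, hsl.h0.2, hsl.h1.1, hsl.h1.2, hsl.h2.1, hsl.h2.2]
  have b0 : |sl (j.succAbove 1) - sl (j.succAbove 0)| ≤ 3 ∧
      |sl (j.succAbove 2) - sl (j.succAbove 0)| ≤ 3 := by
    constructor <;> rw [abs_le] <;> constructor <;>
      linarith [hsl.h0.1, hsl.h0.2, hsl.h1.1, hsl.h1.2, hsl.h2.1, hsl.h2.2]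
  have b1 : |sl (j.succAbove 2) - sl (j.succAbove 1)| ≤ 3 ∧
      |sl (j.succAbove 0) - sl (j.succAbove 1)| ≤ 3 := by
    constructor <;> rw [abs_le] <;> constructor <;>
      linarith [hsl.h0.1, hsl.h0.2, hsl.h1.1, hsl.h1.2, hsl.h2.1, hsl.h2.2]
  have hT := hTri s hs hs1 H hH i
  have hA : EdgeT R κ h (gi s (H ^ 2)⁻¹ i 0) s (if i = 0 then 0 else 1)
      (sl j - sl (j.succAbove 2))
      (sl (j.succAbove 0) - sl (j.succAbove 2)) (sl (j.succAbove 1) - sl (j.succAbove 2))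
      (T 0) (T 1) a (F (j.succAbove 2)) (ttL R h s (if i = 0 then 0 else 1)
      (sl j - sl (j.succAbove 2))
      (sl (j.succAbove 0) - sl (j.succAbove 2)) (sl (j.succAbove 1) - sl (j.succAbove 2))
      (T 0) (T 1) a (F (j.succAbove 2))) := by
    by_cases hi : i = 0
    · rw [gi, if_pos hi.symm, if_pos hi]
      exact edgeT2 hs hH hsl.nj2 b2.1 b2.2 hκh (T 0) (T 1) a _ (hba hi)
    · rw [gi, if_neg (fun h => hi h.symm), if_neg hi]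
      exact edgeT4 hs hsl.nj2 b2.1 b2.2 hκh (T 0) (T 1) a _
  have hB : EdgeT R κ h (gi s (H ^ 2)⁻¹ i 1) s (if i = 1 then 0 else 1)
      (sl j - sl (j.succAbove 0))
      (sl (j.succAbove 1) - sl (j.succAbove 0)) (sl (j.succAbove 2) - sl (j.succAbove 0))
      (T 1) (T 2) b (F (j.succAbove 0)) (ttL R h s (if i = 1 then 0 else 1)
      (sl j - sl (j.succAbove 0))
      (sl (j.succAbove 1) - sl (j.succAbove 0)) (sl (j.succAbove 2) - sl (j.succAbove 0))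
      (T 1) (T 2) b (F (j.succAbove 0))) := by
    by_cases hi : i = 1
    · rw [gi, if_pos hi.symm, if_pos hi]
      exact edgeT2 hs hH hsl.nj0 b0.1 b0.2 hκh (T 1) (T 2) b _ (hbb' hi)
    · rw [gi, if_neg (fun h => hi h.symm), if_neg hi]
      exact edgeT4 hs hsl.nj0 b0.1 b0.2 hκh (T 1) (T 2) b _
  have hC : EdgeT R κ h (gi s (H ^ 2)⁻¹ i 2) s (if i = 2 then 0 else 1)
      (sl j - sl (j.succAbove 1))
      (sl (j.succAbove 2) - sl (j.succAbove 1)) (sl (j.succAbove 0) - sl (j.succAbove 1))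
      (T 2) (T 0) d (F (j.succAbove 1)) (ttL R h s (if i = 2 then 0 else 1)
      (sl j - sl (j.succAbove 1))
      (sl (j.succAbove 2) - sl (j.succAbove 1)) (sl (j.succAbove 0) - sl (j.succAbove 1))
      (T 2) (T 0) d (F (j.succAbove 1))) := by
    by_cases hi : i = 2
    · rw [gi, if_pos hi.symm, if_pos hi]
      exact edgeT2 hs hH hsl.nj1 b1.1 b1.2 hκh (T 2) (T 0) d _ (hbc hi)
    · rw [gi, if_neg (fun h => hi h.symm), if_neg hi]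
      exact edgeT4 hs hsl.nj1 b1.1 b1.2 hκh (T 2) (T 0) d _
  have hfin := frozen_sum _ bb hbb R J hR j T a b d F
    (fun l hl σ2 σ0 σ1 Wf L1 => block24T hc0 hT l hl hh hR j T a b d F hA hB hC
      σ2 σ0 σ1 Wf L1) μ hμ hFj
  refine hfin.trans (le_of_eq ?_)
  congr 1
  have e : ∀ m k : ℕ, ttL R h s (if i = 0 then 0 else 1) (sl j - sl (j.succAbove 2))
      (sl (j.succAbove 0) - sl (j.succAbove 2)) (sl (j.succAbove 1) - sl (j.succAbove 2))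
      (T 0) (T 1) a (F (j.succAbove 2)) m k +
      ttL R h s (if i = 1 then 0 else 1) (sl j - sl (j.succAbove 0))
      (sl (j.succAbove 1) - sl (j.succAbove 0)) (sl (j.succAbove 2) - sl (j.succAbove 0))
      (T 1) (T 2) b (F (j.succAbove 0)) m k +
      ttL R h s (if i = 2 then 0 else 1) (sl j - sl (j.succAbove 1))
      (sl (j.succAbove 2) - sl (j.succAbove 1)) (sl (j.succAbove 0) - sl (j.succAbove 1))
      (T 2) (T 0) d (F (j.succAbove 1)) m k =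
      (2 * (h : ℝ) + 1) ^ 3 * ∑ l ∈ En R m h, nb3 s i j T a b d F m k l := by
    intro m k
    unfold ttL nb3
    rw [Finset.sum_add_distrib, Finset.sum_add_distrib]
    ring
  have e' : ∀ m ∈ range (J.1 + 1),
      (ttL R h s (if i = 0 then 0 else 1) (sl j - sl (j.succAbove 2))
      (sl (j.succAbove 0) - sl (j.succAbove 2)) (sl (j.succAbove 1) - sl (j.succAbove 2))
      (T 0) (T 1) a (F (j.succAbove 2)) m 0 +
      ttL R h s (if i = 1 then 0 else 1) (sl j - sl (j.succAbove 0))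
      (sl (j.succAbove 1) - sl (j.succAbove 0)) (sl (j.succAbove 2) - sl (j.succAbove 0))
      (T 1) (T 2) b (F (j.succAbove 0)) m 0 +
      ttL R h s (if i = 2 then 0 else 1) (sl j - sl (j.succAbove 1))
      (sl (j.succAbove 2) - sl (j.succAbove 1)) (sl (j.succAbove 0) - sl (j.succAbove 1))
      (T 2) (T 0) d (F (j.succAbove 1)) m 0 +
      ∑ k ∈ range κ, (ttL R h s (if i = 0 then 0 else 1) (sl j - sl (j.succAbove 2))
      (sl (j.succAbove 0) - sl (j.succAbove 2)) (sl (j.succAbove 1) - sl (j.succAbove 2))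
      (T 0) (T 1) a (F (j.succAbove 2)) m k +
      ttL R h s (if i = 1 then 0 else 1) (sl j - sl (j.succAbove 0))
      (sl (j.succAbove 1) - sl (j.succAbove 0)) (sl (j.succAbove 2) - sl (j.succAbove 0))
      (T 1) (T 2) b (F (j.succAbove 0)) m k +
      ttL R h s (if i = 2 then 0 else 1) (sl j - sl (j.succAbove 1))
      (sl (j.succAbove 2) - sl (j.succAbove 1)) (sl (j.succAbove 0) - sl (j.succAbove 1))
      (T 2) (T 0) d (F (j.succAbove 1)) m k)) =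
      (2 * (h : ℝ) + 1) ^ 3 * (∑ l ∈ En R m h, nb3 s i j T a b d F m 0 l +
        ∑ k ∈ range κ, ∑ l ∈ En R m h, nb3 s i j T a b d F m k l) := by
    intro m _
    rw [e, Finset.sum_congr rfl fun k _ => e m k, ← Finset.mul_sum]
    ring
  rw [Finset.sum_congr rfl e', ← Finset.mul_sum, hc]
  ring

end Crest.Agent.R079.F24
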