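import Crest.Agent.R079.F24e_118

/-! R079, AL4 (helper118): `Frozen24` for a finite MIXTURE of atoms, the weights inside the node
averages (helper714's form). -/

set_option autoImplicit false
set_option linter.unusedVariables false

namespace Crest.Agent.R079.F24

open Finset Crest.Agent.R079.Grid Crest.Agent.R079.Pot Crest.Agent.R079.Glue Crest.Agent.R079.R244

lemma prod_update {N : ℕ} {bb x : ℤ} (j : Fin 4) (F : Fin 4 → ℤ → ℂ) (G : ℤ → ℂ)
    (u : Fin 4 → Fin (N + N)) :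
    ∏ k, Function.update F j G k (yv N bb x u k) =
      G (yv N bb x u j) * ∏ k ∈ Finset.univ.erase j, F k (yv N bb x u k) := by
  rw [← Finset.mul_prod_erase Finset.univ _ (Finset.mem_univ j), Function.update_self]
  congr 1
  refine Finset.prod_congr rfl fun k hk => ?_
  rw [Function.update_of_ne (Finset.ne_of_mem_erase hk)]

/-- linearity of `Lbox` in one slot -/
lemma Lbox_mix (N : ℕ) (bb x : ℤ) (j : Fin 4) (F : Fin 4 → ℤ → ℂ) {ι : Type} (S : Finset ι)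
    (lam : ι → ℝ) (G : ι → ℤ → ℂ) (hF : ∀ y, F j y = ∑ n ∈ S, (lam n : ℂ) * G n y) :
    Lbox N bb F x = ∑ n ∈ S, (lam n : ℂ) * Lbox N bb (Function.update F j (G n)) x := by
  unfold Lbox
  simp only [prod_update]
  have e : ∀ u : Fin 4 → Fin (N + N), ∏ k, F k (yv N bb x u k) =
      ∑ n ∈ S, (lam n : ℂ) * (G n (yv N bb x u j) *
        ∏ k ∈ Finset.univ.erase j, F k (yv N bb x u k)) := by
    intro u
    rw [← Finset.mul_prod_erase Finset.univ _ (Finset.mem_univ j), hF, Finset.sum_mul]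
    exact Finset.sum_congr rfl fun n _ => by ring
  simp only [e]
  have e2 : ∑ u : Fin 4 → Fin (N + N), ((∏ i, hsg N (u i) : ℝ) : ℂ) *
      ∑ n ∈ S, (lam n : ℂ) * (G n (yv N bb x u j) *
        ∏ k ∈ Finset.univ.erase j, F k (yv N bb x u k)) =
      ∑ n ∈ S, (lam n : ℂ) * ∑ u : Fin 4 → Fin (N + N), ((∏ i, hsg N (u i) : ℝ) : ℂ) *
        (G n (yv N bb x u j) * ∏ k ∈ Finset.univ.erase j, F k (yv N bb x u k)) := by
    simp only [Finset.mul_sum]
    rw [Finset.sum_comm]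
    exact Finset.sum_congr rfl fun n _ => Finset.sum_congr rfl fun u _ => by ring
  rw [e2, Finset.mul_sum]
  exact Finset.sum_congr rfl fun n _ => by ring

lemma norm_Lbox_mix (N : ℕ) (bb x : ℤ) (j : Fin 4) (F : Fin 4 → ℤ → ℂ) {ι : Type} (S : Finset ι)
    (lam : ι → ℝ) (hlam : ∀ n ∈ S, 0 ≤ lam n) (G : ι → ℤ → ℂ)
    (hF : ∀ y, F j y = ∑ n ∈ S, (lam n : ℂ) * G n y) :
    ‖Lbox N bb F x‖ ≤ ∑ n ∈ S, lam n * ‖Lbox N bb (Function.update F j (G n)) x‖ := by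
  rw [Lbox_mix N bb x j F S lam G hF]
  refine (norm_sum_le _ _).trans (le_of_eq (Finset.sum_congr rfl fun n hn => ?_))
  rw [norm_mul, Complex.norm_real, Real.norm_of_nonneg (hlam n hn)]

/-- averaged `S₂` bound of a mixture -/
def S2Mix {ι : Type} (S : Finset ι) (lam : ι → ℝ) (R : Finset (ℕ × ℤ)) (κ : ℕ) (V : ℝ)
    (fr : ι → (ℤ → ℂ) → ℤ → ℤ → ℤ → ℂ) (F : ℤ → ℂ) : Prop :=
  ∀ p ∈ R, ∀ k : ℕ, k ≤ κ →
    ∑ n ∈ S, lam n * ∑ᶠ t : ℤ × ℤ × ℤ, e2 (fr n (res p F) t.1) (2 ^ (p.1 + k)) t.2.1 t.2.2 ≤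
      2 ^ (p.1 + 7) * V

/-- averaged `S₄` bound of a mixture -/
def S4Mix {ι : Type} (S : Finset ι) (lam : ι → ℝ) (R : Finset (ℕ × ℤ)) (κ : ℕ) (V σ : ℝ)
    (fr : ι → (ℤ → ℂ) → ℤ → ℤ → ℤ → ℂ) (F : ℤ → ℂ) : Prop :=
  ∀ p ∈ R, ∀ k : ℕ, k ≤ κ →
    ∑ n ∈ S, lam n * ∑ᶠ t : ℤ × ℤ × ℤ, e4 (fr n (res p F) t.1) (2 ^ (p.1 + k)) t.2.1 t.2.2 ≤
      σ * (2 ^ (p.1 + 7) * V)

lemma nbt_mix {s V ε : ℝ} (hs : 0 < s) (hV : 0 ≤ V) (hε : 0 ≤ ε) (hε1 : ε ≤ 1) {ι : Type}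
    (S : Finset ι) (lam : ι → ℝ) (R : Finset (ℕ × ℤ)) (κ : ℕ) (α γ δ : ℤ)
    (T T' : ι → Finset ℤ) (a : ι → ℤ → ℤ → ℂ) (F : ℤ → ℂ)
    (h2 : S2Mix S lam R κ V (fun n G w => cK α γ δ (T n) (T' n) (a n) G w) F)
    (h4 : ε ≠ 0 → S4Mix S lam R κ V (s ^ 2) (fun n G w => cK α γ δ (T n) (T' n) (a n) G w) F)
    (m k : ℕ) (hk : k ≤ κ) (l : ℤ) (hl : (m, l) ∈ R) :
    ∑ n ∈ S, lam n * nbt s ε α γ δ (T n) (T' n) (a n) F m k l ≤ 3 * s * (2 ^ (m + 7) * V) := by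
  have hB : 0 ≤ (2 : ℝ) ^ (m + 7) * V := by positivity
  have e : ∑ n ∈ S, lam n * nbt s ε α γ δ (T n) (T' n) (a n) F m k l =
      2 * s * (∑ n ∈ S, lam n * ∑ᶠ t : ℤ × ℤ × ℤ,
        e2 (cK α γ δ (T n) (T' n) (a n) (res (m, l) F) t.1) (2 ^ (m + k)) t.2.1 t.2.2) +
      ε * (s⁻¹ * (∑ n ∈ S, lam n * ∑ᶠ t : ℤ × ℤ × ℤ,
        e4 (cK α γ δ (T n) (T' n) (a n) (res (m, l) F) t.1) (2 ^ (m + k)) t.2.1 t.2.2)) := by
    unfold nbt
    simp only [Finset.mul_sum]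
    rw [← Finset.sum_add_distrib]
    exact Finset.sum_congr rfl fun n _ => by ring
  rw [e]
  have a2 := mul_le_mul_of_nonneg_left (h2 (m, l) hl k hk) (by positivity : 0 ≤ 2 * s)
  have a4 : ε * (s⁻¹ * (∑ n ∈ S, lam n * ∑ᶠ t : ℤ × ℤ × ℤ,
        e4 (cK α γ δ (T n) (T' n) (a n) (res (m, l) F) t.1) (2 ^ (m + k)) t.2.1 t.2.2)) ≤
      s * (2 ^ (m + 7) * V) := by
    by_cases h0 : ε = 0
    · rw [h0, zero_mul]
      positivity
    · have b4 := mul_le_mul_of_nonneg_left (h4 h0 (m, l) hl k hk) (inv_nonneg.mpr hs.le)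
      have c4 := mul_le_mul_of_nonneg_left b4 hε
      refine c4.trans ?_
      have d4 : s⁻¹ * (s ^ 2 * (2 ^ (m + 7) * V)) = s * (2 ^ (m + 7) * V) := by
        field_simp
      simp only
      rw [d4]
      exact mul_le_of_le_one_left (by positivity) hε1
  simp only at a2
  linarith

/-- **(R244 mixture)** `Frozen24` for `F j = ∑ λ_n atom_n`, averages inside. -/
theorem frozenMix24 : ∃ K : ℝ, 0 ≤ K ∧ ∃ κ : ℕ, ∀ (bb : ℤ), bb = -1 ∨ bb = -7 →
    ∀ (R : Finset (ℕ × ℤ)) (J : ℕ × ℤ), IsRegion R J →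
    ∀ (j : Fin 4) (i : Fin 3) (s H : ℝ), 0 < s → s ≤ 1 → 1 ≤ H → ∀ (V : ℝ), 0 ≤ V →
    ∀ {ι : Type} (S : Finset ι) (lam : ι → ℝ), (∀ n ∈ S, 0 ≤ lam n) →
    ∀ (T : ι → Fin 3 → Finset ℤ) (a b c : ι → ℤ → ℤ → ℂ) (F : Fin 4 → ℤ → ℂ),
      S2Mix S lam R κ V (fun n => frAk j (T n) (a n)) (F (j.succAbove 2)) →
      S2Mix S lam R κ V (fun n => frBk j (T n) (b n)) (F (j.succAbove 0)) →
      S2Mix S lam R κ V (fun n => frCk j (T n) (c n)) (F (j.succAbove 1)) →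
      (i ≠ 0 → S4Mix S lam R κ V (s ^ 2) (fun n => frAk j (T n) (a n)) (F (j.succAbove 2))) →
      (i ≠ 1 → S4Mix S lam R κ V (s ^ 2) (fun n => frBk j (T n) (b n)) (F (j.succAbove 0))) →
      (i ≠ 2 → S4Mix S lam R κ V (s ^ 2) (fun n => frCk j (T n) (c n)) (F (j.succAbove 1))) →
      (i = 0 → ∀ n ∈ S, ∀ w z z', ‖frAk j (T n) (a n) (F (j.succAbove 2)) w z z'‖ ≤ H) →
      (i = 1 → ∀ n ∈ S, ∀ w z z', ‖frBk j (T n) (b n) (F (j.succAbove 0)) w z z'‖ ≤ H) →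
      (i = 2 → ∀ n ∈ S, ∀ w z z', ‖frCk j (T n) (c n) (F (j.succAbove 1)) w z z'‖ ≤ H) →
      (∀ y, F j y = ∑ n ∈ S, (lam n : ℂ) * atom j 1 (T n) (a n) (b n) (c n) y) →
      ∑ p ∈ R, ∑ x ∈ adm p.1 p.2, ‖Lbox (2 ^ p.1) bb F x‖ ≤
        K * (s * (1 + Real.log (H / s)) * 2 ^ (J.1 + 7) * V) := by
  obtain ⟨K, hK, κ, h, hL⟩ := frozenLin
  refine ⟨K * (9 * (1 + κ)) * (2 * (2 * (h + 128) + 1)), by positivity, κ, ?_⟩
  intro bb hbb R J hR j i s H hs hs1 hH V hV ι S lam hlam T a b c F h2a h2b h2c h4a h4b h4c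
    hba hbb' hbc hFj
  have hlog : 0 ≤ Real.log (H / s) := Real.log_nonneg (by rw [le_div_iff₀ hs]; linarith)
  set G : ι → ℤ → ℂ := fun n => atom j 1 (T n) (a n) (b n) (c n) with hG
  have hup : ∀ (n : ι) (k : Fin 3), Function.update F j (G n) (j.succAbove k) = F (j.succAbove k) :=
    fun n k => Function.update_of_ne (Fin.succAbove_ne j k) _ _
  -- one atom
  have h1 : ∀ n ∈ S, ∑ p ∈ R, ∑ x ∈ adm p.1 p.2, ‖Lbox (2 ^ p.1) bb (Function.update F j (G n)) x‖ ≤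
      K * (1 + Real.log (H / s)) * ∑ m ∈ range (J.1 + 1),
          (∑ l ∈ En R m h, nb3 s i j (T n) (a n) (b n) (c n) F m 0 l +
            ∑ k ∈ range κ, ∑ l ∈ En R m h, nb3 s i j (T n) (a n) (b n) (c n) F m k l) := by
    intro n hn
    have := hL bb hbb R J hR j i s H hs hs1 hH 1 zero_le_one (T n) (a n) (b n) (c n)
      (Function.update F j (G n)) (by rw [hup]; exact fun hi => hba hi n hn)
      (by rw [hup]; exact fun hi => hbb' hi n hn) (by rw [hup]; exact fun hi => hbc hi n hn)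
      (by rw [Function.update_self])
    rw [one_mul] at this
    refine this.trans (le_of_eq ?_)
    unfold nb3
    simp only [hup]
  -- mixture
  have h2 : ∑ p ∈ R, ∑ x ∈ adm p.1 p.2, ‖Lbox (2 ^ p.1) bb F x‖ ≤
      ∑ n ∈ S, lam n * (K * (1 + Real.log (H / s)) * ∑ m ∈ range (J.1 + 1),
          (∑ l ∈ En R m h, nb3 s i j (T n) (a n) (b n) (c n) F m 0 l +
            ∑ k ∈ range κ, ∑ l ∈ En R m h, nb3 s i j (T n) (a n) (b n) (c n) F m k l)) := by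
    refine (Finset.sum_le_sum fun p _ => Finset.sum_le_sum fun x _ =>
      norm_Lbox_mix (2 ^ p.1) bb x j F S lam hlam G hFj).trans ?_
    have e : ∑ p ∈ R, ∑ x ∈ adm p.1 p.2, ∑ n ∈ S, lam n *
        ‖Lbox (2 ^ p.1) bb (Function.update F j (G n)) x‖ =
        ∑ n ∈ S, lam n * ∑ p ∈ R, ∑ x ∈ adm p.1 p.2,
          ‖Lbox (2 ^ p.1) bb (Function.update F j (G n)) x‖ := by
      simp only [Finset.mul_sum]
      rw [Finset.sum_comm' (s := S) (t := fun _ => R) (t' := R) (s' := fun _ => S) (by simp)]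
      exact Finset.sum_congr rfl fun p _ => Finset.sum_comm
    rw [e]
    exact Finset.sum_le_sum fun n hn => mul_le_mul_of_nonneg_left (h1 n hn) (hlam n hn)
  refine h2.trans ?_
  -- node averages
  have hnode : ∀ m k : ℕ, k ≤ κ → ∀ l, (m, l) ∈ R →
      ∑ n ∈ S, lam n * nb3 s i j (T n) (a n) (b n) (c n) F m k l ≤ 9 * s * (2 ^ (m + 7) * V) := by
    intro m k hk l hl
    have q : ∀ i' : Fin 3, (0 : ℝ) ≤ (if i = i' then 0 else 1) ∧
        (if i = i' then (0 : ℝ) else 1) ≤ 1 := by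
      intro i'
      split_ifs <;> norm_num
    have q' : ∀ i' : Fin 3, (if i = i' then (0 : ℝ) else 1) ≠ 0 → i ≠ i' := by
      intro i' h1 h2
      rw [if_pos h2] at h1
      exact h1 rfl
    have eA := nbt_mix hs hV (q 0).1 (q 0).2 S lam R κ _ _ _ (fun n => T n 0) (fun n => T n 1) a
      (F (j.succAbove 2)) h2a (fun h => h4a (q' 0 h)) m k hk l hl
    have eB := nbt_mix hs hV (q 1).1 (q 1).2 S lam R κ _ _ _ (fun n => T n 1) (fun n => T n 2) b
      (F (j.succAbove 0)) h2b (fun h => h4b (q' 1 h)) m k hk l hl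
    have eC := nbt_mix hs hV (q 2).1 (q 2).2 S lam R κ _ _ _ (fun n => T n 2) (fun n => T n 0) c
      (F (j.succAbove 1)) h2c (fun h => h4c (q' 2 h)) m k hk l hl
    have e : ∑ n ∈ S, lam n * nb3 s i j (T n) (a n) (b n) (c n) F m k l =
        ∑ n ∈ S, lam n * nbt s (if i = 0 then 0 else 1) (sl j - sl (j.succAbove 2))
          (sl (j.succAbove 0) - sl (j.succAbove 2)) (sl (j.succAbove 1) - sl (j.succAbove 2))
          (T n 0) (T n 1) (a n) (F (j.succAbove 2)) m k l +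
        ∑ n ∈ S, lam n * nbt s (if i = 1 then 0 else 1) (sl j - sl (j.succAbove 0))
          (sl (j.succAbove 1) - sl (j.succAbove 0)) (sl (j.succAbove 2) - sl (j.succAbove 0))
          (T n 1) (T n 2) (b n) (F (j.succAbove 0)) m k l +
        ∑ n ∈ S, lam n * nbt s (if i = 2 then 0 else 1) (sl j - sl (j.succAbove 1))
          (sl (j.succAbove 2) - sl (j.succAbove 1)) (sl (j.succAbove 0) - sl (j.succAbove 1))
          (T n 2) (T n 0) (c n) (F (j.succAbove 1)) m k l := by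
      rw [← Finset.sum_add_distrib, ← Finset.sum_add_distrib]
      refine Finset.sum_congr rfl fun n _ => ?_
      unfold nb3
      ring
    rw [e]
    linarith
  have hnodes : ∀ m k : ℕ, k ≤ κ → ∑ n ∈ S, lam n * ∑ l ∈ En R m h,
      nb3 s i j (T n) (a n) (b n) (c n) F m k l ≤
      (9 * s * V) * (((En R m h).card : ℝ) * 2 ^ (m + 7)) := by
    intro m k hk
    simp only [Finset.mul_sum]
    rw [Finset.sum_comm]
    refine (Finset.sum_le_sum fun l hl => hnode m k hk l (mem_En R m h l hl)).trans (le_of_eq ?_)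
    rw [Finset.sum_const, nsmul_eq_mul]
    ring
  have e : ∑ n ∈ S, lam n * (K * (1 + Real.log (H / s)) * ∑ m ∈ range (J.1 + 1),
          (∑ l ∈ En R m h, nb3 s i j (T n) (a n) (b n) (c n) F m 0 l +
            ∑ k ∈ range κ, ∑ l ∈ En R m h, nb3 s i j (T n) (a n) (b n) (c n) F m k l)) =
      K * (1 + Real.log (H / s)) * ∑ m ∈ range (J.1 + 1),
        (∑ n ∈ S, lam n * ∑ l ∈ En R m h, nb3 s i j (T n) (a n) (b n) (c n) F m 0 l +
          ∑ k ∈ range κ, ∑ n ∈ S, lam n * ∑ l ∈ En R m h,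
            nb3 s i j (T n) (a n) (b n) (c n) F m k l) := by
    have e1 : ∀ n, lam n * (K * (1 + Real.log (H / s)) * ∑ m ∈ range (J.1 + 1),
          (∑ l ∈ En R m h, nb3 s i j (T n) (a n) (b n) (c n) F m 0 l +
            ∑ k ∈ range κ, ∑ l ∈ En R m h, nb3 s i j (T n) (a n) (b n) (c n) F m k l)) =
        K * (1 + Real.log (H / s)) * ∑ m ∈ range (J.1 + 1),
          (lam n * ∑ l ∈ En R m h, nb3 s i j (T n) (a n) (b n) (c n) F m 0 l +
            ∑ k ∈ range κ, lam n * ∑ l ∈ En R m h, nb3 s i j (T n) (a n) (b n) (c n) F m k l) := by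
      intro n
      rw [mul_left_comm, Finset.mul_sum]
      congr 1
      refine Finset.sum_congr rfl fun m _ => ?_
      rw [mul_add, Finset.mul_sum (s := range κ)]
    rw [Finset.sum_congr rfl fun n _ => e1 n, ← Finset.mul_sum, Finset.sum_comm]
    congr 1
    refine Finset.sum_congr rfl fun m _ => ?_
    rw [Finset.sum_add_distrib]
    congr 1
    exact Finset.sum_comm
  rw [e]
  have h3 : ∀ m ∈ range (J.1 + 1),
      (∑ n ∈ S, lam n * ∑ l ∈ En R m h, nb3 s i j (T n) (a n) (b n) (c n) F m 0 l +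
          ∑ k ∈ range κ, ∑ n ∈ S, lam n * ∑ l ∈ En R m h,
            nb3 s i j (T n) (a n) (b n) (c n) F m k l) ≤
      ((1 + κ) * (9 * s * V)) * (2 * (2 * (h + 128) + 1) * (Dm R m).card) := by
    intro m _
    have a0 := hnodes m 0 (Nat.zero_le _)
    have a1 := Finset.sum_le_sum fun k (hk : k ∈ range κ) =>
      hnodes m k (Finset.mem_range.mp hk).le
    rw [Finset.sum_const, Finset.card_range, nsmul_eq_mul] at a1
    have a2 : (1 + (κ : ℝ)) * ((9 * s * V) * (((En R m h).card : ℝ) * 2 ^ (m + 7))) ≤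
        (1 + κ) * ((9 * s * V) * (2 * (2 * (h + 128) + 1) * (Dm R m).card)) :=
      mul_le_mul_of_nonneg_left (mul_le_mul_of_nonneg_left (card_En R m h) (by positivity))
        (by positivity)
    linarith
  have h4 := Finset.sum_le_sum h3
  rw [← Finset.mul_sum, ← Finset.mul_sum] at h4
  have h5 := mul_le_mul_of_nonneg_left (sum_card_Dm R J hR)
    (by positivity : (0 : ℝ) ≤ ((1 + κ) * (9 * s * V)) * (2 * (2 * (h + 128) + 1)))
  have h7 := h4.trans ((le_of_eq (mul_assoc _ _ _).symm).trans h5)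
  have h6 := mul_le_mul_of_nonneg_left h7
    (by positivity : (0 : ℝ) ≤ K * (1 + Real.log (H / s)))
  refine h6.trans (le_of_eq ?_)
  ring

end Crest.Agent.R079.F24
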