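import Crest.Agent.R079.F24e_118

/-! R079, Step II error words (helper990): the block estimate of F24e_118 for kernels DEPENDING ON THE
FROZEN VARIABLE `w` on all three edges, arbitrary budgets (`EdgeW`), plus the `(3,3,3)` budget. -/

set_option autoImplicit false
set_option linter.unusedVariables false

namespace Crest.Agent.R079.FW990

open Finset Crest.Agent.R079.Grid Crest.Agent.R079.Pot Crest.Agent.R079.Glue Crest.Agent.R079.R244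
  Crest.Agent.R079.F24

/-- what is used about one edge: totals near the exits of the budget of the masked kernels
(kernel `a w` depends on the frozen variable) -/
structure EdgeW (R : Finset (ℕ × ℤ)) (κ h : ℕ) (g : Bud) (α γ δ : ℤ) (T T' : Finset ℤ)
    (a : ℤ → ℤ → ℤ → ℂ) (F : ℤ → ℂ) (tt : ℕ → ℕ → ℝ) : Prop where
  good : GoodB g
  hγ : |γ| ≤ 3
  hδ : |δ| ≤ 3
  total : ∀ (σ : Bool) (m k : ℕ), k ≤ κ → ∀ Λ : Finset (ℤ × ℤ × ℤ),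
    (∀ t ∈ Λ, ∀ i j : ℕ, i < 2 ^ (m + k) → j < 2 ^ (m + k) →
      α * t.1 + γ * (t.2.1 + (i : ℤ)) + δ * (t.2.2 + (j : ℤ)) ∈ Dp R m h) →
    ∑ t ∈ Λ, g (fK σ α γ δ T T' (a t.1) (msk (Rm R m) F) t.1) (2 ^ (m + k)) t.2.1 t.2.2 ≤ tt m k

variable {R : Finset (ℕ × ℤ)} {J : ℕ × ℤ} {κ h : ℕ}

/-- **own potentials of one level** -/
lemma sumE_W (hR : IsRegion R J) {g : Bud} {α γ δ : ℤ} {T T' : Finset ℤ}
    {a : ℤ → ℤ → ℤ → ℂ} {F : ℤ → ℂ} {tt : ℕ → ℕ → ℝ} (hE : EdgeW R κ h g α γ δ T T' a F tt)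
    (m k : ℕ)
    (hm : m ≤ J.1) (hk : k ≤ κ) (hkh : 12 * 2 ^ k ≤ h) (σ : Bool) (Wf : Finset ℤ) (Lw : ℤ → ℕ) :
    ∑ w ∈ Wf, EgZ g (Lw w) (fK σ α γ δ T T' (a w) (msk (Rs R (m + 1)) F) w)
      (fK σ α γ δ T T' (a w) (msk (Rs R m) F) w) (2 ^ (m + k)) ≤ tt m k := by
  classical
  obtain ⟨LL, hLL⟩ := Wsup Wf Lw
  set N := 2 ^ (m + k) with hN
  have hNz : (N : ℤ) = 2 ^ k * 2 ^ m := by rw [hN]; push_cast; rw [pow_add]; ring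
  refine (Finset.sum_le_sum fun w hw => EgZ_mono hE.good _ _ N (Lw w) LL (hLL w hw)).trans ?_
  set P : ℤ × ℤ × ℤ → Prop := fun t => SeesZ (fK σ α γ δ T T' (a t.1) (msk (Rs R (m + 1)) F) t.1)
      (fK σ α γ δ T T' (a t.1) (msk (Rs R m) F) t.1) N t.2.1 t.2.2 with hP
  set Λ := (Wf ×ˢ (Icc (-(LL : ℤ)) LL ×ˢ Icc (-(LL : ℤ)) LL)).filter P with hΛ
  have e : ∑ w ∈ Wf, EgZ g LL (fK σ α γ δ T T' (a w) (msk (Rs R (m + 1)) F) w)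
      (fK σ α γ δ T T' (a w) (msk (Rs R m) F) w) N =
      ∑ t ∈ Λ, g (fK σ α γ δ T T' (a t.1) (msk (Rm R m) F) t.1) N t.2.1 t.2.2 := by
    rw [hΛ, Finset.sum_filter, Finset.sum_product]
    refine Finset.sum_congr rfl fun w _ => ?_
    unfold EgZ
    rw [Finset.sum_product]
    rfl
  rw [e]
  refine hE.total σ m k hk Λ ?_
  intro t ht i j hi hj
  rw [hΛ, Finset.mem_filter] at ht
  obtain ⟨i', j', hi', hj', hd⟩ := fK_sees R J hR m hm F σ α γ δ T T' (a t.1) t.1 N t.2.1 t.2.2 ht.2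
  refine mem_Dp R m h _ _ hd ?_
  have a1 := abs_smul_le γ i N hE.hγ hi
  have a2 := abs_smul_le γ i' N hE.hγ hi'
  have a3 := abs_smul_le δ j N hE.hδ hj
  have a4 := abs_smul_le δ j' N hE.hδ hj'
  have e : α * t.1 + γ * (t.2.1 + (i : ℤ)) + δ * (t.2.2 + (j : ℤ)) -
      (α * t.1 + γ * (t.2.1 + (i' : ℤ)) + δ * (t.2.2 + (j' : ℤ))) =
      γ * (i : ℤ) + δ * (j : ℤ) - γ * (i' : ℤ) - δ * (j' : ℤ) := by ring
  have hhz : (12 * 2 ^ k : ℤ) ≤ h := by exact_mod_cast hkh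
  have hb : 12 * (N : ℤ) ≤ h * 2 ^ m := by
    rw [hNz]
    have : (0 : ℤ) ≤ 2 ^ m := by positivity
    nlinarith
  rw [e]
  refine le_trans ?_ hb
  rw [abs_le] at a1 a2 a3 a4 ⊢
  constructor <;> linarith [a1.1, a1.2, a2.1, a2.2, a3.1, a3.2, a4.1, a4.2]

/-- **joint potentials of one level** -/
lemma sumV_W (hR : IsRegion R J) {gA gB gC : Bud}
    {sj s0 s1 s2 : ℤ} (hsl : Slopes sj s0 s1 s2) {T0 T1 T2 : Finset ℤ}
    {a b c : ℤ → ℤ → ℤ → ℂ} {F0 F1 F2 : ℤ → ℂ} {tA' tB' tC' : ℕ → ℕ → ℝ}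
    (hA : EdgeW R κ h gA (sj - s2) (s0 - s2) (s1 - s2) T0 T1 a F2 tA')
    (hB : EdgeW R κ h gB (sj - s0) (s1 - s0) (s2 - s0) T1 T2 b F0 tB')
    (hC : EdgeW R κ h gC (sj - s1) (s2 - s1) (s0 - s1) T2 T0 c F1 tC') (m : ℕ)
    (hm : m ≤ J.1) (hh : 24 ≤ h) (σ0 σ1 σ2 : Bool) (Wf : Finset ℤ) (Lw : ℤ → ℕ) :
    ∑ w ∈ Wf, VgZ gA gB gC (Lw w) w
      (fK σ2 (sj - s2) (s0 - s2) (s1 - s2) T0 T1 (a w) (msk (Rs R (m + 1)) F2) w)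
      (fK σ0 (sj - s0) (s1 - s0) (s2 - s0) T1 T2 (b w) (msk (Rs R (m + 1)) F0) w)
      (fK σ1 (sj - s1) (s2 - s1) (s0 - s1) T2 T0 (c w) (msk (Rs R (m + 1)) F1) w)
      (fK σ2 (sj - s2) (s0 - s2) (s1 - s2) T0 T1 (a w) (msk (Rs R m) F2) w)
      (fK σ0 (sj - s0) (s1 - s0) (s2 - s0) T1 T2 (b w) (msk (Rs R m) F0) w)
      (fK σ1 (sj - s1) (s2 - s1) (s0 - s1) T2 T0 (c w) (msk (Rs R m) F1) w) (2 ^ m) ≤
      tA' m 0 + tB' m 0 + tC' m 0 := by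
  classical
  obtain ⟨LL, hLL⟩ := Wsup Wf Lw
  refine (Finset.sum_le_sum fun w hw => VgZ_mono hA.good hB.good hC.good w _ _ _ _ _ _ _ (Lw w) LL
    (hLL w hw)).trans ?_
  set N := 2 ^ m with hN
  have hN0 : (0 : ℝ) < (N : ℝ) := by rw [hN]; positivity
  set uA : ℤ × ℤ × ℤ → ℝ := fun t =>
    gA (fK σ2 (sj - s2) (s0 - s2) (s1 - s2) T0 T1 (a t.1) (msk (Rm R m) F2) t.1) N t.2.1 t.2.2 with huA
  set uB : ℤ × ℤ × ℤ → ℝ := fun t =>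
    gB (fK σ0 (sj - s0) (s1 - s0) (s2 - s0) T1 T2 (b t.1) (msk (Rm R m) F0) t.1) N t.2.1 t.2.2 with huB
  set uC : ℤ × ℤ × ℤ → ℝ := fun t =>
    gC (fK σ1 (sj - s1) (s2 - s1) (s0 - s1) T2 T0 (c t.1) (msk (Rm R m) F1) t.1) N t.2.1 t.2.2 with huC
  set P : ℕ → ℤ × ℤ × ℤ → Prop := fun i t =>
    SeesZ (fK σ2 (sj - s2) (s0 - s2) (s1 - s2) T0 T1 (a t.1) (msk (Rs R (m + 1)) F2) t.1)
          (fK σ2 (sj - s2) (s0 - s2) (s1 - s2) T0 T1 (a t.1) (msk (Rs R m) F2) t.1) N t.2.1 t.2.2 ∨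
        SeesZ (fK σ0 (sj - s0) (s1 - s0) (s2 - s0) T1 T2 (b t.1) (msk (Rs R (m + 1)) F0) t.1)
          (fK σ0 (sj - s0) (s1 - s0) (s2 - s0) T1 T2 (b t.1) (msk (Rs R m) F0) t.1) N t.2.2
            (tc N i t.1 t.2.1 t.2.2) ∨
        SeesZ (fK σ1 (sj - s1) (s2 - s1) (s0 - s1) T2 T0 (c t.1) (msk (Rs R (m + 1)) F1) t.1)
          (fK σ1 (sj - s1) (s2 - s1) (s0 - s1) T2 T0 (c t.1) (msk (Rs R m) F1) t.1) N
            (tc N i t.1 t.2.1 t.2.2) t.2.1 with hP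
  set Λ : ℕ → Finset (ℤ × ℤ × ℤ) := fun i =>
    (Wf ×ˢ (Icc (-(LL : ℤ)) LL ×ˢ Icc (-(LL : ℤ)) LL)).filter (P i) with hΛ
  set φ : ℕ → ℤ × ℤ × ℤ → ℤ × ℤ × ℤ := fun i t => (t.1, t.2.2, tc N i t.1 t.2.1 t.2.2) with hφ
  set ψ : ℕ → ℤ × ℤ × ℤ → ℤ × ℤ × ℤ := fun i t => (t.1, tc N i t.1 t.2.1 t.2.2, t.2.1) with hψ
  have hφi : ∀ i, Function.Injective (φ i) := by
    rintro i ⟨x, y, z⟩ ⟨x', y', z'⟩ h
    simp only [hφ, Prod.mk.injEq, tc] at h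
    obtain ⟨h1, h2, h3⟩ := h
    refine Prod.ext h1 (Prod.ext ?_ h2)
    simp only
    linarith
  have hψi : ∀ i, Function.Injective (ψ i) := by
    rintro i ⟨x, y, z⟩ ⟨x', y', z'⟩ h
    simp only [hψ, Prod.mk.injEq, tc] at h
    obtain ⟨h1, h2, h3⟩ := h
    refine Prod.ext h1 (Prod.ext h3 ?_)
    simp only
    linarith
  have hclose : ∀ i, i < N → ∀ t ∈ Λ i, _ := fun i hi t ht =>
    close_all (J := J) hR m h hm hh F0 F1 F2 σ0 σ1 σ2 sj s0 s1 s2 hsl T0 T1 T2 (a t.1) (b t.1) (c t.1) t.1 i hi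
      t.2.1 t.2.2 (Finset.mem_filter.mp ht).2
  have tA : ∀ i, i < N → ∑ t ∈ Λ i, uA t ≤ tA' m 0 := by
    intro i hi
    exact hA.total σ2 m 0 (Nat.zero_le _) (Λ i)
      (fun t ht i0 i1 h0 h1 => (hclose i hi t ht).1 i0 i1 h0 h1)
  have tB : ∀ i, i < N → ∑ t ∈ Λ i, uB (φ i t) ≤ tB' m 0 := by
    intro i hi
    rw [← Finset.sum_image (f := uB) (g := φ i) ((hφi i).injOn)]
    refine hB.total σ0 m 0 (Nat.zero_le _) ((Λ i).image (φ i)) ?_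
    intro t ht i0 i1 h0 h1
    rw [Finset.mem_image] at ht
    obtain ⟨t', ht', rfl⟩ := ht
    exact (hclose i hi t' ht').2.1 i0 i1 h0 h1
  have tC : ∀ i, i < N → ∑ t ∈ Λ i, uC (ψ i t) ≤ tC' m 0 := by
    intro i hi
    rw [← Finset.sum_image (f := uC) (g := ψ i) ((hψi i).injOn)]
    refine hC.total σ1 m 0 (Nat.zero_le _) ((Λ i).image (ψ i)) ?_
    intro t ht i0 i1 h0 h1
    rw [Finset.mem_image] at ht
    obtain ⟨t', ht', rfl⟩ := ht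
    exact (hclose i hi t' ht').2.2 i0 i1 h0 h1
  -- value for one `i`
  set val : ℕ → ℤ × ℤ × ℤ → ℝ := fun i t =>
    gA (fK σ2 (sj - s2) (s0 - s2) (s1 - s2) T0 T1 (a t.1) (msk (Rm R m) F2) t.1) N t.2.1 t.2.2 +
    gB (fK σ0 (sj - s0) (s1 - s0) (s2 - s0) T1 T2 (b t.1) (msk (Rm R m) F0) t.1) N t.2.2
      (tc N i t.1 t.2.1 t.2.2) +
    gC (fK σ1 (sj - s1) (s2 - s1) (s0 - s1) T2 T0 (c t.1) (msk (Rm R m) F1) t.1) N
      (tc N i t.1 t.2.1 t.2.2) t.2.1 with hval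
  have e : ∑ w ∈ Wf, VgZ gA gB gC LL w
      (fK σ2 (sj - s2) (s0 - s2) (s1 - s2) T0 T1 (a w) (msk (Rs R (m + 1)) F2) w)
      (fK σ0 (sj - s0) (s1 - s0) (s2 - s0) T1 T2 (b w) (msk (Rs R (m + 1)) F0) w)
      (fK σ1 (sj - s1) (s2 - s1) (s0 - s1) T2 T0 (c w) (msk (Rs R (m + 1)) F1) w)
      (fK σ2 (sj - s2) (s0 - s2) (s1 - s2) T0 T1 (a w) (msk (Rs R m) F2) w)
      (fK σ0 (sj - s0) (s1 - s0) (s2 - s0) T1 T2 (b w) (msk (Rs R m) F0) w)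
      (fK σ1 (sj - s1) (s2 - s1) (s0 - s1) T2 T0 (c w) (msk (Rs R m) F1) w) N =
      (1 / (N : ℝ)) * ∑ i ∈ range N, ∑ t ∈ Λ i, val i t := by
    unfold VgZ
    rw [← Finset.mul_sum, Finset.sum_comm]
    congr 1
    refine Finset.sum_congr rfl fun i _ => ?_
    rw [hΛ]
    simp only
    rw [Finset.sum_filter, Finset.sum_product]
    refine Finset.sum_congr rfl fun w _ => ?_
    rw [Finset.sum_product]
    rfl
  rw [e]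
  have h3 : ∀ i ∈ range N, ∑ t ∈ Λ i, val i t ≤ tA' m 0 + tB' m 0 + tC' m 0 := by
    intro i hi
    rw [Finset.mem_range] at hi
    have h4 : ∀ t ∈ Λ i, val i t ≤ uA t + uB (φ i t) + uC (ψ i t) := by
      intro t _
      exact le_rfl
    refine (Finset.sum_le_sum h4).trans ?_
    rw [Finset.sum_add_distrib, Finset.sum_add_distrib]
    linarith [tA i hi, tB i hi, tC i hi]
  refine (mul_le_mul_of_nonneg_left (Finset.sum_le_sum h3) (by positivity)).trans ?_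
  rw [Finset.sum_const, Finset.card_range, nsmul_eq_mul]
  refine le_of_eq ?_
  field_simp

/-- kernels of the three edges at level index `n` (kernels depend on `w`) -/
noncomputable def kA (R : Finset (ℕ × ℤ)) (j : Fin 4) (T : Fin 3 → Finset ℤ) (a : ℤ → ℤ → ℤ → ℂ)
    (F : ℤ → ℂ) (σ : Bool) (w : ℤ) (n : ℕ) : ℤ → ℤ → ℝ :=
  fK σ (sl j - sl (j.succAbove 2)) (sl (j.succAbove 0) - sl (j.succAbove 2))
    (sl (j.succAbove 1) - sl (j.succAbove 2)) (T 0) (T 1) (a w) (msk (Rs R n) F) w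

noncomputable def kB (R : Finset (ℕ × ℤ)) (j : Fin 4) (T : Fin 3 → Finset ℤ) (b : ℤ → ℤ → ℤ → ℂ)
    (F : ℤ → ℂ) (σ : Bool) (w : ℤ) (n : ℕ) : ℤ → ℤ → ℝ :=
  fK σ (sl j - sl (j.succAbove 0)) (sl (j.succAbove 1) - sl (j.succAbove 0))
    (sl (j.succAbove 2) - sl (j.succAbove 0)) (T 1) (T 2) (b w) (msk (Rs R n) F) w

noncomputable def kC (R : Finset (ℕ × ℤ)) (j : Fin 4) (T : Fin 3 → Finset ℤ) (c : ℤ → ℤ → ℤ → ℂ)
    (F : ℤ → ℂ) (σ : Bool) (w : ℤ) (n : ℕ) : ℤ → ℤ → ℝ :=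
  fK σ (sl j - sl (j.succAbove 1)) (sl (j.succAbove 2) - sl (j.succAbove 1))
    (sl (j.succAbove 0) - sl (j.succAbove 1)) (T 2) (T 0) (c w) (msk (Rs R n) F) w

/-- `EdgeW` on the three edges of slot `j` -/
def EdA (R : Finset (ℕ × ℤ)) (κ h : ℕ) (g : Bud) (j : Fin 4) (T : Fin 3 → Finset ℤ)
    (a : ℤ → ℤ → ℤ → ℂ) (F : ℤ → ℂ) (tt : ℕ → ℕ → ℝ) : Prop :=
  EdgeW R κ h g (sl j - sl (j.succAbove 2)) (sl (j.succAbove 0) - sl (j.succAbove 2))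
    (sl (j.succAbove 1) - sl (j.succAbove 2)) (T 0) (T 1) a F tt

def EdB (R : Finset (ℕ × ℤ)) (κ h : ℕ) (g : Bud) (j : Fin 4) (T : Fin 3 → Finset ℤ)
    (a : ℤ → ℤ → ℤ → ℂ) (F : ℤ → ℂ) (tt : ℕ → ℕ → ℝ) : Prop :=
  EdgeW R κ h g (sl j - sl (j.succAbove 0)) (sl (j.succAbove 1) - sl (j.succAbove 0))
    (sl (j.succAbove 2) - sl (j.succAbove 0)) (T 1) (T 2) a F tt

def EdC (R : Finset (ℕ × ℤ)) (κ h : ℕ) (g : Bud) (j : Fin 4) (T : Fin 3 → Finset ℤ)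
    (a : ℤ → ℤ → ℤ → ℂ) (F : ℤ → ℂ) (tt : ℕ → ℕ → ℝ) : Prop :=
  EdgeW R κ h g (sl j - sl (j.succAbove 1)) (sl (j.succAbove 2) - sl (j.succAbove 1))
    (sl (j.succAbove 0) - sl (j.succAbove 1)) (T 2) (T 0) a F tt

/-- **one block**: kernels depending on `w`, masked by the region along the line forms -/
lemma blockW {c : ℝ} (hc : 0 ≤ c) {gA gB gC : Bud} (hTri : TriG c κ gA gB gC)
    {tA tB tC : ℕ → ℕ → ℝ}
    (l : ℤ) (hl : |l| ≤ 7) (hh : h = 12 * 2 ^ κ + 24) (hR : IsRegion R J) (j : Fin 4)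
    (T : Fin 3 → Finset ℤ) (a b d : ℤ → ℤ → ℤ → ℂ) (FA FB FC : ℤ → ℂ)
    (hA : EdA R κ h gA j T a FA tA) (hB : EdB R κ h gB j T b FB tB)
    (hC : EdC R κ h gC j T d FC tC)
    (σ2 σ0 σ1 : Bool) (Wf : Finset ℤ) (L1 : ℕ) :
    ∑ w ∈ Wf, ∑ m ∈ range (J.1 + 1), (1 / (2 : ℝ) ^ m) * ∑ i ∈ range (2 ^ m),
      ∑ p0 ∈ Icc (-(L1 : ℤ)) L1, ∑ p1 ∈ Icc (-(L1 : ℤ)) L1,
      |Lb3r (kA R j T a FA σ2 w (m + 1)) (kB R j T b FB σ0 w (m + 1))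
        (kC R j T d FC σ1 w (m + 1)) (2 ^ m) p0 p1 (l * 2 ^ m + (i : ℤ) - w - p0 - p1)| ≤
    c * ∑ m ∈ range (J.1 + 1), (tA m 0 + tB m 0 + tC m 0 +
      ∑ k ∈ range κ, (tA m k + tB m k + tC m k)) := by
  classical
  obtain ⟨L, hL⟩ := exists_bound T
  have hsl := slopes_sl j
  have h1 : ∀ w, ∃ L' : ℕ,
    ∑ m ∈ range (J.1 + 1), (1 / (2 : ℝ) ^ m) * ∑ i ∈ range (2 ^ m), ∑ p0 ∈ Icc (-(L1 : ℤ)) L1,
      ∑ p1 ∈ Icc (-(L1 : ℤ)) L1,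
      |Lb3r (kA R j T a FA σ2 w (m + 1)) (kB R j T b FB σ0 w (m + 1))
        (kC R j T d FC σ1 w (m + 1)) (2 ^ m) p0 p1 (l * 2 ^ m + (i : ℤ) - w - p0 - p1)| ≤
    c * ∑ m ∈ range (J.1 + 1),
      (VgZ gA gB gC L' w (kA R j T a FA σ2 w (m + 1)) (kB R j T b FB σ0 w (m + 1))
        (kC R j T d FC σ1 w (m + 1)) (kA R j T a FA σ2 w m) (kB R j T b FB σ0 w m)
        (kC R j T d FC σ1 w m) (2 ^ m) +
        ∑ s ∈ range κ, (EgZ gA L' (kA R j T a FA σ2 w (m + 1)) (kA R j T a FA σ2 w m) (2 ^ (m + s)) +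
          EgZ gB L' (kB R j T b FB σ0 w (m + 1)) (kB R j T b FB σ0 w m) (2 ^ (m + s)) +
          EgZ gC L' (kC R j T d FC σ1 w (m + 1)) (kC R j T d FC σ1 w m) (2 ^ (m + s)))) := by
    intro w
    exact hTri l hl w (kA R j T a FA σ2 w) (kB R j T b FB σ0 w) (kC R j T d FC σ1 w) L
      (fun m x y hxy => fK_support _ _ _ _ _ _ _ _ _ L (hL 0) (hL 1) x y hxy)
      (fun m x y hxy => fK_support _ _ _ _ _ _ _ _ _ L (hL 1) (hL 2) x y hxy)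
      (fun m x y hxy => fK_support _ _ _ _ _ _ _ _ _ L (hL 2) (hL 0) x y hxy)
      (fK_zero _ _ _ _ _ _ _ _ _ _) (fK_zero _ _ _ _ _ _ _ _ _ _) (fK_zero _ _ _ _ _ _ _ _ _ _)
      (J.1 + 1) L1
  choose L' hL' using h1
  refine (Finset.sum_le_sum fun w _ => hL' w).trans ?_
  rw [← Finset.mul_sum, Finset.sum_comm]
  refine mul_le_mul_of_nonneg_left (Finset.sum_le_sum fun m hm => ?_) hc
  rw [Finset.mem_range] at hm
  have v1 := sumV_W hR hsl hA hB hC m (by omega) (by omega) σ0 σ1 σ2 Wf L'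
  have v2 : ∀ k ∈ range κ, ∑ w ∈ Wf,
      (EgZ gA (L' w) (kA R j T a FA σ2 w (m + 1)) (kA R j T a FA σ2 w m) (2 ^ (m + k)) +
        EgZ gB (L' w) (kB R j T b FB σ0 w (m + 1)) (kB R j T b FB σ0 w m) (2 ^ (m + k)) +
        EgZ gC (L' w) (kC R j T d FC σ1 w (m + 1)) (kC R j T d FC σ1 w m) (2 ^ (m + k))) ≤
      tA m k + tB m k + tC m k := by
    intro k hk
    rw [Finset.mem_range] at hk
    have hsh : 12 * 2 ^ k ≤ h := by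
      have : 2 ^ k ≤ 2 ^ κ := Nat.pow_le_pow_right (by norm_num) hk.le
      omega
    rw [Finset.sum_add_distrib, Finset.sum_add_distrib]
    have e1 : ∑ w ∈ Wf, EgZ gA (L' w) (kA R j T a FA σ2 w (m + 1)) (kA R j T a FA σ2 w m)
      (2 ^ (m + k)) ≤ tA m k := sumE_W hR hA m k (by omega) hk.le hsh σ2 Wf L'
    have e2 : ∑ w ∈ Wf, EgZ gB (L' w) (kB R j T b FB σ0 w (m + 1)) (kB R j T b FB σ0 w m)
      (2 ^ (m + k)) ≤ tB m k := sumE_W hR hB m k (by omega) hk.le hsh σ0 Wf L'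
    have e3 : ∑ w ∈ Wf, EgZ gC (L' w) (kC R j T d FC σ1 w (m + 1)) (kC R j T d FC σ1 w m)
      (2 ^ (m + k)) ≤ tC m k := sumE_W hR hC m k (by omega) hk.le hsh σ1 Wf L'
    linarith
  have v3 := Finset.sum_le_sum v2
  rw [Finset.sum_add_distrib]
  have e : ∑ w ∈ Wf, ∑ k ∈ range κ,
      (EgZ gA (L' w) (kA R j T a FA σ2 w (m + 1)) (kA R j T a FA σ2 w m) (2 ^ (m + k)) +
        EgZ gB (L' w) (kB R j T b FB σ0 w (m + 1)) (kB R j T b FB σ0 w m) (2 ^ (m + k)) +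
        EgZ gC (L' w) (kC R j T d FC σ1 w (m + 1)) (kC R j T d FC σ1 w m) (2 ^ (m + k))) =
      ∑ k ∈ range κ, ∑ w ∈ Wf,
      (EgZ gA (L' w) (kA R j T a FA σ2 w (m + 1)) (kA R j T a FA σ2 w m) (2 ^ (m + k)) +
        EgZ gB (L' w) (kB R j T b FB σ0 w (m + 1)) (kB R j T b FB σ0 w m) (2 ^ (m + k)) +
        EgZ gC (L' w) (kC R j T d FC σ1 w (m + 1)) (kC R j T d FC σ1 w m) (2 ^ (m + k))) :=
    Finset.sum_comm
  rw [e]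
  have v1' : ∑ w ∈ Wf, VgZ gA gB gC (L' w) w (kA R j T a FA σ2 w (m + 1))
      (kB R j T b FB σ0 w (m + 1)) (kC R j T d FC σ1 w (m + 1)) (kA R j T a FA σ2 w m)
      (kB R j T b FB σ0 w m) (kC R j T d FC σ1 w m) (2 ^ m) ≤ tA m 0 + tB m 0 + tC m 0 := v1
  linarith

end Crest.Agent.R079.FW990
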