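import Crest.Agent.R079.OpLev_977
import Crest.Agent.R079.YLeaf_960
import Mathlib

/-! R079, doc 2531 STEP II, LEAF TERM in the LINE model (helper246).

Vertices `x₀,x₁,x₂,x₃` run over intervals of length `n` (`p + v`, `v : Fin n`).  `(x₀,x₃)` = frozen
pair, `x₁` = inner average, `f(x₁,x₂,x₃)`, `g(x₀,x₁,x₂)`, `h(x₀,x₁,x₃)` line letters. -/

set_option autoImplicit false

namespace Crest.Agent.R079.LfB

open Finset Crest.Agent.R079.Grid Crest.Agent.R079.Glue Crest.Agent.R079.R244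
  Crest.Agent.R079.OpLev Crest.Agent.R079.YLeaf

/-- affine fibre of a finitely supported line letter -/
theorem fib_le (n : ℕ) (p c : ℤ) (hc : c ≠ 0) (f : ℤ → ℂ) (S : Finset ℤ)
    (hS : ∀ y, y ∉ S → f y = 0) (α : ℤ) :
    ∑ v : Fin n, ‖f (α + c * (p + ((v : ℕ) : ℤ)))‖ ^ 2 ≤ ∑ y ∈ S, ‖f y‖ ^ 2 := by
  classical
  have hinj : Function.Injective (fun v : Fin n => α + c * (p + ((v : ℕ) : ℤ))) := by
    intro v v' h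
    have h' : c * (p + ((v : ℕ) : ℤ)) = c * (p + ((v' : ℕ) : ℤ)) := by simpa using h
    have h'' := mul_left_cancel₀ hc h'
    have h3 : ((v : ℕ) : ℤ) = ((v' : ℕ) : ℤ) := by linarith
    exact Fin.ext (by exact_mod_cast h3)
  have h1 : ∑ v : Fin n, ‖f (α + c * (p + ((v : ℕ) : ℤ)))‖ ^ 2 =
      ∑ y ∈ (univ : Finset (Fin n)).image (fun v : Fin n => α + c * (p + ((v : ℕ) : ℤ))),
        ‖f y‖ ^ 2 := by
    rw [Finset.sum_image (fun a _ b _ h => hinj h)]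
  rw [h1, ← Finset.sum_filter_add_sum_filter_not _ (fun y => y ∈ S)]
  have h2 : ∑ y ∈ ((univ : Finset (Fin n)).image
      (fun v : Fin n => α + c * (p + ((v : ℕ) : ℤ)))).filter (fun y => ¬ y ∈ S), ‖f y‖ ^ 2 = 0 := by
    refine Finset.sum_eq_zero fun y hy => ?_
    rw [hS y (Finset.mem_filter.1 hy).2, norm_zero]; norm_num
  rw [h2, add_zero]
  refine Finset.sum_le_sum_of_subset_of_nonneg ?_ (fun _ _ _ => by positivity)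
  intro y hy
  exact (Finset.mem_filter.1 hy).2

/-- **(LB2)** Hilbert--Schmidt form of the leaf term (`U³ ≤ L²` for line data): used for the small
letter and for the tall part of the bounded one -/
theorem leafHS_line (n : ℕ) (p0 p1 p2 p3 : ℤ) (f g h : ℤ → ℂ) (a1 a2 a3 b0 b1 b2 c0 c1 c3 : ℤ)
    (ha3 : a3 ≠ 0) (hb0 : b0 ≠ 0) (hc1 : c1 ≠ 0) (Sf Sg Sh : Finset ℤ)
    (hf : ∀ y, y ∉ Sf → f y = 0) (hg : ∀ y, y ∉ Sg → g y = 0) (hh : ∀ y, y ∉ Sh → h y = 0) :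
    ∑ x0 : Fin n, ∑ x3 : Fin n, ∑ x2 : Fin n, ‖∑ x1 : Fin n,
        f (a1 * (p1 + ((x1 : ℕ) : ℤ)) + a2 * (p2 + ((x2 : ℕ) : ℤ)) + a3 * (p3 + ((x3 : ℕ) : ℤ))) *
        g (b0 * (p0 + ((x0 : ℕ) : ℤ)) + b1 * (p1 + ((x1 : ℕ) : ℤ)) + b2 * (p2 + ((x2 : ℕ) : ℤ))) *
        h (c0 * (p0 + ((x0 : ℕ) : ℤ)) + c1 * (p1 + ((x1 : ℕ) : ℤ)) + c3 * (p3 + ((x3 : ℕ) : ℤ)))‖ ^ 2
      ≤ (n : ℝ) ^ 2 * (∑ y ∈ Sf, ‖f y‖ ^ 2) * (∑ y ∈ Sg, ‖g y‖ ^ 2) * ∑ y ∈ Sh, ‖h y‖ ^ 2 := by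
  set Ff := ∑ y ∈ Sf, ‖f y‖ ^ 2 with hFf
  set Fg := ∑ y ∈ Sg, ‖g y‖ ^ 2 with hFg
  set Fh := ∑ y ∈ Sh, ‖h y‖ ^ 2 with hFh
  have hFf0 : 0 ≤ Ff := Finset.sum_nonneg fun _ _ => by positivity
  have hFg0 : 0 ≤ Fg := Finset.sum_nonneg fun _ _ => by positivity
  have hFh0 : 0 ≤ Fh := Finset.sum_nonneg fun _ _ => by positivity
  set P : Fin n → Fin n → Fin n → ℂ := fun x1 x2 x3 =>
    f (a1 * (p1 + ((x1 : ℕ) : ℤ)) + a2 * (p2 + ((x2 : ℕ) : ℤ)) + a3 * (p3 + ((x3 : ℕ) : ℤ))) with hP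
  set R : Fin n → Fin n → Fin n → ℂ := fun x0 x1 x2 =>
    g (b0 * (p0 + ((x0 : ℕ) : ℤ)) + b1 * (p1 + ((x1 : ℕ) : ℤ)) + b2 * (p2 + ((x2 : ℕ) : ℤ))) with hR
  set Y : Fin n → Fin n → Fin n → ℂ := fun x0 x1 x3 =>
    h (c0 * (p0 + ((x0 : ℕ) : ℤ)) + c1 * (p1 + ((x1 : ℕ) : ℤ)) + c3 * (p3 + ((x3 : ℕ) : ℤ))) with hY
  have hPf : ∀ x1 x2, ∑ x3, ‖P x1 x2 x3‖ ^ 2 ≤ Ff := by
    intro x1 x2
    have := fib_le n p3 a3 ha3 f Sf hf (a1 * (p1 + ((x1 : ℕ) : ℤ)) + a2 * (p2 + ((x2 : ℕ) : ℤ)))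
    exact this
  have hRf : ∀ x1 x2, ∑ x0, ‖R x0 x1 x2‖ ^ 2 ≤ Fg := by
    intro x1 x2
    have := fib_le n p0 b0 hb0 g Sg hg (b1 * (p1 + ((x1 : ℕ) : ℤ)) + b2 * (p2 + ((x2 : ℕ) : ℤ)))
    refine le_trans (le_of_eq ?_) this
    refine Finset.sum_congr rfl fun x0 _ => ?_
    simp only [hR]
    congr 3; ring
  have hYf : ∀ x0 x3, ∑ x1, ‖Y x0 x1 x3‖ ^ 2 ≤ Fh := by
    intro x0 x3
    have := fib_le n p1 c1 hc1 h Sh hh (c0 * (p0 + ((x0 : ℕ) : ℤ)) + c3 * (p3 + ((x3 : ℕ) : ℤ)))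
    refine le_trans (le_of_eq ?_) this
    refine Finset.sum_congr rfl fun x1 _ => ?_
    simp only [hY]
    congr 3; ring
  have h1 : ∀ x0 x3 x2, ‖∑ x1, P x1 x2 x3 * R x0 x1 x2 * Y x0 x1 x3‖ ^ 2 ≤
      (∑ x1, ‖P x1 x2 x3‖ ^ 2 * ‖R x0 x1 x2‖ ^ 2) * Fh := by
    intro x0 x3 x2
    have h2 := cs (univ : Finset (Fin n)) (fun x1 => P x1 x2 x3 * R x0 x1 x2) (fun x1 => Y x0 x1 x3)
    refine h2.trans ?_
    have e : ∑ x1, ‖P x1 x2 x3 * R x0 x1 x2‖ ^ 2 = ∑ x1, ‖P x1 x2 x3‖ ^ 2 * ‖R x0 x1 x2‖ ^ 2 := by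
      refine Finset.sum_congr rfl fun x1 _ => ?_
      rw [norm_mul, mul_pow]
    rw [e]
    exact mul_le_mul_of_nonneg_left (hYf x0 x3) (Finset.sum_nonneg fun _ _ => by positivity)
  have h3 : ∑ x0, ∑ x3, ∑ x2, ‖∑ x1, P x1 x2 x3 * R x0 x1 x2 * Y x0 x1 x3‖ ^ 2 ≤
      (∑ x0, ∑ x3, ∑ x2, ∑ x1, ‖P x1 x2 x3‖ ^ 2 * ‖R x0 x1 x2‖ ^ 2) * Fh := by
    rw [Finset.sum_mul]
    refine Finset.sum_le_sum fun x0 _ => ?_
    rw [Finset.sum_mul]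
    refine Finset.sum_le_sum fun x3 _ => ?_
    rw [Finset.sum_mul]
    exact Finset.sum_le_sum fun x2 _ => h1 x0 x3 x2
  have h4 : ∑ x0, ∑ x3, ∑ x2, ∑ x1, ‖P x1 x2 x3‖ ^ 2 * ‖R x0 x1 x2‖ ^ 2 =
      ∑ x2, ∑ x1, (∑ x3, ‖P x1 x2 x3‖ ^ 2) * ∑ x0, ‖R x0 x1 x2‖ ^ 2 := by
    have e1 : ∀ x0 : Fin n, ∑ x3, ∑ x2, ∑ x1, ‖P x1 x2 x3‖ ^ 2 * ‖R x0 x1 x2‖ ^ 2 =
        ∑ x2, ∑ x1, ∑ x3, ‖P x1 x2 x3‖ ^ 2 * ‖R x0 x1 x2‖ ^ 2 := by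
      intro x0
      rw [Finset.sum_comm]
      refine Finset.sum_congr rfl fun x2 _ => ?_
      rw [Finset.sum_comm]
    rw [Finset.sum_congr rfl fun x0 _ => e1 x0, Finset.sum_comm]
    refine Finset.sum_congr rfl fun x2 _ => ?_
    rw [Finset.sum_comm]
    refine Finset.sum_congr rfl fun x1 _ => ?_
    rw [Finset.sum_comm, Finset.sum_mul_sum]
  have h5 : ∑ x2 : Fin n, ∑ x1 : Fin n, (∑ x3, ‖P x1 x2 x3‖ ^ 2) * ∑ x0, ‖R x0 x1 x2‖ ^ 2 ≤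
      (n : ℝ) ^ 2 * (Ff * Fg) := by
    have : ∑ x2 : Fin n, ∑ x1 : Fin n, (∑ x3, ‖P x1 x2 x3‖ ^ 2) * ∑ x0, ‖R x0 x1 x2‖ ^ 2 ≤
        ∑ _x2 : Fin n, ∑ _x1 : Fin n, Ff * Fg :=
      Finset.sum_le_sum fun x2 _ => Finset.sum_le_sum fun x1 _ =>
        mul_le_mul (hPf x1 x2) (hRf x1 x2) (Finset.sum_nonneg fun _ _ => by positivity) hFf0
    refine this.trans (le_of_eq ?_)
    simp only [Finset.sum_const, Finset.card_univ, Fintype.card_fin, nsmul_eq_mul]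
    ring
  refine h3.trans ?_
  rw [h4]
  calc (∑ x2 : Fin n, ∑ x1 : Fin n, (∑ x3, ‖P x1 x2 x3‖ ^ 2) * ∑ x0, ‖R x0 x1 x2‖ ^ 2) * Fh
      ≤ ((n : ℝ) ^ 2 * (Ff * Fg)) * Fh := mul_le_mul_of_nonneg_right h5 hFh0
    _ = (n : ℝ) ^ 2 * Ff * Fg * Fh := by ring

/-- `S₄` of a leveled line letter in a bounded gauge, averaged over the third vertex -/
theorem olev_S4sum {κ : ℕ} {k : Fin 4} {p : ℕ × ℤ} {f : ℤ → ℂ} {s : ℝ} (hO : OLev κ k p f s)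
    (hs : 0 ≤ s) {j e e' : Fin 4} (h1 : j ≠ k) (h2 : j ≠ e) (h3 : j ≠ e') (h4 : k ≠ e)
    (h5 : k ≠ e') (h6 : e ≠ e') {r : ℕ} (hr : r ≤ κ) {n : ℕ} (hn : n = 2 ^ (p.1 + r))
    (w q u : ℤ) (m : ℤ → ℤ → ℂ) (H : ℝ) (hH : 0 < H) (hm : ∀ z z', ‖m z z'‖ ≤ H) (A : ℝ)
    (hA : ∑ y ∈ dI (p.1 + 7) p.2, ‖f y‖ ^ 2 ≤ A) :
    ∑ c : Fin n, S4 (fun (i' i : Fin n) =>
      res p f ((sl j - sl k) * (w + ((c : ℕ) : ℤ)) + (sl e - sl k) * (q + ((i : ℕ) : ℤ)) +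
        (sl e' - sl k) * (u + ((i' : ℕ) : ℤ))) *
      m (q + ((i : ℕ) : ℤ)) (u + ((i' : ℕ) : ℤ))) ≤ (n : ℝ) ^ 4 * A * H ^ 4 * s ^ 2 := by
  have hnpos : 0 < n := by rw [hn]; positivity
  have hn' : (0 : ℝ) < n := by exact_mod_cast hnpos
  have hA0 : 0 ≤ A := le_trans (Finset.sum_nonneg fun _ _ => by positivity) hA
  set M : Fin n → Fin n → Fin n → ℂ := fun c i i' =>
    res p f ((sl j - sl k) * (w + ((c : ℕ) : ℤ)) + (sl e - sl k) * (q + ((i : ℕ) : ℤ)) +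
        (sl e' - sl k) * (u + ((i' : ℕ) : ℤ))) *
      m (q + ((i : ℕ) : ℤ)) (u + ((i' : ℕ) : ℤ)) with hM
  have key := lev_s4 n M (H * s) (H ^ 2 * A / n) (mul_nonneg hH.le hs) (by positivity) ?_ ?_
  · have e : ∑ c : Fin n, S4 (fun (i' i : Fin n) => M c i i') =
        ∑ c, ∑ j, ∑ j', ‖∑ i, M c i j * (starRingEnd ℂ) (M c i j')‖ ^ 2 := rfl
    show ∑ c : Fin n, S4 (fun (i' i : Fin n) => M c i i') ≤ _
    rw [e]
    refine key.trans (le_of_eq ?_)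
    field_simp
  · intro U V α hα hU hV hα2
    have h := hO j e e' h1 h2 h3 h4 h5 h6 r hr n hn w q u
      (fun z z' => ((H⁻¹ : ℝ) : ℂ) * m z z') (fun z z' => by
        rw [norm_mul, Complex.norm_real, Real.norm_eq_abs, abs_of_pos (inv_pos.2 hH)]
        rw [inv_mul_le_iff₀ hH, mul_one]
        exact hm z z') U V α hα hU hV hα2
    have e : ∑ c, ∑ i, ∑ i', M c i i' * U c i * V c i' = ((H : ℝ) : ℂ) *
        ∑ c : Fin n, ∑ i : Fin n, ∑ i' : Fin n,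
        (((H⁻¹ : ℝ) : ℂ) * m (q + ((i : ℕ) : ℤ)) (u + ((i' : ℕ) : ℤ))) *
          res p f ((sl j - sl k) * (w + ((c : ℕ) : ℤ)) + (sl e - sl k) * (q + ((i : ℕ) : ℤ)) +
            (sl e' - sl k) * (u + ((i' : ℕ) : ℤ))) * U c i * V c i' := by
      have hHc : ((H : ℝ) : ℂ) * ((H⁻¹ : ℝ) : ℂ) = 1 := by
        rw [← Complex.ofReal_mul, mul_inv_cancel₀ hH.ne', Complex.ofReal_one]
      simp only [Finset.mul_sum]
      refine Finset.sum_congr rfl fun c _ => Finset.sum_congr rfl fun i _ =>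
        Finset.sum_congr rfl fun i' _ => ?_
      simp only [hM]
      linear_combination (-(m (q + ((i : ℕ) : ℤ)) (u + ((i' : ℕ) : ℤ)) *
        res p f ((sl j - sl k) * (w + ((c : ℕ) : ℤ)) + (sl e - sl k) * (q + ((i : ℕ) : ℤ)) +
            (sl e' - sl k) * (u + ((i' : ℕ) : ℤ))) * U c i * V c i')) * hHc
    rw [e, norm_mul, Complex.norm_real, Real.norm_eq_abs, abs_of_pos hH, mul_assoc]
    exact mul_le_mul_of_nonneg_left h hH.le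
  · intro c
    have hrow : ∀ i' : Fin n, ∑ i : Fin n, ‖M c i i'‖ ^ 2 ≤ H ^ 2 * A := by
      intro i'
      have hfib := fib_le n q (sl e - sl k) (sl_ne h4.symm) (res p f) (dI (p.1 + 7) p.2)
        (fun y hy => by unfold res; rw [if_neg hy])
        ((sl j - sl k) * (w + ((c : ℕ) : ℤ)) + (sl e' - sl k) * (u + ((i' : ℕ) : ℤ)))
      calc ∑ i : Fin n, ‖M c i i'‖ ^ 2
          ≤ ∑ i : Fin n, H ^ 2 * ‖res p f (((sl j - sl k) * (w + ((c : ℕ) : ℤ)) +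
              (sl e' - sl k) * (u + ((i' : ℕ) : ℤ))) + (sl e - sl k) * (q + ((i : ℕ) : ℤ)))‖ ^ 2 := by
            refine Finset.sum_le_sum fun i _ => ?_
            simp only [hM]
            rw [norm_mul, mul_pow, mul_comm (H ^ 2)]
            have e1 : (sl j - sl k) * (w + ((c : ℕ) : ℤ)) + (sl e - sl k) * (q + ((i : ℕ) : ℤ)) +
                (sl e' - sl k) * (u + ((i' : ℕ) : ℤ)) = ((sl j - sl k) * (w + ((c : ℕ) : ℤ)) +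
              (sl e' - sl k) * (u + ((i' : ℕ) : ℤ))) + (sl e - sl k) * (q + ((i : ℕ) : ℤ)) := by
              ring
            rw [e1]
            exact mul_le_mul_of_nonneg_left (pow_le_pow_left₀ (norm_nonneg _) (hm _ _) 2)
              (by positivity)
        _ = H ^ 2 * ∑ i : Fin n, ‖res p f (((sl j - sl k) * (w + ((c : ℕ) : ℤ)) +
              (sl e' - sl k) * (u + ((i' : ℕ) : ℤ))) + (sl e - sl k) * (q + ((i : ℕ) : ℤ)))‖ ^ 2 := by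
            rw [Finset.mul_sum]
        _ ≤ H ^ 2 * ∑ y ∈ dI (p.1 + 7) p.2, ‖res p f y‖ ^ 2 :=
            mul_le_mul_of_nonneg_left hfib (by positivity)
        _ = H ^ 2 * ∑ y ∈ dI (p.1 + 7) p.2, ‖f y‖ ^ 2 := by
            congr 1
            refine Finset.sum_congr rfl fun y hy => ?_
            unfold res; rw [if_pos hy]
        _ ≤ H ^ 2 * A := mul_le_mul_of_nonneg_left hA (by positivity)
    calc ∑ i' : Fin n, ∑ i : Fin n, ‖M c i i'‖ ^ 2 ≤ ∑ _i' : Fin n, H ^ 2 * A :=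
          Finset.sum_le_sum fun i' _ => hrow i'
      _ = (n : ℝ) ^ 2 * (H ^ 2 * A / n) := by
          simp only [Finset.sum_const, Finset.card_univ, Fintype.card_fin, nsmul_eq_mul]
          field_simp

/-- **(LB1)** leaf term, `f` leveled (op-level, slot `k`), `g` bounded by `H`, `h` arbitrary with
fibre-uniform `L²` bound `y` -/
theorem leaf_olev {κ : ℕ} {k : Fin 4} {p : ℕ × ℤ} {f : ℤ → ℂ} {s : ℝ} (hO : OLev κ k p f s)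
    (hs : 0 ≤ s) {j e e' : Fin 4} (h1 : j ≠ k) (h2 : j ≠ e) (h3 : j ≠ e') (h4 : k ≠ e)
    (h5 : k ≠ e') (h6 : e ≠ e') {r : ℕ} (hr : r ≤ κ) {n : ℕ} (hn : n = 2 ^ (p.1 + r))
    (w q u : ℤ) (G : Fin n → ℤ → ℤ → ℂ) (Y : Fin n → Fin n → Fin n → ℂ)
    (H : ℝ) (hH : 0 < H) (hG : ∀ x0 z z', ‖G x0 z z'‖ ≤ H) (A : ℝ)
    (hA : ∑ y ∈ dI (p.1 + 7) p.2, ‖f y‖ ^ 2 ≤ A) (y : ℝ)
    (hY : ∀ x0 x3, ∑ x1, ‖Y x0 x1 x3‖ ^ 2 ≤ y) :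
    ∑ x0 : Fin n, ∑ x3 : Fin n, ∑ x2 : Fin n, ‖∑ x1 : Fin n,
        (res p f ((sl j - sl k) * (w + ((x3 : ℕ) : ℤ)) + (sl e - sl k) * (q + ((x2 : ℕ) : ℤ)) +
          (sl e' - sl k) * (u + ((x1 : ℕ) : ℤ))) *
        G x0 (q + ((x2 : ℕ) : ℤ)) (u + ((x1 : ℕ) : ℤ))) * Y x0 x1 x3‖ ^ 2
      ≤ y * ((n : ℝ) ^ 3 * H ^ 2 * s * Real.sqrt (n * A)) := by
  have hnpos : 0 < n := by rw [hn]; positivity
  have hn' : (0 : ℝ) < n := by exact_mod_cast hnpos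
  have hA0 : 0 ≤ A := le_trans (Finset.sum_nonneg fun _ _ => by positivity) hA
  have hy0 : 0 ≤ y := le_trans (Finset.sum_nonneg fun _ _ => by positivity)
    (hY ⟨0, hnpos⟩ ⟨0, hnpos⟩)
  have hL := leaf_S4 (fun (x0 x3 x1 x2 : Fin n) =>
    res p f ((sl j - sl k) * (w + ((x3 : ℕ) : ℤ)) + (sl e - sl k) * (q + ((x2 : ℕ) : ℤ)) +
          (sl e' - sl k) * (u + ((x1 : ℕ) : ℤ))) *
        G x0 (q + ((x2 : ℕ) : ℤ)) (u + ((x1 : ℕ) : ℤ))) Y y hY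
  refine hL.trans (mul_le_mul_of_nonneg_left ?_ hy0)
  have hS : ∑ x0 : Fin n, ∑ x3 : Fin n, S4 (fun (x1 x2 : Fin n) =>
      res p f ((sl j - sl k) * (w + ((x3 : ℕ) : ℤ)) + (sl e - sl k) * (q + ((x2 : ℕ) : ℤ)) +
          (sl e' - sl k) * (u + ((x1 : ℕ) : ℤ))) *
        G x0 (q + ((x2 : ℕ) : ℤ)) (u + ((x1 : ℕ) : ℤ))) ≤ (n : ℝ) ^ 5 * A * H ^ 4 * s ^ 2 := by
    calc _ ≤ ∑ _x0 : Fin n, (n : ℝ) ^ 4 * A * H ^ 4 * s ^ 2 :=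
          Finset.sum_le_sum fun x0 _ =>
            olev_S4sum hO hs h1 h2 h3 h4 h5 h6 hr hn w q u (G x0) H hH (hG x0) A hA
      _ = _ := by
          simp only [Finset.sum_const, Finset.card_univ, Fintype.card_fin, nsmul_eq_mul]
          ring
  have e1 : Real.sqrt ((Fintype.card (Fin n) : ℝ) * Fintype.card (Fin n)) = n := by
    rw [Fintype.card_fin, Real.sqrt_mul_self hn'.le]
  rw [e1]
  have e2 : Real.sqrt ((n : ℝ) ^ 5 * A * H ^ 4 * s ^ 2) = n ^ 2 * H ^ 2 * s * Real.sqrt (n * A) := by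
    rw [show (n : ℝ) ^ 5 * A * H ^ 4 * s ^ 2 = ((n : ℝ) ^ 2 * H ^ 2 * s) ^ 2 * (n * A) by ring,
      Real.sqrt_mul (sq_nonneg _), Real.sqrt_sq (by positivity)]
  calc (n : ℝ) * Real.sqrt _ ≤ (n : ℝ) * Real.sqrt ((n : ℝ) ^ 5 * A * H ^ 4 * s ^ 2) :=
        mul_le_mul_of_nonneg_left (Real.sqrt_le_sqrt hS) hn'.le
    _ = (n : ℝ) ^ 3 * H ^ 2 * s * Real.sqrt (n * A) := by rw [e2]; ring

/-- **(LB3)** 247's form: killer `R = res p f` leveled (slot `k`), `Y` bounded gauge, `P` arbitrary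
with fibre-uniform bound `F` (fibre in `x₁`) -/
theorem leaf_olev247 {κ : ℕ} {k : Fin 4} {p : ℕ × ℤ} {f : ℤ → ℂ} {s : ℝ} (hO : OLev κ k p f s)
    (hs : 0 ≤ s) {j e e' : Fin 4} (h1 : j ≠ k) (h2 : j ≠ e) (h3 : j ≠ e') (h4 : k ≠ e)
    (h5 : k ≠ e') (h6 : e ≠ e') {r : ℕ} (hr : r ≤ κ) {n : ℕ} (hn : n = 2 ^ (p.1 + r))
    (w q u : ℤ) (Y : Fin n → ℤ → ℤ → ℂ) (P : Fin n → Fin n → Fin n → ℂ)
    (H : ℝ) (hH : 0 < H) (hYb : ∀ x3 z z', ‖Y x3 z z'‖ ≤ H) (A : ℝ)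
    (hA : ∑ y ∈ dI (p.1 + 7) p.2, ‖f y‖ ^ 2 ≤ A) (F : ℝ)
    (hP : ∀ x3 x2, ∑ x1, ‖P x3 x1 x2‖ ^ 2 ≤ F) :
    ∑ x2 : Fin n, ∑ x3 : Fin n, ∑ x0 : Fin n, ‖∑ x1 : Fin n,
        (res p f ((sl j - sl k) * (w + ((x2 : ℕ) : ℤ)) + (sl e - sl k) * (q + ((x0 : ℕ) : ℤ)) +
          (sl e' - sl k) * (u + ((x1 : ℕ) : ℤ))) *
        Y x3 (q + ((x0 : ℕ) : ℤ)) (u + ((x1 : ℕ) : ℤ))) * P x3 x1 x2‖ ^ 2
      ≤ F * ((n : ℝ) ^ 3 * H ^ 2 * s * Real.sqrt (n * A)) := by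
  have hnpos : 0 < n := by rw [hn]; positivity
  have hn' : (0 : ℝ) < n := by exact_mod_cast hnpos
  have hA0 : 0 ≤ A := le_trans (Finset.sum_nonneg fun _ _ => by positivity) hA
  have hF0 : 0 ≤ F := le_trans (Finset.sum_nonneg fun _ _ => by positivity)
    (hP ⟨0, hnpos⟩ ⟨0, hnpos⟩)
  -- for each `x₃` and `x₂`
  have hq : ∀ x2 x3 : Fin n, ∑ x0 : Fin n, ‖∑ x1 : Fin n,
        (res p f ((sl j - sl k) * (w + ((x2 : ℕ) : ℤ)) + (sl e - sl k) * (q + ((x0 : ℕ) : ℤ)) +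
          (sl e' - sl k) * (u + ((x1 : ℕ) : ℤ))) *
        Y x3 (q + ((x0 : ℕ) : ℤ)) (u + ((x1 : ℕ) : ℤ))) * P x3 x1 x2‖ ^ 2 ≤
      F * Real.sqrt (S4 (fun (x1 x0 : Fin n) =>
        res p f ((sl j - sl k) * (w + ((x2 : ℕ) : ℤ)) + (sl e - sl k) * (q + ((x0 : ℕ) : ℤ)) +
          (sl e' - sl k) * (u + ((x1 : ℕ) : ℤ))) *
        Y x3 (q + ((x0 : ℕ) : ℤ)) (u + ((x1 : ℕ) : ℤ)))) := by
    intro x2 x3
    refine (quad_le _ (fun x1 => P x3 x1 x2)).trans ?_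
    rw [mul_comm]
    exact mul_le_mul_of_nonneg_right (hP x3 x2) (Real.sqrt_nonneg _)
  set Q : Fin n → Fin n → ℝ := fun x2 x3 => S4 (fun (x1 x0 : Fin n) =>
        res p f ((sl j - sl k) * (w + ((x2 : ℕ) : ℤ)) + (sl e - sl k) * (q + ((x0 : ℕ) : ℤ)) +
          (sl e' - sl k) * (u + ((x1 : ℕ) : ℤ))) *
        Y x3 (q + ((x0 : ℕ) : ℤ)) (u + ((x1 : ℕ) : ℤ))) with hQ
  have hQ0 : ∀ x2 x3, 0 ≤ Q x2 x3 := fun x2 x3 => S4_nonneg _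
  have hS : ∑ x2 : Fin n, ∑ x3 : Fin n, Q x2 x3 ≤ (n : ℝ) ^ 5 * A * H ^ 4 * s ^ 2 := by
    rw [Finset.sum_comm]
    calc _ ≤ ∑ _x3 : Fin n, (n : ℝ) ^ 4 * A * H ^ 4 * s ^ 2 :=
          Finset.sum_le_sum fun x3 _ =>
            olev_S4sum hO hs h1 h2 h3 h4 h5 h6 hr hn w q u (Y x3) H hH (hYb x3) A hA
      _ = _ := by
          simp only [Finset.sum_const, Finset.card_univ, Fintype.card_fin, nsmul_eq_mul]
          ring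
  have hsq : (∑ x2 : Fin n, ∑ x3 : Fin n, Real.sqrt (Q x2 x3)) ^ 2 ≤
      ((n : ℝ) * n) * ∑ x2 : Fin n, ∑ x3 : Fin n, Q x2 x3 := by
    have h3 := Finset.sum_mul_sq_le_sq_mul_sq (Finset.univ : Finset (Fin n × Fin n))
      (fun _ => (1 : ℝ)) (fun z => Real.sqrt (Q z.1 z.2))
    simp only [one_mul, one_pow, Finset.sum_const, Finset.card_univ, Fintype.card_prod,
      Fintype.card_fin, nsmul_eq_mul, mul_one, Nat.cast_mul, Fintype.sum_prod_type,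
      Real.sq_sqrt (hQ0 _ _)] at h3
    exact h3
  have hsum : ∑ x2 : Fin n, ∑ x3 : Fin n, Real.sqrt (Q x2 x3) ≤
      (n : ℝ) ^ 3 * H ^ 2 * s * Real.sqrt (n * A) := by
    refine abs_le_of_sq_le_sq' ?_ (by positivity) |>.2
    refine hsq.trans ?_
    rw [mul_pow, Real.sq_sqrt (by positivity)]
    calc ((n : ℝ) * n) * ∑ x2 : Fin n, ∑ x3 : Fin n, Q x2 x3
        ≤ ((n : ℝ) * n) * ((n : ℝ) ^ 5 * A * H ^ 4 * s ^ 2) :=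
          mul_le_mul_of_nonneg_left hS (by positivity)
      _ = ((n : ℝ) ^ 3 * H ^ 2 * s) ^ 2 * (n * A) := by ring
  calc _ ≤ ∑ x2 : Fin n, ∑ x3 : Fin n, F * Real.sqrt (Q x2 x3) :=
        Finset.sum_le_sum fun x2 _ => Finset.sum_le_sum fun x3 _ => hq x2 x3
    _ = F * ∑ x2 : Fin n, ∑ x3 : Fin n, Real.sqrt (Q x2 x3) := by
        simp only [Finset.mul_sum]
    _ ≤ _ := mul_le_mul_of_nonneg_left hsum hF0

end Crest.Agent.R079.LfB
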