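import Crest.Agent.R079.Wb_71
import Crest.Agent.R079.LfB_246

/-! R079, doc 2539, glue: LEAF VALUE in the shape `Wb71.LK` from 246's `leaf_olev` (helper71). -/

set_option autoImplicit false

namespace Crest.Agent.R079.LfK71

open Crest.Agent.R079.Wb71
open Finset Crest.Agent.R079.Grid Crest.Agent.R079.F2 Crest.Agent.R079.OpLev
open Crest.Agent.R079.Growth Crest.Agent.R079.R244

/-- reduced kernel of two letters, slots `k`, `j` -/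
noncomputable def K2 (i k j a b : Fin 4) (P G : ℤ → ℂ) (r x z : ℤ) : ℂ :=
  P ((sl i * r + sl a * x + sl b * z) - sl k * (r + x + z)) *
    G ((sl i * r + sl a * x + sl b * z) - sl j * (r + x + z))

/-- shift in the variable `x_b` -/
def SB (i k j a b : Fin 4) (r x0 x3 : ℤ) : ℤ :=
  ((sl k - sl a) * x0 + (sl j - sl a) * x3 - (sl i - sl a) * r) / dd a b

/-- shift in the variable `x_a` -/
def SA (i k j a b : Fin 4) (r x0 x3 : ℤ) : ℤ := x0 + x3 - r - SB i k j a b r x0 x3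

lemma args (i k j a b : Fin 4) (r x0 x3 xa xb : ℤ)
    (hd : dd a b * SB i k j a b r x0 x3 =
      (sl k - sl a) * x0 + (sl j - sl a) * x3 - (sl i - sl a) * r) :
    ((sl i * r + sl a * (xa + SA i k j a b r x0 x3) + sl b * (xb + SB i k j a b r x0 x3)) -
      sl k * (r + (xa + SA i k j a b r x0 x3) + (xb + SB i k j a b r x0 x3)) =
      (sl j - sl k) * x3 + (sl b - sl k) * xb + (sl a - sl k) * xa) ∧
    ((sl i * r + sl a * (xa + SA i k j a b r x0 x3) + sl b * (xb + SB i k j a b r x0 x3)) -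
      sl j * (r + (xa + SA i k j a b r x0 x3) + (xb + SB i k j a b r x0 x3)) =
      (sl k - sl j) * x0 + (sl b - sl j) * xb + (sl a - sl j) * xa) := by
  unfold SA
  generalize SB i k j a b r x0 x3 = S at hd ⊢
  unfold dd at hd
  constructor
  · linear_combination hd
  · linear_combination hd

lemma sl_abs (c e : Fin 4) : |sl c - sl e| ≤ 3 := by revert c e; decide

lemma dd_natAbs (k j a b : Fin 4) (h : Dst k j a b) : 1 ≤ (dd a b).natAbs ∧ (dd a b).natAbs ≤ 3 := by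
  rcases dd_cases k j a b h with h | h | ⟨h | h, _⟩ | ⟨h | h, _⟩ <;> rw [h] <;> decide

/-- the class: for every `x3` there is `t0 ≤ 2` such that all `x0 = t0 + |d| t` are admissible -/
lemma cls (i k j a b : Fin 4) (h : Dst k j a b) (r x3 : ℤ) : ∃ t0 : ℕ, t0 < 3 ∧ ∀ t : ℕ,
    dd a b * SB i k j a b r ((t0 + (dd a b).natAbs * t : ℕ) : ℤ) x3 =
      (sl k - sl a) * ((t0 + (dd a b).natAbs * t : ℕ) : ℤ) + (sl j - sl a) * x3 -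
        (sl i - sl a) * r := by
  obtain ⟨t0, ht0, q, hq⟩ := exists_res k j a b h (-((sl j - sl a) * x3 - (sl i - sl a) * r))
  obtain ⟨h1, h3⟩ := dd_natAbs k j a b h
  refine ⟨t0, by omega, fun t => ?_⟩
  have hne : dd a b ≠ 0 := by
    intro h0; rw [h0] at h1; simp at h1
  -- divisibility
  have hdvd : dd a b ∣ (sl k - sl a) * ((t0 + (dd a b).natAbs * t : ℕ) : ℤ) + (sl j - sl a) * x3 -
        (sl i - sl a) * r := by
    have e1 : (sl k - sl a) * ((t0 + (dd a b).natAbs * t : ℕ) : ℤ) + (sl j - sl a) * x3 -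
        (sl i - sl a) * r = dd a b * (-q) + ((dd a b).natAbs : ℤ) * ((sl k - sl a) * t) := by
      push_cast
      linear_combination (1:ℤ) * hq
    rw [e1]
    refine dvd_add (Dvd.intro _ rfl) (Dvd.dvd.mul_right ?_ _)
    exact Int.dvd_natAbs.2 dvd_rfl
  unfold SB
  exact Int.mul_ediv_cancel' hdvd

lemma SB_bound (i k j a b : Fin 4) (h : Dst k j a b) (r x0 x3 L : ℤ) (hL : 1 ≤ L)
    (hr : |r| ≤ 3) (h0 : |x0| ≤ 8 * L) (h3 : |x3| ≤ 256 * L)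
    (hd : dd a b * SB i k j a b r x0 x3 =
      (sl k - sl a) * x0 + (sl j - sl a) * x3 - (sl i - sl a) * r) :
    |SB i k j a b r x0 x3| ≤ 1024 * L ∧ |SA i k j a b r x0 x3| ≤ 2048 * L := by
  have h1 := (dd_natAbs k j a b h).1
  have hdabs : (1 : ℤ) ≤ |dd a b| := by
    rw [Int.abs_eq_natAbs]; exact_mod_cast h1
  have e1 : |dd a b| * |SB i k j a b r x0 x3| ≤ 3 * (8 * L) + 3 * (256 * L) + 3 * 3 := by
    rw [← abs_mul, hd]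
    calc |(sl k - sl a) * x0 + (sl j - sl a) * x3 - (sl i - sl a) * r|
        ≤ |(sl k - sl a) * x0| + |(sl j - sl a) * x3| + |(sl i - sl a) * r| := by
          refine (abs_sub _ _).trans ?_
          linarith [abs_add_le ((sl k - sl a) * x0) ((sl j - sl a) * x3)]
      _ ≤ _ := by
          rw [abs_mul, abs_mul, abs_mul]
          have a1 := mul_le_mul (sl_abs k a) h0 (abs_nonneg _) (by norm_num)
          have a2 := mul_le_mul (sl_abs j a) h3 (abs_nonneg _) (by norm_num)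
          have a3 := mul_le_mul (sl_abs i a) hr (abs_nonneg _) (by norm_num)
          linarith
  have hSB : |SB i k j a b r x0 x3| ≤ 1024 * L := by
    nlinarith [abs_nonneg (SB i k j a b r x0 x3)]
  refine ⟨hSB, ?_⟩
  unfold SA
  calc |x0 + x3 - r - SB i k j a b r x0 x3|
      ≤ |x0| + |x3| + |r| + |SB i k j a b r x0 x3| := by
        refine (abs_sub _ _).trans ?_
        have b1 := abs_sub (x0 + x3) r
        have b2 := abs_add_le x0 x3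
        linarith
    _ ≤ _ := by linarith

open Classical in
/-- the masked window letter -/
noncomputable def Yw (i k j a b : Fin 4) (r : ℤ) (kk : ℕ) (Q0 u0 : ℤ) (β : ℤ → ℂ) (n : ℕ)
    (x0 x1 x3 : Fin n) : ℂ :=
  if Q0 + ((x3 : ℕ) : ℤ) ≤ u0 + ((x1 : ℕ) : ℤ) + SA i k j a b r ((x0 : ℕ) : ℤ) ((x3 : ℕ) : ℤ) ∧
      u0 + ((x1 : ℕ) : ℤ) + SA i k j a b r ((x0 : ℕ) : ℤ) ((x3 : ℕ) : ℤ) <
        Q0 + ((x3 : ℕ) : ℤ) + 2 ^ kk then
    star (β (u0 + ((x1 : ℕ) : ℤ) + SA i k j a b r ((x0 : ℕ) : ℤ) ((x3 : ℕ) : ℤ))) else 0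

lemma win_sum {M : Type*} [AddCommMonoid M] (n kk : ℕ) (q s : ℤ) (g : ℤ → M)
    (h0 : 0 ≤ q - s) (h1 : q - s + 2 ^ kk ≤ n) :
    ∑ x1 : Fin n, (if q ≤ ((x1 : ℕ) : ℤ) + s ∧ ((x1 : ℕ) : ℤ) + s < q + 2 ^ kk then
      g (((x1 : ℕ) : ℤ) + s) else 0) = ∑ u ∈ range (2 ^ kk), g (q + (u : ℤ)) := by
  rw [Fin.sum_univ_eq_sum_range (fun x1 : ℕ => if q ≤ ((x1 : ℕ) : ℤ) + s ∧
    ((x1 : ℕ) : ℤ) + s < q + 2 ^ kk then g (((x1 : ℕ) : ℤ) + s) else 0) n, ← Finset.sum_filter]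
  symm
  refine Finset.sum_bij (fun (u : ℕ) _ => (q - s).toNat + u) ?_ ?_ ?_ ?_
  · intro u hu
    have hu' : (u : ℤ) < 2 ^ kk := by exact_mod_cast Finset.mem_range.1 hu
    have e : (((q - s).toNat + u : ℕ) : ℤ) = q - s + u := by
      push_cast; rw [Int.toNat_of_nonneg h0]
    rw [Finset.mem_filter, Finset.mem_range]
    refine ⟨?_, ?_, ?_⟩
    · have : (((q - s).toNat + u : ℕ) : ℤ) < (n : ℤ) := by rw [e]; linarith
      exact_mod_cast this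
    · rw [e]; linarith [Int.natCast_nonneg u]
    · rw [e]; linarith
  · intro u _ v _ huv
    omega
  · intro x hx
    rw [Finset.mem_filter, Finset.mem_range] at hx
    obtain ⟨hx1, hx2, hx3⟩ := hx
    refine ⟨(((x : ℕ) : ℤ) + s - q).toNat, ?_, ?_⟩
    · rw [Finset.mem_range]
      have : ((((x : ℕ) : ℤ) + s - q).toNat : ℤ) < ((2 ^ kk : ℕ) : ℤ) := by
        rw [Int.toNat_of_nonneg (by linarith)]; push_cast; linarith
      exact_mod_cast this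
    · have : (((q - s).toNat + (((x : ℕ) : ℤ) + s - q).toNat : ℕ) : ℤ) = (x : ℤ) := by
        push_cast
        rw [Int.toNat_of_nonneg h0, Int.toNat_of_nonneg (by linarith)]
        ring
      exact_mod_cast this
  · intro u _
    congr 1
    push_cast
    rw [Int.toNat_of_nonneg h0]
    ring

lemma win_le (n kk : ℕ) (q s : ℤ) (g : ℤ → ℝ) (hg : ∀ y, 0 ≤ g y) :
    ∑ x1 : Fin n, (if q ≤ ((x1 : ℕ) : ℤ) + s ∧ ((x1 : ℕ) : ℤ) + s < q + 2 ^ kk then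
      g (((x1 : ℕ) : ℤ) + s) else 0) ≤ ∑ u ∈ range (2 ^ kk), g (q + (u : ℤ)) := by
  classical
  rw [← Finset.sum_filter]
  have hinj : ∀ x ∈ (univ : Finset (Fin n)).filter
      (fun x1 : Fin n => q ≤ ((x1 : ℕ) : ℤ) + s ∧ ((x1 : ℕ) : ℤ) + s < q + 2 ^ kk),
      g (((x : ℕ) : ℤ) + s) = g (q + (((((x : ℕ) : ℤ) + s - q).toNat : ℕ) : ℤ)) := by
    intro x hx
    obtain ⟨_, h1, h2⟩ := Finset.mem_filter.1 hx
    rw [Int.toNat_of_nonneg (by linarith)]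
    congr 1; ring
  rw [Finset.sum_congr rfl hinj]
  rw [← Finset.sum_image (f := fun u : ℕ => g (q + (u : ℤ)))
    (g := fun x : Fin n => (((x : ℕ) : ℤ) + s - q).toNat)]
  · refine Finset.sum_le_sum_of_subset_of_nonneg ?_ (fun _ _ _ => hg _)
    intro u hu
    obtain ⟨x, hx, rfl⟩ := Finset.mem_image.1 hu
    obtain ⟨_, h1, h2⟩ := Finset.mem_filter.1 hx
    rw [Finset.mem_range]
    have : ((((x : ℕ) : ℤ) + s - q).toNat : ℤ) < ((2 ^ kk : ℕ) : ℤ) := by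
      rw [Int.toNat_of_nonneg (by linarith)]; push_cast; linarith
    exact_mod_cast this
  · intro x hx x' hx' h
    obtain ⟨_, h1, h2⟩ := Finset.mem_filter.1 hx
    obtain ⟨_, h1', h2'⟩ := Finset.mem_filter.1 hx'
    have e : ((((x : ℕ) : ℤ) + s - q).toNat : ℤ) = ((((x' : ℕ) : ℤ) + s - q).toNat : ℤ) := by
      exact_mod_cast h
    rw [Int.toNat_of_nonneg (by linarith), Int.toNat_of_nonneg (by linarith)] at e
    exact Fin.ext (by omega)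

lemma Yw_le (i k j a b : Fin 4) (r : ℤ) (kk : ℕ) (Q0 u0 : ℤ) (β : ℤ → ℂ) (n : ℕ) (y : ℝ)
    (hy : ∀ q : ℤ, ∑ u ∈ range (2 ^ kk), ‖β (q + (u : ℤ))‖ ^ 2 ≤ y) (x0 x3 : Fin n) :
    ∑ x1 : Fin n, ‖Yw i k j a b r kk Q0 u0 β n x0 x1 x3‖ ^ 2 ≤ y := by
  classical
  refine le_trans ?_ ((win_le n kk (Q0 + ((x3 : ℕ) : ℤ))
    (u0 + SA i k j a b r ((x0 : ℕ) : ℤ) ((x3 : ℕ) : ℤ)) (fun z => ‖β z‖ ^ 2)
    (fun _ => by positivity)).trans (hy _))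
  refine le_of_eq (Finset.sum_congr rfl fun x1 _ => ?_)
  have e : u0 + ((x1 : ℕ) : ℤ) + SA i k j a b r ((x0 : ℕ) : ℤ) ((x3 : ℕ) : ℤ) =
      ((x1 : ℕ) : ℤ) + (u0 + SA i k j a b r ((x0 : ℕ) : ℤ) ((x3 : ℕ) : ℤ)) := by ring
  unfold Yw
  rw [e]
  split_ifs
  · rw [norm_star]
  · rw [norm_zero]; norm_num

/-- inner sum of the leaf form = window average -/
lemma inner (i k j a b : Fin 4) (r : ℤ) (kk : ℕ) (Q0 Z0 : ℤ) (β P G : ℤ → ℂ)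
    (n : ℕ) (x0 x3 x2 : Fin n) (z' : ℤ)
    (hd : dd a b * SB i k j a b r ((x0 : ℕ) : ℤ) ((x3 : ℕ) : ℤ) =
      (sl k - sl a) * ((x0 : ℕ) : ℤ) + (sl j - sl a) * ((x3 : ℕ) : ℤ) - (sl i - sl a) * r)
    (hx2 : ((x2 : ℕ) : ℤ) = z' + 2 ^ (kk + 11) - SB i k j a b r ((x0 : ℕ) : ℤ) ((x3 : ℕ) : ℤ))
    (h0 : 0 ≤ 2 ^ (kk + 11) + ((x3 : ℕ) : ℤ) - SA i k j a b r ((x0 : ℕ) : ℤ) ((x3 : ℕ) : ℤ))
    (h1 : 2 ^ (kk + 11) + ((x3 : ℕ) : ℤ) - SA i k j a b r ((x0 : ℕ) : ℤ) ((x3 : ℕ) : ℤ) +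
      2 ^ kk ≤ n) :
    ∑ x1 : Fin n, (P ((sl j - sl k) * (0 + ((x3 : ℕ) : ℤ)) +
        (sl b - sl k) * ((Z0 - 2 ^ (kk + 11)) + ((x2 : ℕ) : ℤ)) +
        (sl a - sl k) * ((Q0 - 2 ^ (kk + 11)) + ((x1 : ℕ) : ℤ))) *
      G ((sl k - sl j) * ((x0 : ℕ) : ℤ) + (sl b - sl j) * ((Z0 - 2 ^ (kk + 11)) + ((x2 : ℕ) : ℤ)) +
        (sl a - sl j) * ((Q0 - 2 ^ (kk + 11)) + ((x1 : ℕ) : ℤ)))) *
      Yw i k j a b r kk Q0 (Q0 - 2 ^ (kk + 11)) β n x0 x1 x3 =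
    ∑ u ∈ range (2 ^ kk), star (β (Q0 + ((x3 : ℕ) : ℤ) + (u : ℤ))) *
      K2 i k j a b P G r (Q0 + ((x3 : ℕ) : ℤ) + (u : ℤ)) (Z0 + z') := by
  classical
  set S := SA i k j a b r ((x0 : ℕ) : ℤ) ((x3 : ℕ) : ℤ) with hS
  rw [← win_sum n kk (Q0 + ((x3 : ℕ) : ℤ)) (Q0 - 2 ^ (kk + 11) + S)
    (fun x => star (β x) * K2 i k j a b P G r x (Z0 + z')) (by linarith) (by linarith)]
  refine Finset.sum_congr rfl fun x1 _ => ?_
  have e : Q0 - 2 ^ (kk + 11) + ((x1 : ℕ) : ℤ) + S =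
      ((x1 : ℕ) : ℤ) + (Q0 - 2 ^ (kk + 11) + S) := by ring
  unfold Yw
  rw [← hS, e]
  split_ifs
  · obtain ⟨g1, g2⟩ := args i k j a b r ((x0 : ℕ) : ℤ) ((x3 : ℕ) : ℤ)
      (Q0 - 2 ^ (kk + 11) + ((x1 : ℕ) : ℤ)) (Z0 - 2 ^ (kk + 11) + ((x2 : ℕ) : ℤ)) hd
    rw [← hS] at g1 g2
    have ex : Q0 - 2 ^ (kk + 11) + ((x1 : ℕ) : ℤ) + S = ((x1 : ℕ) : ℤ) + (Q0 - 2 ^ (kk + 11) + S) := e
    have ez : Z0 - 2 ^ (kk + 11) + ((x2 : ℕ) : ℤ) + SB i k j a b r ((x0 : ℕ) : ℤ) ((x3 : ℕ) : ℤ) =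
        Z0 + z' := by rw [hx2]; ring
    rw [ex, ez] at g1 g2
    unfold K2
    rw [g1, g2, zero_add]
    ring
  · rw [mul_zero]

set_option maxHeartbeats 4000000 in
/-- **CORE**: one node, one leveled letter -/
theorem core {κ : ℕ} {i k j a b : Fin 4} (hD : Dst k j a b) {p : ℕ × ℤ} {P : ℤ → ℂ} {s : ℝ}
    (hO : OLev κ k p P s) (hs : 0 ≤ s) (hκ : 13 ≤ κ) (r : ℤ) (hr : |r| ≤ 3) (G : ℤ → ℂ) (H : ℝ)
    (hH : 0 < H) (hG : ∀ y, ‖G y‖ ≤ H) (A : ℝ) (hA : ∑ y ∈ dI (p.1 + 7) p.2, ‖P y‖ ^ 2 ≤ A)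
    (Q0 Z0 : ℤ) (β : ℤ → ℂ) (y : ℝ)
    (hy : ∀ q : ℤ, ∑ u ∈ range (2 ^ p.1), ‖β (q + (u : ℤ))‖ ^ 2 ≤ y) :
    (2 : ℝ) ^ p.1 * ∑ x3 ∈ range (2 ^ (p.1 + 8)), ∑ z' ∈ range (2 ^ (p.1 + 8)),
      ‖∑ u ∈ range (2 ^ p.1), star (β (Q0 + (x3 : ℤ) + (u : ℤ))) *
        K2 i k j a b (res p P) G r (Q0 + (x3 : ℤ) + (u : ℤ)) (Z0 + (z' : ℤ))‖ ^ 2 ≤
      y * (((2 ^ (p.1 + 13) : ℕ) : ℝ) ^ 3 * H ^ 2 * s *
        Real.sqrt (((2 ^ (p.1 + 13) : ℕ) : ℝ) * A)) := by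
  classical
  obtain ⟨hkj, hka, hkb, hja, hjb, hab⟩ := hD
  have hD : Dst k j a b := ⟨hkj, hka, hkb, hja, hjb, hab⟩
  set kk := p.1 with hkk
  set n : ℕ := 2 ^ (kk + 13) with hn
  set L : ℤ := 2 ^ kk with hL
  have hL1 : (1 : ℤ) ≤ L := one_le_pow₀ (by norm_num)
  have hnL : ((n : ℕ) : ℤ) = 8192 * L := by rw [hn, hL]; push_cast; ring
  have h11 : (2 : ℤ) ^ (kk + 11) = 2048 * L := by rw [hL]; ring
  have h8 : ((2 ^ (kk + 8) : ℕ) : ℤ) = 256 * L := by rw [hL]; push_cast; ring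
  have h00 : ((2 ^ kk : ℕ) : ℤ) = L := by rw [hL]; push_cast; rfl
  obtain ⟨hd1, hd3⟩ := dd_natAbs k j a b hD
  -- the class of x3
  choose t0 ht0 hcl using fun x3 : ℤ => cls i k j a b hD r x3
  -- the leaf bound
  have hleaf := LfB.leaf_olev hO hs (j := j) (e := b) (e' := a) hkj.symm hjb hja hkb hka hab.symm
    hκ (n := n) rfl 0 (Z0 - 2 ^ (kk + 11)) (Q0 - 2 ^ (kk + 11))
    (fun x0 z z' => G ((sl k - sl j) * ((x0 : ℕ) : ℤ) + (sl b - sl j) * z + (sl a - sl j) * z'))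
    (Yw i k j a b r kk Q0 (Q0 - 2 ^ (kk + 11)) β n) H hH (fun _ _ _ => hG _) A hA y
    (fun x0 x3 => Yw_le i k j a b r kk Q0 _ β n y hy x0 x3)
  refine le_trans ?_ hleaf
  set Φ : Fin n → Fin n → Fin n → ℝ := fun x0 x3 x2 => ‖∑ x1 : Fin n,
      (res p P ((sl j - sl k) * (0 + ((x3 : ℕ) : ℤ)) +
        (sl b - sl k) * ((Z0 - 2 ^ (kk + 11)) + ((x2 : ℕ) : ℤ)) +
        (sl a - sl k) * ((Q0 - 2 ^ (kk + 11)) + ((x1 : ℕ) : ℤ))) *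
      G ((sl k - sl j) * ((x0 : ℕ) : ℤ) + (sl b - sl j) * ((Z0 - 2 ^ (kk + 11)) + ((x2 : ℕ) : ℤ)) +
        (sl a - sl j) * ((Q0 - 2 ^ (kk + 11)) + ((x1 : ℕ) : ℤ)))) *
      Yw i k j a b r kk Q0 (Q0 - 2 ^ (kk + 11)) β n x0 x1 x3‖ ^ 2 with hΦ
  show _ ≤ ∑ x0 : Fin n, ∑ x3 : Fin n, ∑ x2 : Fin n, Φ x0 x3 x2
  set Ψ : ℕ → ℕ → ℝ := fun x3 z' => ‖∑ u ∈ range (2 ^ kk), star (β (Q0 + (x3 : ℤ) + (u : ℤ))) *
        K2 i k j a b (res p P) G r (Q0 + (x3 : ℤ) + (u : ℤ)) (Z0 + (z' : ℤ))‖ ^ 2 with hΨ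
  -- index facts
  have idx : ∀ x3 : ℕ, x3 < 2 ^ (kk + 8) → ∀ z' : ℕ, z' < 2 ^ (kk + 8) → ∀ t : ℕ, t < 2 ^ kk →
      ∃ x0 x3' x2 : Fin n, (x3' : ℕ) = x3 ∧ (x0 : ℕ) = t0 (x3 : ℤ) + (dd a b).natAbs * t ∧
        ((x2 : ℕ) : ℤ) = (z' : ℤ) + 2 ^ (kk + 11) -
          SB i k j a b r ((t0 (x3 : ℤ) + (dd a b).natAbs * t : ℕ) : ℤ) (x3 : ℤ) ∧
        Φ x0 x3' x2 = Ψ x3 z' := by
    intro x3 hx3 z' hz' t ht
    have hx3' : (x3 : ℤ) < 256 * L := by rw [← h8]; exact_mod_cast hx3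
    have hz'' : (z' : ℤ) < 256 * L := by rw [← h8]; exact_mod_cast hz'
    have ht' : (t : ℤ) < L := by rw [← h00]; exact_mod_cast ht
    have ht00 := ht0 (x3 : ℤ)
    have hxx : ((t0 (x3 : ℤ) + (dd a b).natAbs * t : ℕ) : ℤ) ≤ 3 * L := by
      have h1 : (dd a b).natAbs * t ≤ 3 * t := Nat.mul_le_mul_right _ hd3
      have h2 : ((t0 (x3 : ℤ) + (dd a b).natAbs * t : ℕ) : ℤ) ≤ ((2 + 3 * t : ℕ) : ℤ) := by
        exact_mod_cast (by omega : t0 (x3 : ℤ) + (dd a b).natAbs * t ≤ 2 + 3 * t)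
      push_cast at h2 ⊢
      linarith
    have hx0n : ((t0 (x3 : ℤ) + (dd a b).natAbs * t : ℕ) : ℤ) < (n : ℤ) := by
      rw [hnL]; linarith
    have hd := hcl (x3 : ℤ) t
    obtain ⟨hB, hA'⟩ := SB_bound i k j a b hD r
      ((t0 (x3 : ℤ) + (dd a b).natAbs * t : ℕ) : ℤ) (x3 : ℤ) L hL1 hr
      (by rw [abs_of_nonneg (by positivity)]; linarith)
      (by rw [abs_of_nonneg (by positivity)]; linarith) hd
    rw [abs_le] at hB hA'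
    have hn0 : (0 : ℤ) ≤ (z' : ℤ) + 2 ^ (kk + 11) -
          SB i k j a b r ((t0 (x3 : ℤ) + (dd a b).natAbs * t : ℕ) : ℤ) (x3 : ℤ) := by
      rw [h11]; have := Int.natCast_nonneg z'; linarith [hB.2]
    have hn1 : (z' : ℤ) + 2 ^ (kk + 11) -
          SB i k j a b r ((t0 (x3 : ℤ) + (dd a b).natAbs * t : ℕ) : ℤ) (x3 : ℤ) < (n : ℤ) := by
      rw [h11, hnL]; linarith [hB.1]
    have hx3n : (x3 : ℤ) < (n : ℤ) := by rw [hnL]; linarith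
    have hx0n' : t0 (x3 : ℤ) + (dd a b).natAbs * t < n := Int.ofNat_lt.1 hx0n
    have hx3n' : x3 < n := Int.ofNat_lt.1 hx3n
    have hx2n' : ((z' : ℤ) + 2 ^ (kk + 11) -
          SB i k j a b r ((t0 (x3 : ℤ) + (dd a b).natAbs * t : ℕ) : ℤ) (x3 : ℤ)).toNat < n := by
      have : (((((z' : ℤ) + 2 ^ (kk + 11) -
          SB i k j a b r ((t0 (x3 : ℤ) + (dd a b).natAbs * t : ℕ) : ℤ) (x3 : ℤ)).toNat : ℕ)) : ℤ)
          < (n : ℤ) := by rw [Int.toNat_of_nonneg hn0]; exact hn1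
      exact Int.ofNat_lt.1 this
    have c0 : (0 : ℤ) ≤ 2 ^ (kk + 11) + (x3 : ℤ) -
        SA i k j a b r ((t0 (x3 : ℤ) + (dd a b).natAbs * t : ℕ) : ℤ) (x3 : ℤ) := by
      rw [h11]; have := Int.natCast_nonneg x3; linarith [hA'.2]
    have c1 : 2 ^ (kk + 11) + (x3 : ℤ) -
        SA i k j a b r ((t0 (x3 : ℤ) + (dd a b).natAbs * t : ℕ) : ℤ) (x3 : ℤ) + 2 ^ kk ≤
          (n : ℤ) := by
      rw [h11, hnL, ← hL]; linarith [hA'.1]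
    have hin := inner i k j a b r kk Q0 Z0 β (res p P) G n
      ⟨t0 (x3 : ℤ) + (dd a b).natAbs * t, hx0n'⟩ ⟨x3, hx3n'⟩ ⟨_, hx2n'⟩ (z' : ℤ) hd
      (Int.toNat_of_nonneg hn0) c0 c1
    exact ⟨⟨t0 (x3 : ℤ) + (dd a b).natAbs * t, hx0n'⟩, ⟨x3, hx3n'⟩, ⟨_, hx2n'⟩,
      rfl, rfl, Int.toNat_of_nonneg hn0, congrArg (fun w : ℂ => ‖w‖ ^ 2) hin⟩
  have hnpos : 0 < n := by rw [hn]; positivity
  have : Nonempty (Fin n) := ⟨⟨0, hnpos⟩⟩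
  set T := (range (2 ^ (kk + 8))) ×ˢ ((range (2 ^ (kk + 8))) ×ˢ (range (2 ^ kk))) with hT
  have hT1 : ∀ m ∈ T, ∃ w : Fin n × Fin n × Fin n, (w.2.1 : ℕ) = m.1 ∧
      (w.1 : ℕ) = t0 (m.1 : ℤ) + (dd a b).natAbs * m.2.2 ∧
      ((w.2.2 : ℕ) : ℤ) = (m.2.1 : ℤ) + 2 ^ (kk + 11) -
          SB i k j a b r ((t0 (m.1 : ℤ) + (dd a b).natAbs * m.2.2 : ℕ) : ℤ) (m.1 : ℤ) ∧
      Φ w.1 w.2.1 w.2.2 = Ψ m.1 m.2.1 := by
    intro m hm
    rw [hT, Finset.mem_product, Finset.mem_product] at hm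
    obtain ⟨hm1, hm2, hm3⟩ := hm
    obtain ⟨x0, x3', x2, g1, g2, g3, g4⟩ := idx m.1 (Finset.mem_range.1 hm1) m.2.1
      (Finset.mem_range.1 hm2) m.2.2 (Finset.mem_range.1 hm3)
    exact ⟨(x0, x3', x2), g1, g2, g3, g4⟩
  choose! f hf using hT1
  have hinj : ∀ m ∈ T, ∀ m' ∈ T, f m = f m' → m = m' := by
    intro m hm m' hm' e
    obtain ⟨a1, a2, a3, _⟩ := hf m hm
    obtain ⟨b1, b2, b3, _⟩ := hf m' hm'
    rw [e] at a1 a2 a3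
    have e1 : m.1 = m'.1 := a1.symm.trans b1
    have e2 : m.2.2 = m'.2.2 := by
      have h := a2.symm.trans b2
      rw [e1] at h
      exact Nat.eq_of_mul_eq_mul_left hd1 (Nat.add_left_cancel h)
    have e3 : m.2.1 = m'.2.1 := by
      have h := a3.symm.trans b3
      rw [e1, e2] at h
      exact Int.ofNat_inj.1 (by linarith)
    exact Prod.ext e1 (Prod.ext e3 e2)
  calc (2 : ℝ) ^ kk * ∑ x3 ∈ range (2 ^ (kk + 8)), ∑ z' ∈ range (2 ^ (kk + 8)), Ψ x3 z'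
      = ∑ m ∈ T, Ψ m.1 m.2.1 := by
        rw [hT, Finset.sum_product, Finset.mul_sum]
        refine Finset.sum_congr rfl fun x3 _ => ?_
        rw [Finset.sum_product, Finset.mul_sum]
        refine Finset.sum_congr rfl fun z' _ => ?_
        show (2 : ℝ) ^ kk * Ψ x3 z' = ∑ _y ∈ range (2 ^ kk), Ψ x3 z'
        rw [Finset.sum_const, Finset.card_range, nsmul_eq_mul]
        push_cast
        rfl
    _ = ∑ m ∈ T, Φ (f m).1 (f m).2.1 (f m).2.2 :=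
        Finset.sum_congr rfl fun m hm => (hf m hm).2.2.2.symm
    _ = ∑ w ∈ T.image f, Φ w.1 w.2.1 w.2.2 :=
        (Finset.sum_image (f := fun w : Fin n × Fin n × Fin n => Φ w.1 w.2.1 w.2.2) hinj).symm
    _ ≤ ∑ w : Fin n × Fin n × Fin n, Φ w.1 w.2.1 w.2.2 :=
        Finset.sum_le_sum_of_subset_of_nonneg (Finset.subset_univ _)
          (fun _ _ _ => by simp only [hΦ]; positivity)
    _ = ∑ x0 : Fin n, ∑ x3 : Fin n, ∑ x2 : Fin n, Φ x0 x3 x2 := by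
        rw [Fintype.sum_prod_type]
        refine Finset.sum_congr rfl fun x0 _ => ?_
        rw [Fintype.sum_prod_type]

end Crest.Agent.R079.LfK71
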