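import Crest.Agent.R079.LfK_71

/-! R079, doc 2539, glue: LEAF VALUE `Wb71.LK` of one leveled node, and of a finite sum of leveled
nodes (helper71). -/

set_option autoImplicit false

namespace Crest.Agent.R079.LfK71

open Crest.Agent.R079.Wb71
open Finset Crest.Agent.R079.Grid Crest.Agent.R079.F2 Crest.Agent.R079.OpLev
open Crest.Agent.R079.Growth Crest.Agent.R079.R244

lemma Xs_near {c d : ℤ} (hd : d ≠ 0) (p : Nd) {z0 z : ℤ} (h0 : z0 ∈ Xs c d p) (h : z ∈ Xs c d p) :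
    |z - z0| < 2 ^ (p.1 + 7) := by
  have h1 := (mem_Xs hd).1 h0
  have h2 := (mem_Xs hd).1 h
  rw [Crest.Agent.R079.Qh249.mem_iv] at h1 h2
  have hL : (0 : ℤ) < 2 ^ (p.1 + 7) := by positivity
  have a1 := Int.emod_nonneg (c + d * z0) hL.ne'
  have a2 := Int.emod_lt_of_pos (c + d * z0) hL
  have b1 := Int.emod_nonneg (c + d * z) hL.ne'
  have b2 := Int.emod_lt_of_pos (c + d * z) hL
  have e1 := Int.emod_add_mul_ediv (c + d * z0) (2 ^ (p.1 + 7))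
  have e2 := Int.emod_add_mul_ediv (c + d * z) (2 ^ (p.1 + 7))
  rw [h1] at e1
  rw [h2] at e2
  have h3 : |d * (z - z0)| < 2 ^ (p.1 + 7) := by
    rw [abs_lt]; constructor <;> nlinarith
  rw [abs_mul] at h3
  have h4 : 1 ≤ |d| := Int.one_le_abs hd
  nlinarith [abs_nonneg (z - z0)]

/-- **one leveled node**: the leaf quantity of `p` for a letter restricted to the node `p'` of the
same level -/
theorem LK_one {κ : ℕ} {i k j a b : Fin 4} (hD : Dst k j a b) {p p' : Nd} (hp : p'.1 = p.1)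
    {P : ℤ → ℂ} {s : ℝ} (hO : OLev κ k p' P s) (hs : 0 ≤ s) (hκ : 13 ≤ κ) (r : ℤ) (hr : |r| ≤ 3)
    (G : ℤ → ℂ) (H : ℝ) (hH : 0 < H) (hG : ∀ y, ‖G y‖ ≤ H) (A' : ℝ) (hA0 : 0 ≤ A')
    (hA : ∑ y ∈ dI (p'.1 + 7) p'.2, ‖P y‖ ^ 2 ≤ A' * len p)
    (β : ℤ → ℂ) (B' : ℝ) (hy : ∀ q : ℤ, ∑ u ∈ range (2 ^ p.1), ‖β (q + (u : ℤ))‖ ^ 2 ≤ B' * len p)
    (c' c : ℤ) {d' d : ℤ} (hd' : d' ≠ 0) (hd : d ≠ 0) :
    LK c' d' c d (K2 i k j a b (res p' P) G r) β p ≤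
      2 ^ 42 * B' * H ^ 2 * s * Real.sqrt A' * len p := by
  classical
  have hlen : len p = (2 : ℝ) ^ (p.1 + 7) := rfl
  have hlp : 0 < len p := by rw [hlen]; positivity
  have hB : 0 ≤ B' := by
    have := le_trans (Finset.sum_nonneg fun _ _ => by positivity) (hy 0)
    exact nonneg_of_mul_nonneg_left this hlp
  have hR : 0 ≤ 2 ^ 42 * B' * H ^ 2 * s * Real.sqrt A' * len p := by positivity
  rcases (Xs c' d' p).eq_empty_or_nonempty with hE | ⟨q0, hq0⟩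
  · unfold LK; rw [hE, Finset.sum_empty]; exact hR
  rcases (Xs c d p).eq_empty_or_nonempty with hE | ⟨z0, hz0⟩
  · unfold LK; rw [hE]; simp only [Finset.sum_empty, mul_zero, Finset.sum_const_zero]; exact hR
  have hc := core (i := i) hD hO hs hκ r hr G H hH hG (A' * len p) hA (q0 - 2 ^ (p.1 + 7))
    (z0 - 2 ^ (p.1 + 7)) β (B' * len p) (by rw [hp]; exact hy)
  rw [hp] at hc
  set Θ : ℤ → ℤ → ℝ := fun q z => ‖∑ u ∈ range (2 ^ p.1), star (β (q + (u : ℤ))) *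
    K2 i k j a b (res p' P) G r (q + (u : ℤ)) z‖ ^ 2 with hΘ
  have hsub : ∀ (c d : ℤ), d ≠ 0 → ∀ z0 ∈ Xs c d p, ∀ g : ℤ → ℝ, (∀ z, 0 ≤ g z) →
      ∑ z ∈ Xs c d p, g z ≤ ∑ x ∈ range (2 ^ (p.1 + 8)), g (z0 - 2 ^ (p.1 + 7) + (x : ℤ)) := by
    intro c d hd z0 hz0 g hg
    have himg : ∑ x ∈ range (2 ^ (p.1 + 8)), g (z0 - 2 ^ (p.1 + 7) + (x : ℤ)) =
        ∑ z ∈ (range (2 ^ (p.1 + 8))).image (fun x : ℕ => z0 - 2 ^ (p.1 + 7) + (x : ℤ)), g z := by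
      rw [Finset.sum_image]
      intro x _ x' _ h
      have h' : (x : ℤ) = (x' : ℤ) := by linarith
      exact_mod_cast h'
    rw [himg]
    refine Finset.sum_le_sum_of_subset_of_nonneg ?_ (fun _ _ _ => hg _)
    intro z hz
    have hn := abs_lt.1 (Xs_near hd p hz0 hz)
    refine Finset.mem_image.2 ⟨(z - z0 + 2 ^ (p.1 + 7)).toNat, ?_, ?_⟩
    · rw [Finset.mem_range]
      have : (((z - z0 + 2 ^ (p.1 + 7)).toNat : ℕ) : ℤ) < ((2 ^ (p.1 + 8) : ℕ) : ℤ) := by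
        rw [Int.toNat_of_nonneg (by linarith)]
        push_cast
        have : (2 : ℤ) ^ (p.1 + 8) = 2 * 2 ^ (p.1 + 7) := by ring
        linarith [hn.2]
      exact Int.ofNat_lt.1 this
    · rw [Int.toNat_of_nonneg (by linarith)]; ring
  have hΘ0 : ∀ q z, 0 ≤ Θ q z := fun q z => by simp only [hΘ]; positivity
  have h1 : LK c' d' c d (K2 i k j a b (res p' P) G r) β p ≤
      (1 / len p) * (1 / (2 : ℝ) ^ p.1) ^ 2 * ∑ x3 ∈ range (2 ^ (p.1 + 8)),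
        ∑ z' ∈ range (2 ^ (p.1 + 8)),
          Θ (q0 - 2 ^ (p.1 + 7) + (x3 : ℤ)) (z0 - 2 ^ (p.1 + 7) + (z' : ℤ)) := by
    have e : LK c' d' c d (K2 i k j a b (res p' P) G r) β p =
        (1 / len p) * (1 / (2 : ℝ) ^ p.1) ^ 2 * ∑ q ∈ Xs c' d' p, ∑ z ∈ Xs c d p, Θ q z := by
      unfold LK
      rw [Finset.mul_sum]
      refine Finset.sum_congr rfl fun q _ => ?_
      rw [mul_assoc, Finset.mul_sum (Xs c d p) (fun z => Θ q z)]
      congr 1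
      refine Finset.sum_congr rfl fun z _ => ?_
      rw [norm_mul, mul_pow, norm_div, norm_one, norm_pow, Complex.norm_ofNat]
    rw [e]
    refine mul_le_mul_of_nonneg_left ?_ (by positivity)
    refine (Finset.sum_le_sum fun q _ => hsub c d hd z0 hz0 (fun z => Θ q z) (hΘ0 q)).trans ?_
    exact hsub c' d' hd' q0 hq0 (fun q => ∑ z' ∈ range (2 ^ (p.1 + 8)),
      Θ q (z0 - 2 ^ (p.1 + 7) + (z' : ℤ))) (fun q => Finset.sum_nonneg fun _ _ => hΘ0 _ _)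
  refine h1.trans ?_
  set L : ℝ := (2 : ℝ) ^ p.1 with hL
  have hL0 : 0 < L := by rw [hL]; positivity
  have hlenL : len p = 128 * L := by rw [hlen, hL]; ring
  have hn : ((2 ^ (p.1 + 13) : ℕ) : ℝ) = 8192 * L := by rw [hL]; push_cast; ring
  rw [hn] at hc
  have hsq : Real.sqrt (8192 * L * (A' * len p)) = 8 * len p * Real.sqrt A' := by
    rw [hlenL, show 8192 * L * (A' * (128 * L)) = (8 * (128 * L)) ^ 2 * A' by ring,
      Real.sqrt_mul (sq_nonneg _), Real.sqrt_sq (by positivity)]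
  rw [hsq] at hc
  have hc' : ∑ x3 ∈ range (2 ^ (p.1 + 8)), ∑ z' ∈ range (2 ^ (p.1 + 8)),
      Θ (q0 - 2 ^ (p.1 + 7) + (x3 : ℤ)) (z0 - 2 ^ (p.1 + 7) + (z' : ℤ)) ≤
      (1 / L) * (B' * len p * ((8192 * L) ^ 3 * H ^ 2 * s * (8 * len p * Real.sqrt A'))) := by
    rw [one_div, inv_mul_eq_div, le_div_iff₀ hL0, mul_comm]
    exact hc
  calc _ ≤ (1 / len p) * (1 / L) ^ 2 *
        ((1 / L) * (B' * len p * ((8192 * L) ^ 3 * H ^ 2 * s * (8 * len p * Real.sqrt A')))) :=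
        mul_le_mul_of_nonneg_left hc' (by positivity)
    _ = 2 ^ 42 * B' * H ^ 2 * s * Real.sqrt A' * len p := by
        field_simp
        ring

/-- finitely many kernels -/
theorem LK_sum {μ : Type*} (S : Finset μ) (c' d' c d : ℤ) (K : μ → ℤ → ℤ → ℂ) (β : ℤ → ℂ) (p : Nd) :
    LK c' d' c d (fun x z => ∑ m ∈ S, K m x z) β p ≤
      (S.card : ℝ) * ∑ m ∈ S, LK c' d' c d (K m) β p := by
  classical
  have hlen : len p = (2 : ℝ) ^ (p.1 + 7) := rfl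
  have hlp : 0 < len p := by rw [hlen]; positivity
  unfold LK
  have hR : (S.card : ℝ) * ∑ m ∈ S, ∑ q ∈ Xs c' d' p, (1 / len p) * ∑ z ∈ Xs c d p,
      ‖(1 / 2 ^ p.1 : ℂ) * ∑ u ∈ range (2 ^ p.1),
        star (β (q + (u : ℤ))) * K m (q + (u : ℤ)) z‖ ^ 2 =
      ∑ q ∈ Xs c' d' p, ∑ m ∈ S, (S.card : ℝ) * ((1 / len p) * ∑ z ∈ Xs c d p,
        ‖(1 / 2 ^ p.1 : ℂ) * ∑ u ∈ range (2 ^ p.1),
          star (β (q + (u : ℤ))) * K m (q + (u : ℤ)) z‖ ^ 2) := by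
    rw [Finset.sum_comm, Finset.mul_sum]
    refine Finset.sum_congr rfl fun q _ => ?_
    rw [Finset.mul_sum]
  rw [hR]
  refine Finset.sum_le_sum fun q _ => ?_
  have e : ∀ m ∈ S, (S.card : ℝ) * ((1 / len p) * ∑ z ∈ Xs c d p, ‖(1 / 2 ^ p.1 : ℂ) *
      ∑ u ∈ range (2 ^ p.1), star (β (q + (u : ℤ))) * K m (q + (u : ℤ)) z‖ ^ 2) =
      (1 / len p) * ∑ z ∈ Xs c d p, (S.card : ℝ) * ‖(1 / 2 ^ p.1 : ℂ) *
      ∑ u ∈ range (2 ^ p.1), star (β (q + (u : ℤ))) * K m (q + (u : ℤ)) z‖ ^ 2 := by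
    intro m _
    rw [← Finset.mul_sum]; ring
  rw [Finset.sum_congr rfl e, ← Finset.mul_sum, Finset.sum_comm]
  refine mul_le_mul_of_nonneg_left ?_ (by positivity)
  refine Finset.sum_le_sum fun z _ => ?_
  have e2 : (1 / 2 ^ p.1 : ℂ) * ∑ u ∈ range (2 ^ p.1), star (β (q + (u : ℤ))) *
      ∑ m ∈ S, K m (q + (u : ℤ)) z = ∑ m ∈ S, (1 / 2 ^ p.1 : ℂ) * ∑ u ∈ range (2 ^ p.1),
        star (β (q + (u : ℤ))) * K m (q + (u : ℤ)) z := by
    rw [← Finset.mul_sum, Finset.sum_comm]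
    congr 1
    refine Finset.sum_congr rfl fun u _ => ?_
    rw [Finset.mul_sum]
  rw [e2, ← Finset.mul_sum S (fun m => ‖(1 / 2 ^ p.1 : ℂ) * ∑ u ∈ range (2 ^ p.1),
    star (β (q + (u : ℤ))) * K m (q + (u : ℤ)) z‖ ^ 2)]
  exact (pow_le_pow_left₀ (norm_nonneg _) (norm_sum_le S (fun m => (1 / 2 ^ p.1 : ℂ) *
    ∑ u ∈ range (2 ^ p.1), star (β (q + (u : ℤ))) * K m (q + (u : ℤ)) z)) 2).trans
    sq_sum_le_card_mul_sum_sq

lemma LK_congr (c' d' c d : ℤ) (K K' : ℤ → ℤ → ℂ) (β : ℤ → ℂ) (p : Nd)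
    (h : ∀ q ∈ Xs c' d' p, ∀ u : ℕ, u < 2 ^ p.1 → ∀ z ∈ Xs c d p,
      K (q + (u : ℤ)) z = K' (q + (u : ℤ)) z) :
    LK c' d' c d K β p = LK c' d' c d K' β p := by
  unfold LK
  refine Finset.sum_congr rfl fun q hq => ?_
  congr 1
  refine Finset.sum_congr rfl fun z hz => ?_
  congr 3
  refine Finset.sum_congr rfl fun u hu => ?_
  rw [h q hq u (Finset.mem_range.1 hu) z hz]

/-- **LEAF VALUE of a letter leveled at the same-level nodes `(p.1, l)`, `l ∈ S`** -/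
theorem LK_val {κ : ℕ} {i k j a b : Fin 4} (hD : Dst k j a b) {p : Nd} (S : Finset ℤ)
    {P : ℤ → ℂ} {s : ℝ} (hO : ∀ l ∈ S, OLev κ k (p.1, l) P s) (hs : 0 ≤ s) (hκ : 13 ≤ κ)
    (r : ℤ) (hr : |r| ≤ 3) (G : ℤ → ℂ) (H : ℝ) (hH : 0 < H) (hG : ∀ y, ‖G y‖ ≤ H)
    (A' : ℝ) (hA0 : 0 ≤ A') (hA : ∀ l ∈ S, ∑ y ∈ iv (p.1, l), ‖P y‖ ^ 2 ≤ A' * len p)
    (β : ℤ → ℂ) (B' : ℝ) (hy : ∀ q : ℤ, ∑ u ∈ range (2 ^ p.1), ‖β (q + (u : ℤ))‖ ^ 2 ≤ B' * len p)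
    (c' c : ℤ) {d' d : ℤ} (hd' : d' ≠ 0) (hd : d ≠ 0)
    (hS : ∀ q ∈ Xs c' d' p, ∀ u : ℕ, u < 2 ^ p.1 → ∀ z ∈ Xs c d p,
      ((sl i * r + sl a * (q + (u : ℤ)) + sl b * z) - sl k * (r + (q + (u : ℤ)) + z)) /
        2 ^ (p.1 + 7) ∈ S) :
    LK c' d' c d (K2 i k j a b P G r) β p ≤
      (S.card : ℝ) ^ 2 * (2 ^ 42 * B' * H ^ 2 * s * Real.sqrt A' * len p) := by
  classical
  have hmem : ∀ (l y : ℤ), y ∈ dI (p.1 + 7) l ↔ y / 2 ^ (p.1 + 7) = l :=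
    fun l y => Crest.Agent.R079.Qh249.mem_iv (p := (p.1, l)) (y := y)
  rw [LK_congr c' d' c d (K2 i k j a b P G r)
    (fun x z => ∑ l ∈ S, K2 i k j a b (res (p.1, l) P) G r x z) β p ?_]
  · refine (LK_sum S c' d' c d (fun l => K2 i k j a b (res (p.1, l) P) G r) β p).trans ?_
    calc (S.card : ℝ) * ∑ l ∈ S, LK c' d' c d (K2 i k j a b (res (p.1, l) P) G r) β p
        ≤ (S.card : ℝ) * ∑ _l ∈ S, (2 ^ 42 * B' * H ^ 2 * s * Real.sqrt A' * len p) := by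
          refine mul_le_mul_of_nonneg_left (Finset.sum_le_sum fun l hl => ?_) (by positivity)
          exact LK_one hD (p := p) (p' := (p.1, l)) rfl (hO l hl) hs hκ r hr G H hH hG A' hA0
            (hA l hl) β B' hy c' c hd' hd
      _ = _ := by rw [Finset.sum_const, nsmul_eq_mul]; ring
  · intro q hq u hu z hz
    have h := hS q hq u hu z hz
    unfold K2
    rw [← Finset.sum_mul]
    congr 1
    rw [Finset.sum_eq_single_of_mem _ h]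
    · unfold res
      rw [if_pos ((hmem _ _).2 rfl)]
    · intro l _ hl
      unfold res
      rw [if_neg]
      intro hm
      exact hl ((hmem _ _).1 hm).symm

end Crest.Agent.R079.LfK71


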