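import Crest.Agent.R079.LfL_71

/-! R079, doc 2539, glue: window energy of the masked letter and the hypothesis `hL` of
`Wb71.be_total` (helper71). -/

set_option autoImplicit false

namespace Crest.Agent.R079.LfK71

open Crest.Agent.R079.Wb71 Crest.Agent.R079.Wa71 Crest.Agent.R079.Cmp408 Crest.Agent.R079.Ero526
open Finset Crest.Agent.R079.Grid Crest.Agent.R079.F2 Crest.Agent.R079.OpLev
open Crest.Agent.R079.Growth Crest.Agent.R079.R244

/-- energy of the masked letter on an arbitrary window of its level -/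
theorem mk_win (W : Finset Nd) (C : ℕ) (c' : ℤ) {d' : ℤ} (hd' : d' ≠ 0)
    (hd128 : |d'| ≤ 128) (f F : ℤ → ℂ) (k : ℕ) (hf : ∀ z, ‖f z‖ ≤ ‖F (c' + d' * z)‖) (A : ℝ)
    (hA0 : 0 ≤ A) (hA : ∀ p ∈ W, ∑ y ∈ iv p, ‖F y‖ ^ 2 ≤ A * len p) (q : ℤ) :
    ∑ u ∈ range (2 ^ k), ‖Wb71.mk W C c' d' f k (q + (u : ℤ))‖ ^ 2 ≤ 3 * A * (2 : ℝ) ^ (k + 7) := by
  classical
  have hL : (0 : ℤ) < 2 ^ (k + 7) := by positivity
  have hself : ∀ z, AA W C c' d' k z → (k, (c' + d' * z) / 2 ^ (k + 7)) ∈ W := by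
    intro z hz
    refine hz (c' + d' * z) ?_
    rw [sub_self, abs_zero]; positivity
  have hmk : ∀ z, ‖Wb71.mk W C c' d' f k z‖ ^ 2 = if AA W C c' d' k z then ‖f z‖ ^ 2 else 0 := by
    intro z
    unfold Wb71.mk
    by_cases h : AA W C c' d' k z
    · rw [if_pos h, if_pos h]
    · rw [if_neg h, if_neg h, norm_zero]; norm_num
  rw [Finset.sum_congr rfl fun u _ => hmk _, ← Finset.sum_filter]
  set U := (range (2 ^ k)).filter (fun u : ℕ => AA W C c' d' k (q + (u : ℤ))) with hU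
  rcases U.eq_empty_or_nonempty with hE | ⟨u0, hu0⟩
  · rw [hE, Finset.sum_empty]; positivity
  set l0 : ℤ := (c' + d' * (q + (u0 : ℤ))) / 2 ^ (k + 7) with hl0
  set N := ({l0 - 1, l0, l0 + 1} : Finset ℤ).filter (fun l => ((k, l) : Nd) ∈ W) with hN
  have hcard : N.card ≤ 3 := (Finset.card_filter_le _ _).trans Finset.card_le_three
  have himg : ∑ u ∈ U, ‖F (c' + d' * (q + (u : ℤ)))‖ ^ 2 =
      ∑ y ∈ U.image (fun u : ℕ => c' + d' * (q + (u : ℤ))), ‖F y‖ ^ 2 := by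
    rw [Finset.sum_image]
    intro u _ u' _ h
    have h1 : d' * (q + (u : ℤ)) = d' * (q + (u' : ℤ)) := by linarith
    have h2 := mul_left_cancel₀ hd' h1
    have h3 : (u : ℤ) = (u' : ℤ) := by linarith
    exact_mod_cast h3
  have hdis : ∀ l ∈ N, ∀ l' ∈ N, l ≠ l' → Disjoint (iv (k, l)) (iv (k, l')) := by
    intro l _ l' _ hll
    rw [Finset.disjoint_left]
    intro y hy hy'
    rw [Crest.Agent.R079.Qh249.mem_iv] at hy hy'
    exact hll (hy.symm.trans hy')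
  calc ∑ u ∈ U, ‖f (q + (u : ℤ))‖ ^ 2 ≤ ∑ u ∈ U, ‖F (c' + d' * (q + (u : ℤ)))‖ ^ 2 :=
        Finset.sum_le_sum fun u _ => pow_le_pow_left₀ (norm_nonneg _) (hf _) 2
    _ = ∑ y ∈ U.image (fun u : ℕ => c' + d' * (q + (u : ℤ))), ‖F y‖ ^ 2 := himg
    _ ≤ ∑ y ∈ N.biUnion (fun l => iv (k, l)), ‖F y‖ ^ 2 := by
        refine Finset.sum_le_sum_of_subset_of_nonneg ?_ (fun _ _ _ => by positivity)
        intro y hy
        obtain ⟨u, hu, rfl⟩ := Finset.mem_image.1 hy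
        obtain ⟨hu1, hu2⟩ := Finset.mem_filter.1 hu
        obtain ⟨hv1, hv2⟩ := Finset.mem_filter.1 hu0
        have a1 : (u : ℤ) < 2 ^ k := by exact_mod_cast Finset.mem_range.1 hu1
        have a2 : (u0 : ℤ) < 2 ^ k := by exact_mod_cast Finset.mem_range.1 hv1
        have a3 := Int.natCast_nonneg u
        have a4 := Int.natCast_nonneg u0
        set Y := c' + d' * (q + (u : ℤ)) with hY
        set Y0 := c' + d' * (q + (u0 : ℤ)) with hY0
        have hYY : |Y - Y0| < 2 ^ (k + 7) := by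
          have e : Y - Y0 = d' * ((u : ℤ) - (u0 : ℤ)) := by rw [hY, hY0]; ring
          rw [e, abs_mul]
          have b1 : |(u : ℤ) - (u0 : ℤ)| < 2 ^ k := by
            rw [abs_lt]; constructor <;> linarith
          calc |d'| * |(u : ℤ) - (u0 : ℤ)| ≤ 128 * |(u : ℤ) - (u0 : ℤ)| :=
                mul_le_mul_of_nonneg_right hd128 (abs_nonneg _)
            _ < 128 * 2 ^ k := by linarith
            _ = 2 ^ (k + 7) := by ring
        rw [abs_lt] at hYY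
        have m1 := Int.emod_nonneg Y hL.ne'
        have m2 := Int.emod_lt_of_pos Y hL
        have m3 := Int.emod_nonneg Y0 hL.ne'
        have m4 := Int.emod_lt_of_pos Y0 hL
        have m5 := Int.emod_add_mul_ediv Y (2 ^ (k + 7))
        have m6 := Int.emod_add_mul_ediv Y0 (2 ^ (k + 7))
        rw [← hl0] at m6
        have n1 : Y / 2 ^ (k + 7) < l0 + 2 := by
          by_contra hc
          push Not at hc
          have := mul_le_mul_of_nonneg_left hc hL.le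
          linarith
        have n2 : l0 - 2 < Y / 2 ^ (k + 7) := by
          by_contra hc
          push Not at hc
          have := mul_le_mul_of_nonneg_left hc hL.le
          linarith
        refine Finset.mem_biUnion.2 ⟨Y / 2 ^ (k + 7), Finset.mem_filter.2 ⟨?_, hself _ hu2⟩,
          Crest.Agent.R079.Qh249.mem_iv.2 rfl⟩
        simp only [Finset.mem_insert, Finset.mem_singleton]
        omega
    _ = ∑ l ∈ N, ∑ y ∈ iv (k, l), ‖F y‖ ^ 2 := Finset.sum_biUnion hdis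
    _ ≤ ∑ _l ∈ N, A * (2 : ℝ) ^ (k + 7) :=
        Finset.sum_le_sum fun l hl => hA (k, l) (Finset.mem_filter.1 hl).2
    _ = (N.card : ℝ) * (A * (2 : ℝ) ^ (k + 7)) := by rw [Finset.sum_const, nsmul_eq_mul]
    _ ≤ 3 * (A * (2 : ℝ) ^ (k + 7)) := by
        refine mul_le_mul_of_nonneg_right ?_ (by positivity)
        exact_mod_cast hcard
    _ = 3 * A * (2 : ℝ) ^ (k + 7) := by ring

/-- **hypothesis `hL` of `Wb71.be_total`** for a leveled letter -/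
theorem hL_val {κ : ℕ} {i k j a b : Fin 4} (hD : Dst k j a b) (W : Finset Nd) (C : ℕ) (c' c : ℤ)
    {d' d : ℤ} (hd' : d' ≠ 0) (hd128 : |d'| ≤ 128) (hd : d ≠ 0) (f F : ℤ → ℂ)
    (hf : ∀ z, ‖f z‖ ≤ ‖F (c' + d' * z)‖) (A : ℝ) (hA0 : 0 ≤ A)
    (hA : ∀ p ∈ W, ∑ y ∈ iv p, ‖F y‖ ^ 2 ≤ A * len p) (m : ℕ) {p : Nd} (hpm : p.1 = m)
    (S : Finset ℤ) {P : ℤ → ℂ} {s : ℝ} (hO : ∀ l ∈ S, OLev κ k (p.1, l) P s) (hs : 0 ≤ s)
    (hκ : 13 ≤ κ) (r : ℤ) (hr : |r| ≤ 3) (G : ℤ → ℂ) (H : ℝ) (hH : 0 < H) (hG : ∀ y, ‖G y‖ ≤ H)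
    (A' : ℝ) (hA0' : 0 ≤ A') (hA' : ∀ l ∈ S, ∑ y ∈ iv (p.1, l), ‖P y‖ ^ 2 ≤ A' * len p)
    (hS : ∀ q ∈ Xs c' d' p, ∀ u : ℕ, u < 2 ^ p.1 → ∀ z ∈ Xs c d p,
      ((sl i * r + sl a * (q + (u : ℤ)) + sl b * z) - sl k * (r + (q + (u : ℤ)) + z)) /
        2 ^ (p.1 + 7) ∈ S) :
    LK c' d' c d (K2 i k j a b P G r) (Wb71.mk W C c' d' f m) p ≤
      ((S.card : ℝ) ^ 2 * (2 ^ 42 * (3 * A) * H ^ 2 * s * Real.sqrt A')) * len p := by
  subst hpm
  have h := LK_val hD S hO hs hκ r hr G H hH hG A' hA0' hA' (Wb71.mk W C c' d' f p.1) (3 * A)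
    (fun q => mk_win W C c' hd' hd128 f F p.1 hf A hA0 hA q) c' c hd' hd hS
  refine h.trans (le_of_eq ?_)
  ring

end Crest.Agent.R079.LfK71
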