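import Crest.Agent.R079.LfM_71

/-! R079, doc 2539, glue: hypothesis `hleaf` of `Wr408.wr_total` for a leveled letter
(nodes `|l - p.2| ≤ 5`) (helper71). -/

set_option autoImplicit false

namespace Crest.Agent.R079.LfK71

open Crest.Agent.R079.Wb71 Crest.Agent.R079.Wa71 Crest.Agent.R079.Cmp408
open Finset Crest.Agent.R079.Grid Crest.Agent.R079.F2 Crest.Agent.R079.OpLev
open Crest.Agent.R079.Growth Crest.Agent.R079.R244

lemma slot_near {i k j a b : Fin 4} (hD : Dst k j a b) (p : Nd) (r q z : ℤ) (u : ℕ)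
    (hu : u < 2 ^ p.1) (hq : (sl i - sl b) * r + -dd a b * q ∈ iv p)
    (hz : (sl i - sl a) * r + dd a b * z ∈ iv p) :
    ((sl i * r + sl a * (q + (u : ℤ)) + sl b * z) - sl k * (r + (q + (u : ℤ)) + z)) /
        2 ^ (p.1 + 7) ∈ Finset.Icc (p.2 - 5) (p.2 + 5) := by
  rw [Ero526.mem_iv'] at hq hz
  obtain ⟨hd1, hd3⟩ := dd_natAbs k j a b hD
  have hU0 := Int.natCast_nonneg u
  have hU1 : (u : ℤ) < 2 ^ p.1 := by exact_mod_cast hu
  have hLp : (2 : ℤ) ^ (p.1 + 7) = 128 * 2 ^ p.1 := by ring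
  set L : ℤ := 2 ^ (p.1 + 7) with hL
  have hL0 : 0 < L := by rw [hL]; positivity
  set U : ℤ := (u : ℤ) with hU
  have hUL : 128 * U < L := by rw [hLp]; linarith
  set Ya := (sl i - sl a) * r + dd a b * z with hYa
  set Yb := (sl i - sl b) * r + -dd a b * q with hYb
  set s0 := r + (q + U) + z with hs0
  have e0 : dd a b * s0 = (Ya - Yb) + dd a b * U := by
    rw [hs0, hYa, hYb]; unfold dd; ring
  have hdA : (1 : ℤ) ≤ |dd a b| := by rw [Int.abs_eq_natAbs]; exact_mod_cast hd1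
  have hdB : |dd a b| ≤ 3 := by rw [Int.abs_eq_natAbs]; exact_mod_cast hd3
  have hab : |Ya - Yb| ≤ L := by rw [abs_le]; constructor <;> nlinarith
  have h1 : |dd a b| * |s0| ≤ L + 3 * U := by
    rw [← abs_mul, e0]
    refine (abs_add_le _ _).trans ?_
    rw [abs_mul, abs_of_nonneg hU0]
    have := mul_le_mul_of_nonneg_right hdB hU0
    linarith
  have h2 : |s0| ≤ L + 3 * U := by
    have := mul_le_mul_of_nonneg_right hdA (abs_nonneg s0)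
    linarith
  have h3 : |(sl a - sl k) * s0| ≤ 3 * (L + 3 * U) := by
    rw [abs_mul]
    exact mul_le_mul (sl_abs a k) h2 (abs_nonneg _) (by norm_num)
  have e1 : (sl i * r + sl a * (q + U) + sl b * z) - sl k * s0 = Ya + (sl a - sl k) * s0 := by
    rw [hs0, hYa]; unfold dd; ring
  rw [e1]
  rw [abs_le] at h3
  rw [Finset.mem_Icc]
  constructor
  · rw [Int.le_ediv_iff_mul_le hL0]; nlinarith
  · have : (Ya + (sl a - sl k) * s0) / L < p.2 + 6 := by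
      rw [Int.ediv_lt_iff_lt_mul hL0]; nlinarith
    linarith

/-- **hypothesis `hleaf` of `Wr408.wr_total`** (`K r = K2 i k j a b P G r`, `P` leveled at the nodes
`(p.1, l)`, `|l - p.2| ≤ 5`) -/
theorem hleaf_val {κ : ℕ} {i k j a b : Fin 4} (hD : Dst k j a b) (W : Finset Nd) (C : ℕ)
    (r : ℤ) (hr : |r| ≤ 3) (f F : ℤ → ℂ)
    (hf : ∀ z, ‖f z‖ ≤ ‖F ((sl i - sl b) * r + -dd a b * z)‖) (A : ℝ) (hA0 : 0 ≤ A)
    (hA : ∀ p ∈ W, ∑ y ∈ iv p, ‖F y‖ ^ 2 ≤ A * len p) (m : ℕ) {p : Nd} (hpm : p.1 = m)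
    {P : ℤ → ℂ} {s : ℝ} (hO : ∀ l, p.2 - 5 ≤ l → l ≤ p.2 + 5 → OLev κ k (p.1, l) P s)
    (hs : 0 ≤ s) (hκ : 13 ≤ κ) (G : ℤ → ℂ) (H : ℝ) (hH : 0 < H) (hG : ∀ y, ‖G y‖ ≤ H)
    (A' : ℝ) (hA0' : 0 ≤ A')
    (hA' : ∀ l, p.2 - 5 ≤ l → l ≤ p.2 + 5 → ∑ y ∈ iv (p.1, l), ‖P y‖ ^ 2 ≤ A' * len p) :
    LK ((sl i - sl b) * r) (-dd a b) ((sl i - sl a) * r) (dd a b) (K2 i k j a b P G r)
      (Wb71.mk W C ((sl i - sl b) * r) (-dd a b) f m) p ≤
      (11 ^ 2 * (2 ^ 42 * (3 * A) * H ^ 2 * s * Real.sqrt A')) * len p := by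
  obtain ⟨hd1, hd3⟩ := dd_natAbs k j a b hD
  have hd : dd a b ≠ 0 := by
    intro h0; rw [h0] at hd1; simp at hd1
  have hd' : -dd a b ≠ 0 := neg_ne_zero.2 hd
  have hd128 : |-dd a b| ≤ 128 := by
    rw [abs_neg, Int.abs_eq_natAbs]
    have : (((dd a b).natAbs : ℕ) : ℤ) ≤ 3 := by exact_mod_cast hd3
    linarith
  have h := hL_val (i := i) hD W C ((sl i - sl b) * r) ((sl i - sl a) * r) hd' hd128 hd f F hf A
    hA0 hA m hpm (Finset.Icc (p.2 - 5) (p.2 + 5))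
    (fun l hl => hO l (Finset.mem_Icc.1 hl).1 (Finset.mem_Icc.1 hl).2) hs hκ r hr G H hH hG A' hA0'
    (fun l hl => hA' l (Finset.mem_Icc.1 hl).1 (Finset.mem_Icc.1 hl).2)
    (fun q hq u hu z hz => slot_near hD p r q z u hu ((mem_Xs hd').1 hq) ((mem_Xs hd).1 hz))
  have hc : ((Finset.Icc (p.2 - 5) (p.2 + 5)).card : ℝ) = 11 := by
    rw [Int.card_Icc]
    have : (p.2 + 5 + 1 - (p.2 - 5)).toNat = 11 := by
      rw [show p.2 + 5 + 1 - (p.2 - 5) = 11 by ring]; rfl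
    rw [this]; norm_num
  rw [hc] at h
  exact h

end Crest.Agent.R079.LfK71
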