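/-! R079 (S0106), note of helper734 (comment only, no declarations).

LEAN: `AsmG_734` (graded assembly GenA + StatA => RuleA2), `AsmP_734` (one pair), `Par4_734`
(`target_of_steps : ... -> L0.Target`, all parameters of `Analytic4` chosen; order of constants: e first,
then c0 (trivial kills, gain of order e), c1 < c0, s1 <= c1/4, then RuleS with cS, CS depending on s1;
so RuleS must hold for ALL s1 > 0 at fixed e).

CORRECTION of the hybrid windows (msg 23602 of helper734): the COUNT PROOF IS WRONG.  Windows: top P, frames
at the uniform depth n(P) (look-ahead drift <= eta), local stops |e|_p > eta^a.  The claim "the drift below
K nested local stops sits on measure (C eta^(1-2a))^K" ignores the depth exits between two nested local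
stops: drift density eta/mu on relative measure mu, split into 1/mu time pieces, each again concentrated on
relative measure mu, with N nest levels, costs N |I| / eta windows (helper934's cascade).  Past-drift windows
(RelW_653) see only one window there, but their exits are ragged and the kernel (C C*)_P at an exit q
averages over blocks inside coarser exits, where C has no op bound at the scale of q.

WHAT STAYS TRUE.  (i) Every kill of Step I and Step II (doc 2531) holds for static letters on a
uniform-depth window with only the L2 norm of the arbitrary letter AT THE TOP and polynomial heights: the
corner has exponents (2+delta, 2+delta, q); (S) is linear in Y, stop on the local norms of Y inside the word,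
cost Sum_j lambda^(-j).  So uniform-depth windows with AVERAGE drift <= eta (count <= 2/eta + 1, no local
stops, no grades; a node whose single step has drift > eta is a one-node window, killed by the one-node
gain) give one generation with `Sm` = L2 norm at the top, uniformly small.
(ii) What fails is ONLY the superposition with the static tops TB of Step II (2531 (O2)):
Sum_u int_u |e_u(x)|^2 nu_u(x) dx, nu_u(x) = number of TB tops inside u above x (sup of the total count is
t^(-CS) up to logarithms, by John-Nirenberg), when e_u sits on the small set where nu_u ~ t^(-CS).
So the open point of Step I + II is: additivity of the two counts when e_u is small in L2 of the top but
not at all nodes, OR frames with S4 cost for ragged exits.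
-/
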