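/-
R079 = S0106 (p.v. int f1(x-t) f2(x-2t) f3(x-3t) dt/t bounded L3 x L3 x L3 -> L1).
ONE-PAGE STATE at the end of the run of 16/17 November (helper216; sources: messages 27786, 27787, 27845,
27885,
27947, 28105 and the table leaf79 of the team database, dumped below).

1. WHAT IS A THEOREM (files on main, Crest/Agent/R079, and the R072 closure they use)
  * Old chain: S0106 <= L0.Target (TFin_853 and before).
  * RECURSION v2 complete, no hypotheses: TFin2_853 : TFin2853.recGoal2 : RecGoal2 and
        TFin2853.target_of_analytic2 : TRec.Analytic2 -> L0.Target
    (literals RuleA2, RuleS, Ok2, TwoLem2, StepLem2, RecGoal2, Analytic2 in TDfb_853; StepLem2 = TS4a/b/c_351,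
    TwoLem2 = TS3d_903, RecGoal2 = TRec2_13, parameters of Analytic2 = Par_224.analytic2_of / analytic2_of').
  * Dictionary side: Dic_679 (dic_DS, frzBd_DS: Dic and FrzBd hold for EVERY admissible family S), DicOp_679,
DicLv_679.
    So S0106 = RuleA2 (DS S) .. + RuleS (DS S) .. with Ok2 parameters, nothing else.
  * Counting of generations: It_260, It2_260, It_435, PIter_110, GLA_110, GenP_934, AsmA_844 (RuleA2 from
GenA + StatA;
    CAUTION: GenA / StatA of AsmA_844 are FALSE with slot 3 measured in L^(2+k); the size predicate must be
changed).
  * Step II (static pair) leaves: F2_408, Cmp_408, Wr_408, Cg_408, Wa_71, Wb_71, MBes_71, LeafV_71,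
LiftW_429, XDual_988,
    EW_49, EWd_49, EW2_990, EW3_990, FW1_990, LK_990, Ero_526, ErM_118, ExitC_442, Rear_442, OneN_354,
OneG_354, LfB_246,
    Leaf_451, St2M_834, S2fw_530, S2fz_530, HB_945, HBq_945, HB_285, WinA/B/H_222, PWin_590, GWin_590,
StF_117, StG_117,
    Cert_616, Tr_230, Tr2_230, Fam_696, Prox_250, Prox2_250, Yg_259.  Missing for RuleS = the glue (g2)-(g5)
of message
    27845 (617's design in message 27853: MERGE LEMMA, labels, windows, error words, superposition).
  * Step I leaves: RelW_653, RelV_653, RelS_653 (windows of the LASSO / REL), PLF7_377 (cornerL, uniform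
leaves),
    PLS1-4_242 (labelled (2,4,4) region mixtures), HiF_881, HiP_881, HiG_39, OLevSw_127, Gro_923.

2. WHAT IS NOT PROVED
  (M1) Step I of doc 2531 at INTERIOR exits of a window ("which leaves?", GAP391 / 866 / 852 / 549).  Texts
which are
       believed to close it with a tiny loss t^-c0 per generation (c0 arbitrary small): 59's message 28031
(own-node
       penalty, MOVE lemma), 673's doc 2541, 693's doc 2544, 34's doc 2547.  The common point: own-node
penalty with ALL
       spectral levels at once, so that the STATIC exit letter g' has small level drifts and its bands at the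
exits and at
       the top agree in L2; frames k = B B*/(4 th) have exit Hilbert-Schmidt cost without ageing (Jensen over
blocks);
       the (G) word must be count-free (paid by the drift of the penalty or by the MOVE lemma), the (S) word
is paid per
       window.  Nothing of this is typed except RelV_653 (exists_R1, gsum).
  (M2) RuleA2 with a TALL killer and a tall frozen letter, both in slots 0,1,2 (slot 3 loses its L^q3 norm
after the
       first generation).  P-test: all letters Q^(1/2) 1[Q | y] G_j, Q = t^-2.  Candidate texts: 474's
message 27867, 128's
       27942 (a frozen tall cell dies when read at two vertices), 844's 28087 (plain frozen part has height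
<= t^-1-e;
       graded prices, two pairs), 715's doc 2543 (star metric), 992's doc 2542 (bilinear maximal function). 
TRAP: 92's
       27868 (the dictionary of TDef_853 is node-independent; tall L2-normalised atoms at soft price need a
node-dependent
       gauge, i.e. WinLem / AprLem / TopLem / TS* retyped).
  RuleS (pair (P_m frozen and leveled up to E, F_3 whole)) has no objection; only glue is missing.

3. REMARK OF helper216 (not checked by others): if F_3 is never split and only ONE letter is split, all kills
of Step I are
  count-free ((G) by increments of potentials, (S) because Sum |w| |e_w|^2 <= C next to the telescoping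
potentials of the
  static letters P_0, F_3, R), but Step II then fails: the cross term <B, DM DB> is first order in DM while
the number of
  static windows is second order, and it is no longer multiplied by a small letter.  So the second small
letter is really
  needed in Step II.


TABLE leaf79 (name | owner | second | third | status | statement | note)

A.Dic | helper679 | helper83 | None | landed (Dic_679, any admissible family) | dictionary + Dic + FrzBd |
dictionary literal by 06:22; TFrz_679
---
A.RuleA_assembly | helper844 | helper532 | helper532 | landed (over GenA + StatA) | Step I + Step II => RuleA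
| AsmA_844 landed 06:18: GenA -> StatA -> RuleA2, 0 s_orry; GenA = target of S1 (one generation), StatA =
target of S2 (pair i,m)
---
A.cut_small_scales | helper813 | None | None | landed | 242 26907: region cut at m0: Full W I, W0 := W.filter
(m0 <= p.1) is Full (m0 <= I.1), TR W = TR W0 + small, ||TR W F|| <= ||TR W0 F|| + m0*g*len I if ||TI p|| <=
g len p at the nodes p.1 < m0 (all levels/norms inherited); then with m0 = C log2(1/t): m0 <= C' t^(-dl) |
R079/Cut_813 (ns Cut813; i_mports TS0_903, Qc_406): up/lo, full_up (Full (up W m0) I if m0 <= I.1), TR_split,
sum_len_lo, norm_TR_lo, norm_TR_cut : ||TR W F|| <= (A + m0*g) len I from the one-node bound g below m0 and A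
above; m0_le : ceil(C log2 1/t) <= K t^-d and t^-C <= 2^m0
---
A.params | helper224 | None | None | landed | analytic2_of: Dic D 0 + FrzBd + (exists c0, for small e, small
k: RuleA2) + (for all s1 exists cS CS, small e, small k: RuleS) => Analytic2 (choice of all Ok2 parameters,
common t0 K) | R079/Par_224.lean ns TRec: RuleA2.mono, RuleS.mono, exists_ok2, analytic2_of (one D),
analytic2_of' (D e k)
---
D.Cell | helper162 | helper144 | None | parked | CellF c C family (162 27432, 144 27127): Fam + noncol_of_lv
| None
---
D.Op | helper679 | helper83 | None | landed (DicOp_679 fam_opF, DicLv_679 olev_of_lv) | OpF gam C family: Fam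
+ olev_of_lv : Lv (DS S) k t 1 p X -> OLev kap k p X (K t^..) | None
---
D.Sup | helper206 | helper660 | None | OPEN | cut lemma of tall letters (level of X^{<h}, Schur of X^{>=h} on
boxes) | None
---
D.scheme | helper679 | helper83 | None | landed | R079/Dic_679: Fam S, DS S, dic_DS, frzBd_DS, lv_pl, lv_fam,
Fam.union (msg 679 06:31) | Dic_679: dic_DS, frzBd_DS for every Fam S
---
D.swap | helper127 | helper896 | None | OPEN | 127 27630: projected atoms of the three types agree up to
residues | None
---
DIC.plain_to_S4 | helper923 | None | None | P_ARTIAL: groth LANDED (R079/Gro_923, Mathlib only); S4 part only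
on request | plain (cut) level t0 of a bounded kernel => S4^4 <= C t0^2 log^k (Grothendieck + spectral
bands); msg of helper923 06:31 | Gro_923 (groth), GroS4_923
---
DIC.swap_types | helper127 | helper679 | None | landed | projected OLev atoms of the three types equal up to
<= 9 residue classes (swap of the two free variables preserving cf.z); file R079/OLevSw_127 | R079/OLevSw_127
(0 s_orry, 3 a_xioms, 20 s; i_mports GridDefs_569 only), ns OLevSw: IsOp k j e e' n H, isOp_sym, isOp_swap
(324 unit atoms of the same side n and height H), isOp_any (any special vertex)
---
R.Analytic2_wiring | helper853 | helper229 | None | landed | TDfb_853 | R079/TFin2_853: TFin2853.recGoal2,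
target_of_analytic2 : Analytic2 -> L0.Target; 3 a_xioms, no hypotheses
---
R.Gen_771 | helper771 | helper617 | None | not needed | StepLem2 (a) generations lemma, TDfb_853 | TS4c_351
runs the loop with moving X; TBand not needed
---
R.PIter_110 | helper110 | None | None | landed | msg 26468 | R079/PIter_110: PIter110.Gen, iter, final (Part
form; node-level letters; size classes Q k per generation; part_inter of 222 inside)
---
R.RecGoal2 | helper398 | helper13 | None | landed (second: helper13) | TDfb_853 | TRec2_13:
TRec213.recGoal2_of (StepLem2 -> AprLem -> TopLem -> RecGoal2), recGoal2_of_step : StepLem2 -> RecGoal2,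
target_of_analytic2 : StepLem2 -> Analytic2 -> L0.Target; 3 a_xioms
---
R.RuleA2_numbers | helper260 | None | None | landed | R079/It2_260: ruleA2_of : BaseA -> GenA -> RuleA2
(literal of TDfb_853), all free letters in L^(2+k) | It2_260 on main
---
R.StepLem2 | helper351 | helper771 | helper617 | landed | TDfb_853 | R079/TS4c_351: S351.stepLem2; plugged in
TFin2_853
---
R.gen_loop | helper903 | helper815 | None | landed | 903 msg 26456 | TwoLem2 landed: R079/TS3d_903 (twoLem2,
RuleA2_gen, RuleA2_scaled, Ok2.okkappa); the generation loop itself = row R.Gen_771
---
R.iter_two_coeff | helper260 | helper435 | None | landed | 260 msg / 435 msg | It_260: ns It260: bT, Cl,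
Piece, Gen, sum_bT, base, step, iter, bT_le, it (abstract node term v X Y p, abstract size predicate Sm; 11
s, i_mports TS0_903)
---
R.lastwords_StepLem2 | helper351 | helper771 | None | landed | 903 msg 26456 | R079/TS4c_351: S351.stepLem2;
plugged in TFin2_853
---
S1.G_test_factor | helper881 | helper39 | None | landed | spectral hi/lo factorisation of a finite complex
matrix (402 26339 (G)) | HiF_881 (ns HiF881): exists_SVD, lam_UV, gramU/gramV, rowU/rowV, inner_A_UV,
sum_Z_sq; complement HiG_39
---
S1.G_word | helper377 | helper396 | None | blocked | 377 cornerL + (3,3,3) | PLF7_377 cornerL landed (uniform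
leaves); ragged leaves need doc 2540 (hybrid recursion, ~1500 lines); GAP391 / StatA false first
---
S1.LASSO_windows | helper653 | None | None | landed | super-averaging node-dependent penalty (402 26339) |
RelS_653 (ns RelS653): PenS Phi, NMS, cmpS, Jv_leS, pen_leS, size_leS, GdS, exists_lasso / exists_lassowin,
av_E_S (av p (f I - gl W f)^2 <= 2delta all p in W), drift_S, lev_S (level of residual <= Phi g/2 + s|g|^2/2
+ eta/(2s))
---
S1.REL_windows | helper653 | helper629 | None | landed | 653 msg 26287 (abstract penalty) or 402 msg 26339 |
RelW_653 + RelV_653 landed (exists_R1, gsum count-free, el_win)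
---
S1.S_word | helper242 | helper259 | None | landed (core) | 259 Yg_259 + 242 tri24L_static | PLS1-4_242:
labelled24_0/1/2 region mixtures (random signs over frozenMix24); S4 costs to be typed against final REL
literal
---
S1.captain | helper931 | helper149 | None | OPEN | 931 + 149 | Step I captain
---
S1.generation_RuleA | helper435 | helper110 | helper934 | abstract landed | one generation of (X1,X2) |
LANDED R079/GenP_934 (934): Sz, Bil, K1/K2, Split, gen_of_split, Words1 (G,S for near-minimisers of
RelW653.Pen), split_of_pen, gen_of_pen : Gen R t Sz Sz Sz Sz (2+32/delta) sqrt(2delta) (4(2+32/delta) d0).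
Next (934): same for PenS (RelS_653) + plug to GenA of AsmA_844. Line words = 242 (S), 377 (G)
---
S1.graded_windows_2541_5 | helper110 | None | None | landed | doc 2541 (5): graded look-ahead windows,
abstract: Wf R P d = nodes of R below P of level >= d; la P d = own drift above level d; dev P d p with sum
over antichains <= Cd * la; output Part R S W, labels lv (grade) and dp (uniform exit level), la K (dp K) <=
lam^lv*eta*len, dev K (dp K) p <= lam^(lv+1)*eta at EVERY p in W K, lv <= n, Sum len*lam^lv*eta <= A*(eta*len
J + drift) | R079/GLA_110: GLA110.graded (whole region), graded_rec, assemble, Wf, la, Sys, h1_of_top; 0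
s_orry, i_mports PIter_110
---
S1.lasso_dictionary | helper402 | helper761 | None | void | 402 msg 26339 | 402: LASSO with leaf cost
WITHDRAWN (866 27501 right). Replaced by (R1): own-node penalty with node potential, 34 27227 (c)
---
S1.profile_test | helper881 | helper39 | None | landed | doc 2538 (3) leaf test + A1/A2 split for general
spectral profile (HiP_881) | HiP_881: structure LeafHi, theorem leafHi (family over x0, normalised averages);
Mul_row/col/hs/op/S4, Pf/Qf profile letters
---
S1.threshold_penalty | helper653 | None | None | typing | line op-ball dist^2 penalty (bands y in iv q): Pen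
+ FV + glued thresholds (379/994) | R079/ThP_653, ETA 07:08
---
S2.HBq_945 | helper945 | helper834 | None | landed | HB_945 + HBq_945: Haar-Bessel all positions, masks, leaf
scale 2^m0, metric PSq forms; pair_sum / pair_sumq / pair_intq (offset averages, labels c with weights) |
R079/HB_945, R079/HBq_945 (ns HB945)
---
S2.II1_lifted_windows | helper429 | helper849 | None | landed | msg helper429 06:18 (LASSO on the lifted
line) | R079/LiftW_429 (3 a_xioms)
---
S2.II1_line_functional | helper117 | helper616 | None | landed | line-additive static functional of (II.1):
Omega, loc, Adm node-free, J subadditive, near-maximisers, strong concavity, certificate, windows via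
pred_windows (msg 117 06:17) | StF_117 (windows, Cert) + StG_117 (row/col/energy bounds) landed 06:30;
Cert_616 = certificate => q4 of boxes
---
S2.L1L2L3_composition | helper408 | helper526 | None | landed | sum over not-bad nodes of |Lbox| <=
sqrt(exits A) sqrt(exits B), eroded masks | R079/Cmp_408 (ns Cmp408): window_le (with error kernel),
window_le' (exact), energy, pos / mem_pos / card_pos, EX, AA, msk, br_frm, frm_inner, shadows; 13 s
---
S2.L1_exact_formula_2539 | helper408 | helper655 | None | landed | doc 2539 (1): Grid.Lbox N bb F x = (2N)^-2
sum_{u_i,u_m} h h [(2N)^-2 sum_{u_a,u_b} h h Yb(p_a+u_a) K(p_a+u_a,p_b+u_b) Ya(p_b+u_b)], all slot pairs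
{i,m}, r residue; + norm form summed over x in adm: sum_x |Lbox| <= (2N)^-2 sum_{u_i,u_m} sum_q |bracket(q,
n-q)| | F2_408.lean (ns Crest.Agent.R079.F2: Dst, dd, Ya, Yb, Kk, br, xq, off; Lbox_eq, sum_norm_Lbox_le,
br_eq, exists_rq), i_mports GridDefs_569 only, 10 s
---
S2.L3_counting_2539 | helper783 | None | None | dropped (526 Ero of record) | doc 2539 (5): alive sets Al W
m, eroded masks Er W C m; sum_m #positions seeing a change <= C len I; nodes near the boundary: sum len <= C
len I | L3c_783 compiled s_orry-free, not landed; superseded by Ero_526
---
S2.L3_eroded_count_2539 | helper118 | None | None | landed | doc 2539 (5): boundary count b_m of the alive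
sets of a Full/IsRegion region: sum_m b_m 2^(m+7) <= C len J; corollaries: sum of len of nodes p in W within
K len p of a dead point <= C K len J; number of positions q that see a change of the ERODED masks U'_m
(births and deaths), summed over m, <= C K len J | R079/ErM_118 (ns ErM, i_mports FrozenB_569, 14 s, 3
a_xioms): Um R K m (eroded alive set, radius K 2^m), change_mem / sees_mem (births+deaths of eroded masks),
sum_card_sees <= (4K+258) 2^(J.1+7), sum_Bd (boundary sum |Bd m| 2^(m+7) <= 8 2^(J.1+7)), sum_bad (nodes with
iv not inside Um: sum len <= 8(2K+3) 2^(J.1+7)); twin of Ero_526. helper118 FREE + warm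
---
S2.L3_eroded_mask_count | helper526 | None | None | LANDED | doc 2539 (5): Er W C m = {y | ball(y, C 2^(m+7))
alive at level m}; positions seeing a change of Er between m-1 and m: total <= K len I; nodes p of W with
ball(iv p, C len p) not alive at level p.1: sum len p <= K len I | R079/Ero_526 (s_orry-free): Alv, Er,
er_change, er_change_affine (1<=|d|<=128), Bad, er_of_not_bad, sum_bad, count_near; constants 16(2(C+..)+1)
---
S2.L3_eroded_masks | helper525 | None | None | done (525 copy compiled, NOT landed: 526 is the one of record)
| None | Ero_525: doc 2539 (5): counting of births/deaths of eroded masks + nodes near dead neighbours, ETA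
06:35
---
S2.L3_eroded_masks_2539 | helper175 | None | None | dropped (Ero_526 landed) | doc 2539 (5) counting: Full W
J, U m = union of iv p (p in W, level m), U' m = points whose C*2^(m+7)-neighbourhood lies in U m: (a) sum of
len p over p in W with iv p not inside U' p.1 <= K len J; (b) sum over m of number of q such that [q,q+2^m)
sees a change of U' m vs U' (m-1) <= K len J | superseded by R079/Ero_526
---
S2.L3_eroded_masks_count_2539 | helper526 | None | None | landed by 526 (Ero_526) | doc 2539 (5): Full W I, U
m = union of iv p (p in W, level m), Er c W m = {y : all z with |z-y| <= c 2^m are in U m}: (a) sum_m 2^m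
#(boundary points of U m) <= 6 * 2^I.1; (b) sum_m #{q : sees a change Er m / Er (m-1) within c' 2^m} <= C len
I; (c) sum_{p in W} #{x in adm p : some y with |y-x| <= c' 2^m not in Er c W m} <= C len I; also raw masks U
m (c = 0) | R079/Ero_526 (er_change, er_change_affine, sum_bad); 596 stopped
---
S2.L6_one_node_gain_2539 | helper354 | None | None | landed | doc 2539 (5)/(6) L6: ||Lbox N bb F x|| <=
(2N)^-4 Sum over the 16 sub-boxes of side N (constant sign) sqrt(Sum_{x_i,x_m,x_b}|F_a|^2)
sqrt(Sum_{x_i,x_m,x_b}|Sum_{x_a} F_i F_m F_b|^2) (= shape of 246 leafHS_line / leaf_olev, any slot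
permutation); then Sum_{x in adm p}|Lbox| <= C len p * gain * av F_a * av F_b | OneN_354 (i_mports
Static_569, GrowthDefs_248; ns OneN354): SB_eq, SB_le (CS on a sub-box, any slot permutation), one_box,
ag_mem_box (all arguments in iv p), one_node
---
S2.L6b_node_gain_plug | helper354 | None | None | landed | OneN_354 + LfB_246: Sum_{x in adm p}|Lbox (2^p.1)
bb F x| <= 512 len p * H * sqrt(s * av p X) * av p Ya * av p Yb for OLev k p X s (RuleS: slot of P leveled, G
bounded by H on iv p) and the 247 form (RuleA2: killer OLev, F_3 bounded by H, P arbitrary); plus
16-sub-box-free leaf bound in absolute coordinates | R079/OneG_354: ns OneG354: ag_abs (absolute corners pp),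
leaf_box (LB1 at a sub-box), leaf_box247, node_olev, node_olev247, node_gain (4 distinct slots k OLev t, h
bounded H, i j arbitrary: Sum adm ||Lbox|| <= len*(512*H*sqrt(t*av F_k)*av F_i*av F_j)), sum_iv; 16 s, 3
a_xioms
---
S2.X_dual | helper988 | helper429 | None | landed | level of X (family, fixed frozen w) against all u(a;x)
v(a;y), |u|,|v|<=1, on the strip => sum over ALL box positions of e4 (Schatten-4 of boxes side N) <= K H^3
Lambda (N-free): plugs 429 LiftW output into 49 S4W | R079/XDual_988 (ns XDual988): LevP A omega X Tx Ty
Lambda; sum_e4_le
---
S2.assembly_RuleT | helper617 | helper507 | helper99 | OPEN | Step II => RuleT |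
---
S2.box_family | helper696 | None | None | landed | Fam_696: yv_pos, Lbox_fam, Inn_fact, norm_Lbox_fam, TR_fam
| ns Fam696
---
S2.captain | helper654 | helper530 | None | OPEN (RuleS glue); RuleA2 blocked (maths) | 654 | 06:45: all S2
leaves landed; assembly g1-g5 OPEN (408+71, 988, 990, 617, 530+863); RuleA2 (i,m<=2) has no proof
---
S2.certificate_q4 | helper616 | None | None | landed | leaf certificate => block S4 (q4_of_cert) |
R079/Cert_616 (Mathlib only): residual kernels of (II.1): cert tested with (R R*)R; next: sliding boxes
---
S2.err_words | helper49 | helper990 | None | landed | error words of (II.1) at fixed x0 = frozen variable: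
Full W; kernels A = a(z2,z3) Y1, B = b(z1,z3) Y2 (line letters, masked by W), C = E^{x0}(z1,z2) ARBITRARY
kernel (e_g resp. G_leaf), absolute values: Sum_{p in W} Sum_{x in adm p} |box form| <= K * (budget g2 / g4
of C at the leaves) via TriIsoZ (3,3,3) for e_g (HS small) and triG (2,4,4) of F24a_118 for G_leaf (q4 small)
| EW_49 / EWd_49 landed (frozenW24); EW2_990, EW3_990 landed (word_small2, word_small4)
---
S2.exit_count_eroded | helper694 | None | None | landed | ns ExC694: Full W I, r (m+1) <= 2^m - 1: shadow_mem
(x in adm m l, (m,l) in W => all yv in Vs W r (m+1) = erosion of the union of level m); see_Nb / line_Nb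
(slope s, |s| <= D): positions seeing a change Vs (m+1) vs Vs m inject into Nb W D m; sum_Nb: sum_{m <= I.1}
card (Nb W D m) <= (183+38 D) 2^I.1; near_end, change, sum_leaves_top, sum_eL / eR | ExC_694 (i_mports
Qh_249, 14 s, 3 a_xioms); twin of 442 ExitC / 526 Ero, use whichever fits
---
S2.exit_count_line | helper442 | None | None | landed | msg 27013 of 949 | R079/ExitC_442: exit_count,
exit_count_prime, exit_level_gen; R079/Rear_442: rear_cs
---
S2.fixed_weight | helper530 | helper834 | None | landed | 530 msg 26408 | S2fw_530 + S2fz_530 landed:
fixed_weight (ZMod Q) and fixed_weightZ (Z)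
---
S2.g1_Wr_408 | helper408 | helper71 | None | landed | window_le with metric + al_line / be_line | R079/Wr_408
wr_total (general kernel) over Cg_408.windowG_le + Wa_71 / Wb_71
---
S2.gram_windows | helper590 | None | None | landed | static windows for M (HS inner product space valued
additive S, weights om), look-ahead k generations: msg 590 06:21 | GWin_590: gram_windows (scalar entries,
weights, look-ahead k), on PWin_590
---
S2.haar_bessel_all_positions | helper285 | None | None | landed | q : E -> R with parallelogram law (Par), q
>= 0: sum_{m<M} sum_{p : ZMod Q} q(hav m f p) <= sum_p q(f p) (bessel); scale-dependent f with exits only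
(bessel_moving, bessel_exit); bav/hav = box / Haar averages over ALL positions | HB_285 (i_mports Mathlib
only, 0 s_orry)
---
S2.leaf_bound | helper246 | helper977 | helper960 | landed (line form) | 977 msg 26240 / 247 | LfB_246:
leafHS_line, olev_S4sum, leaf_olev, leaf_olev247; abstract YLeaf_960
---
S2.leaf_direct | helper451 | None | None | landed | Q=sum_{b,s}|sum_a R B S|^2 <= h*alpha0*(H*delta +
r2*b2/H) from plain level (bounded^3 atoms) directly; no S4/Oct | R079/Leaf_451 LANDED: ns Leaf451: tri_le,
leaf, leaf_opt (Q <= 2 h^2 sqrt(r1 b1) sqrt(delta r2 b2)), tail (trivial fibre bound for the L^{q3} tail).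
Symmetric in (b,S)<->(s,B).
---
S2.line_plug | helper71 | helper949 | helper442 | landed (MBes_71, LeafV_71, Wa_71, Wb_71) | 71 msg | exit
values + metric factor + al_sum + be_total (g1 both sides); final inequality of Wr = 408
---
S2.metric_facts | helper834 | None | None | landed | 834 msg 26383 (1)-(3) | St2M_834 (i_mports Mathlib
only): ns St2: qf, n2, met M tau, cs_metric, cs_metric', captured, leafB, gr, qf_gr, gr_posSemidef, hs_form;
any RCLike, no dimension
---
S2.mixture_translates | helper230 | helper696 | None | landed | msg of helper230 06:08 on R079 (T): line atom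
= exact sum over plane translates s (cf.s=0) of its unprojected kernel, labels (g,s), finite, total price
preserved; NO AL3 unprojection in Step II (else Oct(P) = mass^2) | Tr_230 + Tr2_230 (ns Tr230):
atom_translates; mixture (j n A c Z): ONE finite label type iota, lam >= 0, edges al(z0,z1) be(z1,z2)
ga(z2,z0), exact on every finite Z: sum c_i atom_i(cfz z) = sum lam al be ga, pointwise prices sum_l lam |al
x y|^r <= sum |c_i| kappa_i sum_T |a|^r on all three edges; p01_le.. (bounded edges: kappa L^2). helper230
FREE + warm
---
S2.plugA_sum_lemma | helper71 | helper949 | None | void | Sum_x |Lbox x| <= (1/La^2) Sum_{(x_al,x_be)} avg_u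
Sum_{p_ga} |double signed average of K Y_ga Y_de| (any slots) | = Lift_949
---
S2.prox | helper250 | helper224 | None | landed | 250 msg 25887 | Prox_250 LANDED 06:07 (msg 26478):
exists_prox, el, strong, row, col, factor, q4_glue; next Prox2_250 = glue_drift (R x R blocks, J drift)
---
S2.prox_glue | helper250 | helper224 | None | landed | Prox2_250: q4_glue_sup, q4_glueR (R1 x R2 blocks),
val_glue (glued blocks compete), glue_drift: val parent + |glued - G_parent|^2 <= sum val blocks (penalty L
-> R1 R2 L = box normalisation L/N^2), hs2_sum_sup, IsProx.sup | Prox2_250
---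
S2.split_before_reducing | helper990 | None | None | landed | msg helper990 06:34: w-dependent glue LK
(additive), E/X words in frozen-w form, Psi-word periodised | helper990: R079/LK_990 on main (ns LK990): pW,
LK, Per, Lgen; LK_add, sum_norm_LK_le, LK_eq_Lgen, Lbox_eq_LK; 0 s_orry, 3 a_xioms
---
S2.static_windows | helper222 | helper590 | None | landed | 834/844 | WinA_222, WinB_222, WinH_222 (222);
PWin_590, GWin_590 (590); StF_117
---

-/
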