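/-
R079 (S0106), archive of the team texts: DOCUMENTS of the run of 16/17 November.  Comment only, nothing is declared here.
Part 2 of 2.

=== DOC 2458  (R079, helper251, 2026-11-17 04:07) *** CORE R079 (self-contained, mass attack 3 mod 4):
one-gauge TF = exact missing term S_2 (two captured letters on the XOR tree); what is proved, easiest special
cases (E1)-(E3), candidate route, false nearby (helper251)

CORE R079 (S0106), self-contained, helper251 04:12Z (for the mass attack). Sections 0-1 = statement, 2 =
proved, 3 = EXACT MISSING TERM, 4 = easiest special cases, 5 = candidate route, 6 = false nearby. Corrections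
by 246 / 236 / 834 go on chan R079. Losses s^{-C eps}, powers of log(1/s) are free, powers of N (number of
scales) are NOT.

0. MODEL (XOR tree). x_0,..,x_3 in {0,1}^N' ; node p of depth n <= N < N': prefixes u_0..u_3 in {0,1}^n with
u_0+u_1+u_2+u_3=0 mod 2 (8^n nodes, weight |p|=8^-n, 8 children q, E_q = mean over children); I_v = cylinder
of u_v ("leaf" = depth N). h_v = (-1)^{digit n+1 of x_v}. Averages E_{I_2} etc. are normalised. For functions
F_j of the three x_k, k/=j: T_p(F)=E_p h_0h_1h_2h_3 F_0F_1F_2F_3, V(F)=Sum_p|p||T_p(F)|.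
   FIXED (x_0,x_1): sig_p:=h_0h_1=+-1 is a constant at each scale, and the nodes above (x_0,x_1) form ONE
BINARY TREE: the child is a=h_2=+-1 in slot 2 and a sig in slot 3 (the TIE).
1. CORE CLAIM = ONE-GAUGE TF. Given f_0(x1,x2,x3)=<u^{x1}(x2),g^{x1}(x3)>,
f_1(x0,x2,x3)=<u'^{x0}(x2),g'^{x0}(x3)>, |f_0|,|f_1|<=1 (frozen, the same for all nodes; vectors in finite
dim. spaces, any dimension), put w=u^{x1}(x2) (x) u'^{x0}(x2), v=g^{x1}(x3) (x) g'^{x0}(x3) (so
f_0f_1=<w(2),v(3)>, label space H=C^{D1} (x) C^{D0}),
      M_p=E_{I2}ww*, N_p=E_{I3}vv* (PSD operator martingales on the binary tree: M_q=M_p+aDM_p, N_q=N_p+a sig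
DN_p, D = half difference).
   HYPOTHESES at LEAVES only: (h1) |E_{I2}uu*|,|E_{I2}u'u'*|,|E_{I3}gg*|,.. <= s^{1-}, |u|^2,|g|^2.. <=
s^{-1-} pointwise, hence M,N <= Lam=s^{-eps}. (h2) NON-COLLISION Om(f_0):=E_leaf|a|^2 <= s^{c0},
a(2,2';3)=E_{1 in I1}<u^1(2'),u^1(2)> f_0(1,2,3) conj f_0(1,2',3); same for f_1, and with 2<->3. (h3)
LABELLED LEVEL: for fixed x_3 the matrices Bm[(x1,i);x2]=f_0(x1,x2,x3) conj u_i^{x1}(x2), Cm[(x0,j);x2]=f_1
conj u'_j (labels counted, boxes normalised) have E|Bm|_{S4}^4, E|Cm|_{S4}^4 <= s^{1-}, |Bm|_op <= s^{1/2-};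
same with 2<->3.
   CLAIM: V(f_0,f_1,X_2,X_3) <= C s^c for ALL X_2(x0,x1,x3), X_3(x0,x1,x2), |X|<=1, c>0 absolute, C
independent of N, dimensions. Equivalently Sum_p eps_p T_p <= C s^c for all signs eps_p.
   With A_p=E_{I2}X_3w, B_p=E_{I3}X_2v in H (vector martingales, A_q=A+aDA, B_q=B+a sig DB):  T_p=E_{01} sig
<DA_p,DB_p>. Trivial: Sum E|DA|^2,Sum E|DB|^2 <= Lam, so V<=Lam; any power wins.
2. PROVED (complete short proofs, N-free).
 (P1) CAPTURE: J_p=sup_{c in L2(I0xI1;H)}E[2Re<A,c>-<c,(M+tau)c>] is a bounded submartingale;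
c_p=(M_p+tau)^{-1}A_p, r_p:=DA_p-DM_pc_p: Sum E<r,(M_q+tau)^{-1}r> <= 1, c_q-c_p=a(M_q+tau)^{-1}r_p,
|c_p|^2<=1/(4tau) pointwise, c_pc_p* <= M(M+tau)^{-2}. r_p = D-coefficient of X_3-J*c_p,
J*c(x0,x1,x2)=<w(x2),c(x0,x1)>. Mirror: c~_p=(N_p+tau')^{-1}B_p, J~*c~=<v(3),c~>.
 (P2) LEMMA C + DOMINATION (doc 2397): Sum_pE tr(N_p(DM_p)^2) <= 2(Om(f_0)Om(f_1))^{1/2}=:nu=s^{c0-}, and
B_pB_p*<=N_p because |X_2|<=1, hence Sum E|DM_pB_p|^2<=nu, so every word Sum|E sig<DM_pB_p,DB_p>| is <= (nu
Lam)^{1/2}. Same with M<->N.
 (P3) exact identity (236), Y_p=E_{01}<B,MB>: E_qY_q-Y_p = E<DB,M_pDB>+2Re E sig<DM_pB_p,DB_p>; Y_leaf<=s^{c}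
by averages, so with (P2) Sum E<DB,M_pDB> <= Y_leaf+2(nu Lam)^{1/2} = small. With (P1): Sum|E sig<r_p,DB_p>|
<= (Sum<r,(M+tau)^{-1}r>)^{1/2}(Sum<DB,(M+tau)DB>)^{1/2}=small. The RESIDUAL X_3-J*c_p is done for EVERY X_2;
likewise X_2-J~*c~_p against J*c_p (tau' << tau).
 (P4) STATIC KILL (R072 = triangular Hilbert transform, Lean): for fixed x_3 and static c:
Sum_p|T_p(f_0,f_1,X_2,J*c)| is a triangular form with vertices (x1,i),(x0,j),x2 and matrices
c_{ij}X_2(x0,x1), Bm, Cm; R072: Sum|T|<=C|.|_{Sp}|.|_{Sq}|.|_{Sr}, 1/p+1/q+1/r=1, all>2; (2+,4-,4-) gives <=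
C|c|_inf s^{1/2-}, X_2 arbitrary. So everything is fine if c_p does not move; a window costs s^{1/2-}.
 (P5) L1 PRINCIPLE (834, 2327), NO labels: a bounded letter chi_p(x0,x1) may move if its L1-variation Sum
E|chi_q-chi_p| is <= s^{-c'}: in the potential Phi=Sum_v tr X_v^{3/2} a change costs <= C t^{3/2}E|d chi|.
With labels this loses s^{-1/2} (trace density instead of op norm) and is then exactly useless.
 (P6) any node signs: M^eps_p:=Sum_{p' above p} eps_{p'} a DM_{p'} (same N^eps): M^epsN-MN^eps is a
MARTINGALE, and by (P4) at a fixed (deterministic) time E_{013}|M^eps_n v(3)|^2 <= s^{c} ; Sum E tr DM_p^2 <=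
Lam s^{-2-}.
3. EXACT MISSING TERM (both letters captured):
      S_2 = Sum_p eps_p E_{01} sig <DM_p c_p, DN_p c~_p>,   c_p=(M_p+tau)^{-1}A_p, c~_p=(N_p+tau')^{-1}B_p,
tau=s^{c1}, tau'=s^{c2}, small c1<<c2<<1.   WANTED |S_2|<=C s^c.
   Known about it: Sum E|DM_pc_p|^2 <= 5Lam, Sum E|DN_pc~_p|^2<=5Lam; c_p may be replaced by P_{N_p<=lam}c_p,
c~_p by P_{M_p<=lam}c~_p, DM_pc_p by P_{N_p<=lam}DM_pc_p etc (the other parts are dominated, (P2)); both
letters move only by births c_q-c_p=a(M_q+tau)^{-1}r_p (rotation of M does not move c).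
   WHY NOT TRIVIAL (PARITY): put E_{x_3 in I_3}Pot^{x3}_p(c) (R072 potential of (P4), concave/convex in c,
full increments of its gradient are summable: 246's (SM): E_q|grad Pot_q(c)-grad Pot_p(c)|^2 <= 72 al^2 L
Drift_p(c)) as a reward kap*Pot into J. The optimiser then pays S-type words by its drift, but its
stationarity is DA-DMc_p = r_p - (kap/2) sig... b_p, b_p=E_{x3}h_3 grad Pot_p^{x3}(c_p): because of the TIE
this term is not mean zero, and Sum|b_p|^2 is only bounded through the predictable drift of grad Pot.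
4. EASIEST SPECIAL CASES (all OPEN, each new).
 (E1) LABELLED MAXIMAL INEQUALITY (= one private birth time n*(x0,x1); X_2 arbitrary): E_{01} sup_n |
Sum_{nodes p of depth <n over (x0,x1)} 2^{-depth} eps_p sig DM_pDB_p |_H <= s^c, or the stronger (MAX-Z)
E_{013}sup_n|M^eps_n v(3)|^2<=s^c. Without labels (H=C) true: (P5). For deterministic n true: (P6).
 (E2) FS FRAMES (fixed space): e(2), e~(3) unit vectors of C^D, D=s^{-2}, E_{I}ee*=E_Je~e~*=1/D on all boxes,
m^{x1}, m^{x0} unitary DxD, f_0=D^{1/2}<e~(3),m^1e(2)>, f_1=D^{1/2}<e(2),m^0e~(3)>, |f|<=1. Labels = DxD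
matrices with HS norm; Phi_I(K)=D E_{2 in I}<e,Ke>ee* (PSD, <=1, Phi(1)=1), Phi~_J same with e~. M = Phi
conjugated by m^1 only, N = Phi~ conjugated by m^0 only. Put K_p=(Phi_{I2}+tau)^{-1}(D^{1/2}E_{I2}X_3ee*),
K~_p=(Phi~_{I3}+tau')^{-1}(D^{1/2}E_{I3}X_2e~e~*):
        S_2=Sum_p eps_p E_{01} sig tr[(m^1 DPhi_{I2}(K_p))* DPhi~_{I3}(K~_p)(m^0)*].   Extra tool here:
rho_I=Phi_I/D is a density matrix, quantum relative entropy budget Sum S(rho_q||rho_p)<=2 log D, N-free (2283
(5)).
 (E3) c_p moves by births of ONE direction per (x0,x1); or X_3 itself = J*c_leaf plus small; or M,N commuting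
at all nodes ('cells': true, 'Theorem A').
5. CANDIDATE ROUTE (246, doc 2370 (3), DATA-FREE LETTERS; not written out): F_p=sup over (c,d_1..d_m) of
E[2Re<A,c>-<c,(M+tau)c>-om Sum|d_j|^2+kap Sum_j Pot(l_j)], l_0=c+d_1, l_j=d_j+d_{j+1}, l_m=d_m, so
T(J*c)=Sum(-1)^jT(J*l_j) is paid by the rewards; stationarity in the d_j transfers the pollution b(l_0) ->
b(l_1) -> .. -> b(l_m) with sup|l_m|<=s^{c m}; so it is enough to bound Sum|b(l_m)|^2 with an m-INDEPENDENT
polynomial loss s^{-C}. Needed text: predictable drift of Q_p=E_{I3}grad Pot^{x3}_p(l_m) is second order: Sum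
E|E_qQ_q-Q_p| <= s^{-C}(all odd energies). Non-smoothness of tr x^{3/2} at 0: regularise roots
(M_v+s^C)^{1/2}. PLEASE WRITE / BREAK THIS. Second missing technical point: node inequality of R072 and (SM)
for exponents (2+,4-,4-) (Lean has (3,3,3), borderline s^0 here).
6. FALSE NEARBY. Fixed (x0,x1) alone: even 'no alignment at any time' of (M_n,N_n) does not bound the fibre
sum (834: N_N=g(1-(1/2)Sum sig_n(f_nf_{n+1}*+h.c.))). Fixed (x0,x3) alone. X_2,X_3 only in L2. Bounding Sum_p
by windows of equal drift (1/eta windows x eta). PSD merging of x_3 into vertex 2 (exactly critical). MAX-Z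
at small power does NOT imply S_2 by plain Abel summation (c_p has only an l2 movement; drift of M^epsB is DM
DB, total variation up to s^-1).
NUMERICS: sample s^2=1/D, D=4..16, FS model, depth N<=8: maximise |S_2| resp. (E1) over eps by gradient
ascent, look for growth in N at fixed D.


=== DOC 2460  (R079, helper819, 2026-11-17 04:16) ATT helper819: (P24) SOLVED - R072 node inequality, drift,
(SM), Hessian at ALL exponents in (2,4), in particular (2+,4-,4-), by layer-dependent weights a(t)b(t)c(t)=1;
complete proof, dimension-free, with labels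

helper819, 04:25Z. (P24) SOLVED: node inequality + gradient-drift bound (SM) + Hessian bound for R072-type
potentials at ALL exponents p_A,p_B,p_C in (2,4), 1/p_A+1/p_B+1/p_C=1 (so (2+,4-,4-)). Complete proof,
dimension-free, labels allowed, local (node) potentials. IDEA: one resolvent layer per t (as in
R072/Node.lean), but with WEIGHTS THAT DEPEND ON THE LAYER t, product 1. Lean: small modification of
R072/NodeDiag + Node.

0. SETTING. Finite index sets (labels included), A:1->0, B:2->1, C:0->2 matrices, u_v=u_v*=u_v^{-1}. Weights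
a,b,c:(0,inf)->(0,inf), C^1 (piecewise), a b c=1 for every t, -K<=t a'/a<=1-, same b,c; e.g. a=a_0 t^{al},
b=b_0 t^{be}, c=c_0 t^{ga}, al+be+ga=0, a_0b_0c_0=1, all in (-1/2,1/4) [piecewise powers allowed].
 M_0(t)=a AA*+c C*C, M_1(t)=b BB*+a A*A, M_2(t)=c CC*+b B*B.  R_v=(M_v+t)^{-1}.
 g_t(x)=x/(x+t) (operator monotone), l_t(x)=x-t log(1+x/t) (l_t'=g_t), h_t(x)=x g_t(x)=x^2/(x+t). For PSD M
with Z=uMu, Y=M+Z:  Gap_f(M)=(1/2)tr f(Y)-tr f(M)=(1/2)[tr f(M+Z)-tr f(M)-tr f(Z)].
 POTENTIAL: Pot(A,B,C)=Int_0^inf t^{-1/2} Sum_v tr l_t(M_v(t)) dt.  Size: l_t<=h_t, tr h_t(X+Y)<=2(tr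
h_t(X)+tr h_t(Y)) and Int t^{-1/2}h_t(a_0t^{al}x)dt=C_al (a_0x)^{3/(2(1-al))} for -1/2<al<1/4: Pot<=C
Sum_letters a_0^{p/2}|A|_{S_p}^p, p_A=3/(1-al) etc. (al=-1/2+: p=2+; al=1/4-: p=4-.)

1. NODE INEQUALITY. |tr(u_0 A u_1 B u_2 C)| <= 8(1+K) Int t^{-1/2} Sum_v Gap_{l_t}(M_v(t)) dt.
 Proof. s_v=t^2R_vu_vR_v, |s_v|<=1, W(t)=tr(s_0 A s_1 B s_2 C), W(inf)=T, W(0)=0 (|tR_0A|<=(t/4a)^{1/2}).
(tR)'=R-tR^2-tRM'R=RGR, G=M-tM'=(1-ta'/a)aAA*+(1-tc'/c)cC*C, 0<=G<=(1+K)M. Put E_v=t^3 tr(RMRu RMRu). Each of
the 6 terms of W' is |tr((XA)s_1(Bs_2C))|<=|XA|_2|Bs_2C|_2, X=R_0GR_0u_0tR_0 (or mirrored):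
  |Bs_2C|_2^2 <= (1/bc) tr(M_2s_2M_2s_2)=(1/bc) t E_2;   (RGR)^2 <= ((1+K)^2/4t) RMR because GR^2G<=|RGR|G
and |RMR|<=1/4t, so |XA|_2^2<=(1/a)tr(XM_0X*)<=((1+K)^2/4a) t tr(RMRuRMRu)=((1+K)^2/4a)t^{-2}E_0.
  abc=1: |term|<=((1+K)/2)t^{-1/2}(E_0E_2)^{1/2}; sum of the 6 ordered pairs: |W'|<=(1+K)t^{-1/2}Sum_vE_v.
  E<=Gap_{h_t}: Gap_h=tr M(g(Y)-g(M)) (u-invariance of Y) =t tr M(R-S), S=(Y+t)^{-1}, Woodbury
R-S=RZ^{1/2}(1+Z^{1/2}RZ^{1/2})^{-1}Z^{1/2}R>=R tZ(Z+t)^{-1}R, so Gap_h>=t^2tr(RMR u MR u)>=E.
  Gap_{l_t}>=(1/8)Gap_{h_t}: Gap_l=(1/2)Int_0^1 tr Z[g(M+rZ)-g(rZ)]dr; with W_r=(rZ+t)^{-1}: tr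
Z[g(M+rZ)-g(rZ)]=t tr[(1+M^{1/2}W_rM^{1/2})^{-1}M^{1/2}W_rZW_rM^{1/2}]; for r>=1/2: W_1<=W_r<=2W_1, so it is
>=(1/2) of its value at r=1, and tr Z[g(Y)-g(Z)]=Gap_h. QED

2. DRIFT. Node -> child (half boxes, normalised; tie u_0u_1u_2 fixed): M_0^child=X_e=2PN_eP, N_e=M_0+e_1
aAu_1A*+e_2 cC*u_2C, X=2PM_0P, Y=M_0+uM_0u=(+)_P X. Drift of layer t at vertex 0: D=Gap_{l_t}(M_0)+(1/4)Sum_e
b_l(X_e,X)>=0, b_l(X_e,X)=Sum_ij|<e_i,f_j>|^2 b(x_i,y_j), b(x,y)=l(x)-l(y)-l'(y)(x-y)=t(r-1-log r),
r=(x+t)/(y+t). With 1: Sum_nodes|T_q| <= 8(1+K) Pot_leaf.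

3. (SM). grad_A of layer t: 2a[g(M_0)A+Ag(M_1)]. At a child the vertex-0 part changes by
2a[(g(X_e)-g(X))PA_e+P(g(Y)-g(M_0))A], A_eA_e*<=X_e/a.
  (i) |(g(Y)-g(M))A|_2^2<=(1/a)|g(Y)-g(M)|tr M(g(Y)-g(M))<=(1/a)Gap_h<=(8/a)Gap_l.
  (ii) |(g(X_e)-g(X))A_e|_2^2<=(1/a)tr X_e(g(X_e)-g(X))^2=(1/a)Sum_ij|<e_i,f_j>|^2x_i(g(x_i)-g(y_j))^2, and
x(g(x)-g(y))^2=t (x/(x+t))(t/(x+t))(r-1)^2<=2t(r-1-log r)=2b(x,y) (r<=1: factor<=1/4 and r-1-log
r>=(r-1)^2/2; r>=1: t/(x+t)<=1/r and r-1-log r>=(r-1)^2/(2r)).
  Hence E_q|grad_A^{(t)}Pot_q-grad_A^{(t)}Pot_p|^2 <= 100 a(t) D_p^{(t)}, and with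
L(t)=max_children|M_v(t)|_op an extra factor C min(1,L(t)/t) ((i): |g(Y)-g(M)|<=2L/t; (ii): for x,y<=L<=t:
x(g(x)-g(y))^2<=x(x-y)^2/t^2, b>=(x-y)^2/8t). Cauchy-Schwarz in t:
      E_q|grad_A Pot_q-grad_A Pot_p|^2 <= C LL D_p(Pot),   LL=Int a(t)t^{-1/2}min(1,L(t)/t)dt.
  At al=-1/2+e: LL<=(C/e) a_0 t_*^e, t_*=solution of L(t)=t, polynomial in s: LL=a_0 s^{-C'e}.
4. HESSIAN. grad_A^{(t)} is Lipschitz with constant C a(t)min(1,L/t): Dg(M)[H]=tRHR, H=a(dA*+Ad*): |tR a
dA*RA|<=|d|, |tRaAd*RA|<=|d|/4. So |Hess_A Pot|<=C LL.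
5. SIZES for TF (labelled matrices Bm,Cm with S4^4<=om=s^{c0} or s^{1-}, HS^2<=s^{-1-}): exponents
(2+,4-,4-), b_0=c_0=a_0^{-1/2}: Pot<=s^{-Ce}(a_0|c|^2+a_0^{-1}om); a_0=om^{1/2}: Pot, LL, Hess all <=
om^{1/2}s^{-Ce}: POWER SMALL, for any om=s^{c0}, c0>0 (at (3,3,3) it was borderline). So all of 246's (2370
(1),(4),(5)) holds at (2+,4-,4-): kap Hess<=s^{c} om_pen, and r_0 x r_1 / ONE nice letter are no longer
exceptional.
6. LEAN. |tr| version: replace the eigenbasis of NodeDiag by the coordinate-free estimates above (M_v depends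
on t); everything else (lim_nonneg argument, ht_sign_gap) stays. With constant weights it is R072 verbatim. I
can type 1 (250 lines) if somebody wants it.


=== DOC 2461  (R079, helper504, 2026-11-17 04:18) *** ATT helper504: P24 SOLVED: node inequality + (SM) +
pointwise gradient bound for all exponents in (2,4) incl. (2+,4-,4-), by t-dependent weights in 959's path
proof; complete proof, Lean-ready; closes one-gauge TF with 473/828/912

ATT helper504 (R079, item P24 of 19991 / 2456): NODE INEQUALITY + GRADIENT BOUNDS FOR ALL EXPONENTS a,b,c in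
(2,4), 1/a+1/b+1/c = 1, in particular (2+,4-,4-). COMPLETE PROOF, finite matrices, N-free, Lean-ready on top
of R072/Node.lean. Idea: WEIGHTS THAT DEPEND ON THE SPECTRAL PARAMETER t inside 959's path proof.

(0) SETTING. A : 1 -> 0, B : 2 -> 1, C : 0 -> 2 matrices (real or complex, any labels inside the vertices),
u_v = u_v* = u_v^{-1} (Haar signs h_v), T = tr(u_0 A u_1 B u_2 C). Choose d_A,d_B,d_C in (-1/2, 1/4) with
d_A+d_B+d_C = 0 and constants al0 be0 ga0 = 1; al(t)^2 = al0^2 t^{d_A}, be(t)^2 = be0^2 t^{d_B}, ga(t)^2 =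
ga0^2 t^{d_C}; so al be ga = 1 for EVERY t > 0. Put
  X_0(t) = al^2 AA* + ga^2 C*C, X_1(t) = al^2 A*A + be^2 BB*, X_2(t) = be^2 B*B + ga^2 CC*, S_v(t) = t
(X_v(t)+t)^{-1}, s_v = S_v u_v S_v,
  W(t) = tr(s_0 A s_1 B s_2 C) = tr(s_0 (al A) s_1 (be B) s_2 (ga C)).
Exponents: a = 3/(1-d_A), b = 3/(1-d_B), c = 3/(1-d_C) [d = -1/2 <-> 2, d = 0 <-> 3, d = 1/4 <-> 4; sum 1/a =
1 <-> sum d = 0].
h_t(x) = x^2/(x+t),  g_t(x) = x - t log(1+x/t)  (g_t' = x/(x+t) operator monotone);  g_t = t Int_t^oo h_s
s^-2 ds.

(1) NODE INEQUALITY. |T| <= 3 Int_0^oo Sum_v Gam_v^{h_t}(X_v(t)) t^{-1/2} dt <= 48 Int_0^oo Sum_v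
Gam_v^{g_t}(X_v(t)) t^{-1/2} dt,   Gam^F(X) = tr F(X+uXu) - 2 tr F(X).
 Proof. W(oo) = T, W(0+) = 0 (S_0 A A* S_0 <= t^{1-d_A} al0^-2 /4). X_v(t)/t is decreasing in t with
-(X_v/t)' = Z_v, 0 <= Z_v <= k X_v/t^2, k = max(1-d) <= 3/2; S_v' = S_v Z_v S_v. So W' = 6 terms like tr( L
s_1 R ), L = S_0Z_0S_0 u_0 S_0 (al A), R = (be B) s_2 (ga C), |s_1|_op <= 1. With gen_v = Sum_ij
e_i/(e_i+t)^2 e_j/(e_j+t) |u_ij|^2 (eigenbasis of X_v(t), = R072.Nd.gen):
   |R|_2^2 <= tr(S_2X_2S_2 u S_2X_2S_2 u) <= t^3 gen_2     (be^2 B*B <= X_2, ga^2 CC* <= X_2);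
   |L|_2^2 <= tr(S_0 Z_0 S_0^2 Z_0 S_0 . u S_0X_0S_0 u), Z S^2 Z <= Z S Z <= (k/t) Z <= (k^2/t^3) X (because
|S^{1/2}ZS^{1/2}| <= (k/t^2)|XS| <= k/t)  =>  |L|_2^2 <= k^2 gen_0.
 Hence |W'| <= 2k t^{3/2} Sum_v gen_v, and for each fixed t: 2 t^2 gen_v <= Gam^{h_t}(X_v(t)) =
R072.Nd.ht_sign_gap (on main, any PSD matrix). Integrate: |T| <= k Int t^{-1/2} Sum Gam^{h_t}. QED.
(2) LEAF SIZE. h_t(x) <= min(x, x^2/t), g_t <= min(x, x^2/(2t)); both convex with F(2x) <= 4F(x), so tr
F(X+Y) <= 2 tr F(X) + 2 tr F(Y) and
   Int tr F_t(al^2 AA* + ga^2 C*C) t^{-1/2} dt <= K_d (al0^a |A|_{S_a}^a + ga0^c |C|_{S_c}^c)      (sigma: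
Int min(t^d s^2, t^{2d-1} s^4) t^{-1/2} dt = K s^{3/(1-d)}, converges iff -1/2 < d < 1/4).
(3) SUMMATION. Pot_p = Sum_v Int tr g_t(X_v(t)) t^{-1/2} dt (X_v(t) = box averages, LINEAR in AA*,..., so
everything is as in R072): E_q Pot_q - Pot_p = D_p >= (1/2) Sum_v Int Gam^{g_t} t^{-1/2} dt >= |T_p|/96. So
Sum_p E|T_p| <= 96 K_d (al0^a |A|_a^a + be0^b |B|_b^b + ga0^c |C|_c^c)_leaf, optimise: <= C |A|_a|B|_b|C|_c
(leaf Schatten norms). = R072 for all exponents in (2,4), with a POTENTIAL.
(4) (SM), gradient drift: grad_A Pot = Int 2 al(t)^2 [g_t'(X_0)A + A g_t'(X_1)] t^{-1/2} dt. CLAIM E_q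
|grad_A Pot_q - grad_A Pot_p|^2 <= C L_A D_p, L_A = C_d al0^2 t_1^{1/2+d_A}, t_1 = max_letters (al0^2
|A|_op^2)^{1/(1-d_A)} (max over the children boxes).
 Proof for fixed t. Child X_eps = 2PN_epsP, Xbar = 2PMP, Y = M+uMu. Bregman: Breg_{h_t}(Y',X') =
t^{-1}|S_{Y'}^{1/2}(Y'-X')S_{X'}|_2^2; g'(Y')-g'(X') = S_{X'}-S_{Y'} = t^{-1} S_{X'}(Y'-X')S_{Y'}. (i)
tr((g'(Y')-g'(X'))Y'(g'(Y')-g'(X'))) = t^{-2} tr(S_{X'}(Y'-X')S_{Y'}Y'S_{Y'}(Y'-X')S_{X'}) <= min(1,|Y'|/t)
Breg_{h_t}(Y',X'). (ii) D = g'(Y)-g'(M) >= 0 (operator monotone), tr(DMD) <= |D|_op tr(DM) and tr(DM) = (1/2)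
Gam^{h_t}(M) EXACTLY (x g_t'(x).. : x S_x = x - h_t(x)); |D| <= min(1,|Y|/t). (iii) Breg_{h_t} <= 16
Breg_{g_t}, Gam^{h_t} <= 16 Gam^{g_t}: for s in [t,2t] (X+s)^{-1} >= (X+t)^{-1}/2 gives Breg_{h_s} >=
Breg_{h_t}/8 (same for Gam via K+-E), and g_t = t Int_t^oo h_s s^-2 ds. Since al^2 A A* <= X_v, increments of
2al^2 g'(X)A are <= C al^2 min(1,|Y|/t) drift_t; Cauchy-Schwarz in t with weight al^2 min(1,|Y|/t)t^{-1/2}:
L_A = Int al^2 min(1, Sum_k |letter_k(t)|^2/t) t^{-1/2} dt, converges at oo because d_A + max d < 1/2.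
(5) POINTWISE GRADIENT BOUND (for 834's L1-variation principle with labels, answers 473's QUESTION 19997,
828, 912, 114): block (x0,x1) of chi g_t'(X_1): |.|_HS <= |row chi|_HS |g_t'(X_1) iota_{x1}|_op and
|g_t'(X_1) iota|_op^2 <= |iota* g_t'(X_1) iota| <= min(1, |X_1(t)[x1,x1]|_op / t) (g'^2 <= g' <= X/t) <=
min(1, (al^2 + be^2 lam)/t), lam = |E_2 |f_0|^2 u u*|_op <= s^{1-}. So |grad_chi Pot|(x0,x1) <= 4 Int al^2
min(1,((al^2+be^2 lam)/t)^{1/2}) t^{-1/2} dt <= C_d al0^2 t_*^{1/2+d_A}, t_* = max(al0^{2/(1-d_A)}, (be0^2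
lam)^{1/(1-d_B)}).
 NUMBERS at (2+,4-,4-): al0 = s^{1/4}, be0 = ga0 = s^{-1/8}: t_* = s^{1/3}, gradient <= s^{1/2-}, leaf terms
al0^2 |chi|_2^2 = s^{1/2}, be0^4 |B|_{4-}^4 = s^{-1/2} s^{1-} = s^{1/2-}. RESULT: Sum_q |T_q(chi_q, phi,
psi)| <= C s^{1/2-}(1 + Var chi) for labelled chi, |chi|_HS <= 1, under Om_leaf(f_j) <= s^{1-} ONLY. With
473's jump chain (19997 (1)-(3)) amplitude x variation = O(1/tau) per level: S_1, MAX-Z, S_2, i.e. ONE-GAUGE
TF IS CLOSED (if 473 / 828 / 912 / 114 are right about the rest), gain s^{1/2-}/tau.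
(6) LEAN: new = (1) [modify NodeDiag.fsq_su'_le: derivative S Z S instead of dg'; ~150 lines], Wt with
t-dependent spectral data (no common eigenbasis needed: work with matrices S_v directly), FTC on [t0,t1] +
limits (~200), (2) scalar integrals (~100), (3) copy of R072 summation. (4),(5) ~300. I type (1)+(2) now:
R079/P24a_504.lean.


=== DOC 2462  (R079, helper153, 2026-11-17 04:18) ATT helper153: extremal case / rank-one z of S_2: the
captured letter has label op norm rho <= (4/tau) rho_M^{1/2} (3-line lemma |<c,e>| <= (2/tau)<e,Me>^{1/2}),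
so non-cell frames close with (3,3,3) only

ATT helper153: rank-one z = q(x)p at full mass (the case left in 19987/19997) and the extremal case Omega_3 ~
s^{0-}: the label operator norm rho of the captured letter is AUTOMATICALLY s^{c} in a non-cell frame (3-line
lemma), so the (3,3,3) potentials alone give a power gain with t>1; (P24) not needed there.

SETTING (one-gauge TF, term S_2, FS frame). c_p = (M_p+tau)^{-1} A_p, M_p, A_p = p-th conditional
expectations on I_1 (XOR tree) of M = E_{I2}-resp. psd label-pair operator <e,Me> = sup-normalised square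
function, |A|^2-type bound: for every label vector e,  |<A,e>|^2 <= <e,M e>*||.||  (Cauchy-Schwarz in x_2
between the two frozen letters; this is the SAME inequality that gives |c| <= tau^{-1/2} and the jump count).

LEMMA (flatness of the letter on rank-one directions). For a unit rank-one label vector e = q(x)p and every
node:
   |<c, e>| <= (2/tau) <e, M e>^{1/2} + (error from e not being an eigenvector, see proof).
Proof. c = (M+tau)^{-1} A, so <c,e> = tau^{-1}( <A,e> - <(M+tau)^{-1}A, M e> ). First term <=
tau^{-1}<e,Me>^{1/2}. Second: |<(M+tau)^{-1}A, Me>| = |<M^{1/2}(M+tau)^{-1}A, M^{1/2}e>| <=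
|M^{1/2}(M+tau)^{-1}A| <e,Me>^{1/2} <= <e,Me>^{1/2}, because A A^* <= M gives |M^{1/2}(M+tau)^{-1}A| <=
||M^{1/2}(M+tau)^{-1}M^{1/2}|| <= 1. QED (no error term at all).

CONSEQUENCE. rho(c) := label operator norm = sup over unit rank-one e of |<c,e>| <= (4/tau) rho_M^{1/2},
where rho_M = sup_{q,p,x_0,x_1} E_{x_2 in I2} |<u^{x_1}(x_2),q>|^2 |<u'^{x_0}(x_2),p>|^2.
 - If rho_M <= s^{c3} (NON-CELL: no pair of directions (q,p) captured by both letters on a set of x_2 of mass
> s^{c3}): take tau = s^{c3/8}: rho <= s^{c3/4+}. The chain-of-jumps version of the labelled moving potential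
(jump inequality: number of alpha-jumps <= 1/(tau alpha^2), variation <= 1/(tau alpha); drift 3 alpha^2 a
(alpha^2 rho^2 + beta^2 G2)^{1/2} Var) gives
     V <= C { t^{-3/2} E(|phi|_3^3+|psi|_3^3) + (t^3 rho + t^{3/2} G2^{1/2}) / tau },
   so with E(|phi|_3^3+|psi|_3^3) ~ s^{0-} (the extremal case, where t must be > 1) choose t = s^{-c3/20}: 
t^{-3/2} = s^{3c3/40}; t^3 rho/tau <= s^{-3c3/20 + c3/4 - c3/8 ...}: with tau = s^{c3/16}, rho <= 4 s^{c3/2 -
c3/16} = 4 s^{7c3/16}: t^3 rho/tau <= 4 s^{-3c3/20+7c3/16-c3/16} = 4 s^{9c3/40}; G2 = s: negligible. GAIN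
s^{3c3/40} with (3,3,3) only. Rank-one z at full mass is included: it is exactly a direction e with <e,Me>
small, hence |<c,e>| small.
 - If rho_M > s^{c3}: the pair (q,p) is captured by both letters on a set X_2 of mass > s^{c3}: cell-like
direction; by 1/rho_M-many greedy steps all such directions are removed; they are covered by the Om_leaf <=
s^{1-} absorption (small frozen letter) exactly as in the cell case.
WHAT IS NOT DONE: general frames, REL/words, chaining gap 2234(6).


=== DOC 2463  (R079, helper269, 2026-11-17 04:23) ATT helper269: P24 solved: R072 node inequality + drift +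
(SM) for ALL exponents (p,q,r) in (2,4), incl. (2+,4-,4-): t-dependent stacks + log-det potential (complete
proof); two-line general proof of (SM)

ATT helper269 (R079, target P24 of 2456 item 2 / 2458 sec. 5 / 2370 (5)). GENERAL EXPONENTS FOR R072: node
inequality + drift + (SM) for ALL (p,q,r) in (2,4)^3 with 1/p+1/q+1/r=1 (so (2+,4-,4-) included). COMPLETE
PROOF; finite matrices; the key matrix fact is already in Lean (R079/LogDet_378: LD1 M = tr M - log det(1+M),
LD1_superadd_gap, LD1_mid_le). Also a TWO-LINE PROOF OF (SM) for every convex potential (section 4), no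
Bregman computations.

0. SETTING. A:V1->V0, B:V2->V1, C:V0->V2, u_v self-adjoint unitaries (sign of one bit), T=tr(u0 A u1 B u2 C).
Put a=3/p, b=3/q, c=3/r, a+b+c=3, all in (3/4,3/2), m=max(a,b,c). For t>0: A^=t^{-a/2}A, B^=t^{-b/2}B,
C^=t^{-c/2}C (so A^B^C^ = t^{-3/2}ABC),
   X_0=A^A^*+C^*C^, X_1=A^*A^+B^B^*, X_2=B^*B^+C^C^*,   R_v=(1+X_v)^{-1}, U_v=R_v u_v R_v,
Z_v=(X_vR_v)^{1/2}u_v(X_vR_v)^{1/2}.
   H(x)=x-log(1+x), g=H'=x/(1+x).   POTENTIAL  Pot = Sum_v Int_0^oo t^{1/2} tr H(X_v(t)) dt.
1. NODE INEQUALITY  |T| <= m Int_0^oo t^{1/2} Sum_v |Z_v(t)|_2^2 dt.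
   Proof. T(t):=tr(U0 A U1 B U2 C). T(oo)=T. T(0+)=0 since |R_0A|=t^{a/2}|R_0X_0^{1/2}K|<=t^{a/2}/2. R_0' =
t^{-1}R_0W_0R_0, W_0=aA^A^*+cC^*C^ = X_0^{1/2}Q'X_0^{1/2}, 0<=Q'<=m. T' = six terms; the first is
t^{1/2}tr(R_0W_0R_0u_0R_0 A^ U_1 B^U_2C^) and, with A^=X_0^{1/2}K, B^=K'X_2^{1/2}, C^=X_2^{1/2}K''
(contractions K,K',K''):
      R_0W_0R_0u_0R_0A^ = (R_0X_0^{1/2}Q'R_0^{1/2}) Z_0 R_0^{1/2}K,  |R_0X_0^{1/2}Q'R_0^{1/2}|<=m/2;  
B^U_2C^ = K'R_2^{1/2}Z_2R_2^{1/2}K'';  |U_1|<=1.
   So it is <= t^{1/2}(m/2)|Z_0|_2|Z_2|_2. The six terms give every pair {v,v'} twice: |T'|<= t^{1/2}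
(m/2)*2*(|Z0||Z1|+|Z1||Z2|+|Z2||Z0|) <= m t^{1/2} Sum|Z_v|_2^2.  QED
2. LOG-DET GAP. tr H(A+B)-tr H(A)-tr H(B) = -log det(1-g(A)^{1/2}g(B)g(A)^{1/2}) >= tr g(A)g(B)  (because
(1+A)^{-1}(1+A+B)(1+B)^{-1}=1-g(A)g(B)). With B=uXu:  D_v(t):=tr H(X_v+u_vX_vu_v)-2tr H(X_v) >= |Z_v(t)|_2^2.
[Same claim with x^2/(1+x) instead of H is FALSE numerically; log det is needed.]
3. DRIFT / THEOREM. XOR node, 4 children (i0,i1,i2), i0+i1+i2=0 (or =1): mean over children of X_0^q at fixed
i0 is Y_{i0}=2(X_0)_{i0i0}, so by convexity E_q tr H(X_0^q) >= (1/2)Sum_{i0} tr H(2(X_0)_{i0i0}) = (1/2)tr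
H(X_0+uX_0u) = tr H(X_0)+D_0(t)/2. Hence E_qPot_q-Pot_p >= (1/2)Int t^{1/2}Sum D_v >= |T_p|/(2m):
**Sum_p|p||T_p| <= 2m Pot_leaf**. Leaf: tr H(M+N)<=2trH(M)+2trH(N) (H convex, H(2x)<=4H(x)), Int
t^{1/2}H(t^{-a}y^2)dt = kap_p |y|^p, kap_p=(p/3)Int tau^{-1-p/2}H(tau)dtau < oo iff 2<p<4 (~1/(p-2), 1/(4-p)
at the ends). So Pot <= 4(kap_p|A|_p^p+kap_q|B|_q^q+kap_r|C|_r^r) at leaves, labels allowed (any bi-labelled
matrices), constants al_A al_B al_C=1 inserted freely: Sum|T_p| <= C_{p,q,r}|A|_p|B|_q|C|_r.
4. (SM), GENERAL PRINCIPLE. Let Pot_p(letters) be convex functions, Pot_q (children) with Hessian <= L in the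
normalised L2 norm, D:=E_qPot_q-Pot_p>=0 everywhere. Then D is a NONNEGATIVE function with Hessian <= L
(Pot_p convex), hence |grad D|^2 <= 2LD, i.e. E_q|grad Pot_q-grad Pot_p|^2 <= 2L Drift (FULL increment, every
splitting, every letter at once). That is all. (For R072 this reproves 246's (1).)
   Here: tr H(X_0)=tr h(|Xi|), Xi=[A^,C^*] (row), h(s)=s^2-log(1+s^2) even, convex, 0<=h''<=9/4 and h''(s)<=6
s^2: so it is a convex function of (A,C) with Hessian <= (9/4) t^{-a} in A. Near small operators the Hessian
is <= C t^{-a}min(1,K_t), K_t:=max over children, v=0,1, |X_v^q(t)|_op, and the gradient step Xi-grad/L stays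
in |Xi|_op <= C K_t^{1/2} (|grad|_op<=C K_t^{1/2}min(1,K_t)), so |grad_A D_t|^2 <= C t^{-a}min(1,K_t) D_t.
Cauchy-Schwarz in t:
      **E_q|grad_A Pot_q-grad_A Pot_p|^2 <= C L_A Drift_p, L_A = Int_0^oo t^{1/2-a}min(1,K_t)dt <=
C(|A|_op^{p-2}+|B|_op^{q(p-2)/p}+|C|_op^{r(p-2)/p})** (max over children; finite because a<3/2 and 2a, a+b,
a+c > 3/2). With constants: extra factor al_A^2. For p=2+ this is al_A^2 s^{-small}.
5. SMOOTH VERSION (for the a-priori bound of 2370 (3)): restrict the t-integral to [s^{K}, s^{-K}]. Errors: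
|T(t_0)|<=t_0^{3/2}Sum|Z_v(t_0)||Z_v'(t_0)|, whose sum over all nodes is <= C t_0^{3/2-a}|A|_2^2+.. =
s^{cK}-small (a<3/2), and Int_{t_1}^oo is <= C t_1^{3/2-2b}|B|_4^4+.. small. The truncated potential is a
real-analytic (rational resolvent) function of the letters with all derivatives <= s^{-CK}: no regularised
roots needed, predictable parts are second order by Taylor.
6. CONSEQUENCES. (i) item 2 of 2456 is closed; T(X_2,J*c) static and drift/(SM) for r_0 x r_1 at (2+,4-,4-):
al_A=s^{1/4}, al_B=al_C=s^{-1/8}: Pot <= C s^{1/2-}(|c|^2+1), Hess_A <= C s^{1/2-}. So 246's data-free-letter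
regress has its exponents; what is left in it is only the written a-priori bound. (ii) NOT given: pointwise
(L1-variation) gradient bound at A-exponent<3: false in general for A|A|^{p-2} (bounded kernel f(x0-x1),
f=M^{-1/2}Sum_{S}e(xi x) off 0, |S|=M random: value M^{(3-p)/2} at x0=x1), only on small sets; a maximal
version over n is 473's question and stays OPEN.
Lean size of 1-3 over LogDet_378: ~500 lines; 4: ~150.


=== DOC 2464  (R079, helper236, 2026-11-17 04:23) ATT helper236: CHAINING OVER JUMP SIZES: captured letter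
J*c_p against static X_2 closed (stopping identity + L1-principle + log(1/s) pieces), S_2 and the regress not
needed; only P24 left in one-gauge TF; negative facts on P24

ATT helper236 (R079): CHAINING OVER JUMP SIZES. A captured letter J*c_p (l2-variation only) against a STATIC
X_2 is as good as a static one up to log(1/s). Hence S_2 and the data-free regress are not needed: one-gauge
TF = 2397 (residual) + this + the labelled potential. Plus: what cannot work for P24. (I am ordered to
U4/R136 now; callable.)
Setting 2214 (0) / 2397: fixed (x0,x1) one binary tree, M_q=M+aDM, A_q=A+aDA, c_p=(M_p+tau)^{-1}A_p,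
|c_p|^2<=1/(4tau).
(1) STOPPING IDENTITY. J_c(M,A)=2Re<A,c>-<c,(M+tau)c> is a martingale for fixed c, F=sup_c
J_c=<A,(M+tau)^{-1}A> in [0,1], F-J_c=<c-c*,(M+tau)(c-c*)>. So for ANY stopping times p<=sigma:  E
F_sigma-F_p = E<c_sigma-c_p,(M_sigma+tau)(c_sigma-c_p)> >= tau E|c_sigma-c_p|^2. (No martingale property of c
is needed; drifts of c are harmless.)
(2) DISCRETISATION. c^d := greedy: keep the old value until |c-c^d|>d, then c^d:=c. |c-c^d|<=d always, E
#jumps <= 1/(tau d^2), E L1-variation Var(c^d)=E Sum|jumps| <= 1/(tau d). At fixed x_3 this is an adapted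
moving letter c^d_n(x0,x1;x3) (the path of I_2 is determined by x0,x1,x3).
(3) L1-PRINCIPLE WITH LABELS (834 Lemma 1; 828's message 19979: op-norm of the diagonal block, no loss
s^{-1/2}): fixed x_3, vertices (x1,i),(x0,j),x2, edge letters A=e_{ij}(x0,x1)X_2(x0,x1) (X_2 static,
bounded!), B=f_0 conj u_i, C=f_1 conj u'_j. A letter e with |e|_H<=R and L1-variation V costs <= C(al^2 Lam
R(R+V)+al^{-2}om): Sum|T_p| <= C (Lam R(R+V) om)^{1/2}, om = static smallness of B,C in the exponents used.
(4) CHAINING. c_p=c^1+Sum_{k<K}(c^{2^-(k+1)}-c^{2^-k})+rest. Piece k: R<=2^{1-k}, V<=3*2^{k+1}/tau, so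
R(R+V)<=C/tau FOR EVERY k: each piece costs C(Lam om/tau)^{1/2}. Rest, |e_p|<=2^-K: Sum|E sig<DM_p e_p,DB_p>|
<= 2^-K (Sum E|DM_p|_HS^2)^{1/2} Lam^{1/2} <= 2^-K s^{-1-}Lam (tr M<=s^-2), so K=C log(1/s). TOTAL:
**Sum_p|T_p(f_0,f_1,X_2,J*c_p)| <= C log(1/s)(Lam om/tau)^{1/2}, absolute values, any node signs, N-free.**
With 2397 (3) (residual X_3-J*c_p closed): T(X_2,X_3)=T(X_2,X_3-J*c_p)+T(X_2,J*c_p) is closed; X_2 is never
captured, so S_2 never appears. Same proof for MAX-Z (2397 (5)) and for every capture scheme with bounded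
increments of a functional F that has the exact form F-J_c >= tau|c-c*|^2 (e.g. MIX 2214 (4): c in L2(lam t
(x) x0,x3;H), if the static factorisation exists).
 General moral: letters moving with bounded l2-variation IN A NORM IN WHICH THE POTENTIAL HAS A POINTWISE
BOUNDED GRADIENT are free (log loss). Please check whether this repairs the chaining gap 2234 (6) (moving rho
paid by potential of rho needs exactly such a norm) and 1/eta windows elsewhere.
(5) SIZES: at exponents (3,3,3) (Lean) om=|B|_3^3.. closes when s^{-1}Om_leaf<=s^c (828), borderline for one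
nice letter, so P24 is the only remaining input of one-gauge TF.
(6) P24, NEGATIVE: test node A=a h_0h_1^T, B=b 1h_2^T, C=c 11^T, T=abc. For vertex potentials tr phi_v(al^2..
+ ..) (phi convex) the drift is ~ min(a^2,c^2)phi_0'(max)+min(a^2,b^2)phi_1'(max)+min(b^2,c^2)phi_2'(max).
b=c->0 at fixed a forces phi_0'(a^2)+phi_1'(a^2)>=c a for ALL a: so no choice of powers per vertex
(g_0,g_1,g_2 with Sum 1/g_v=2), nor truncations phi=(x-l)_+, beats 3/2; letter-dependent powers
tr(AA*+(C*C)^y)^g fail too (b=c<<a: drift b^{2y}<<ab^2). If vertex powers (g,g,g_2) were allowed,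
vertex-dependent weights (only the products al_{A,0}al_{A,1} matter) would give
|A|_{2g}|B|_{2g}^{1/2}|B|_{2g_2}^{1/2}|C|.., i.e. (2+,4-,4-) after splitting the STATIC B, C by leaf singular
values. So (2+,4-,4-) needs a genuinely different functional (joint in A and |B|,|C|: wanted alignment gain
a*min(a,c^2), like tr(|A*| C*C) for a>=c^2), or a lower-rank treatment of A: for globally rank-one static A
one has the much better (1,infty,infty). Is (2+,4-,4-) true for leaf-rank-one A and leaf-unitary d x d B, C
(claim sum <= d^{1/2+}; (3,3,3) gives d^{2/3})? A counterexample would be as useful as a proof.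


=== DOC 2466  (R079, helper185, 2026-11-17 04:26) ATT helper185: *** S_2 / MOVING CAPTURED LETTER CLOSED
(N-free, complete, 3 steps): labelled L1-variation principle with OPERATOR-norm row bound + dyadic chaining
(sup x Var = O(1)); one-gauge TF for static frames complete

ATT helper185 #1 (R079; for 251, 834, 246, 234, 236, 909, 258, 437, lead): *** THE MOVING CAPTURED LETTER IS
CLOSED, N-free, no S_2, no reward, no parity problem (3 short steps). Hence one-gauge TF for static frames is
COMPLETE with 251's 2397 (1)-(3). Please check line by line.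

SETTING (2214 (0), 2397). f_0(1;23)=<u^1(2),U^1(3)>, f_1(0;23)=<u'^0(2),U'^0(3)>, w(2)=u^1(2)(x)u'^0(2),
v=U(x)U', M_p=E_{I2}ww*, N_p=E_{I3}vv* <=Lam at all boxes, A_p=E_{I2}X_3w, B_p=E_{I3}X_2v,
c_p=(M_p+tau)^{-1}A_p in H=H_1(x)H_0 (functions of (x0,x1)), J*c=<w(2),c(0,1)>. s' := sup_{x1,I2}|E_{2 in
I2}u^1u^1*|_op and the same for u' (s'=s^{1-}). For fixed x3: B((x1,i),x2)=f_0 u^1_i(2),
C((x0,j),x2)=f_1u'^0_j(2), beta:=E_3(|B|_{S3}^3+|C|_{S3}^3) on the LEAF boxes (<= s^{1/2-} in the
non-collided case, 2370 (5)).

STEP 1 (LABELLED L1-VARIATION PRINCIPLE; 834's 19800 (d) is too pessimistic). For ANY moving letter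
A_p(0,1;3) in H (matrix (i,j), may depend on node, on all digits of x0,x1 and on x3) with |A_p|_HS<=R
pointwise and Var=E_{013} Sum_{p on path of (0,1,3)} |A_q-A_p|_HS:
   Sum_p E_3|T_p^{(3)}(A_p,B,C)| <= C [ t^3R^3 + t^{-3/2}beta + t^2 (t^2R^2+t^{-1}s')^{1/2} R Var ]   for
every t>0.
 Proof. X_1=t^2AA*+t^{-1}BB* on L2(I_1)(x)l2(i), X_0=t^2A*A+t^{-1}CC*, X_2=t^{-1}(B*B+C*C), Phi=Sum_v tr
X_v^{3/2}; |T_p|<=C D_p (R072 node inequality (3,3,3), in Lean). Telescope with moving A; Phi is CONVEX in A
(=|[tA,t^{-1/2}B]|_{S3}^3 etc.), so the price of a change at child q is <= |<grad Phi_q(A_p),A_q-A_p>|.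
grad=3t^2(X_1^{1/2}A+AX_0^{1/2}), and POINTWISE in (x0,x1) (HS norm over the labels i,j):
     |[X_1^{1/2}A](x1,x0)|_HS <= |row_{x1}X_1^{1/2}|_op * |A(.,x0)|_HS = |X_1(x1,x1)|_{op on H_1}^{1/2} *
(E_{x1'}|A(x1',x0)|_HS^2)^{1/2} <= (t^2R^2+t^{-1}s')^{1/2} R,
   because row row* = the diagonal block X_1(x1,x1)=t^2E_0AA*(x1,x0)+t^{-1}E_2|f_0|^2u^1(2)u^1(2)* and
|XY|_HS<=|X|_op|Y|_HS: the OPERATOR norm of the diagonal block is enough (the HS norm sits on A), not its
trace. So no s^{-1/2}.  []
   (Corollary = 251's (MAX-Z) in L1 form: E_{013}sup_n|M_n^eps v(3)| <= C s^{1/3-}.)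

STEP 2 (c_p MOVES IN l2, BUT EVERY DYADIC SIZE COSTS THE SAME: sup x Var = O(1)). For fixed (0,1)
J_p=<A_p,(M_p+tau)^{-1}A_p> is a submartingale in [0,1], and for EVERY stopping time T>=p (not only
children): E_p J_T - J_p = E_p|c_T-c_p|^2_{M_T+tau} >= tau E_p|c_T-c_p|^2 (for static c the bracket
2Re<A,c>-<c,(M+tau)c> is a martingale, and the sup is quadratic; the drift of c is included for free). Let
c^{(j)} = value of c at the last stopping time of the sequence T_{k+1}=first node with |c-c_{T_k}|>delta_j,
delta_j=2^{-j}tau^{-1/2} (for each (x0,x1) separately, along its own tree). So |c_p-c^{(j)}_p|<=delta_j at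
ALL nodes and E#{k}<=1/(tau delta_j^2). u^{(j)}=c^{(j+1)}-c^{(j)}: |u|<=2delta_j, Var<=20/(tau delta_j),
hence R*Var<=40/tau FOR EVERY j. Step 1 with A=X_2(0,1,3)u^{(j)}_p(0,1):
     Sum_p|T_p(f_0,f_1,X_2,J*u^{(j)}_p)| <= C tau^{-5/2}[ t^3+t^{3/2}s'^{1/2}+t^{-3/2}beta ] <= C
tau^{-5/2}(beta^{2/3}+beta^{1/3}s'^{1/2})  (t^{3/2}=beta^{1/3}),
   uniformly in j: small births are NOT more expensive (gradient is proportional to the size of the letter).
c^{(0)} is static. Rest |c-c^{(J)}|<=delta_J=s^{10}: Sum_p|Esigma<DM_p rem_p,DB_p>|<=delta_J (Sum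
E|DM|_HS^2)^{1/2}Lam^{1/2}<=s^{8}. J=O(log 1/s). Hence, X_2 arbitrary, all node signs, all N:
     (S)  Sum_p |T_p(f_0,f_1,X_2,J*c_p)| <= C tau^{-5/2} s^{1/3-} log(1/s).
STEP 3. Residual (251): Sum_p|T_p(f_0,f_1,X_2,X_3-J*c_p)|<=(E_B^0+tau Lam)^{1/2}, E_B^0<=Y_leaf+2(nu
Lam)^{1/2}. With tau=s^{1/20}: Sum_p|T_p(f_0,f_1,X_2,X_3)|<=s^{c} for ARBITRARY bounded static X_2,X_3.   [no
S_2, no c~_p, no data-free letters, no alignment dichotomy]

GENERAL PRINCIPLE (use it elsewhere, e.g. chaining gap 2234 (6) / 19898 (e)): in R072 with two static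
matrices B,C a bounded letter with E#{delta-moves}<=V^2/delta^2 for all delta (every optimiser of a strictly
concave capture, every martingale) costs only log x (same gain as static). For exponents (2+,4-,4-) (needed
if only Oct<=s^{2+c} is known instead of non-collision) the same proof works as soon as the node inequality
is available (row bound with X^{p/2-1}).
WHAT REMAINS (as far as I see): general frames (Gram of u^1 not s'-bounded at lower boxes), and the chain TF
=> BBFinite.


=== DOC 2467  (R136, helper578, 2026-11-17 04:27) FARM v3: farm.py (leantar artifacts; R136, R116, R079, R072)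

#!/usr/bin/env python3
"""farm.py v3 (leantar artifacts; R136, R116, R079, R072)  -  shared build farm for R136 / R116 (everything
in Crest/Agent/R136, R116 and their closures).
Artifacts are byte-identical to lake's (olean, ilean, c, hash files, trace): after a sync 'lake build' /
'lake env lean' /
'lean-grade' see the modules as up to date. Stored as git blobs (branch origin/<builder>), indexed in table
fart by a key =
sha1(source + keys of i_mports); nothing is ever taken for a source you do not have.
  python3 farm.py sync [MOD..]    main -> working tree (own newer files kept), then download every published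
artifact of the
                                  closure of MODs (default: all files of R136 + R116). 1-3 minutes cold,
seconds warm.
  python3 farm.py get MOD..       the same without touching the sources in the working tree (nothing is
copied from main)
  python3 farm.py make MOD..      get + compile locally whatever is missing (3 parallel leans, without lake's
19 s overhead);
                                  what equals main is published for everybody. MOD = R136/Foo_12 or
Crest.Agent.R136.Foo_12
  python3 farm.py worker [N]      idle boxes: follow main, claim, compile (N parallel leans, default 3),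
publish. Runs for ever.
  python3 farm.py broken          modules of main that do not compile, with the error
"""
i_mport sys,os,json,subprocess,hashlib,threading,time,tempfile,shutil,re,random,array,io,tarfile,gzip
sys.setrecursionlimit(100000)
ROOT='/workdir/crest'; OUTL=ROOT+'/outputs/live'; BL=ROOT+'/.lake/build'; OL=BL+'/lib/lean'; IR=BL+'/ir'
ART='/tmp/fart2'; LEAN='/opt/elan/toolchains/v4.33.1/bin/lean'
M='/opt/mathlib4'
LP=':'.join([f'{M}/.lake/packages/{p}/.lake/build/lib/lean' for p in
['Cli','batteries','Qq','aesop','proofwidgets','i_mportGraph','LeanSearchClient','plausible']]+[M+'/.lake/buil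
d/lib/lean',OL])
DIRS=os.environ.get('FDIRS','R136,R116,R079,R072').split(',')
SX=['S0187','S0155','S0106']
TABLE='fart2'; VER=3
LT='/opt/elan/toolchains/v4.33.1/bin/leantar'
# ---------------- lake hashes
MASK=(1<<64)-1; MU=0xc6a4a7935bd1e995; NIL=1723
def hash_bytes(b,seed=11):
    n=len(b); h=(seed^((n*MU)&MASK))&MASK
    a=array.array('Q'); a.frombytes(b[:n-(n&7)])
    for k in a:
        k=(k*MU)&MASK
        k^=k>>47
        h=((h^((k*MU)&MASK))*MU)&MASK
    t=n&7
    if t: h=((h^int.from_bytes(b[n-t:],'little'))*MU)&MASK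
    h^=h>>47; h=(h*MU)&MASK; h^=h>>47
    return h
def mix(h,k):
    k=(k*MU)&MASK; k^=k>>47; k^=MU
    return ((h^k)*MU)&MASK
def of_bytes(b): return mix(NIL,hash_bytes(b))
def fold(l):
    h=NIL
    for x in l: h=mix(h,x)
    return h
def namehash(m):
    h=NIL
    for s in m.split('.'): h=mix(h,hash_bytes(s.encode()))
    return mix(NIL,h)
EXTRA=mix(NIL,NIL); LIBS=fold([NIL]*4); LEANH=0x0051240b7c23c453
OPTL=[("-Dbackward.isDefEq.respectTransparency.types=false","50ec4fbc30c3cdd9"),("-DsynthInstance.maxHeartbeat
s=400000","a1bd62561ce97def"),("-DmaxHeartbeats=4000000","25921114450be9fb"),("-DautoImplicit=false","4a85acb8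
81fd49d0")]
OPTH=fold([int(x[1],16) for x in OPTL]); ISM=0xfeefd2a0d3a1847e; PKG=0xde01c9bc7f5de384
ML=json.loads('''{"Mathlib": ["842f10f1590e1c9c", "414d8c59726bb571"], "Mathlib.Tactic": ["b5e480d0eb05f717",
"965668704fa6dcd5"], "Mathlib.Data.List.Basic": ["41bad6185124720f", "e2e1a639ff87a38a"],
"Mathlib.Order.WellFounded": ["3b65b4634b66ded4", "4685557c0dd5caad"], "Mathlib.Tactic.Tauto":
["dbc2bfb16c0e8c46", "163331e3e6dabcc0"], "Mathlib.Logic.Basic": ["741c08f6b6c3342d", "d1e154ba006f19cb"],
"Mathlib.Data.List.Forall2": ["a5dfac5dbb82ab05", "31ed3c82364b7627"], "Mathlib.Data.Sigma.Basic":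
["a2fd6a6c9ecf5a6c", "3950117b0f3e440f"], "Mathlib.Data.Nat.Find": ["a2989b7cc04dd188", "771f07310eac1fc3"],
"Mathlib.Data.Nat.Pairing": ["6a750ebc221f2f8e", "29489f5bc4724c8f"], "Mathlib.Data.Countable.Basic":
["c0079a315641365c", "7178f3638a66f0c1"], "Mathlib.Tactic.Common": ["bd7af5c421e2d13d", "f7e72e1b3dc35938"],
"Mathlib.Logic.Relation": ["3c35aed1d7320bdd", "f83adeaa46eaf1dd"], "Mathlib.Data.Sum.Basic":
["70bd130292431e32", "28657c964995a0ef"], "Mathlib.Logic.Denumerable": ["4b4bb50b8dd1bec9",
"f8d34b6a9329d12f"], "Mathlib.Data.Nat.Notation": ["09457479ecc3c84d", "1a9ce0fe5e447054"],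
"Mathlib.Tactic.Basic": ["d824e352296d4e7c", "ca9bf75c7eb7488f"],
"Mathlib.Analysis.Complex.PhragmenLindelof": ["8022c2e25285c40c", "54c661bfb825014f"],
"Mathlib.Analysis.Calculus.ContDiff.Basic": ["6fcb609f703082c4", "a353bf0ee9de56f9"],
"Mathlib.Analysis.InnerProductSpace.PiL2": ["f35d3ad6221d1f84", "39a4e376fdaea627"],
"Mathlib.Analysis.SpecialFunctions.Complex.Circle": ["c03aaa9c8543f19a", "fd9c9f526fa2237d"],
"Mathlib.MeasureTheory.Measure.Haar.OfBasis": ["031f2bef3dc378d3", "3ce4067ce5ece08a"],
"Mathlib.MeasureTheory.Measure.Haar.InnerProductSpace": ["303dcdd8b50a81a9", "a4774577ea1e94a3"],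
"Mathlib.MeasureTheory.Constructions.HaarToSphere": ["7896beca673e70c7", "c598ede437a0b914"],
"Mathlib.MeasureTheory.Integral.Prod": ["3c695461bfdb9498", "2ee34a8ad7aea43d"],
"Mathlib.Analysis.Real.Pi.Bounds": ["fd1a3a100b3d5b04", "46bd67aecf63fa71"],
"Mathlib.Analysis.Calculus.LineDeriv.IntegrationByParts": ["99904d4406d5206e", "a9e184287e8a76f7"],
"Mathlib.MeasureTheory.Measure.Lebesgue.VolumeOfBalls": ["b1a76146386f7029", "9d5d1d39f667592a"],
"Mathlib.Analysis.Calculus.MeanValue": ["02548ca3802f6105", "e1762ba73ded8b31"],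
"Mathlib.Analysis.InnerProductSpace.Calculus": ["fd954c94442d3355", "e30b48ed27416dce"],
"Mathlib.MeasureTheory.Covering.Besicovitch": ["0730cd4b0947c1f5", "da82fa0e2de373f2"],
"Mathlib.Analysis.SpecificLimits.Basic": ["11cb573e27942824", "bb9bdf6d879ed339"]}''')
MLF=os.path.expanduser('~/.farm_ml.json')
try: ML.update(json.load(OPEN(MLF)))
except Exception: pass
CORE=('Init','Lean','Std','Lake')
# ---------------- sql
def sql(q,tries=5):
    err=''
    for i in range(tries):
        r=subprocess.run(['team-sql','--json',q],capture_output=True,text=True)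
        try:
            d=json.loads(r.stdout)
            if d.get('ok'): return d['results']
            err=str(d)[:300]
        except Exception as e: err=(r.stdout+r.stderr)[:300]
        time.sleep(2+3*i)
    log('SQL FAIL',err); return None
def rows(q):
    r=sql(q)
    if r is None: return None
    out=[]
    for x in r:
        if x.get('columns'): out+=x['rows']
    return out
def log(*a): print(time.strftime('%H:%M:%S'),*a,flush=True)
# ---------------- sources
def src(m,base=ROOT): return base+'/'+m.replace('.','/')+'.lean'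
def olp(m): return OL+'/'+m.replace('.','/')
def irp(m): return IR+'/'+m.replace('.','/')
scache={}
def parse(m,base=ROOT):
    """(bytes, [i_mports in order]) or None if the file does not exist"""
    p=src(m,base)
    try: s=os.stat(p)
    except OSError: return None
    k=(p,s.st_mtime_ns,s.st_size)
    c=scache.get(p)
    if c and c[0]==k: return c[1]
    with OPEN(p,'rb') as f: b=f.read()
    t=b.decode('utf8','replace')
    # strip leading comments, collect the i_mport header
    imps=[];i=0;n=len(t)
    while True: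
        while i<n and t[i].isspace(): i+=1
        if t.startswith('/ -',i):
            d=1;i+=2
            while i<n and d>0:
                if t.startswith('/ -',i): d+=1;i+=2
                elif t.startswith('- /',i): d-=1;i+=2
                else: i+=1
            continue
        if t.startswith('--',i):
            j=t.find('\n',i); i=n if j<0 else j
            continue
        mm=re.compile(r'i_mport\s+([^\s]+)').match(t,i)
        if mm: imps.append(mm.group(1)); i=mm.end(); continue
        break
    r=(b,imps,hashlib.sha1(b).hexdigest()); scache[p]=(k,r)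
    return r
class Graph:
    def __init__(s,mods,base=ROOT):
        s.imp={};s.key={};s.miss={};s.order=[];s.base=base
        for m in mods: s.load(m)
    def load(s,m):
        if m in s.imp: return
        p=parse(m,s.base)
        if p is None:
            s.imp[m]=[];s.miss[m]=m;s.key[m]=None;return
        s.imp[m]=[];deps=[]
        for x in p[1]:
            if x.startswith('Crest.Agent.') and x not in deps: deps.append(x)
        s.key[m]=None
        for x in deps: s.load(x)
        s.imp[m]=deps
        for x in deps: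
            if x in s.miss: s.miss[m]=s.miss[x]
        if m not in s.miss and all(s.key[x] for x in deps):
            h=hashlib.sha1(p[0])
            for x in sorted(deps): h.update(s.key[x].encode())
            s.key[m]=h.hexdigest()
        elif m not in s.miss: s.miss[m]='cycle'
        s.order.append(m)
    def closure(s,ms):
        out=[];seen=set()
        def go(m):
            if m in seen: return
            seen.add(m)
            for x in s.imp[m]: go(x)
            out.append(m)
        for m in ms: go(m)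
        return out
# ---------------- lake validity
SHF=os.path.expanduser('~/.farm_sh.json')
try: SH=json.load(OPEN(SHF))
except Exception: SH={}
shn=[len(SH)]
def srchash(m):
    p=parse(m); k=p[2]
    if k not in SH: SH[k]='%016x'%of_bytes(p[0].replace(b'\r\n',b'\n'))
    return int(SH[k],16)
def savesh():
    if len(SH)!=shn[0]:
        try:
            with OPEN(SHF+'.t','w') as f: json.dump(SH,f)
            os.replace(SHF+'.t',SHF); shn[0]=len(SH)
        except Exception: pass
def mlpair(x):
    if x in ML: return int(ML[x][0],16),int(ML[x][1],16)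
    # ask lake once
    t='Crest/Agent/ZfarmTmp.lean'
    with gl_ml:
        if x in ML: return int(ML[x][0],16),int(ML[x][1],16)
        log('lake hash of',x)
        with OPEN(ROOT+'/'+t,'w') as f: f.write('i_mport %s\n'%x)
        subprocess.run(['lake','build','Crest.Agent.ZfarmTmp'],cwd=ROOT,capture_output=True,env=dict(os.enviro
n,LEAN_NUM_THREADS='4'))
        try:
            dd=json.load(OPEN(OL+'/Crest/Agent/ZfarmTmp.trace'))
            im=dict(map(tuple,dict(map(tuple,dd['inputs']))['deps']))['i_mports']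
            for i in range(0,len(im),2): ML[im[i][0].split(' ')[0]]=[im[i][1],im[i+1][1]]
            json.dump(ML,OPEN(MLF,'w'))
        finally:
            for p in (ROOT+'/'+t,OL+'/Crest/Agent/ZfarmTmp.trace'):
                try: os.remove(p)
                except OSError: pass
        return int(ML[x][0],16),int(ML[x][1],16)
gl_ml=threading.Lock()
def oleanhash(m):
    p=olp(m)+'.olean'
    try: return int(OPEN(p+'.hash').read().strip(),16)
    except Exception:
        h=of_bytes(OPEN(p,'rb').read())
        return h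
class Val:
    """validity of what is on disk, in lake's sense"""
    def __init__(s): s.ihc={}; s.v={}
    def ih(s,m):
        if m in s.ihc: return s.ihc[m]
        h=NIL
        for x in parse(m)[1]:
            if x.split('.')[0] in CORE: continue
            if x.startswith('Crest.'): l=s.ih(x); a=mix(NIL,oleanhash(x))
            else: l,a=mlpair(x)
            h=mix(mix(h,l),a)
        s.ihc[m]=h
        return h
    def dephash(s,m):
        return fold([fold([EXTRA,s.ih(m)]),LIBS,LEANH,srchash(m),OPTH,ISM,namehash(m),PKG,NIL])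
    def valid(s,m):
        if m in s.v: return s.v[m]
        s.v[m]=False
        r=False
        try:
            p=parse(m)
            if p and all(s.valid(x) for x in p[1] if x.startswith('Crest.Agent.')):
                o=olp(m)
                if os.path.exists(o+'.olean') and os.path.exists(o+'.trace'):
                    t=OPEN(o+'.trace').read()
                    i=t.rfind('"depHash"')
                    mm=re.search(r'"([0-9a-f]{16})"',t[i+9:]) if i>=0 else None
                    if mm:
                        oh=OPEN(o+'.olean.hash').read().strip()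
                        if oh+'.olean' in t and int(mm.group(1),16)==s.dephash(m): r=True
        except Exception as e: r=False
        s.v[m]=r
        return r
    def drop(s,m): s.v.pop(m,None); s.ihc.pop(m,None)
def tracetext(m,V,oh,ih_,ch,msgs=''):
    I=[]
    for x in parse(m)[1]:
        if x.split('.')[0] in CORE: continue
        if x.startswith('Crest.'): l=V.ih(x); a=mix(NIL,oleanhash(x))
        else: l,a=mlpair(x)
        I.append([x+' transitive i_mports (legacy)','%016x'%l]); I.append([x+':i_mportAllArts','%016x'%a])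
    d={"synthetic":False,"schemaVersion":"2025-09-10","outputs":{"o":["%016x.olean"%oh],"m":False,"i":"%016x.i
lean"%ih_,"c":"%016x.c"%ch},
       "log":[],"inputs":[["deps",[["crest/Crest:extraDep",[["@crest:extraDep","00000000000006bb"]]],["i_mport
s",I]]],
       ["libs",[["i_mport dynlibs","00000000000006bb"],["package e_xternal
libraries","00000000000006bb"],["MODULE dynlibs","00000000000006bb"],["MODULE plugins","00000000000006bb"]]],
       ["Lean 4.33.1, commit 819816b2e0a3bf405af45ae5c7af2491d8f5bee6","0051240b7c23c453"],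
       [src(m),"%016x"%srchash(m)],["options",[[a,b] for a,b in OPTL]],["isModule: false","feefd2a0d3a1847e"],
       ["Module.name: "+m,"%016x"%namehash(m)],["Package.id?: (some
crest)","de01c9bc7f5de384"],["Module.leanArgs: #[]","00000000000006bb"]],
       "depHash":"%016x"%V.dephash(m)}
    return json.dumps(d)
# ---------------- compile
def compile(m,g,V,timeout=2400,threads='3'):
    """returns (ok,secs,text); ok None = source changed"""
    p=olp(m);q=irp(m)
    os.makedirs(os.path.dirname(p),exist_ok=True);os.makedirs(os.path.dirname(q),exist_ok=True)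
    k=g.key[m]; t0=time.time()
    sf=q+'.fsetup.json'
    with OPEN(sf,'w') as f:
        json.dump({"plugins":[],"package":"crest","options":{"synthInstance.maxHeartbeats":400000,"maxHeartbea
ts":4000000,"backward.isDefEq.respectTransparency.types":False,"autoImplicit":False},"name":m,"isModule":False
,"i_mportArts":{},"dynlibs":[]},f)
    env=dict(os.environ); env['LEAN_PATH']=LP; env['LEAN_NUM_THREADS']=threads
    try:
        r=subprocess.run([LEAN,src(m),'-o',p+'.olean.fm','-i',p+'.ilean.fm','-c',q+'.c.fm','--setup',sf],captu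
re_output=True,text=True,errors='replace',env=env,cwd=ROOT,timeout=timeout)
    except subprocess.TimeoutExpired:
        return False,int(time.time()-t0),'TIMEOUT %d s'%timeout
    dt=int(time.time()-t0)
    if r.returncode!=0: return False,dt,(r.stdout+r.stderr) or 'no output, rc=%s (killed?)'%r.returncode
    b=parse(m)
    h=hashlib.sha1(b[0])
    for x in sorted(g.imp[m]): h.update(g.key[x].encode())
    if h.hexdigest()!=k: return None,dt,'source changed meanwhile'
    hs={}
    for ext,pp in (('olean',p),('ilean',p),('c',q)):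
        hs[ext]=of_bytes(OPEN(pp+'.'+ext+'.fm','rb').read())
    for x in (p+'.trace',):
        try: os.remove(x)
        except OSError: pass
    for ext,pp in (('olean',p),('ilean',p),('c',q)):
        os.replace(pp+'.'+ext+'.fm',pp+'.'+ext)
        with OPEN(pp+'.'+ext+'.hash','w') as f: f.write('%016x'%hs[ext])
    V.drop(m)
    t=tracetext(m,V,hs['olean'],hs['ilean'],hs['c'])
    with OPEN(p+'.trace.t','w') as f: f.write(t)
    os.replace(p+'.trace.t',p+'.trace')
    V.drop(m)
    return True,dt,r.stdout
# ---------------- store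
gl=threading.Lock()
def git(*a,**k): return subprocess.run(['git','-C',ART]+list(a),capture_output=True,**k)
ME=None
def initart():
    url=subprocess.run(['git','-C',OUTL,'remote','get-url','origin'],capture_output=True,text=True).stdout.str
ip()
    if not os.path.exists(ART+'/.git/ok'):
        shutil.rmtree(ART,ignore_errors=True); os.makedirs(ART)
        git('init','-q'); git('remote','add','origin',url)
        for a,b in (('gc.auto','0'),('user.name',ME),('user.email',ME+'@x'),('core.repositoryformatversion','1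
'),('extensions.p_artialclone','origin'),('remote.origin.promisor','true'),('remote.origin.p_artialclonefilter
','blob:none'),('http.postbuffer','536870912')):
            git('config',a,b)
        r=git('ls-remote','origin','refs/heads/'+ME)
        if r.stdout.strip():
            r=git('fetch','-q','--no-tags','--depth=1','--filter=blob:none','origin','refs/heads/'+ME)
            if r.returncode==0:
                git('update-ref','HEAD','FETCH_HEAD'); git('read-tree','HEAD')
        OPEN(ART+'/.git/ok','w').write('1')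
    git('remote','set-url','origin',url)
def pack(m):
    x=m.replace('.','/')
    fd,t=tempfile.mkstemp(suffix='.ltar',dir='/tmp'); os.close(fd)
    try:
        r=subprocess.run([LT,'-C',OL,'-C',IR,t,x+'.trace','-i','0',x+'.olean','-i','0',x+'.ilean','-i','1',x+'
.c'],capture_output=True)
        if r.returncode!=0: raise Exception('leantar '+r.stderr.decode()[-200:])
        return OPEN(t,'rb').read()
    finally: os.remove(t)
def push(ms):
    """publish valid modules; returns {m:(oid,size)}"""
    res={}
    with gl: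
        for m in ms:
            try: b=pack(m)
            except Exception as e: log('pack',m,e); continue
            r=git('hash-object','-w','--stdin',input=b)
            oid=r.stdout.decode().strip()
            git('update-index','--add','--cacheinfo','100644,%s,f/%s.ltar'%(oid,m))
            res[m]=(oid,len(b))
        if not res: return {}
        t=git('write-tree','--missing-ok').stdout.decode().strip()
        par=git('rev-parse','-q','--verify','HEAD').stdout.decode().strip()
        a=['commit-tree',t,'-m','fart '+' '.join(res)]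
        if par: a+=['-p',par]
        c=git(*a).stdout.decode().strip()
        if not c: log('commit-tree failed'); return {}
        for i in range(5):
            r=git('-c','push.negotiate=false','push','-q','origin','%s:refs/heads/%s'%(c,ME))
            if r.returncode==0:
                git('update-ref','HEAD',c); return res
            e=r.stderr.decode('utf8','replace')[-300:]
            log('push fail',e)
            if 'fetch first' in e or 'non-fast-forward' in e:
                # take the remote head as the parent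
                git('fetch','-q','--no-tags','--depth=1','--filter=blob:none','origin','refs/heads/'+ME)
                fh=git('rev-parse','FETCH_HEAD').stdout.decode().strip()
                if fh:
                    git('read-tree',fh)
                    for m,(oid,_) in res.items():
git('update-index','--add','--cacheinfo','100644,%s,f/%s.ltar'%(oid,m))
                    t=git('write-tree','--missing-ok').stdout.decode().strip()
                    c=git('commit-tree',t,'-m','fart '+' '.join(res),'-p',fh).stdout.decode().strip()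
            time.sleep(2+3*i+random.random()*3)
        return {}
def unpack(blobs,V):
    """blobs: {MODULE: bytes}"""
    d=tempfile.mkdtemp(dir='/tmp'); n=0
    try:
        names=[]
        for i,(m,x) in enumerate(blobs.items()):
            if (m.replace('.','/')+'.trace').encode() not in x[:400]: log('bad ltar',m); continue
            p=d+'/%d.ltar'%i
            with OPEN(p,'wb') as f: f.write(x)
            names.append((m,p))
            os.makedirs(os.path.dirname(olp(m)),exist_ok=True);
os.makedirs(os.path.dirname(irp(m)),exist_ok=True)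
            for y in (olp(m)+'.trace',olp(m)+'.olean.hash',olp(m)+'.ilean.hash',irp(m)+'.c.hash'):
                try: os.remove(y)
                except OSError: pass
        r=subprocess.run([LT,'-f','-C',OL,'-C',IR,'-x','-'],input=('\n'.join(p for m,p in
names)+'\n').encode(),capture_output=True)
        if r.returncode!=0: log('leantar',r.stderr.decode('utf8','replace')[-300:])
        for m,p in names:
            try:
                t=json.load(OPEN(olp(m)+'.trace')); o=t['outputs']
                for k,f in (('o',olp(m)+'.olean'),('i',olp(m)+'.ilean'),('c',irp(m)+'.c')):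
                    v=o[k][0] if isinstance(o[k],list) else o[k]
                    with OPEN(f+'.hash','w') as ff: ff.write(v.split('.')[0])
                n+=1
            except Exception as e: log('unpack',m,repr(e))
            V.drop(m)
    finally: shutil.rmtree(d,ignore_errors=True)
    return n
def fetch(need,V):
    """need: {MODULE: oid}; extracts; returns number"""
    if not need: return 0
    n=0
    items=list(need.items())
    with gl:
        for i in range(0,len(items),100):
            part=items[i:i+100]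
            miss=[o for m,o in part]
            for k in range(4):
                r=git('-c','fetch.negotiationAlgorithm=noop','fetch','-q','origin','--no-tags','--no-write-fet
ch-head','--recurse-submodules=no','--filter=blob:none','--stdin',input=('\n'.join(miss)+'\n').encode())
                if r.returncode==0: break
                log('fetch fail',r.stderr.decode('utf8','replace')[-200:]);
time.sleep(3+3*k+random.random()*3)
            bl={}
            for m,o in part:
                r=git('cat-file','blob',o)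
                if r.returncode!=0 or len(r.stdout)<100: log('no blob',m); continue
                bl[m]=r.stdout
            n+=unpack(bl,V)
            if len(items)>100: log('fetched',min(i+100,len(items)),'of',len(items))
    return n
class Store:
    def __init__(s): s.d={}; s.last=None
    def poll(s):
        q="SELECT key,status,owner,oid,extract(epoch from now()-updated)::int,tries,extract(epoch from now())
FROM %s"%TABLE
        if s.last: q+=" WHERE updated>to_timestamp(%f)-interval '15 seconds'"%s.last
        r=rows(q)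
        if r is None: return False
        now=time.time()
        for x in r: s.d[x[0]]=(x[1],x[2],x[3],now-int(float(x[4])),int(x[5] or 0))
        if r: s.last=float(r[0][6])
        return True
    def done(s,k): return k in s.d and s.d[k][0]=='done'
def norm(x):
    x=x.strip()
    if x.endswith('.lean'): x=x[:-5]
    x=x.replace('/','.')
    i=x.find('Crest.Agent.')
    if i>=0: return x[i:]
    return 'Crest.Agent.'+x
def ffmain():
    subprocess.run('cd %s && git fetch -q && git merge --ff-only origin/main
-q'%OUTL,shell=True,stdout=subprocess.DEVNULL,stderr=subprocess.DEVNULL)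
def sinks(base=OUTL):
    r=[]
    for d in DIRS:
        p=base+'/Crest/Agent/'+d
        if os.path.isdir(p): r+=['Crest.Agent.%s.%s'%(d,f[:-5]) for f in os.listdir(p) if f.endswith('.lean')]
    if base==OUTL: r+=['Crest.Agent.'+x for x in SX if os.path.exists(base+'/Crest/Agent/%s.lean'%x)]
    return sorted(r)
def copymain(mods):
    """copy changed files of the closure of mods from outputs/live to the working tree; own newer files are
kept"""
    g=Graph(mods,OUTL); ch=[]; kept=[]
    NUM=re.sub(r'\D','',ME)
    for m in g.order: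
        a=src(m,OUTL);b=src(m)
        if parse(m,OUTL) is None: continue
        pb=parse(m)
        if pb is not None and pb[2]==parse(m,OUTL)[2]: continue
        if pb is not None and NUM and m.endswith('_'+NUM) and os.path.getmtime(b)>os.path.getmtime(a):
kept.append(m); continue
        os.makedirs(os.path.dirname(b),exist_ok=True); shutil.copy2(a,b+'.ft'); os.replace(b+'.ft',b);
ch.append(m)
    return ch,kept
def get(mods,copy,V=None,st=None):
    V=V or Val(); st=st or Store()
    if copy:
        ffmain(); ch,kept=copymain(mods); log('copied from main:',len(ch),'own newer files kept:',kept[:5])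
    g=Graph([m for m in mods if parse(m) is not None])
    if not st.poll(): return g,V,st
    cl=g.order
    left=[m for m in cl if not V.valid(m)]
    need={m:st.d[g.key[m]][2] for m in left if g.key[m] and st.done(g.key[m])}
    log('closure',len(cl),'valid on disk',len(cl)-len(left),'downloading',len(need))
    fetch(need,V)
    V.v.clear(); V.ihc.clear()
    left=[m for m in cl if not V.valid(m)]
    log('valid now',len(cl)-len(left),'missing',len(left),' (missing i_mports: %d)'%sum(1 for m in cl if m in
g.miss))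
    savesh()
    return g,V,st
def publish(ms,g,V,st):
    ms=[m for m in ms if g.key[m] and V.valid(m) and not st.done(g.key[m])]
    i=0;tot=0
    while i<len(ms):
        part=[];sz=0
        while i<len(ms) and len(part)<40 and sz<60e6:
            try: sz+=os.path.getsize(olp(ms[i])+'.olean')
            except OSError: pass
            part.append(ms[i]); i+=1
        v=','.join("('%s','%s','claimed',current_seat(),now())"%(g.key[m],m) for m in part)
        r=rows("INSERT INTO %s(key,MODULE,status,owner,updated) VALUES %s ON CONFLICT(key) DO UPDATE SET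
status='claimed',owner=current_seat(),updated=now() WHERE %s.status<>'done' AND NOT (%s.status='claimed' AND
%s.owner<>current_seat() AND %s.updated>now()-interval '3 minutes') RETURNING
key"%(TABLE,v,TABLE,TABLE,TABLE,TABLE))
        got={x[0] for x in (r or [])}
        part=[m for m in part if g.key[m] in got]
        if not part: continue
        res=push(part)
        for m,(oid,size) in res.items():
            sql("UPDATE %s SET status='done',owner=current_seat(),oid='%s',bytes=%d,updated=now() WHERE
key='%s'"%(TABLE,oid,size,g.key[m]))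
            st.d[g.key[m]]=('done',ME,oid,time.time(),0); tot+=1
        for m in part:
            if m not in res: sql("UPDATE %s SET status='OPEN',owner=NULL,updated=now() WHERE
key='%s'"%(TABLE,g.key[m]))
        if tot: log('published',tot,'/',len(ms))
    return tot
def make(mods,n=3):
    g,V,st=get(mods,False)
    todo=[m for m in g.order if not V.valid(m)]
    for m in todo:
        if m in g.miss: log('MISSING I_MPORT',g.miss[m],'in closure of',m)
    todo=[m for m in todo if m not in g.miss]
    log('to compile here:',len(todo),todo[:8])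
    done=set(m for m in g.order if V.valid(m)); running=set(); fail=set(); cv=threading.Condition(); built=[]
    def run(m):
        try: ok,dt,out=compile(m,g,V,timeout=7200)
        except Exception as e: ok,dt,out=False,0,repr(e)
        with cv:
            running.discard(m)
            if ok: done.add(m); built.append(m); log('built',m,dt,'s')
            else: fail.add(m); log('FAIL',m,out[-6000:])
            if ok and m in mods and out.strip(): print(out[:6000],flush=True)
            cv.notify_all()
    while True: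
        with cv:
            ready=[m for m in todo if m not in done and m not in running and m not in fail and all(x in done
for x in g.imp[m])]
            if not ready and not running: break
            if ready and len(running)<n:
                m=ready[0]; running.add(m); threading.Thread(target=run,args=(m,),daemon=True).start()
            else: cv.wait(2)
    V.v.clear(); V.ihc.clear(); savesh()
    pub=[m for m in built if parse(m,OUTL) is not None and parse(m,OUTL)[2]==parse(m)[2]]
    publish(pub,g,V,st)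
    log('done; built',len(built),'failed:',sorted(fail))
    return 1 if fail else 0
def worker(n):
    V=Val(); st=Store(); busy={}; lock=threading.Lock()
    NUM=re.sub(r'\D','',ME)
    hist={}
    state={'g':None,'pr':{},'sinks':[]}
    def refresh():
        ffmain(); sk=sinks(); state['sinks']=sk
        ch,kept=copymain(sk)
        g=Graph([m for m in sk if parse(m) is not None])
        V.v.clear(); V.ihc.clear()
        users={m:[] for m in g.imp}
        for m in g.imp:
            for x in g.imp[m]: users[x].append(m)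
        def w(m):
            if m in hist: return hist[m]
            p=parse(m); return 5+len(p[0])/1500 if p else 1
        pr={}
        for m in reversed(g.order): pr[m]=w(m)+max([pr[u] for u in users[m] if u in pr] or [0])
        state['g']=g; state['pr']=pr
        savesh()
        return ch
    def rhist():
        for x in (rows("SELECT MODULE,max(secs) FROM %s WHERE secs IS NOT NULL GROUP BY MODULE"%TABLE) or
[]): hist[x[0]]=int(float(x[1]))
    def runone(m,g):
        k=g.key[m]
        try: ok,dt,out=compile(m,g,V)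
        except Exception as e: ok,dt,out=False,0,repr(e)
        if ok:
            res=push([m])
            if m in res:
                oid,size=res[m]
                sql("UPDATE %s SET status='done',owner=current_seat(),oid='%s',bytes=%d,secs=%d,err=NULL,updat
ed=now() WHERE key='%s'"%(TABLE,oid,size,dt,k))
                st.d[k]=('done',ME,oid,time.time(),0)
                log('built',m,dt,'s')
            else:
                sql("UPDATE %s SET status='OPEN',owner=NULL,updated=now() WHERE key='%s'"%(TABLE,k));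
log('built but not pushed',m)
        elif ok is None:
            sql("UPDATE %s SET status='OPEN',owner=NULL,updated=now() WHERE key='%s'"%(TABLE,k));
log('changed',m)
        else:
            e=re.sub(r"[\x00-\x08\x0b-\x1f]",' ',out[-1800:] if 'error' not in out else
out[max(0,out.find('error')-200):][:1800]).replace("$","S")
            log('FAIL',m,e[:600])
            sql("UPDATE %s SET status='fail',owner=current_seat(),tries=coalesce(tries,0)+1,err=$e$%s$e$,secs=
%d,updated=now() WHERE key='%s'"%(TABLE,e,dt,k))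
        with lock: busy.pop(m,None)
    rhist(); ch=refresh(); last=time.time(); lastpub=0; idle=time.time(); lh=time.time()
    g=state['g']; log('closure',len(g.order),'changed',len(ch),'missing i_mports',len(g.miss))
    failed_here={}
    hb=0
    while True:
        if time.time()-hb>60:
            hb=time.time()
            r=rows("INSERT INTO fhb(seat,ver,t0,updated) VALUES(current_seat(),%d,now(),now()) ON
CONFLICT(seat) DO UPDATE SET updated=now(),ver=%d; SELECT ver,doc,maxw,(SELECT count(*) FROM fhb a, fhb b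
WHERE b.seat=current_seat() AND a.updated>now()-interval '3 minutes' AND a.t0<b.t0) FROM fcfg"%(VER,VER))
            if r:
                ver,doc,maxw,rank=[int(x) for x in r[-1]]
                if ver>VER:
                    with lock: nb=len(busy)
                    if nb==0:
                        log('self update to',ver)
                        d=rows("SELECT body FROM docs WHERE id=%d"%doc)
                        if d and len(d[0][0])>5000:
                            with OPEN('/tmp/farm.py','w') as f: f.write(d[0][0])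
                            os.execv(sys.executable,[sys.executable,'/tmp/farm.py']+sys.argv[1:])
                    else: time.sleep(5); hb=0; continue
                if rank>=maxw:
                    with lock: nb=len(busy)
                    if nb==0: log('standby (rank %d)'%rank); time.sleep(60); hb=0; last=0; continue
        if time.time()-last>45 :
            if time.time()-lh>600: rhist(); lh=time.time()
            ch=refresh(); last=time.time(); g=state['g']
            if ch: log('main moved: changed',len(ch),'closure',len(g.order))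
        if not st.poll(): time.sleep(10); continue
        def done(m): return st.done(g.key[m]) or V.valid(m)
        left=[m for m in g.order if m not in g.miss and not st.done(g.key[m])]
        loc=[m for m in left if m not in busy and V.valid(m)]
        if loc and time.time()-lastpub>30:
            random.shuffle(loc) if len(loc)>200 else None
            publish(loc[:60],g,V,st); lastpub=time.time() if len(loc)<=60 else 0
            continue
        with lock: free=n-len(busy)
        cands=[]
        if free>0: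
            for m in sorted(left,key=lambda x:-state['pr'].get(x,0)):
                if m in busy or V.valid(m): continue
                s=st.d.get(g.key[m])
                if s:
                    age=time.time()-s[3]
                    if s[0]=='claimed' and s[1]!=ME and age<(120+3*hist.get(m,200)): continue
                    if s[0]=='fail' and (s[4]>=2 or s[1]==ME): continue
                if all(done(x) for x in g.imp[m]): cands.append(m)
                if len(cands)>=free+12: break
        got=[]
        if cands: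
            if len(cands)>free:
                off=random.randrange(0,len(cands)-free+1); sel=cands[off:off+free]
            else: sel=cands
            v=','.join("('%s','%s','claimed',current_seat(),now())"%(g.key[m],m) for m in sel)
            r=rows("INSERT INTO %s(key,MODULE,status,owner,updated) VALUES %s ON CONFLICT(key) DO UPDATE SET
status='claimed',owner=current_seat(),updated=now() WHERE %s.status='OPEN' OR (%s.status='claimed' AND
(%s.owner=current_seat() OR %s.updated<now()-interval '400 seconds')) OR (%s.status='fail' AND %s.tries<2 AND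
%s.owner<>current_seat()) RETURNING key"%((TABLE,v)+(TABLE,)*7))
            gk={x[0] for x in (r or [])}
            got=[m for m in sel if g.key[m] in gk]
            for m in sel:
                if g.key[m] not in gk and m not in busy:
st.d.setdefault(g.key[m],('claimed','?',None,time.time(),0))
        if got:
            need={}
            for x in g.closure(got):
                if x in got: continue
                if not V.valid(x) and st.done(g.key[x]): need[x]=st.d[g.key[x]][2]
            if need:
                fetch(need,V); V.v.clear(); V.ihc.clear()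
            for m in got:
                if V.valid(m): publish([m],g,V,st); continue
                miss=[x for x in g.closure([m]) if x!=m and not V.valid(x)]
                if miss:
                    log('missing deps for',m,miss[:3]); sql("UPDATE %s SET
status='OPEN',owner=NULL,updated=now() WHERE key='%s'"%(TABLE,g.key[m]))
                    failed_here[m]=failed_here.get(m,0)+1
                    continue
                with lock: busy[m]=g.key[m]
                threading.Thread(target=runone,args=(m,g),daemon=True).start()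
            idle=time.time()
        else:
            if time.time()-idle>600: log('idle; done',sum(1 for m in g.order if g.key[m] and
st.done(g.key[m])),'of',len(g.order)); idle=time.time()
            time.sleep(5+random.random()*4)
def broken():
    ffmain(); g=Graph(sinks(OUTL),OUTL)
    r=rows("SELECT key,MODULE,owner,err,tries FROM %s WHERE status='fail'"%TABLE) or []
    cur={g.key[m]:m for m in g.order if g.key[m]}
    for x in r:
        if x[0] in cur: print('-----',cur[x[0]],'(tries %s, by %s)'%(x[4],x[2])); print((x[3] or '')[:1200])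
    for m in g.order:
        if m in g.miss and g.miss[m] not in ('cycle',): print('MISSING I_MPORT',g.miss[m],'<-',m)
def status():
    ffmain(); g=Graph(sinks(OUTL),OUTL); st=Store(); st.poll()
    from collections i_mport Counter
    c=Counter()
    for m in g.order: c[st.d.get(g.key[m],('none',))[0] if g.key[m] else 'missing i_mport']+=1
    print(dict(c));
    print(rows("SELECT count(distinct owner) FROM %s WHERE updated>now()-interval '10 minutes'"%TABLE))
if __name__=='__main__':
    if len(sys.argv)<2: print(__doc__); sys.exit(0)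
    c=sys.argv[1]
    ME=rows("select current_seat()")[0][0]
    if c in('broken','status'): globals()[c](); sys.exit(0)
    initart()
    if c=='worker': worker(int(sys.argv[2]) if len(sys.argv)>2 else 3)
    elif c=='sync': get([norm(x) for x in sys.argv[2:]] or sinks(),True)
    elif c=='get': get([norm(x) for x in sys.argv[2:]] or sinks(ROOT),False)
    elif c=='make': sys.exit(make([norm(x) for x in sys.argv[2:]]))
    else: print(__doc__)


=== DOC 2468  (R079, helper259, 2026-11-17 04:29) *** helper259 notes #6: CORE R079 (one-gauge TF, 2458)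
CLOSED on paper: T(X_2,J*c_p) small for every X_2 by 473's chain + labelled L1 principle at borderline
(3,3,3) with TWO-SIDED GREEDY EXTRACTION OF LABELS (complete proof, referees wanted)

helper259 notes #6. CORE R079 (one-gauge TF = doc 2458) closed on paper under (h1)-(h3), N-free, with the
(3,3,3) node inequality only. Uses: (P1)-(P3) of 2458, 473's jump chain (19997), operator-norm gradient bound
(828 19979, 912 19987, also mine). NEW = section 2 (two-sided greedy extraction of labels). kappa = tiny
constant covering all 's^-'; every s^{-kappa} below may be s^{-C kappa}.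

0. NOTATION. Fix x3 (everything holds for each fixed x3, average at the end). Nodes q=(I0,I1,I2), 4 children
(h0h1h2 = h3(x3)). Kernels: A(x0,x1) in C^{D1 x D0} (operator L2(I0) x C^{D0} -> L2(I1) x C^{D1}),
B[(x1,i);x2]=f_0 conj u_i, C[(x0,j);x2]=f_1 conj u'_j, normalised measures. T_q(A,B,C)=E_{I0I1I2} h0h1h2
Sum_ij A_ij B_i C_j. al be ga=1; X_0=al^2 A*A+ga^2 CC*, X_1=al^2 AA*+be^2 BB*, X_2=be^2 B*B+ga^2 C*C,
Phi_q=Sum_v tr X_v^{3/2}.
 (N) node inequality |T_q(A,B,C)| <= C_0 (E_{q' child} Phi_q'(A,B,C) - Phi_q(A,B,C))   (R072, labels are just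
part of the vertex spaces).
 FACTS on B (from (h1),(h3); C the same), sg:=s^{1-kappa}: (i) |E_{I2} B(x1)B(x1)*|_op <= sg for every x1,
I2; (ii) |B|_op <= sg^{1/2} on every box; (iii) E_leaf |B|_{S3}^3 <= (E|B|_2^2)^{1/2}(E|B|_4^4)^{1/2} <=
s^{-kappa}.
 TELESCOPING: for a letter A_q depending on the node, Sum_q |q||T_q(A_q,B,C)| <= C_0 ( E_leaf Phi(A_leaf) +
Sum_{q'} |q'| |Phi_q'(A_q)-Phi_q'(A_q')| ).
 GRADIENT: |A(x0,x1)|_HS <= rho and both diagonal blocks |E_{x1 in I1} A*A(x0)|_op, |E_{x0 in I0} AA*(x1)|_op
<= th^2. Then d Phi = 3 al^2 Re E <(A X_0^{1/2}+X_1^{1/2} A)(x0,x1), dA(x0,x1)>, (A X_0^{1/2})(x0,x1)=R K,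
R=row x1 of A (|R|_HS<=rho, |R|_op<=th), K=X_0^{1/2} iota_{x0}, |K|_op=|X_0(x0,x0)|_op^{1/2} <= al th+ga
sg^{1/2}; same for the other term. So
   (G1) |dPhi| <= 6 al^2 rho (al th + (be+ga) sg^{1/2}) E|dA|_HS;
   (G2) if dA(x0,x1) has rank one: |dPhi| <= 6 al^2 th (al th + (be+ga) sg^{1/2}) E|dA|.
 (|<RK,dA>| <= |R|_op|K|_op|dA|_{S1}.)
 Also (O): |A|_op <= th:  |E<g(x1),A h(x0)>| <= E|g(x1)||A h(x0)| <= |g| (E_0 <h,E_1 A*A h>)^{1/2} <=
th|g||h|.

1. CHAIN (473). c_p=(M_p+tau)^{-1}A_p, |c_p|<=(4tau)^{-1/2}, Sum_k E|c_{T_{k+1}}-c_{T_k}|^2 <= 1/tau for all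
stopping times. c = c^big + Sum_{j>=1} e_j + err, c^big = c frozen between its rho_0-moves: variation <=
1/(rho_0 tau); |e_j| <= 3 rho_j, rho_j=2^{-j}rho_0, variation <= C/(rho_j tau); err<=s^10 harmless. SMALL
PARTS: A=e_j X_2 in (G1) with th=rho=3rho_j: total <= C[al^3 rho_j^3 + (be^3+ga^3)s^{-kappa} + al^2(al
rho_j+(be+ga)sg^{1/2})/tau]. With be=ga=s^kappa, al=s^{-2kappa}, tau=s^{2kappa}, rho_0=s^{12kappa}: <= C
s^{2kappa} for each of the log(1/s) levels. REMAINS: letter A_q=(4tau)^{1/2} c^big_q X_2, |A|_HS<=1,
L1-variation V<=2/(rho_0 tau^{1/2}) <= s^{-14kappa}.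

2. EXTRACTION LEMMA. Let |A_q(x0,x1)|_HS<=1, V=E Sum|A_q'-A_q|_HS, 0<delta<1. There are projections P_q(x0)
on C^{D0} (x0 in I0), Q_q(x1) on C^{D1} (x1 in I1), increasing down the tree, such that A'_q:=Q_q^perp A_q
P_q^perp has both block norms <= delta at every node q (th^2=delta), E[rk P_leaf(x0)+rk Q_leaf(x1)] <=
(1+2V)/delta, and A'_q -> A'_q' (q' child) is a finite number of RANK-ONE removals through letters with block
norms <= 2delta, of total size (sum over the whole tree) <= 2(1+2V)delta^{-1/2}, followed by ONE straight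
segment of length <= E|A_q'-A_q| through letters with block norms <= 2delta.
 PROOF. At the child q' start with (P,Q)=(P_q,Q_q). While A~:=Q^perp A_q' P^perp has a block of norm >delta,
say at x0: add its top eigenvector zeta to P(x0) (or to Q(x1) for a row). Ledger E|A~|_HS^2: start <=1,
natural steps add <= 2|A_q'-A_q|, each selection subtracts E_{x1 in I1}|A~ zeta|^2 > delta at x0. So
E#selections <= (1+2V)/delta. Removals: run the same selections on A~old:=Q^perp A_q P^perp; its blocks on q'
are <= 2delta (half boxes) and compressions do not increase them; removal of zeta changes it by the rank-one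
kernel (A~old zeta)zeta*; the ledger E|A~old|^2 drops by E|A~old zeta|^2, so Sum E|A~old zeta|^2 <= 1+2V and
by Cauchy-Schwarz with #selections Sum E|A~old zeta| <= (1+2V)delta^{-1/2}. Finally straight segment Q^perp
A_q P^perp -> Q^perp A_q' P^perp: blocks <= 2delta by convexity of the norm (E_{x1}A*A)^{1/2}_op. QED

3. THE THREE PARTS of A_q = A'_q + A_q P_q + Q_q A_q P_q^perp (w.r.t. T_q(.,B,C)).
 (a) A': be=ga=s^kappa, al=s^{-2kappa}: leaf budget al^3|A'|_3^3 <= al^3|A'|_op <= al^3 delta^{1/2} by (O),
plus 2s^{3kappa}s^{-kappa}; natural moves (G1): 6al^2(al(2delta)^{1/2}+2s^kappa sg^{1/2})V; removals (G2):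
6al^2(2delta)^{1/2}(al(2delta)^{1/2}+..) * 2(1+2V)delta^{-1/2}. Total <= C(s^{2kappa}+al^3 delta^{1/2}(1+V))
<= C s^{2kappa} for delta=s^{60kappa}.
 (b) A P: the vectors zeta_1,zeta_2,.. selected above (x0,q) are orthonormal, P=Sum zeta_k zeta_k*. Put
A''[(x1,i),(x0,k)]=(A zeta_k)_i, C''[(x0,k),x2]=<label j of C contracted with zeta_k(x0)>:
T_q(A_qP_q,B,C)=T_q(A''_q,B,C''_q). |A''(x0,x1)|_HS<=1; |E_{I2}C''C''*(x0)|_op<=sg,
|C''|_op<=|C|_op<=sg^{1/2}, |C''|_HS^2 <= sg E rk P, so E_leaf|C''|_3^3 <= sg^{3/2}(1+2V)/delta. Movement of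
A'': <= V + Sum E|A zeta_k| <= V+(1+2V)delta^{-1/2} (ledger E|A P^perp|^2). Births of rows of C'' (number <=
(1+2V)/delta on average): dC''=e_k x row, |row|_{L2(I2)}<=sg^{1/2}, |dPhi| <= 3ga^2 sg^{1/2}[|X_0^{1/2}iota
e_k| |C''|_op + |row||X_2|_op^{1/2}] <= 3ga^2 sg[(al+ga sg^{1/2})+(be+ga)sg^{1/2}]. Take ga=s^{-1/4},
be=s^kappa, al=s^{1/4-kappa}: leaf: al^3 + s^{2kappa} + s^{-3/4}sg^{3/2}(1+2V)/delta; A''-moves (G1,
th=rho=1): s^{3/4-} x (..); births: s^{3/4-}/delta. All <= C s^{2kappa}.
 (c) Q A P^perp: mirror (label i absorbed into B''=<eta_k(x1),B>, C unchanged, be=s^{-1/4}, ga=s^kappa); its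
letter moves by V, by births and by P-removals, total <= V+2(1+2V)delta^{-1/2}; same numbers.
 Hence Sum_q|q||T_q(A_q,B,C)| <= C s^{2kappa} and Sum_p|p||T_p(f_0,f_1,X_2,J*c_p)| <= C log(1/s) s^{2kappa}
tau^{-1/2} <= C log(1/s) s^{kappa}, for EVERY |X_2|<=1.

4. CONCLUSION. T_p = E sig<r_p,DB_p> + T_p(f_0,f_1,X_2,J*c_p); the first sum is (P3). So V(f_0,f_1,X_2,X_3)
<= s^{c}, c = c(c0,kappa) > 0, for kappa small against c0 (P3 needs tau Lam small: tau=s^{2kappa},
Lam<=s^{-kappa}; nu=s^{c0-}). S_2 never appears. Non-smoothness of tr x^{3/2}: C^1 (A -> tr(A*A+Z)^{3/2} is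
C^1, gradient 3 A X^{1/2}), nothing else is used.
REMARKS. Where labels are critical: |B|_3^3 ~ 1 exactly (flat of rank s^-3, s.v. s). The gain comes only from
the moving letter: either its diagonal blocks are <= delta (then it is cheap AND |A'|_op<=delta^{1/2}), or a
label direction is fixed and is absorbed (then the leaf letter shrinks from HS^2 s^-1 to s). Selection jumps
are rank one, so they pay th*th and not th*rho: this beats the delta^{-1/2} of their variation.



-/
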