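import Crest.Agent.R079.OpLev_977

/-! R079 (helper393): `L¹`-small letters have small op-level at every node (Schur test on every cube):
`∑_{iv p} ‖f‖ ≤ A len p  ⟹  OLev κ k p f (128 A)` (540's 28030 (2): killer part `T`), and the tall part
`f 1_{|f| ≥ h}` of a letter of local `L²` average `≤ V`: level `≤ 128 V² / h`. -/

set_option autoImplicit false

namespace Crest.Agent.R079.OLevL393

open Finset Crest.Agent.R079.Grid Crest.Agent.R079.Glue Crest.Agent.R079.R244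
  Crest.Agent.R079.OpLev Crest.Agent.R079.Growth

theorem sl_inj' {a b : Fin 4} (h : sl a = sl b) : a = b := by
  revert h
  fin_cases a <;> fin_cases b <;> simp [sl]

/-- `ℓ¹` norm of `res p f` along an injective family -/
theorem res_l1 {n : ℕ} {p : ℕ × ℤ} {f : ℤ → ℂ} {M : ℝ} (hM : ∑ y ∈ dI (p.1 + 7) p.2, ‖f y‖ ≤ M)
    {g : Fin n → ℤ} (hg : Function.Injective g) : ∑ i, ‖res p f (g i)‖ ≤ M := by
  classical
  have h1 : ∑ i, ‖res p f (g i)‖ = ∑ y ∈ Finset.univ.image g, ‖res p f y‖ := by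
    rw [Finset.sum_image fun a _ b _ h => hg h]
  have h2 : ∑ y ∈ Finset.univ.image g, ‖res p f y‖ ≤
      ∑ y ∈ Finset.univ.image g ∪ dI (p.1 + 7) p.2, ‖res p f y‖ :=
    Finset.sum_le_sum_of_subset_of_nonneg Finset.subset_union_left fun _ _ _ => norm_nonneg _
  have h3 : ∑ y ∈ Finset.univ.image g ∪ dI (p.1 + 7) p.2, ‖res p f y‖ =
      ∑ y ∈ dI (p.1 + 7) p.2, ‖res p f y‖ := by
    symm
    refine Finset.sum_subset Finset.subset_union_right fun y _ hy => ?_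
    simp [res, hy]
  have h4 : ∑ y ∈ dI (p.1 + 7) p.2, ‖res p f y‖ = ∑ y ∈ dI (p.1 + 7) p.2, ‖f y‖ :=
    Finset.sum_congr rfl fun y hy => by simp [res, hy]
  rw [h1]
  refine h2.trans ?_
  rw [h3, h4]
  exact hM

/-- Schur test for one slice -/
theorem schur {n : ℕ} (K : Fin n → Fin n → ℝ) (hK : ∀ i j, 0 ≤ K i j) (M : ℝ)
    (hr : ∀ i, ∑ j, K i j ≤ M) (hc : ∀ j, ∑ i, K i j ≤ M) (u v : Fin n → ℝ) (S : ℝ)
    (hu : ∑ i, u i ^ 2 ≤ S) (hv : ∑ j, v j ^ 2 ≤ S) (hM : 0 ≤ M) :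
    ∑ i, ∑ j, K i j * u i * v j ≤ M * S := by
  have h1 : ∑ i, ∑ j, K i j * u i * v j ≤
      ∑ i, ∑ j, (K i j * (u i ^ 2 / 2) + K i j * (v j ^ 2 / 2)) := by
    refine Finset.sum_le_sum fun i _ => Finset.sum_le_sum fun j _ => ?_
    have := hK i j
    nlinarith [mul_nonneg this (sq_nonneg (u i - v j))]
  have h2 : ∑ i, ∑ j, K i j * (u i ^ 2 / 2) ≤ M * (S / 2) := by
    calc ∑ i, ∑ j, K i j * (u i ^ 2 / 2) = ∑ i, (∑ j, K i j) * (u i ^ 2 / 2) :=
          Finset.sum_congr rfl fun i _ => by rw [Finset.sum_mul]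
      _ ≤ ∑ i, M * (u i ^ 2 / 2) :=
          Finset.sum_le_sum fun i _ => mul_le_mul_of_nonneg_right (hr i) (by positivity)
      _ = M * ((∑ i, u i ^ 2) / 2) := by rw [← Finset.mul_sum, Finset.sum_div]
      _ ≤ M * (S / 2) := mul_le_mul_of_nonneg_left (by linarith) hM
  have h3 : ∑ i, ∑ j, K i j * (v j ^ 2 / 2) ≤ M * (S / 2) := by
    rw [Finset.sum_comm]
    calc ∑ j, ∑ i, K i j * (v j ^ 2 / 2) = ∑ j, (∑ i, K i j) * (v j ^ 2 / 2) :=
          Finset.sum_congr rfl fun j _ => by rw [Finset.sum_mul]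
      _ ≤ ∑ j, M * (v j ^ 2 / 2) :=
          Finset.sum_le_sum fun j _ => mul_le_mul_of_nonneg_right (hc j) (by positivity)
      _ = M * ((∑ j, v j ^ 2) / 2) := by rw [← Finset.mul_sum, Finset.sum_div]
      _ ≤ M * (S / 2) := mul_le_mul_of_nonneg_left (by linarith) hM
  have h4 : ∑ i, ∑ j, (K i j * (u i ^ 2 / 2) + K i j * (v j ^ 2 / 2)) =
      ∑ i, ∑ j, K i j * (u i ^ 2 / 2) + ∑ i, ∑ j, K i j * (v j ^ 2 / 2) := by
    rw [← Finset.sum_add_distrib]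
    exact Finset.sum_congr rfl fun i _ => Finset.sum_add_distrib
  linarith

/-- **`L¹`-small ⟹ small op-level** -/
theorem olev_L1 {κ : ℕ} {k : Fin 4} {p : ℕ × ℤ} {f : ℤ → ℂ} {A : ℝ} (hA : 0 ≤ A)
    (hf : ∑ y ∈ iv p, ‖f y‖ ≤ A * len p) : OLev κ k p f (128 * A) := by
  intro j e e' h1 h2 h3 h4 h5 h6 r hr n hn w q u m hm U V α hα hU hV hα2
  have hb : sl e - sl k ≠ 0 := sub_ne_zero.2 fun hh => h4 (sl_inj' hh).symm
  have hd : sl e' - sl k ≠ 0 := sub_ne_zero.2 fun hh => h5 (sl_inj' hh).symm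
  have hn0 : (0 : ℝ) ≤ n := Nat.cast_nonneg n
  set M : ℝ := A * len p with hM
  have hM0 : 0 ≤ M := mul_nonneg hA (by unfold len; positivity)
  set y : Fin n → Fin n → Fin n → ℤ := fun c i i' =>
    (sl j - sl k) * (w + ((c : ℕ) : ℤ)) + (sl e - sl k) * (q + ((i : ℕ) : ℤ)) +
            (sl e' - sl k) * (u + ((i' : ℕ) : ℤ)) with hy
  have hrow : ∀ c i, ∑ i', ‖res p f (y c i i')‖ ≤ M := by
    intro c i
    refine res_l1 hf (g := fun i' => y c i i') ?_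
    intro a b hab
    have h : (sl e' - sl k) * (u + ((a : ℕ) : ℤ)) = (sl e' - sl k) * (u + ((b : ℕ) : ℤ)) := by
      simp only [hy] at hab
      linarith
    have h' := mul_left_cancel₀ hd h
    exact Fin.ext (by omega)
  have hcol : ∀ c i', ∑ i, ‖res p f (y c i i')‖ ≤ M := by
    intro c i'
    refine res_l1 hf (g := fun i => y c i i') ?_
    intro a b hab
    have h : (sl e - sl k) * (q + ((a : ℕ) : ℤ)) = (sl e - sl k) * (q + ((b : ℕ) : ℤ)) := by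
      simp only [hy] at hab
      linarith
    have h' := mul_left_cancel₀ hb h
    exact Fin.ext (by omega)
  have hslice : ∀ c, ‖∑ i : Fin n, ∑ i' : Fin n,
      m (q + ((i : ℕ) : ℤ)) (u + ((i' : ℕ) : ℤ)) * res p f (y c i i') * U c i * V c i'‖ ≤
      M * (n * α c) := by
    intro c
    refine (norm_sum_le _ _).trans ?_
    have hstep : ∀ i : Fin n, ‖∑ i' : Fin n, m (q + ((i : ℕ) : ℤ)) (u + ((i' : ℕ) : ℤ)) *
        res p f (y c i i') * U c i * V c i'‖ ≤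
        ∑ i', ‖res p f (y c i i')‖ * ‖U c i‖ * ‖V c i'‖ := by
      intro i
      refine (norm_sum_le _ _).trans (Finset.sum_le_sum fun i' _ => ?_)
      rw [norm_mul, norm_mul, norm_mul]
      have := hm (q + ((i : ℕ) : ℤ)) (u + ((i' : ℕ) : ℤ))
      have h0 : 0 ≤ ‖res p f (y c i i')‖ * ‖U c i‖ * ‖V c i'‖ := by positivity
      nlinarith [mul_le_mul_of_nonneg_right this h0]
    refine (Finset.sum_le_sum fun i _ => hstep i).trans ?_
    exact schur (fun i i' => ‖res p f (y c i i')‖) (fun _ _ => norm_nonneg _) M (hrow c) (hcol c)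
      (fun i => ‖U c i‖) (fun i' => ‖V c i'‖) (n * α c) (hU c) (hV c) hM0
  have hsa : ∑ c, α c ≤ n := by
    have h : ∑ c, α c ≤ ∑ c : Fin n, (α c ^ 2 / 2 + 1 / 2) :=
      Finset.sum_le_sum fun c _ => by nlinarith [sq_nonneg (α c - 1)]
    rw [Finset.sum_add_distrib, ← Finset.sum_div] at h
    simp only [Finset.sum_const, Finset.card_univ, Fintype.card_fin, nsmul_eq_mul] at h
    linarith
  have hMn : M ≤ 128 * A * n := by
    have h7 : len p = 128 * (2 : ℝ) ^ p.1 := by unfold len; rw [pow_add]; ring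
    have h8 : (2 : ℝ) ^ p.1 ≤ n := by
      rw [hn]; push_cast
      exact pow_le_pow_right₀ (by norm_num) (by omega)
    rw [hM, h7]
    nlinarith [mul_le_mul_of_nonneg_left h8 hA]
  refine (norm_sum_le _ _).trans ?_
  refine (Finset.sum_le_sum fun c _ => hslice c).trans ?_
  rw [← Finset.mul_sum, ← Finset.mul_sum]
  calc M * (n * ∑ c, α c) ≤ M * (n * n) :=
        mul_le_mul_of_nonneg_left (mul_le_mul_of_nonneg_left hsa hn0) hM0
    _ ≤ 128 * A * n * (n * n) := mul_le_mul_of_nonneg_right hMn (by positivity)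
    _ = 128 * A * n ^ 3 := by ring

/-- **tall part**: `‖f‖ ≥ h` on the support, local `L²` average `≤ V` ⟹ level `≤ 128 V² / h` -/
theorem olev_tall {κ : ℕ} {k : Fin 4} {p : ℕ × ℤ} {f : ℤ → ℂ} {h V : ℝ} (hh : 0 < h)
    (hV : av p f ≤ V) (hV0 : 0 ≤ V) (hf : ∀ y ∈ iv p, f y ≠ 0 → h ≤ ‖f y‖) :
    OLev κ k p f (128 * (V ^ 2 / h)) := by
  refine olev_L1 (by positivity) ?_
  have h5 : (1 / 2 ^ (p.1 + 7) : ℝ) * ∑ y ∈ dI (p.1 + 7) p.2, ‖f y‖ ^ 2 ≤ V ^ 2 := by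
    have h6 : Real.sqrt ((1 / 2 ^ (p.1 + 7)) * ∑ y ∈ dI (p.1 + 7) p.2, ‖f y‖ ^ 2) ≤ V := hV
    rw [Real.sqrt_le_left hV0] at h6
    exact h6
  have h7 : ∑ y ∈ iv p, ‖f y‖ ^ 2 ≤ V ^ 2 * len p := by
    rw [one_div, inv_mul_le_iff₀ (by positivity)] at h5
    unfold iv len
    linarith
  have h8 : ∑ y ∈ iv p, ‖f y‖ ≤ (1 / h) * ∑ y ∈ iv p, ‖f y‖ ^ 2 := by
    rw [Finset.mul_sum]
    refine Finset.sum_le_sum fun y hy => ?_
    rcases eq_or_ne (f y) 0 with h0 | h0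
    · simp [h0]
    · have := hf y hy h0
      rw [one_div, le_inv_mul_iff₀ hh]
      nlinarith [norm_nonneg (f y)]
  refine h8.trans ?_
  calc (1 / h) * ∑ y ∈ iv p, ‖f y‖ ^ 2 ≤ (1 / h) * (V ^ 2 * len p) :=
        mul_le_mul_of_nonneg_left h7 (by positivity)
    _ = V ^ 2 / h * len p := by ring

end Crest.Agent.R079.OLevL393
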