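import Crest.Agent.R079.OneN_354
import Crest.Agent.R079.LfB_246

/-! R079, doc 2539 (6) L6 (helper354): NODE GAINS of Step II in the line model = `one_node`
(OneN_354) with the leaves of 246 (LfB_246) plugged in. -/

set_option autoImplicit false

namespace Crest.Agent.R079.OneG354

open Finset Crest.Agent.R079.Grid Crest.Agent.R079.Growth Crest.Agent.R079.OneN354
  Crest.Agent.R079.OpLev Crest.Agent.R079.R244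

/-- corners which make the box absolute -/
def pp (b x : ℤ) (N : ℕ) (j : Fin 4) : ℤ := (![x, 0, 0, b * N - x] : Fin 4 → ℤ) j

theorem sum_pp (b x : ℤ) (N : ℕ) (σ : Equiv.Perm (Fin 4)) :
    ∑ i, pp b x N (σ i) = b * N := by
  rw [Equiv.sum_comp σ (fun i => pp b x N i)]
  simp [Fin.sum_univ_four, pp]

theorem sum_sl_pp (b x : ℤ) (N : ℕ) (σ : Equiv.Perm (Fin 4)) :
    ∑ i, sl (σ i) * pp b x N (σ i) = x := by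
  rw [Equiv.sum_comp σ (fun i => sl i * pp b x N i)]
  simp [Fin.sum_univ_four, pp, sl]

/-- absolute form of the argument of a letter -/
theorem ag_abs (b x : ℤ) (N : ℕ) (σ : Equiv.Perm (Fin 4)) (r : Fin 4) (z : Fin 4 → ℤ) :
    ag b x N σ r z = ∑ i, (sl (σ i) - sl (σ r)) * (z i + pp b x N (σ i)) := by
  have h1 := sum_pp b x N σ
  have h2 := sum_sl_pp b x N σ
  have h3 : ∑ i, (sl (σ i) - sl (σ r)) * (z i + pp b x N (σ i)) =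
      ∑ i, (sl (σ i) - sl (σ r)) * z i + ∑ i, sl (σ i) * pp b x N (σ i) -
        sl (σ r) * ∑ i, pp b x N (σ i) := by
    rw [Finset.mul_sum, ← Finset.sum_add_distrib, ← Finset.sum_sub_distrib]
    refine Finset.sum_congr rfl fun i _ => ?_
    ring
  rw [h3, h1, h2]
  unfold ag
  ring

theorem ag0 (b x : ℤ) (N : ℕ) (σ : Equiv.Perm (Fin 4)) (x0 x1 x2 x3 : ℤ) :
    ag b x N σ 0 ![x0, x1, x2, x3] = (sl (σ 3) - sl (σ 0)) * (x3 + pp b x N (σ 3)) +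
      (sl (σ 2) - sl (σ 0)) * (x2 + pp b x N (σ 2)) +
      (sl (σ 1) - sl (σ 0)) * (x1 + pp b x N (σ 1)) := by
  rw [ag_abs]
  simp [Fin.sum_univ_four]
  ring

theorem ag2 (b x : ℤ) (N : ℕ) (σ : Equiv.Perm (Fin 4)) (x0 x1 x2 x3 : ℤ) :
    ag b x N σ 2 ![x0, x1, x2, x3] = (sl (σ 0) - sl (σ 2)) * (x0 + pp b x N (σ 0)) +
      (sl (σ 3) - sl (σ 2)) * (x3 + pp b x N (σ 3)) +
      (sl (σ 1) - sl (σ 2)) * (x1 + pp b x N (σ 1)) := by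
  rw [ag_abs]
  simp [Fin.sum_univ_four]
  ring

theorem ag3 (b x : ℤ) (N : ℕ) (σ : Equiv.Perm (Fin 4)) (x0 x1 x2 x3 : ℤ) :
    ag b x N σ 3 ![x0, x1, x2, x3] = (sl (σ 0) - sl (σ 3)) * (x0 + pp b x N (σ 0)) +
      (sl (σ 2) - sl (σ 3)) * (x2 + pp b x N (σ 2)) +
      (sl (σ 1) - sl (σ 3)) * (x1 + pp b x N (σ 1)) := by
  rw [ag_abs]
  simp [Fin.sum_univ_four]
  ring

theorem res_of_mem {m : ℕ} {l : ℤ} {f : ℤ → ℂ} {y : ℤ} (h : y ∈ iv (m, l)) :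
    res (m, l) f y = f y := by
  unfold res
  rw [if_pos]
  exact h

theorem norm_res_le {m : ℕ} {l : ℤ} {f : ℤ → ℂ} {H : ℝ} (hH : 0 ≤ H)
    (hf : ∀ y ∈ iv (m, l), ‖f y‖ ≤ H) (y : ℤ) : ‖res (m, l) f y‖ ≤ H := by
  unfold res
  split_ifs with h
  · exact hf y h
  · simpa using hH

theorem res_out {m : ℕ} {l : ℤ} {f : ℤ → ℂ} (y : ℤ) (h : y ∉ iv (m, l)) :
    res (m, l) f y = 0 := by
  unfold res
  rw [if_neg]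
  exact h

theorem sum_res (m : ℕ) (l : ℤ) (f : ℤ → ℂ) :
    ∑ y ∈ iv (m, l), ‖res (m, l) f y‖ ^ 2 = ∑ y ∈ iv (m, l), ‖f y‖ ^ 2 :=
  Finset.sum_congr rfl fun y hy => by rw [res_of_mem hy]

/-- the leaf quantity in `Fin n` variables with `res` letters -/
theorem leaf_fin (m : ℕ) (l b : ℤ) (hb : b = -1 ∨ b = -7) (F : Fin 4 → ℤ → ℂ)
    (σ : Equiv.Perm (Fin 4)) {x : ℤ} (hx : x ∈ adm m l) (s : Fin 4 → Fin 2) :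
    ∑ x0 ∈ Ico (cn (2 ^ m) s σ 0) (cn (2 ^ m) s σ 0 + (2 ^ m : ℕ)),
        ∑ x3 ∈ Ico (cn (2 ^ m) s σ 3) (cn (2 ^ m) s σ 3 + (2 ^ m : ℕ)),
        ∑ x2 ∈ Ico (cn (2 ^ m) s σ 2) (cn (2 ^ m) s σ 2 + (2 ^ m : ℕ)),
        ‖∑ x1 ∈ Ico (cn (2 ^ m) s σ 1) (cn (2 ^ m) s σ 1 + (2 ^ m : ℕ)),
          F (σ 0) (ag b x (2 ^ m) σ 0 ![x0, x1, x2, x3]) *
            F (σ 3) (ag b x (2 ^ m) σ 3 ![x0, x1, x2, x3]) *
            F (σ 2) (ag b x (2 ^ m) σ 2 ![x0, x1, x2, x3])‖ ^ 2 =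
    ∑ x0 : Fin (2 ^ m), ∑ x3 : Fin (2 ^ m), ∑ x2 : Fin (2 ^ m), ‖∑ x1 : Fin (2 ^ m),
      res (m, l) (F (σ 0)) (ag b x (2 ^ m) σ 0 ![((x0 : ℕ) : ℤ) + cn (2 ^ m) s σ 0,
        ((x1 : ℕ) : ℤ) + cn (2 ^ m) s σ 1, ((x2 : ℕ) : ℤ) + cn (2 ^ m) s σ 2,
        ((x3 : ℕ) : ℤ) + cn (2 ^ m) s σ 3]) *
      res (m, l) (F (σ 3)) (ag b x (2 ^ m) σ 3 ![((x0 : ℕ) : ℤ) + cn (2 ^ m) s σ 0,
        ((x1 : ℕ) : ℤ) + cn (2 ^ m) s σ 1, ((x2 : ℕ) : ℤ) + cn (2 ^ m) s σ 2,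
        ((x3 : ℕ) : ℤ) + cn (2 ^ m) s σ 3]) *
      res (m, l) (F (σ 2)) (ag b x (2 ^ m) σ 2 ![((x0 : ℕ) : ℤ) + cn (2 ^ m) s σ 0,
        ((x1 : ℕ) : ℤ) + cn (2 ^ m) s σ 1, ((x2 : ℕ) : ℤ) + cn (2 ^ m) s σ 2,
        ((x3 : ℕ) : ℤ) + cn (2 ^ m) s σ 3])‖ ^ 2 := by
  rw [← sum_fin_Ico (2 ^ m) (cn (2 ^ m) s σ 0) (fun x0 =>
    ∑ x3 ∈ Ico (cn (2 ^ m) s σ 3) (cn (2 ^ m) s σ 3 + (2 ^ m : ℕ)),
        ∑ x2 ∈ Ico (cn (2 ^ m) s σ 2) (cn (2 ^ m) s σ 2 + (2 ^ m : ℕ)),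
        ‖∑ x1 ∈ Ico (cn (2 ^ m) s σ 1) (cn (2 ^ m) s σ 1 + (2 ^ m : ℕ)),
          F (σ 0) (ag b x (2 ^ m) σ 0 ![x0, x1, x2, x3]) *
            F (σ 3) (ag b x (2 ^ m) σ 3 ![x0, x1, x2, x3]) *
            F (σ 2) (ag b x (2 ^ m) σ 2 ![x0, x1, x2, x3])‖ ^ 2)]
  refine Finset.sum_congr rfl fun x0 _ => ?_
  rw [← sum_fin_Ico (2 ^ m) (cn (2 ^ m) s σ 3) (fun x3 =>
        ∑ x2 ∈ Ico (cn (2 ^ m) s σ 2) (cn (2 ^ m) s σ 2 + (2 ^ m : ℕ)),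
        ‖∑ x1 ∈ Ico (cn (2 ^ m) s σ 1) (cn (2 ^ m) s σ 1 + (2 ^ m : ℕ)),
          F (σ 0) (ag b x (2 ^ m) σ 0 ![((x0 : ℕ) : ℤ) + cn (2 ^ m) s σ 0, x1, x2, x3]) *
            F (σ 3) (ag b x (2 ^ m) σ 3 ![((x0 : ℕ) : ℤ) + cn (2 ^ m) s σ 0, x1, x2, x3]) *
            F (σ 2) (ag b x (2 ^ m) σ 2 ![((x0 : ℕ) : ℤ) + cn (2 ^ m) s σ 0, x1, x2, x3])‖ ^ 2)]
  refine Finset.sum_congr rfl fun x3 _ => ?_
  rw [← sum_fin_Ico (2 ^ m) (cn (2 ^ m) s σ 2) (fun x2 =>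
        ‖∑ x1 ∈ Ico (cn (2 ^ m) s σ 1) (cn (2 ^ m) s σ 1 + (2 ^ m : ℕ)),
          F (σ 0) (ag b x (2 ^ m) σ 0 ![((x0 : ℕ) : ℤ) + cn (2 ^ m) s σ 0, x1, x2,
            ((x3 : ℕ) : ℤ) + cn (2 ^ m) s σ 3]) *
            F (σ 3) (ag b x (2 ^ m) σ 3 ![((x0 : ℕ) : ℤ) + cn (2 ^ m) s σ 0, x1, x2,
            ((x3 : ℕ) : ℤ) + cn (2 ^ m) s σ 3]) *
            F (σ 2) (ag b x (2 ^ m) σ 2 ![((x0 : ℕ) : ℤ) + cn (2 ^ m) s σ 0, x1, x2,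
            ((x3 : ℕ) : ℤ) + cn (2 ^ m) s σ 3])‖ ^ 2)]
  refine Finset.sum_congr rfl fun x2 _ => ?_
  congr 2
  rw [← sum_fin_Ico (2 ^ m) (cn (2 ^ m) s σ 1) (fun x1 =>
          F (σ 0) (ag b x (2 ^ m) σ 0 ![((x0 : ℕ) : ℤ) + cn (2 ^ m) s σ 0, x1,
            ((x2 : ℕ) : ℤ) + cn (2 ^ m) s σ 2, ((x3 : ℕ) : ℤ) + cn (2 ^ m) s σ 3]) *
            F (σ 3) (ag b x (2 ^ m) σ 3 ![((x0 : ℕ) : ℤ) + cn (2 ^ m) s σ 0, x1,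
            ((x2 : ℕ) : ℤ) + cn (2 ^ m) s σ 2, ((x3 : ℕ) : ℤ) + cn (2 ^ m) s σ 3]) *
            F (σ 2) (ag b x (2 ^ m) σ 2 ![((x0 : ℕ) : ℤ) + cn (2 ^ m) s σ 0, x1,
            ((x2 : ℕ) : ℤ) + cn (2 ^ m) s σ 2, ((x3 : ℕ) : ℤ) + cn (2 ^ m) s σ 3]))]
  refine Finset.sum_congr rfl fun x1 _ => ?_
  have hi : ∀ (v : Fin (2 ^ m)) (r : Fin 4), ((v : ℕ) : ℤ) + cn (2 ^ m) s σ r ∈
      Ico (cn (2 ^ m) s σ r) (cn (2 ^ m) s σ r + (2 ^ m : ℕ)) := by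
    intro v r
    rw [mem_Ico]
    have h1 : ((v : ℕ) : ℤ) < ((2 ^ m : ℕ) : ℤ) := by exact_mod_cast v.isLt
    have h2 : (0 : ℤ) ≤ ((v : ℕ) : ℤ) := by positivity
    constructor <;> linarith
  have hm : ∀ r, ag b x (2 ^ m) σ r ![((x0 : ℕ) : ℤ) + cn (2 ^ m) s σ 0,
        ((x1 : ℕ) : ℤ) + cn (2 ^ m) s σ 1, ((x2 : ℕ) : ℤ) + cn (2 ^ m) s σ 2,
        ((x3 : ℕ) : ℤ) + cn (2 ^ m) s σ 3] ∈ iv (m, l) := fun r =>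
    ag_mem_box m l b x hb hx σ r s (hi x0 0) (hi x1 1) (hi x2 2) (hi x3 3)
  rw [res_of_mem (hm 0), res_of_mem (hm 3), res_of_mem (hm 2)]

theorem ne_of_perm (σ : Equiv.Perm (Fin 4)) {i j : Fin 4} (h : i ≠ j) : σ i ≠ σ j :=
  fun e => h (σ.injective e)

/-- **(LB1) at a sub-box**: `σ 0` leveled, `σ 3` bounded, `σ 2` arbitrary -/
theorem leaf_box (m : ℕ) (l b : ℤ) (hb : b = -1 ∨ b = -7) (F : Fin 4 → ℤ → ℂ)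
    (σ : Equiv.Perm (Fin 4)) (κ : ℕ) (t : ℝ) (ht : 0 ≤ t) (hO : OLev κ (σ 0) (m, l) (F (σ 0)) t)
    (H : ℝ) (hH : 0 < H) (hF3 : ∀ y ∈ iv (m, l), ‖F (σ 3) y‖ ≤ H) {x : ℤ} (hx : x ∈ adm m l)
    (s : Fin 4 → Fin 2) :
    ∑ x0 ∈ Ico (cn (2 ^ m) s σ 0) (cn (2 ^ m) s σ 0 + (2 ^ m : ℕ)),
        ∑ x3 ∈ Ico (cn (2 ^ m) s σ 3) (cn (2 ^ m) s σ 3 + (2 ^ m : ℕ)),
        ∑ x2 ∈ Ico (cn (2 ^ m) s σ 2) (cn (2 ^ m) s σ 2 + (2 ^ m : ℕ)),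
        ‖∑ x1 ∈ Ico (cn (2 ^ m) s σ 1) (cn (2 ^ m) s σ 1 + (2 ^ m : ℕ)),
          F (σ 0) (ag b x (2 ^ m) σ 0 ![x0, x1, x2, x3]) *
            F (σ 3) (ag b x (2 ^ m) σ 3 ![x0, x1, x2, x3]) *
            F (σ 2) (ag b x (2 ^ m) σ 2 ![x0, x1, x2, x3])‖ ^ 2 ≤
    (∑ y ∈ iv (m, l), ‖F (σ 2) y‖ ^ 2) * ((2 ^ m : ℝ) ^ 3 * H ^ 2 * t *
      Real.sqrt (2 ^ m * ∑ y ∈ iv (m, l), ‖F (σ 0) y‖ ^ 2)) := by
  rw [leaf_fin m l b hb F σ hx s]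
  set c : Fin 4 → ℤ := fun r => cn (2 ^ m) s σ r + pp b x (2 ^ m) (σ r) with hc
  have hne : sl (σ 1) - sl (σ 2) ≠ 0 := by
    have := sl_ne (σ 1) (σ 2) (ne_of_perm σ (by decide))
    omega
  have key := LfB.leaf_olev (k := σ 0) (p := (m, l)) (f := F (σ 0)) (s := t) hO ht
    (j := σ 3) (e := σ 2) (e' := σ 1)
    (ne_of_perm σ (by decide)) (ne_of_perm σ (by decide)) (ne_of_perm σ (by decide))
    (ne_of_perm σ (by decide)) (ne_of_perm σ (by decide)) (ne_of_perm σ (by decide))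
    (r := 0) (Nat.zero_le _) (n := 2 ^ m) (by simp) (c 3) (c 2) (c 1)
    (fun x0 z z' => res (m, l) (F (σ 3)) ((sl (σ 0) - sl (σ 3)) * (c 0 + ((x0 : ℕ) : ℤ)) +
      (sl (σ 2) - sl (σ 3)) * z + (sl (σ 1) - sl (σ 3)) * z'))
    (fun x0 x1 x3 => res (m, l) (F (σ 2)) ((sl (σ 0) - sl (σ 2)) * (c 0 + ((x0 : ℕ) : ℤ)) +
      (sl (σ 3) - sl (σ 2)) * (c 3 + ((x3 : ℕ) : ℤ)) +
      (sl (σ 1) - sl (σ 2)) * (c 1 + ((x1 : ℕ) : ℤ))))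
    H hH (fun _ _ _ => norm_res_le hH.le hF3 _) (∑ y ∈ iv (m, l), ‖F (σ 0) y‖ ^ 2) le_rfl
    (∑ y ∈ iv (m, l), ‖F (σ 2) y‖ ^ 2)
    (fun x0 x3 => by
      rw [← sum_res m l (F (σ 2))]
      exact LfB.fib_le (2 ^ m) (c 1) _ hne (res (m, l) (F (σ 2))) (iv (m, l)) (fun y hy => res_out y hy)
        ((sl (σ 0) - sl (σ 2)) * (c 0 + ((x0 : ℕ) : ℤ)) +
          (sl (σ 3) - sl (σ 2)) * (c 3 + ((x3 : ℕ) : ℤ))))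
  push_cast at key
  refine le_trans (le_of_eq ?_) key
  refine Finset.sum_congr rfl fun x0 _ => Finset.sum_congr rfl fun x3 _ =>
    Finset.sum_congr rfl fun x2 _ => ?_
  congr 2
  refine Finset.sum_congr rfl fun x1 _ => ?_
  rw [ag0, ag2, ag3]
  simp only [hc]
  refine congrArg₂ (· * ·) (congrArg₂ (· * ·) (congrArg _ ?_) (congrArg _ ?_)) (congrArg _ ?_) <;>
    ring

/-- **(LB3) at a sub-box**: killer `σ 3` leveled, gauge `σ 2` bounded, `σ 0` arbitrary -/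
theorem leaf_box247 (m : ℕ) (l b : ℤ) (hb : b = -1 ∨ b = -7) (F : Fin 4 → ℤ → ℂ)
    (σ : Equiv.Perm (Fin 4)) (κ : ℕ) (t : ℝ) (ht : 0 ≤ t) (hO : OLev κ (σ 3) (m, l) (F (σ 3)) t)
    (H : ℝ) (hH : 0 < H) (hF2 : ∀ y ∈ iv (m, l), ‖F (σ 2) y‖ ≤ H) {x : ℤ} (hx : x ∈ adm m l)
    (s : Fin 4 → Fin 2) :
    ∑ x0 ∈ Ico (cn (2 ^ m) s σ 0) (cn (2 ^ m) s σ 0 + (2 ^ m : ℕ)),
        ∑ x3 ∈ Ico (cn (2 ^ m) s σ 3) (cn (2 ^ m) s σ 3 + (2 ^ m : ℕ)),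
        ∑ x2 ∈ Ico (cn (2 ^ m) s σ 2) (cn (2 ^ m) s σ 2 + (2 ^ m : ℕ)),
        ‖∑ x1 ∈ Ico (cn (2 ^ m) s σ 1) (cn (2 ^ m) s σ 1 + (2 ^ m : ℕ)),
          F (σ 0) (ag b x (2 ^ m) σ 0 ![x0, x1, x2, x3]) *
            F (σ 3) (ag b x (2 ^ m) σ 3 ![x0, x1, x2, x3]) *
            F (σ 2) (ag b x (2 ^ m) σ 2 ![x0, x1, x2, x3])‖ ^ 2 ≤
    (∑ y ∈ iv (m, l), ‖F (σ 0) y‖ ^ 2) * ((2 ^ m : ℝ) ^ 3 * H ^ 2 * t *
      Real.sqrt (2 ^ m * ∑ y ∈ iv (m, l), ‖F (σ 3) y‖ ^ 2)) := by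
  rw [leaf_fin m l b hb F σ hx s]
  set c : Fin 4 → ℤ := fun r => cn (2 ^ m) s σ r + pp b x (2 ^ m) (σ r) with hc
  have hne : sl (σ 1) - sl (σ 0) ≠ 0 := by
    have := sl_ne (σ 1) (σ 0) (ne_of_perm σ (by decide))
    omega
  have key := LfB.leaf_olev247 (k := σ 3) (p := (m, l)) (f := F (σ 3)) (s := t) hO ht
    (j := σ 2) (e := σ 0) (e' := σ 1)
    (ne_of_perm σ (by decide)) (ne_of_perm σ (by decide)) (ne_of_perm σ (by decide))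
    (ne_of_perm σ (by decide)) (ne_of_perm σ (by decide)) (ne_of_perm σ (by decide))
    (r := 0) (Nat.zero_le _) (n := 2 ^ m) (by simp) (c 2) (c 0) (c 1)
    (fun x3 z z' => res (m, l) (F (σ 2)) ((sl (σ 3) - sl (σ 2)) * (c 3 + ((x3 : ℕ) : ℤ)) +
      (sl (σ 0) - sl (σ 2)) * z + (sl (σ 1) - sl (σ 2)) * z'))
    (fun x3 x1 x2 => res (m, l) (F (σ 0)) ((sl (σ 3) - sl (σ 0)) * (c 3 + ((x3 : ℕ) : ℤ)) +
      (sl (σ 2) - sl (σ 0)) * (c 2 + ((x2 : ℕ) : ℤ)) +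
      (sl (σ 1) - sl (σ 0)) * (c 1 + ((x1 : ℕ) : ℤ))))
    H hH (fun _ _ _ => norm_res_le hH.le hF2 _) (∑ y ∈ iv (m, l), ‖F (σ 3) y‖ ^ 2) le_rfl
    (∑ y ∈ iv (m, l), ‖F (σ 0) y‖ ^ 2)
    (fun x3 x2 => by
      rw [← sum_res m l (F (σ 0))]
      exact LfB.fib_le (2 ^ m) (c 1) _ hne (res (m, l) (F (σ 0))) (iv (m, l)) (fun y hy => res_out y hy)
        ((sl (σ 3) - sl (σ 0)) * (c 3 + ((x3 : ℕ) : ℤ)) +
          (sl (σ 2) - sl (σ 0)) * (c 2 + ((x2 : ℕ) : ℤ))))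
  push_cast at key
  refine le_trans (le_of_eq ?_) key
  -- reorder the sums `x0, x3, x2 → x2, x3, x0`
  have hr : ∀ G : Fin (2 ^ m) → Fin (2 ^ m) → Fin (2 ^ m) → ℝ,
      ∑ x0, ∑ x3, ∑ x2, G x0 x3 x2 = ∑ x2, ∑ x3, ∑ x0, G x0 x3 x2 := by
    intro G
    calc ∑ x0, ∑ x3, ∑ x2, G x0 x3 x2 = ∑ x3, ∑ x0, ∑ x2, G x0 x3 x2 := Finset.sum_comm
      _ = ∑ x3, ∑ x2, ∑ x0, G x0 x3 x2 :=
          Finset.sum_congr rfl fun x3 _ => Finset.sum_comm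
      _ = ∑ x2, ∑ x3, ∑ x0, G x0 x3 x2 := Finset.sum_comm
  rw [hr]
  refine Finset.sum_congr rfl fun x2 _ => Finset.sum_congr rfl fun x3 _ =>
    Finset.sum_congr rfl fun x0 _ => ?_
  congr 2
  refine Finset.sum_congr rfl fun x1 _ => ?_
  rw [ag0, ag2, ag3]
  simp only [hc]
  rw [mul_comm (res (m, l) (F (σ 0)) _) (res (m, l) (F (σ 3)) _), mul_assoc,
    mul_comm (res (m, l) (F (σ 0)) _) (res (m, l) (F (σ 2)) _), ← mul_assoc]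
  refine congrArg₂ (· * ·) (congrArg₂ (· * ·) (congrArg _ ?_) (congrArg _ ?_)) (congrArg _ ?_) <;>
    ring

/-- numbers -/
theorem num (n a0 a1 a2 H t : ℝ) (hn : 0 < n) (h0 : 0 ≤ a0) (h1 : 0 ≤ a1) (h2 : 0 ≤ a2)
    (hH : 0 ≤ H) (ht : 0 ≤ t) :
    1 / n ^ 3 * Real.sqrt (128 * n * a1 ^ 2) *
      Real.sqrt ((128 * n * a2 ^ 2) * (n ^ 3 * H ^ 2 * t * Real.sqrt (n * (128 * n * a0 ^ 2)))) ≤
    512 * H * Real.sqrt (t * a0) * a1 * a2 := by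
  have e1 : Real.sqrt (n * (128 * n * a0 ^ 2)) ≤ 12 * n * a0 := by
    refine Real.sqrt_le_iff.2 ⟨by positivity, ?_⟩
    have : 0 ≤ n ^ 2 * a0 ^ 2 := by positivity
    nlinarith
  have e2 : Real.sqrt (128 * n * a1 ^ 2) *
      Real.sqrt ((128 * n * a2 ^ 2) * (n ^ 3 * H ^ 2 * t * Real.sqrt (n * (128 * n * a0 ^ 2)))) ≤
      (512 * n ^ 3 * H * a1 * a2) * Real.sqrt (t * a0) := by
    rw [← Real.sqrt_mul (by positivity)]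
    refine Real.sqrt_le_iff.2 ⟨by positivity, ?_⟩
    rw [mul_pow, Real.sq_sqrt (by positivity)]
    have h3 : n ^ 3 * H ^ 2 * t * Real.sqrt (n * (128 * n * a0 ^ 2)) ≤
        n ^ 3 * H ^ 2 * t * (12 * n * a0) := mul_le_mul_of_nonneg_left e1 (by positivity)
    have h4 : 128 * n * a1 ^ 2 * ((128 * n * a2 ^ 2) *
        (n ^ 3 * H ^ 2 * t * Real.sqrt (n * (128 * n * a0 ^ 2)))) ≤
        128 * n * a1 ^ 2 * ((128 * n * a2 ^ 2) * (n ^ 3 * H ^ 2 * t * (12 * n * a0))) := by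
      refine mul_le_mul_of_nonneg_left (mul_le_mul_of_nonneg_left h3 (by positivity)) (by positivity)
    refine h4.trans ?_
    have h5 : 0 ≤ n ^ 6 * H ^ 2 * a1 ^ 2 * a2 ^ 2 * (t * a0) := by positivity
    nlinarith
  have hn3 : 0 < n ^ 3 := by positivity
  calc 1 / n ^ 3 * Real.sqrt (128 * n * a1 ^ 2) *
      Real.sqrt ((128 * n * a2 ^ 2) * (n ^ 3 * H ^ 2 * t * Real.sqrt (n * (128 * n * a0 ^ 2))))
      = 1 / n ^ 3 * (Real.sqrt (128 * n * a1 ^ 2) *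
      Real.sqrt ((128 * n * a2 ^ 2) * (n ^ 3 * H ^ 2 * t *
        Real.sqrt (n * (128 * n * a0 ^ 2))))) := by ring
    _ ≤ 1 / n ^ 3 * ((512 * n ^ 3 * H * a1 * a2) * Real.sqrt (t * a0)) :=
        mul_le_mul_of_nonneg_left e2 (by positivity)
    _ = 512 * H * Real.sqrt (t * a0) * a1 * a2 := by
        field_simp

theorem sum_iv (m : ℕ) (l : ℤ) (X : ℤ → ℂ) :
    ∑ y ∈ iv (m, l), ‖X y‖ ^ 2 = 128 * (2 : ℝ) ^ m * av (m, l) X ^ 2 := by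
  unfold av av2 iv
  rw [Real.sq_sqrt (by positivity)]
  rw [pow_add]
  field_simp
  norm_num

theorem av_nonneg' (p : Nd) (X : ℤ → ℂ) : 0 ≤ av p X := by
  unfold av av2
  positivity

/-- **NODE GAIN, leaf (LB1)**: `σ 0` leveled (`OLev t`), `σ 3` bounded by `H`, `σ 1`, `σ 2` arbitrary:
`∑_{x ∈ adm p} ‖Lbox‖ ≤ 512 |p| H (t av_p F_{σ0})^{1/2} av_p F_{σ1} av_p F_{σ2}`. -/
theorem node_olev (m : ℕ) (l b : ℤ) (hb : b = -1 ∨ b = -7) (F : Fin 4 → ℤ → ℂ)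
    (σ : Equiv.Perm (Fin 4)) (κ : ℕ) (t : ℝ) (ht : 0 ≤ t) (hO : OLev κ (σ 0) (m, l) (F (σ 0)) t)
    (H : ℝ) (hH : 0 < H) (hF3 : ∀ y ∈ iv (m, l), ‖F (σ 3) y‖ ≤ H) :
    ∑ x ∈ adm m l, ‖Lbox (2 ^ m) b F x‖ ≤
      len (m, l) * (512 * H * Real.sqrt (t * av (m, l) (F (σ 0))) * av (m, l) (F (σ 1)) *
        av (m, l) (F (σ 2))) := by
  have h0 := av_nonneg' (m, l) (F (σ 0))
  have h1 := av_nonneg' (m, l) (F (σ 1))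
  have h2 := av_nonneg' (m, l) (F (σ 2))
  have h := one_node m l b hb F σ (Real.sqrt ((128 * (2 : ℝ) ^ m * av (m, l) (F (σ 2)) ^ 2) *
    (((2 : ℝ) ^ m) ^ 3 * H ^ 2 * t * Real.sqrt ((2 : ℝ) ^ m *
      (128 * (2 : ℝ) ^ m * av (m, l) (F (σ 0)) ^ 2))))) (Real.sqrt_nonneg _) ?_
  · refine h.trans ?_
    rw [sum_iv m l (F (σ 1))]
    refine mul_le_mul_of_nonneg_left ?_ (by unfold len; positivity)
    exact num ((2 : ℝ) ^ m) _ _ _ H t (by positivity) h0 h1 h2 hH.le ht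
  · intro x hx s
    rw [Real.sq_sqrt (by positivity)]
    have h3 := leaf_box m l b hb F σ κ t ht hO H hH hF3 hx s
    rw [sum_iv m l (F (σ 2)), sum_iv m l (F (σ 0))] at h3
    exact h3

/-- **NODE GAIN, leaf (LB3)**: `σ 3` leveled, `σ 2` bounded by `H`, `σ 0`, `σ 1` arbitrary -/
theorem node_olev247 (m : ℕ) (l b : ℤ) (hb : b = -1 ∨ b = -7) (F : Fin 4 → ℤ → ℂ)
    (σ : Equiv.Perm (Fin 4)) (κ : ℕ) (t : ℝ) (ht : 0 ≤ t) (hO : OLev κ (σ 3) (m, l) (F (σ 3)) t)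
    (H : ℝ) (hH : 0 < H) (hF2 : ∀ y ∈ iv (m, l), ‖F (σ 2) y‖ ≤ H) :
    ∑ x ∈ adm m l, ‖Lbox (2 ^ m) b F x‖ ≤
      len (m, l) * (512 * H * Real.sqrt (t * av (m, l) (F (σ 3))) * av (m, l) (F (σ 1)) *
        av (m, l) (F (σ 0))) := by
  have h0 := av_nonneg' (m, l) (F (σ 3))
  have h1 := av_nonneg' (m, l) (F (σ 1))
  have h2 := av_nonneg' (m, l) (F (σ 0))
  have h := one_node m l b hb F σ (Real.sqrt ((128 * (2 : ℝ) ^ m * av (m, l) (F (σ 0)) ^ 2) *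
    (((2 : ℝ) ^ m) ^ 3 * H ^ 2 * t * Real.sqrt ((2 : ℝ) ^ m *
      (128 * (2 : ℝ) ^ m * av (m, l) (F (σ 3)) ^ 2))))) (Real.sqrt_nonneg _) ?_
  · refine h.trans ?_
    rw [sum_iv m l (F (σ 1))]
    refine mul_le_mul_of_nonneg_left ?_ (by unfold len; positivity)
    exact num ((2 : ℝ) ^ m) _ _ _ H t (by positivity) h0 h1 h2 hH.le ht
  · intro x hx s
    rw [Real.sq_sqrt (by positivity)]
    have h3 := leaf_box247 m l b hb F σ κ t ht hO H hH hF2 hx s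
    rw [sum_iv m l (F (σ 0)), sum_iv m l (F (σ 3))] at h3
    exact h3

/-- **one shape for all**: four distinct slots `k` (leveled), `h` (bounded), `i`, `j` (arbitrary) -/
theorem node_gain (m : ℕ) (l b : ℤ) (hb : b = -1 ∨ b = -7) (F : Fin 4 → ℤ → ℂ)
    (κ : ℕ) (k h i j : Fin 4) (h1 : k ≠ h) (h2 : k ≠ i) (h3 : k ≠ j) (h4 : h ≠ i) (h5 : h ≠ j)
    (h6 : i ≠ j) (t : ℝ) (ht : 0 ≤ t) (hO : OLev κ k (m, l) (F k) t)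
    (H : ℝ) (hH : 0 < H) (hF : ∀ y ∈ iv (m, l), ‖F h y‖ ≤ H) :
    ∑ x ∈ adm m l, ‖Lbox (2 ^ m) b F x‖ ≤
      len (m, l) * (512 * H * Real.sqrt (t * av (m, l) (F k)) * av (m, l) (F i) *
        av (m, l) (F j)) := by
  have hinj : Function.Injective (![k, i, j, h] : Fin 4 → Fin 4) := by
    intro u v huv
    fin_cases u <;> fin_cases v <;> simp_all
  let σ : Equiv.Perm (Fin 4) := Equiv.ofBijective _ (Finite.injective_iff_bijective.1 hinj)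
  exact node_olev m l b hb F σ κ t ht hO H hH hF

end Crest.Agent.R079.OneG354
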