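import Crest.Agent.R079.PL24C_242

/-! R079, LABELLED line potentials, (2,4,4): final statements with real parameters `s ≤ 1 ≤ H`.

* `tri24L` / `tri42L` / `tri44L`: scale dependent letters (zero before the first scale), only the
  changes are paid; the slow (`S₂`) letter is `A` / `B` / `C`.
* `tri24L_static` etc: static letters, leaf scale `2^m0`.
Budgets: `g2r s h α α4 = s (α + h α²)` (slow letter, `h = H⁻²`, `α` = normalised HS norm squared of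
the box), `g4r s α α4 = s α + s⁻¹ α4` (`α4` = fourth power of the Schatten 4 norm).  helper242. -/

set_option autoImplicit false
set_option linter.unusedVariables false
set_option linter.unusedSectionVars false

namespace Crest.Agent.R079.PotL

open Matrix Finset Filter Topology Crest.Agent.R072 Crest.Agent.R079.LD Crest.Agent.R079.Path
  Crest.Agent.R072.Nd
open scoped MatrixOrder

/-- budget of the slow letter -/
noncomputable def g2r (s h : ℝ) (a a4 : ℝ) : ℝ := s * (a + h * a ^ 2)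

/-- budget of a fast letter -/
noncomputable def g4r (s : ℝ) (a a4 : ℝ) : ℝ := s * a + s⁻¹ * a4

theorem sA_le {s H : ℝ} (hs : 0 < s) (hs1 : s ≤ 1) (hH : 1 ≤ H) {n a : ℕ}
    (h1 : ((2 : ℝ) ^ n)⁻¹ ≤ s) (h3 : ((4 : ℝ) ^ a)⁻¹ ≤ (H ^ 2)⁻¹)
    (h4 : (n : ℝ) + a + 2 ≤ 4 * (1 + Real.log (H / s))) {x x4 : ℝ} (hx : 0 ≤ x) (hx4 : 0 ≤ x4)
    (hxx : x4 ≤ x ^ 2) :
    Pot.sA n a x x4 ≤ 8 * (1 + Real.log (H / s)) * g2r s (H ^ 2)⁻¹ x x4 := by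
  have hlog : 0 ≤ Real.log (H / s) := Real.log_nonneg (by rw [le_div_iff₀ hs]; linarith)
  set L : ℝ := 8 * (1 + Real.log (H / s)) with hL
  have hL8 : 8 ≤ L := by rw [hL]; linarith
  have hn0 : (0 : ℝ) ≤ n := Nat.cast_nonneg n
  have ha0 : (0 : ℝ) ≤ a := Nat.cast_nonneg a
  have hHp : 0 ≤ (H ^ 2)⁻¹ := by positivity
  have e1 : ((4 : ℝ) ^ a)⁻¹ * x4 ≤ (H ^ 2)⁻¹ * x ^ 2 := mul_le_mul h3 hxx hx4 hHp
  have e0 : 0 ≤ (H ^ 2)⁻¹ * x ^ 2 := by positivity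
  have e2 : ((n : ℝ) + a + 1) * x ≤ (4 * (1 + Real.log (H / s))) * x :=
    mul_le_mul_of_nonneg_right (by linarith) hx
  have e3 : 2 * ((H ^ 2)⁻¹ * x ^ 2) ≤ L * ((H ^ 2)⁻¹ * x ^ 2) :=
    mul_le_mul_of_nonneg_right (by linarith) e0
  have e4 : (4 * (1 + Real.log (H / s))) * x ≤ L * x :=
    mul_le_mul_of_nonneg_right (by rw [hL]; linarith) hx
  have e5 : 0 ≤ 2 * (((4 : ℝ) ^ a)⁻¹ * x4) + ((n : ℝ) + a + 1) * x := by positivity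
  unfold Pot.sA g2r
  calc ((2 : ℝ) ^ n)⁻¹ * (2 * (((4 : ℝ) ^ a)⁻¹ * x4) + (n + a + 1) * x)
      ≤ s * (2 * (((4 : ℝ) ^ a)⁻¹ * x4) + (n + a + 1) * x) := mul_le_mul_of_nonneg_right h1 e5
    _ ≤ s * (L * ((H ^ 2)⁻¹ * x ^ 2) + L * x) := mul_le_mul_of_nonneg_left (by linarith) hs.le
    _ = L * (s * (x + (H ^ 2)⁻¹ * x ^ 2)) := by ring

theorem sB_le {s H : ℝ} (hs : 0 < s) (hs1 : s ≤ 1) (hH : 1 ≤ H) {n a : ℕ}
    (h1 : ((2 : ℝ) ^ n)⁻¹ ≤ s) (h2 : (2 : ℝ) ^ n ≤ 2 * s⁻¹)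
    (h4 : (n : ℝ) + a + 2 ≤ 4 * (1 + Real.log (H / s))) {x x4 : ℝ} (hx : 0 ≤ x) (hx4 : 0 ≤ x4) :
    Pot.sB n a x x4 ≤ 8 * (1 + Real.log (H / s)) * g4r s x x4 := by
  have hlog : 0 ≤ Real.log (H / s) := Real.log_nonneg (by rw [le_div_iff₀ hs]; linarith)
  set L : ℝ := 8 * (1 + Real.log (H / s)) with hL
  have hn2 : (0 : ℝ) < 2 ^ n := by positivity
  unfold Pot.sB g4r
  rw [Pot.four_pow' n]
  have e : ((2 : ℝ) ^ n)⁻¹ * (x + (n + a + 2) * (2 ^ n * 2 ^ n * x4)) =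
      (2 ^ n)⁻¹ * x + (n + a + 2) * (2 ^ n * x4) := by
    field_simp
  rw [e, mul_add]
  refine add_le_add ?_ ?_
  · calc ((2 : ℝ) ^ n)⁻¹ * x ≤ s * x := mul_le_mul_of_nonneg_right h1 hx
      _ ≤ L * (s * x) := by
        refine le_mul_of_one_le_left (by positivity) ?_
        rw [hL]
        linarith
  · calc ((n : ℝ) + a + 2) * (2 ^ n * x4)
        ≤ (4 * (1 + Real.log (H / s))) * (2 * s⁻¹ * x4) :=
          mul_le_mul h4 (mul_le_mul_of_nonneg_right h2 hx4) (by positivity) (by positivity)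
      _ = L * (s⁻¹ * x4) := by rw [hL]; ring

section box

variable {Q : ℕ} [NeZero Q] {κ0 κ1 κ2 : Type*} [Fintype κ0] [DecidableEq κ0]
  [Fintype κ1] [DecidableEq κ1] [Fintype κ2] [DecidableEq κ2]

theorem VSL_const_mul (c : ℝ) (SA SB SC : ℝ → ℝ → ℝ) (A A' : ZMod Q → ZMod Q → Matrix κ0 κ1 ℝ)
    (B B' : ZMod Q → ZMod Q → Matrix κ1 κ2 ℝ) (C C' : ZMod Q → ZMod Q → Matrix κ2 κ0 ℝ) (N : ℕ) :
    VSL (fun a b => c * SA a b) (fun a b => c * SB a b) (fun a b => c * SC a b) A A' B B' C C' N =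
      c * VSL SA SB SC A A' B B' C C' N := by
  classical
  unfold VSL
  rw [← bl_const_mul]
  congr 1
  funext n
  rw [Finset.mul_sum]
  refine Finset.sum_congr rfl fun p0 _ => ?_
  rw [Finset.mul_sum]
  refine Finset.sum_congr rfl fun p1 _ => ?_
  rw [mul_ite, mul_zero]
  congr 1
  ring

theorem ESL_const_mul (c : ℝ) (S : ℝ → ℝ → ℝ) (A A' : ZMod Q → ZMod Q → Matrix κ0 κ1 ℝ) (N : ℕ) :
    ESL (fun a b => c * S a b) A A' N = c * ESL S A A' N := by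
  classical
  unfold ESL
  rw [Finset.mul_sum]
  refine Finset.sum_congr rfl fun q _ => ?_
  rw [Finset.mul_sum]
  refine Finset.sum_congr rfl fun p _ => ?_
  rw [mul_ite, mul_zero]

/-- replacing budgets in `tri_budL` -/
theorem tri_bud_le {SA SB SC TA TB TC : ℝ → ℝ → ℝ} {L : ℝ}
    (hA : ∀ x x4, 0 ≤ x → 0 ≤ x4 → x4 ≤ x ^ 2 → SA x x4 ≤ L * TA x x4)
    (hB : ∀ x x4, 0 ≤ x → 0 ≤ x4 → x4 ≤ x ^ 2 → SB x x4 ≤ L * TB x x4)
    (hC : ∀ x x4, 0 ≤ x → 0 ≤ x4 → x4 ≤ x ^ 2 → SC x x4 ≤ L * TC x x4)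
    (A A' : ZMod Q → ZMod Q → Matrix κ0 κ1 ℝ) (B B' : ZMod Q → ZMod Q → Matrix κ1 κ2 ℝ)
    (C C' : ZMod Q → ZMod Q → Matrix κ2 κ0 ℝ) (N κ : ℕ) :
    VSL SA SB SC A A' B B' C C' N + ∑ k ∈ range κ, (ESL SA A A' (2 ^ k * N) +
      ESL SB B B' (2 ^ k * N) + ESL SC C C' (2 ^ k * N)) ≤
    L * (VSL TA TB TC A A' B B' C C' N + ∑ k ∈ range κ, (ESL TA A A' (2 ^ k * N) +
      ESL TB B B' (2 ^ k * N) + ESL TC C C' (2 ^ k * N))) := by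
  rw [mul_add, Finset.mul_sum]
  refine add_le_add ?_ (Finset.sum_le_sum fun k _ => ?_)
  · rw [← VSL_const_mul]
    exact VSL_mono _ _ _ _ _ _ _
      (fun q p => hA _ _ (bxL_nonneg _ _ _ _) (q4L_nonneg _ _ _ _) (q4L_le_bxL_sq _ _ _ _))
      (fun q p => hB _ _ (bxL_nonneg _ _ _ _) (q4L_nonneg _ _ _ _) (q4L_le_bxL_sq _ _ _ _))
      (fun q p => hC _ _ (bxL_nonneg _ _ _ _) (q4L_nonneg _ _ _ _) (q4L_le_bxL_sq _ _ _ _))
  · rw [mul_add, mul_add, ← ESL_const_mul, ← ESL_const_mul, ← ESL_const_mul]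
    exact add_le_add (add_le_add
      (ESL_mono _ _ _ fun q p =>
        hA _ _ (bxL_nonneg _ _ _ _) (q4L_nonneg _ _ _ _) (q4L_le_bxL_sq _ _ _ _))
      (ESL_mono _ _ _ fun q p =>
        hB _ _ (bxL_nonneg _ _ _ _) (q4L_nonneg _ _ _ _) (q4L_le_bxL_sq _ _ _ _)))
      (ESL_mono _ _ _ fun q p =>
        hC _ _ (bxL_nonneg _ _ _ _) (q4L_nonneg _ _ _ _) (q4L_le_bxL_sq _ _ _ _))

theorem pow_two_add3 (m0 m k : ℕ) : 2 ^ (m0 + m + k) = 2 ^ k * 2 ^ (m0 + m) := by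
  rw [pow_add]; ring

/-- **(2,4,4), labels**, slow letter `A` -/
theorem tri24L {s H : ℝ} (hs : 0 < s) (hs1 : s ≤ 1) (hH : 1 ≤ H)
    (A : ℕ → ZMod Q → ZMod Q → Matrix κ0 κ1 ℝ)
    (B : ℕ → ZMod Q → ZMod Q → Matrix κ1 κ2 ℝ) (C : ℕ → ZMod Q → ZMod Q → Matrix κ2 κ0 ℝ)
    (hA0 : A 0 = fun _ _ => 0) (hB0 : B 0 = fun _ _ => 0) (hC0 : C 0 = fun _ _ => 0)
    (κ m0 M : ℕ) (l : ℤ) (hκ : 2 * |l| + 20 ≤ 2 ^ κ) :
    ∑ m ∈ range M, bl (fun n => ∑ p0 : ZMod Q, ∑ p1 : ZMod Q,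
      |LboxL (A (m + 1)) (B (m + 1)) (C (m + 1)) (2 ^ (m0 + m)) p0 p1 (n - p0 - p1)|)
        (2 ^ (m0 + m)) l ≤
    76800 * 128 * (8 * (1 + Real.log (H / s))) * ∑ m ∈ range M,
      (VSL (g2r s (H ^ 2)⁻¹) (g4r s) (g4r s) (A (m + 1)) (A m) (B (m + 1)) (B m) (C (m + 1)) (C m)
          (2 ^ (m0 + m)) +
        ∑ k ∈ range κ, (ESL (g2r s (H ^ 2)⁻¹) (A (m + 1)) (A m) (2 ^ (m0 + m + k)) +
          ESL (g4r s) (B (m + 1)) (B m) (2 ^ (m0 + m + k)) +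
          ESL (g4r s) (C (m + 1)) (C m) (2 ^ (m0 + m + k)))) := by
  obtain ⟨n, a, h1, h2, h3, h4⟩ := R244.dyadic_params hs hs1 hH
  refine (tri_budL A B C hA0 hB0 hC0 κ m0 M l hκ (Pot.path244 n a) (Pot.bud244 n a).1
    (Pot.bud244 n a).2 (Pot.bud244 n a).2).trans ?_
  rw [mul_assoc (76800 * 128 : ℝ)]
  refine mul_le_mul_of_nonneg_left ?_ (by norm_num)
  rw [Finset.mul_sum]
  refine Finset.sum_le_sum fun m _ => ?_
  simp only [pow_two_add3]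
  exact tri_bud_le (fun x x4 hx hx4 hxx => sA_le hs hs1 hH h1 h3 h4 hx hx4 hxx)
    (fun x x4 hx hx4 _ => sB_le hs hs1 hH h1 h2 h4 hx hx4)
    (fun x x4 hx hx4 _ => sB_le hs hs1 hH h1 h2 h4 hx hx4) _ _ _ _ _ _ _ _

/-- **(4,2,4), labels**, slow letter `B` -/
theorem tri42L {s H : ℝ} (hs : 0 < s) (hs1 : s ≤ 1) (hH : 1 ≤ H)
    (A : ℕ → ZMod Q → ZMod Q → Matrix κ0 κ1 ℝ)
    (B : ℕ → ZMod Q → ZMod Q → Matrix κ1 κ2 ℝ) (C : ℕ → ZMod Q → ZMod Q → Matrix κ2 κ0 ℝ)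
    (hA0 : A 0 = fun _ _ => 0) (hB0 : B 0 = fun _ _ => 0) (hC0 : C 0 = fun _ _ => 0)
    (κ m0 M : ℕ) (l : ℤ) (hκ : 2 * |l| + 20 ≤ 2 ^ κ) :
    ∑ m ∈ range M, bl (fun n => ∑ p0 : ZMod Q, ∑ p1 : ZMod Q,
      |LboxL (A (m + 1)) (B (m + 1)) (C (m + 1)) (2 ^ (m0 + m)) p0 p1 (n - p0 - p1)|)
        (2 ^ (m0 + m)) l ≤
    76800 * 128 * (8 * (1 + Real.log (H / s))) * ∑ m ∈ range M,
      (VSL (g4r s) (g2r s (H ^ 2)⁻¹) (g4r s) (A (m + 1)) (A m) (B (m + 1)) (B m) (C (m + 1)) (C m)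
          (2 ^ (m0 + m)) +
        ∑ k ∈ range κ, (ESL (g4r s) (A (m + 1)) (A m) (2 ^ (m0 + m + k)) +
          ESL (g2r s (H ^ 2)⁻¹) (B (m + 1)) (B m) (2 ^ (m0 + m + k)) +
          ESL (g4r s) (C (m + 1)) (C m) (2 ^ (m0 + m + k)))) := by
  obtain ⟨n, a, h1, h2, h3, h4⟩ := R244.dyadic_params hs hs1 hH
  refine (tri_budL A B C hA0 hB0 hC0 κ m0 M l hκ (Pot.path424 n a) (Pot.bud424 n a).2
    (Pot.bud424 n a).1 (Pot.bud424 n a).2).trans ?_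
  rw [mul_assoc (76800 * 128 : ℝ)]
  refine mul_le_mul_of_nonneg_left ?_ (by norm_num)
  rw [Finset.mul_sum]
  refine Finset.sum_le_sum fun m _ => ?_
  simp only [pow_two_add3]
  exact tri_bud_le (fun x x4 hx hx4 _ => sB_le hs hs1 hH h1 h2 h4 hx hx4)
    (fun x x4 hx hx4 hxx => sA_le hs hs1 hH h1 h3 h4 hx hx4 hxx)
    (fun x x4 hx hx4 _ => sB_le hs hs1 hH h1 h2 h4 hx hx4) _ _ _ _ _ _ _ _

/-- **(4,4,2), labels**, slow letter `C` -/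
theorem tri44L {s H : ℝ} (hs : 0 < s) (hs1 : s ≤ 1) (hH : 1 ≤ H)
    (A : ℕ → ZMod Q → ZMod Q → Matrix κ0 κ1 ℝ)
    (B : ℕ → ZMod Q → ZMod Q → Matrix κ1 κ2 ℝ) (C : ℕ → ZMod Q → ZMod Q → Matrix κ2 κ0 ℝ)
    (hA0 : A 0 = fun _ _ => 0) (hB0 : B 0 = fun _ _ => 0) (hC0 : C 0 = fun _ _ => 0)
    (κ m0 M : ℕ) (l : ℤ) (hκ : 2 * |l| + 20 ≤ 2 ^ κ) :
    ∑ m ∈ range M, bl (fun n => ∑ p0 : ZMod Q, ∑ p1 : ZMod Q,
      |LboxL (A (m + 1)) (B (m + 1)) (C (m + 1)) (2 ^ (m0 + m)) p0 p1 (n - p0 - p1)|)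
        (2 ^ (m0 + m)) l ≤
    76800 * 128 * (8 * (1 + Real.log (H / s))) * ∑ m ∈ range M,
      (VSL (g4r s) (g4r s) (g2r s (H ^ 2)⁻¹) (A (m + 1)) (A m) (B (m + 1)) (B m) (C (m + 1)) (C m)
          (2 ^ (m0 + m)) +
        ∑ k ∈ range κ, (ESL (g4r s) (A (m + 1)) (A m) (2 ^ (m0 + m + k)) +
          ESL (g4r s) (B (m + 1)) (B m) (2 ^ (m0 + m + k)) +
          ESL (g2r s (H ^ 2)⁻¹) (C (m + 1)) (C m) (2 ^ (m0 + m + k)))) := by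
  obtain ⟨n, a, h1, h2, h3, h4⟩ := R244.dyadic_params hs hs1 hH
  refine (tri_budL A B C hA0 hB0 hC0 κ m0 M l hκ (Pot.path442 n a) (Pot.bud442 n a).2
    (Pot.bud442 n a).2 (Pot.bud442 n a).1).trans ?_
  rw [mul_assoc (76800 * 128 : ℝ)]
  refine mul_le_mul_of_nonneg_left ?_ (by norm_num)
  rw [Finset.mul_sum]
  refine Finset.sum_le_sum fun m _ => ?_
  simp only [pow_two_add3]
  exact tri_bud_le (fun x x4 hx hx4 _ => sB_le hs hs1 hH h1 h2 h4 hx hx4)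
    (fun x x4 hx hx4 _ => sB_le hs hs1 hH h1 h2 h4 hx hx4)
    (fun x x4 hx hx4 hxx => sA_le hs hs1 hH h1 h3 h4 hx hx4 hxx) _ _ _ _ _ _ _ _

/-! ### static letters -/

/-- sum of a budget over all boxes of side `N` -/
noncomputable def SumB (S : ℝ → ℝ → ℝ) (A : ZMod Q → ZMod Q → Matrix κ0 κ1 ℝ) (N : ℕ) : ℝ :=
  ∑ q : ZMod Q, ∑ p : ZMod Q, S (bxL A N q p) (q4L A N q p)

/-- (PL2) for static letters -/
theorem mask_static {α β γ : Type*} [Fintype α] [DecidableEq α] [Fintype β] [DecidableEq β]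
    [Fintype γ] [DecidableEq γ] {P : TPot α} {c : ℝ} (h : Good P c)
    (X : ZMod Q → ZMod Q → Matrix β α ℝ)
    (Z : ZMod Q → ZMod Q → Matrix γ α ℝ) (κ m0 M : ℕ)
    (l : ℤ) (hκ : 2 * |l| + 20 ≤ 2 ^ κ) :
    ∑ m ∈ range M, bl (GW P X Z (2 ^ (m0 + m))) (2 ^ (m0 + m)) l ≤
      4 * Vb P X Z (2 ^ m0) + 16 * c * κ * EE P X Z (2 ^ m0) := by
  have h1 := mask_sum_from h (fun _ => X) (fun _ => Z) κ m0 M l hκ
  simp only [sub_self, Finset.sum_const_zero, mul_zero, zero_add] at h1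
  exact h1

theorem Vb_JVL (A : ZMod Q → ZMod Q → Matrix κ0 κ1 ℝ)
    (B : ZMod Q → ZMod Q → Matrix κ1 κ2 ℝ) (C : ZMod Q → ZMod Q → Matrix κ2 κ0 ℝ) (N : ℕ)
    {x y z : ℝ} (hx : 0 ≤ x) (hy : 0 ≤ y) (hz : 0 ≤ z) :
    Vb (ldP 1 κ0) (scL √x (trL A)) (scL √z C) N + Vb (ldP 1 κ1) (scL √x A) (scL √y (trL B)) N +
      Vb (ldP 1 κ2) (scL √y B) (scL √z (trL C)) N =
    bl (fun n => ∑ p0 : ZMod Q, ∑ p1 : ZMod Q, JVL A B C N p0 p1 (n - p0 - p1) x y z) N (-2) := by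
  unfold Vb
  rw [← bl_add, ← bl_add]
  congr 1
  funext n
  have e1 : W (ldP 1 κ0) (scL √x (trL A)) (scL √z C) N N n =
      ∑ p0 : ZMod Q, ∑ p1 : ZMod Q,
        LD 1 (x • abar (trL A) N N p1 p0 + z • abar C N N (n - p0 - p1) p0) := by
    unfold W
    refine Finset.sum_congr rfl fun p0 _ => Finset.sum_congr rfl fun p1 _ => ?_
    rw [abar_scL hx, abar_scL hz]
    rfl
  have e2 : W (ldP 1 κ1) (scL √x A) (scL √y (trL B)) N N n =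
      ∑ p0 : ZMod Q, ∑ p1 : ZMod Q,
        LD 1 (x • abar A N N p0 p1 + y • abar (trL B) N N (n - p0 - p1) p1) := by
    unfold W
    rw [Finset.sum_comm]
    refine Finset.sum_congr rfl fun p0 _ => Finset.sum_congr rfl fun p1 _ => ?_
    rw [abar_scL hx, abar_scL hy, show n - p1 - p0 = n - p0 - p1 by ring]
    rfl
  have e3 : W (ldP 1 κ2) (scL √y B) (scL √z (trL C)) N N n =
      ∑ p0 : ZMod Q, ∑ p1 : ZMod Q,
        LD 1 (y • abar B N N p1 (n - p0 - p1) + z • abar (trL C) N N p0 (n - p0 - p1)) := by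
    rw [Pot.sum_third n (fun p0 p1 p2 =>
        LD 1 (y • abar B N N p1 p2 + z • abar (trL C) N N p0 p2))]
    unfold W
    refine Finset.sum_congr rfl fun p2 _ => Finset.sum_congr rfl fun p1 _ => ?_
    rw [abar_scL hy, abar_scL hz]
    rfl
  rw [e1, e2, e3, ← Finset.sum_add_distrib, ← Finset.sum_add_distrib]
  refine Finset.sum_congr rfl fun p0 _ => ?_
  rw [← Finset.sum_add_distrib, ← Finset.sum_add_distrib]
  rfl

theorem EW_JEL (A : ZMod Q → ZMod Q → Matrix κ0 κ1 ℝ) (N : ℕ) {x : ℝ} (hx : 0 ≤ x) :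
    EW (ldP 1 κ0) (scL √x (trL A)) N N + EW (ldP 1 κ1) (scL √x A) N N =
      ∑ q : ZMod Q, ∑ p : ZMod Q, JEL A N q p x := by
  have e1 : EW (ldP 1 κ0) (scL √x (trL A)) N N =
      ∑ q : ZMod Q, ∑ p : ZMod Q, LD (1 / 2) (x • abar (trL A) N N p q) := by
    unfold EW
    refine Finset.sum_congr rfl fun q _ => Finset.sum_congr rfl fun p _ => ?_
    rw [abar_scL hx]
    rfl
  have e2 : EW (ldP 1 κ1) (scL √x A) N N =
      ∑ q : ZMod Q, ∑ p : ZMod Q, LD (1 / 2) (x • abar A N N q p) := by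
    unfold EW
    rw [Finset.sum_comm]
    refine Finset.sum_congr rfl fun q _ => Finset.sum_congr rfl fun p _ => ?_
    rw [abar_scL hx]
    rfl
  rw [e1, e2, ← Finset.sum_add_distrib]
  refine Finset.sum_congr rfl fun q _ => ?_
  rw [← Finset.sum_add_distrib]
  refine Finset.sum_congr rfl fun p _ => ?_
  unfold JEL
  ring

theorem bl_sum3 {S0 S1 S2 : ZMod Q → ZMod Q → ℝ} {N : ℕ} (hN : 0 < N) (l : ℤ) :
    bl (fun n => ∑ p0 : ZMod Q, ∑ p1 : ZMod Q,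
      (S0 p0 p1 + S1 p1 (n - p0 - p1) + S2 (n - p0 - p1) p0)) N l =
    (∑ q : ZMod Q, ∑ p : ZMod Q, S0 q p) + (∑ q : ZMod Q, ∑ p : ZMod Q, S1 q p) +
      ∑ q : ZMod Q, ∑ p : ZMod Q, S2 q p := by
  have h : ∀ n : ZMod Q, ∑ p0 : ZMod Q, ∑ p1 : ZMod Q,
      (S0 p0 p1 + S1 p1 (n - p0 - p1) + S2 (n - p0 - p1) p0) =
      (∑ q : ZMod Q, ∑ p : ZMod Q, S0 q p) + (∑ q : ZMod Q, ∑ p : ZMod Q, S1 q p) +
      ∑ q : ZMod Q, ∑ p : ZMod Q, S2 q p := by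
    intro n
    simp only [Finset.sum_add_distrib]
    congr 1
    · congr 1
      rw [Finset.sum_comm]
      refine Finset.sum_congr rfl fun p1 _ => ?_
      refine Fintype.sum_equiv ((Equiv.subLeft n).trans (Equiv.subRight p1)) _ _ fun p0 => ?_
      simp only [Equiv.trans_apply, Equiv.subLeft_apply, Equiv.subRight_apply]
    · rw [Finset.sum_comm (s := (Finset.univ : Finset (ZMod Q)))
        (t := (Finset.univ : Finset (ZMod Q))) (f := fun q p => S2 q p)]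
      refine Finset.sum_congr rfl fun p0 _ => ?_
      refine Fintype.sum_equiv (Equiv.subLeft (n - p0)) _ _ fun p1 => ?_
      simp only [Equiv.subLeft_apply]
  simp only [h]
  exact bl_const _ hN l

/-- **(TRI, labels, static letters)**, arbitrary path -/
theorem tri_staticL (A : ZMod Q → ZMod Q → Matrix κ0 κ1 ℝ)
    (B : ZMod Q → ZMod Q → Matrix κ1 κ2 ℝ) (C : ZMod Q → ZMod Q → Matrix κ2 κ0 ℝ)
    (κ m0 M : ℕ) (l : ℤ)
    (hκ : 2 * |l| + 20 ≤ 2 ^ κ) {x y z : ℤ → ℝ} (hp : PathSeq x y z) {SA SB SC : ℝ → ℝ → ℝ}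
    (hA : Pot.Bud (fun j => (√(x j) * √(y j) * √(z j))⁻¹) x SA)
    (hB : Pot.Bud (fun j => (√(x j) * √(y j) * √(z j))⁻¹) y SB)
    (hC : Pot.Bud (fun j => (√(x j) * √(y j) * √(z j))⁻¹) z SC) :
    ∑ m ∈ range M, bl (fun n => ∑ p0 : ZMod Q, ∑ p1 : ZMod Q,
      |LboxL A B C (2 ^ (m0 + m)) p0 p1 (n - p0 - p1)|) (2 ^ (m0 + m)) l ≤
    76800 * ((16 + 128 * κ) * (SumB SA A (2 ^ m0) + SumB SB B (2 ^ m0) + SumB SC C (2 ^ m0))) := by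
  rw [← sum_idxL m0 M l (fun m p0 p1 p2 => |LboxL A B C (2 ^ (m0 + m)) p0 p1 p2|)]
  refine LboxL_path (idxL Q m0 M) (fun i => 1 / ((2 ^ (m0 + i.1) : ℕ) : ℝ))
    (fun i _ => by positivity) (fun _ => A) (fun _ => B) (fun _ => C) (fun i => 2 ^ (m0 + i.1))
    (fun i => i.2.2.1) (fun i => i.2.2.2)
    (fun i => (l : ZMod Q) * ((2 ^ (m0 + i.1) : ℕ) : ZMod Q) + (i.2.1 : ZMod Q) - i.2.2.1 -
      i.2.2.2) hp _ fun J => ?_
  set w : ℤ → ℝ := fun j => (√(x j) * √(y j) * √(z j))⁻¹ with hw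
  have hw0 : ∀ j, 0 ≤ w j := fun j => by positivity
  have h1 : ∀ j ∈ Finset.Ico (-(J : ℤ)) J, (√(x j) * √(y j) * √(z j))⁻¹ *
      ∑ i ∈ idxL Q m0 M, 1 / ((2 ^ (m0 + i.1) : ℕ) : ℝ) *
        gamsL A B C (2 ^ (m0 + i.1)) i.2.2.1 i.2.2.2
        ((l : ZMod Q) * ((2 ^ (m0 + i.1) : ℕ) : ZMod Q) + (i.2.1 : ZMod Q) - i.2.2.1 - i.2.2.2)
        (x j) (y j) (z j) ≤
      4 * bl (fun n => ∑ p0 : ZMod Q, ∑ p1 : ZMod Q,
        w j * JVL A B C (2 ^ m0) p0 p1 (n - p0 - p1) (x j) (y j) (z j)) (2 ^ m0) (-2) +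
      16 * κ * ((∑ q : ZMod Q, ∑ p : ZMod Q, w j * JEL A (2 ^ m0) q p (x j)) +
        (∑ q : ZMod Q, ∑ p : ZMod Q, w j * JEL B (2 ^ m0) q p (y j)) +
        (∑ q : ZMod Q, ∑ p : ZMod Q, w j * JEL C (2 ^ m0) q p (z j))) := by
    intro j _
    rw [sum_idxL m0 M l (fun m p0 p1 p2 =>
      gamsL A B C (2 ^ (m0 + m)) p0 p1 p2 (x j) (y j) (z j))]
    have hx := (hp.xpos j).le
    have hy := (hp.ypos j).le
    have hz := (hp.zpos j).le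
    have a1 := mask_static (instLDL (α := κ0) one_pos) (scL √(x j) (trL A)) (scL √(z j) C) κ m0 M
      l hκ
    have a2 := mask_static (instLDL (α := κ1) one_pos) (scL √(x j) A) (scL √(y j) (trL B)) κ m0 M
      l hκ
    have a3 := mask_static (instLDL (α := κ2) one_pos) (scL √(y j) B) (scL √(z j) (trL C)) κ m0 M
      l hκ
    have eV := Vb_JVL A B C (2 ^ m0) hx hy hz
    have eA := EW_JEL A (2 ^ m0) hx
    have eB := EW_JEL B (2 ^ m0) hy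
    have eC := EW_JEL C (2 ^ m0) hz
    have hL : ∑ m ∈ range M, bl (fun n => ∑ p0 : ZMod Q, ∑ p1 : ZMod Q,
        gamsL A B C (2 ^ (m0 + m)) p0 p1 (n - p0 - p1) (x j) (y j) (z j)) (2 ^ (m0 + m)) l ≤
        4 * bl (fun n => ∑ p0 : ZMod Q, ∑ p1 : ZMod Q,
          JVL A B C (2 ^ m0) p0 p1 (n - p0 - p1) (x j) (y j) (z j)) (2 ^ m0) (-2) +
        16 * κ * ((∑ q : ZMod Q, ∑ p : ZMod Q, JEL A (2 ^ m0) q p (x j)) +
        (∑ q : ZMod Q, ∑ p : ZMod Q, JEL B (2 ^ m0) q p (y j)) +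
        (∑ q : ZMod Q, ∑ p : ZMod Q, JEL C (2 ^ m0) q p (z j))) := by
      have e : ∀ m : ℕ, bl (fun n => ∑ p0 : ZMod Q, ∑ p1 : ZMod Q,
          gamsL A B C (2 ^ (m0 + m)) p0 p1 (n - p0 - p1) (x j) (y j) (z j)) (2 ^ (m0 + m)) l =
          bl (GW (ldP 1 κ0) (scL √(x j) (trL A)) (scL √(z j) C) (2 ^ (m0 + m)))
            (2 ^ (m0 + m)) l +
          bl (GW (ldP 1 κ1) (scL √(x j) A) (scL √(y j) (trL B)) (2 ^ (m0 + m)))
            (2 ^ (m0 + m)) l +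
          bl (GW (ldP 1 κ2) (scL √(y j) B) (scL √(z j) (trL C)) (2 ^ (m0 + m)))
            (2 ^ (m0 + m)) l := by
        intro m
        rw [← bl_add, ← bl_add]
        congr 1
        funext n
        exact sum_gamsL_eq _ _ _ _ _ hx hy hz
      simp only [e]
      rw [Finset.sum_add_distrib, Finset.sum_add_distrib, ← eV, ← eA, ← eB, ← eC]
      unfold EE at a1 a2 a3
      rw [mul_one] at a1 a2 a3
      linarith
    have h := mul_le_mul_of_nonneg_left hL (hw0 j)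
    refine h.trans (le_of_eq ?_)
    simp only [← Finset.mul_sum]
    rw [bl_const_mul (w j) (fun n => ∑ p0 : ZMod Q, ∑ p1 : ZMod Q,
          JVL A B C (2 ^ m0) p0 p1 (n - p0 - p1) (x j) (y j) (z j))]
    ring
  refine (Finset.sum_le_sum h1).trans ?_
  rw [Finset.sum_add_distrib, ← Finset.mul_sum, ← Finset.mul_sum]
  have hV : ∑ j ∈ Finset.Ico (-(J : ℤ)) J, bl (fun n => ∑ p0 : ZMod Q, ∑ p1 : ZMod Q,
        w j * JVL A B C (2 ^ m0) p0 p1 (n - p0 - p1) (x j) (y j) (z j)) (2 ^ m0) (-2) ≤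
      4 * (SumB SA A (2 ^ m0) + SumB SB B (2 ^ m0) + SumB SC C (2 ^ m0)) := by
    rw [← bl_sum]
    have h2 : ∀ n : ZMod Q, ∑ j ∈ Finset.Ico (-(J : ℤ)) J, ∑ p0 : ZMod Q, ∑ p1 : ZMod Q,
        w j * JVL A B C (2 ^ m0) p0 p1 (n - p0 - p1) (x j) (y j) (z j) ≤
        4 * ∑ p0 : ZMod Q, ∑ p1 : ZMod Q, (SA (bxL A (2 ^ m0) p0 p1) (q4L A (2 ^ m0) p0 p1) +
          SB (bxL B (2 ^ m0) p1 (n - p0 - p1)) (q4L B (2 ^ m0) p1 (n - p0 - p1)) +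
          SC (bxL C (2 ^ m0) (n - p0 - p1) p0) (q4L C (2 ^ m0) (n - p0 - p1) p0)) := by
      intro n
      rw [Finset.sum_comm, Finset.mul_sum]
      refine Finset.sum_le_sum fun p0 _ => ?_
      rw [Finset.sum_comm, Finset.mul_sum]
      refine Finset.sum_le_sum fun p1 _ => ?_
      exact bud_JVL hp hA hB hC A B C (2 ^ m0) p0 p1 (n - p0 - p1) J
    refine (bl_mono h2 _ _).trans (le_of_eq ?_)
    rw [bl_const_mul]
    congr 1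
    exact bl_sum3 (S0 := fun q p => SA (bxL A (2 ^ m0) q p) (q4L A (2 ^ m0) q p))
      (S1 := fun q p => SB (bxL B (2 ^ m0) q p) (q4L B (2 ^ m0) q p))
      (S2 := fun q p => SC (bxL C (2 ^ m0) q p) (q4L C (2 ^ m0) q p)) (by positivity) (-2)
  have hEA : ∑ j ∈ Finset.Ico (-(J : ℤ)) J, ∑ q : ZMod Q, ∑ p : ZMod Q,
      w j * JEL A (2 ^ m0) q p (x j) ≤ 8 * SumB SA A (2 ^ m0) := by
    unfold SumB
    rw [Finset.sum_comm, Finset.mul_sum]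
    refine Finset.sum_le_sum fun q _ => ?_
    rw [Finset.sum_comm, Finset.mul_sum]
    exact Finset.sum_le_sum fun p _ => bud_JEL hw0 (fun j => (hp.xpos j).le) hA A _ _ _ J
  have hEB : ∑ j ∈ Finset.Ico (-(J : ℤ)) J, ∑ q : ZMod Q, ∑ p : ZMod Q,
      w j * JEL B (2 ^ m0) q p (y j) ≤ 8 * SumB SB B (2 ^ m0) := by
    unfold SumB
    rw [Finset.sum_comm, Finset.mul_sum]
    refine Finset.sum_le_sum fun q _ => ?_
    rw [Finset.sum_comm, Finset.mul_sum]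
    exact Finset.sum_le_sum fun p _ => bud_JEL hw0 (fun j => (hp.ypos j).le) hB B _ _ _ J
  have hEC : ∑ j ∈ Finset.Ico (-(J : ℤ)) J, ∑ q : ZMod Q, ∑ p : ZMod Q,
      w j * JEL C (2 ^ m0) q p (z j) ≤ 8 * SumB SC C (2 ^ m0) := by
    unfold SumB
    rw [Finset.sum_comm, Finset.mul_sum]
    refine Finset.sum_le_sum fun q _ => ?_
    rw [Finset.sum_comm, Finset.mul_sum]
    exact Finset.sum_le_sum fun p _ => bud_JEL hw0 (fun j => (hp.zpos j).le) hC C _ _ _ J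
  rw [Finset.sum_add_distrib, Finset.sum_add_distrib]
  have hk : (0 : ℝ) ≤ 16 * κ := by positivity
  have h5 := mul_le_mul_of_nonneg_left (add_le_add (add_le_add hEA hEB) hEC) hk
  linarith

theorem SumB_mono {S T : ℝ → ℝ → ℝ} {L : ℝ}
    (h : ∀ x x4, 0 ≤ x → 0 ≤ x4 → x4 ≤ x ^ 2 → S x x4 ≤ L * T x x4)
    (A : ZMod Q → ZMod Q → Matrix κ0 κ1 ℝ) (N : ℕ) : SumB S A N ≤ L * SumB T A N := by
  unfold SumB
  rw [Finset.mul_sum]
  refine Finset.sum_le_sum fun q _ => ?_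
  rw [Finset.mul_sum]
  exact Finset.sum_le_sum fun p _ =>
    h _ _ (bxL_nonneg _ _ _ _) (q4L_nonneg _ _ _ _) (q4L_le_bxL_sq _ _ _ _)

/-- **(2,4,4), labels, static letters**, slow letter `A` -/
theorem tri24L_static {s H : ℝ} (hs : 0 < s) (hs1 : s ≤ 1) (hH : 1 ≤ H)
    (A : ZMod Q → ZMod Q → Matrix κ0 κ1 ℝ)
    (B : ZMod Q → ZMod Q → Matrix κ1 κ2 ℝ) (C : ZMod Q → ZMod Q → Matrix κ2 κ0 ℝ)
    (κ m0 M : ℕ) (l : ℤ) (hκ : 2 * |l| + 20 ≤ 2 ^ κ) :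
    ∑ m ∈ range M, bl (fun n => ∑ p0 : ZMod Q, ∑ p1 : ZMod Q,
      |LboxL A B C (2 ^ (m0 + m)) p0 p1 (n - p0 - p1)|) (2 ^ (m0 + m)) l ≤
    76800 * (16 + 128 * κ) * (8 * (1 + Real.log (H / s))) *
      (SumB (g2r s (H ^ 2)⁻¹) A (2 ^ m0) + SumB (g4r s) B (2 ^ m0) + SumB (g4r s) C (2 ^ m0)) := by
  obtain ⟨n, a, h1, h2, h3, h4⟩ := R244.dyadic_params hs hs1 hH
  refine (tri_staticL A B C κ m0 M l hκ (Pot.path244 n a) (Pot.bud244 n a).1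
    (Pot.bud244 n a).2 (Pot.bud244 n a).2).trans ?_
  rw [mul_assoc (76800 * (16 + 128 * (κ : ℝ))), mul_assoc (76800 : ℝ)]
  refine mul_le_mul_of_nonneg_left (mul_le_mul_of_nonneg_left ?_ (by positivity)) (by norm_num)
  rw [mul_add, mul_add]
  exact add_le_add (add_le_add
    (SumB_mono (fun x x4 hx hx4 hxx => sA_le hs hs1 hH h1 h3 h4 hx hx4 hxx) _ _)
    (SumB_mono (fun x x4 hx hx4 _ => sB_le hs hs1 hH h1 h2 h4 hx hx4) _ _))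
    (SumB_mono (fun x x4 hx hx4 _ => sB_le hs hs1 hH h1 h2 h4 hx hx4) _ _)

end box

end Crest.Agent.R079.PotL
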