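import Crest.Agent.R079.PLSum_945
import Crest.Agent.R079.Tri24_815

/-! R079, LABELLED Tri24, final literals (AL1 of doc 2514): real parameters `s`, `H`, loss
`1 + log (H/s)`, slot with the `S₂` information = A, B or C, masks (letters change with the scale),
leaf scale `2^m0`.  `g2L = s (bxL + H⁻² q4L)`, `g4L = s bxL + s⁻¹ q4L`.  helper945. -/

set_option autoImplicit false
set_option linter.unusedVariables false
set_option linter.unusedSectionVars false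

namespace Crest.Agent.R079.PotL

open Matrix Finset Crest.Agent.R072 Crest.Agent.R079.LD Crest.Agent.R079.Path
  Crest.Agent.R072.Nd
open Crest.Agent.R079.Pot (Bud sA sB py path244 path424 path442 bud244 bud424 bud442 four_pow')
open Crest.Agent.R079.R244 (dyadic_params)
open scoped MatrixOrder

section lab

variable {Q : ℕ} [NeZero Q] {α β : Type*} [Fintype α] [DecidableEq α] [Fintype β]
  [DecidableEq β]

/-- budget of the `S₂` letter, `h = H⁻²` -/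
noncomputable def g2L (s h : ℝ) (X : ZMod Q → ZMod Q → Matrix β α ℝ) (N : ℕ) (q p : ZMod Q) : ℝ :=
  s * (bxL X N q p + h * q4L X N q p)

/-- budget of an `S₄` letter -/
noncomputable def g4L (s : ℝ) (X : ZMod Q → ZMod Q → Matrix β α ℝ) (N : ℕ) (q p : ZMod Q) : ℝ :=
  s * bxL X N q p + s⁻¹ * q4L X N q p

theorem g2L_nonneg {s h : ℝ} (hs : 0 ≤ s) (hh : 0 ≤ h) (X : ZMod Q → ZMod Q → Matrix β α ℝ)
    (N : ℕ) (q p : ZMod Q) : 0 ≤ g2L s h X N q p :=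
  mul_nonneg hs (add_nonneg (bxL_nonneg _ _ _ _) (mul_nonneg hh (q4L_nonneg _ _ _ _)))

theorem g4L_nonneg {s : ℝ} (hs : 0 ≤ s) (X : ZMod Q → ZMod Q → Matrix β α ℝ)
    (N : ℕ) (q p : ZMod Q) : 0 ≤ g4L s X N q p :=
  add_nonneg (mul_nonneg hs (bxL_nonneg _ _ _ _))
    (mul_nonneg (inv_nonneg.2 hs) (q4L_nonneg _ _ _ _))

theorem sA_le {s H : ℝ} (hs : 0 < s) (hs1 : s ≤ 1) (hH : 1 ≤ H) {n a : ℕ}
    (h1 : ((2 : ℝ) ^ n)⁻¹ ≤ s) (h3 : ((4 : ℝ) ^ a)⁻¹ ≤ (H ^ 2)⁻¹)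
    (h4 : (n : ℝ) + a + 2 ≤ 4 * (1 + Real.log (H / s)))
    (X : ZMod Q → ZMod Q → Matrix β α ℝ) (N : ℕ) (q p : ZMod Q) :
    sA n a (bxL X N q p) (q4L X N q p) ≤
      8 * (1 + Real.log (H / s)) * g2L s (H ^ 2)⁻¹ X N q p := by
  have hlog : 0 ≤ Real.log (H / s) := Real.log_nonneg (by rw [le_div_iff₀ hs]; linarith)
  set L : ℝ := 8 * (1 + Real.log (H / s)) with hL
  have hL0 : 0 ≤ L := by positivity
  have hn0 : (0 : ℝ) ≤ n := Nat.cast_nonneg n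
  have ha0 : (0 : ℝ) ≤ a := Nat.cast_nonneg a
  have hb := bxL_nonneg X N q p
  have hq := q4L_nonneg X N q p
  have e1 : ((4 : ℝ) ^ a)⁻¹ * q4L X N q p ≤ (H ^ 2)⁻¹ * q4L X N q p :=
    mul_le_mul_of_nonneg_right h3 hq
  have e0 : 0 ≤ (H ^ 2)⁻¹ * q4L X N q p := by positivity
  unfold sA g2L
  calc ((2 : ℝ) ^ n)⁻¹ * (2 * (((4 : ℝ) ^ a)⁻¹ * q4L X N q p) + (n + a + 1) * bxL X N q p)
      ≤ s * (2 * ((H ^ 2)⁻¹ * q4L X N q p) + (4 * (1 + Real.log (H / s))) * bxL X N q p) := by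
        refine mul_le_mul h1 ?_ (by positivity) hs.le
        have e2 : ((n : ℝ) + a + 1) * bxL X N q p ≤
            (4 * (1 + Real.log (H / s))) * bxL X N q p :=
          mul_le_mul_of_nonneg_right (by linarith) hb
        linarith
    _ ≤ L * (s * (bxL X N q p + (H ^ 2)⁻¹ * q4L X N q p)) := by
        rw [mul_left_comm L s]
        refine mul_le_mul_of_nonneg_left ?_ hs.le
        have e3 : 2 * ((H ^ 2)⁻¹ * q4L X N q p) ≤ L * ((H ^ 2)⁻¹ * q4L X N q p) :=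
          mul_le_mul_of_nonneg_right (by rw [hL]; linarith) e0
        have e4 : (4 * (1 + Real.log (H / s))) * bxL X N q p ≤ L * bxL X N q p :=
          mul_le_mul_of_nonneg_right (by rw [hL]; linarith) hb
        rw [mul_add]
        linarith

theorem sB_le {s H : ℝ} (hs : 0 < s) (hs1 : s ≤ 1) (hH : 1 ≤ H) {n a : ℕ}
    (h1 : ((2 : ℝ) ^ n)⁻¹ ≤ s) (h2 : (2 : ℝ) ^ n ≤ 2 * s⁻¹)
    (h4 : (n : ℝ) + a + 2 ≤ 4 * (1 + Real.log (H / s)))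
    (X : ZMod Q → ZMod Q → Matrix β α ℝ) (N : ℕ) (q p : ZMod Q) :
    sB n a (bxL X N q p) (q4L X N q p) ≤
      8 * (1 + Real.log (H / s)) * g4L s X N q p := by
  have hlog : 0 ≤ Real.log (H / s) := Real.log_nonneg (by rw [le_div_iff₀ hs]; linarith)
  set L : ℝ := 8 * (1 + Real.log (H / s)) with hL
  have hL0 : 0 ≤ L := by positivity
  have hb := bxL_nonneg X N q p
  have hq := q4L_nonneg X N q p
  have hn2 : (0 : ℝ) < 2 ^ n := by positivity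
  unfold sB g4L
  rw [four_pow' n]
  have e : ((2 : ℝ) ^ n)⁻¹ * (bxL X N q p + (n + a + 2) * (2 ^ n * 2 ^ n * q4L X N q p)) =
      (2 ^ n)⁻¹ * bxL X N q p + (n + a + 2) * (2 ^ n * q4L X N q p) := by
    field_simp
  rw [e, mul_add]
  refine add_le_add ?_ ?_
  · calc ((2 : ℝ) ^ n)⁻¹ * bxL X N q p ≤ s * bxL X N q p := mul_le_mul_of_nonneg_right h1 hb
      _ ≤ L * (s * bxL X N q p) := by
        refine le_mul_of_one_le_left (by positivity) ?_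
        rw [hL]
        linarith
  · calc ((n : ℝ) + a + 2) * (2 ^ n * q4L X N q p)
        ≤ (4 * (1 + Real.log (H / s))) * (2 * s⁻¹ * q4L X N q p) :=
          mul_le_mul h4 (mul_le_mul_of_nonneg_right h2 hq) (by positivity) (by positivity)
      _ = L * (s⁻¹ * q4L X N q p) := by rw [hL]; ring

end lab

section tri

variable {Q : ℕ} [NeZero Q] {κ0 κ1 κ2 α β : Type*} [Fintype κ0] [DecidableEq κ0]
  [Fintype κ1] [DecidableEq κ1] [Fintype κ2] [DecidableEq κ2] [Fintype α] [DecidableEq α]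
  [Fintype β] [DecidableEq β]

open Classical in
/-- exit value of the joint potentials: boxes of side `N` (block `-2` of offsets) which see a
change, budgets `gA, gB, gC` -/
noncomputable def VL (gA gB gC : ℕ → ZMod Q → ZMod Q → ℝ)
    (A A' : ZMod Q → ZMod Q → Matrix κ0 κ1 ℝ) (B B' : ZMod Q → ZMod Q → Matrix κ1 κ2 ℝ)
    (C C' : ZMod Q → ZMod Q → Matrix κ2 κ0 ℝ) (N : ℕ) : ℝ :=
  bl (fun n => ∑ p0 : ZMod Q, ∑ p1 : ZMod Q,
    if Any3 A A' B B' C C' N p0 p1 (n - p0 - p1) then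
      gA N p0 p1 + gB N p1 (n - p0 - p1) + gC N (n - p0 - p1) p0 else 0) N (-2)

open Classical in
/-- exit value of an own potential, budget `g` -/
noncomputable def EL (g : ℕ → ZMod Q → ZMod Q → ℝ) (A A' : ZMod Q → ZMod Q → Matrix β α ℝ)
    (N : ℕ) : ℝ :=
  ∑ q : ZMod Q, ∑ p : ZMod Q, if Sees A A' N q p then g N q p else 0

/-- the left hand side -/
noncomputable def LS (A : ℕ → ZMod Q → ZMod Q → Matrix κ0 κ1 ℝ)
    (B : ℕ → ZMod Q → ZMod Q → Matrix κ1 κ2 ℝ) (C : ℕ → ZMod Q → ZMod Q → Matrix κ2 κ0 ℝ)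
    (m0 M : ℕ) (l : ℤ) : ℝ :=
  ∑ m ∈ range M, bl (fun n => ∑ p0 : ZMod Q, ∑ p1 : ZMod Q,
    |LboxL (A (m + 1)) (B (m + 1)) (C (m + 1)) (2 ^ (m0 + m)) p0 p1 (n - p0 - p1)|)
      (2 ^ (m0 + m)) l

/-- the right hand side: exit values of all changes (own potentials at the scales
`2^(m0+m), ..., 2^(m0+m+5)`) and the leaf energies -/
noncomputable def RS (gA : (ZMod Q → ZMod Q → Matrix κ0 κ1 ℝ) → ℕ → ZMod Q → ZMod Q → ℝ)
    (gB : (ZMod Q → ZMod Q → Matrix κ1 κ2 ℝ) → ℕ → ZMod Q → ZMod Q → ℝ)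
    (gC : (ZMod Q → ZMod Q → Matrix κ2 κ0 ℝ) → ℕ → ZMod Q → ZMod Q → ℝ)
    (A : ℕ → ZMod Q → ZMod Q → Matrix κ0 κ1 ℝ)
    (B : ℕ → ZMod Q → ZMod Q → Matrix κ1 κ2 ℝ) (C : ℕ → ZMod Q → ZMod Q → Matrix κ2 κ0 ℝ)
    (m0 M : ℕ) : ℝ :=
  ∑ m ∈ range M,
    (VL (gA (A (m + 1))) (gB (B (m + 1))) (gC (C (m + 1))) (A (m + 1)) (A m) (B (m + 1)) (B m)
      (C (m + 1)) (C m) (2 ^ (m0 + m)) +
    ∑ k ∈ range 6, (EL (gA (A (m + 1))) (A (m + 1)) (A m) (2 ^ (m0 + m + k)) +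
      EL (gB (B (m + 1))) (B (m + 1)) (B m) (2 ^ (m0 + m + k)) +
      EL (gC (C (m + 1))) (C (m + 1)) (C m) (2 ^ (m0 + m + k)))) +
  ∑ q : ZMod Q, ∑ p : ZMod Q,
    (gA (A 0) (2 ^ m0) q p + gB (B 0) (2 ^ m0) q p + gC (C 0) (2 ^ m0) q p)

open Classical in
theorem EL_bound {L : ℝ} (hL : 0 ≤ L) {S : ℝ → ℝ → ℝ} {g : ℕ → ZMod Q → ZMod Q → ℝ}
    {X X' : ZMod Q → ZMod Q → Matrix β α ℝ} {N : ℕ}
    (hg : ∀ q p, S (bxL X N q p) (q4L X N q p) ≤ L * g N q p) :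
    (∑ q : ZMod Q, ∑ p : ZMod Q, if Sees X X' N q p then
      8 * S (bxL X N q p) (q4L X N q p) else 0) ≤ 8 * L * EL g X X' N := by
  unfold EL
  rw [Finset.mul_sum]
  refine Finset.sum_le_sum fun q _ => ?_
  rw [Finset.mul_sum]
  refine Finset.sum_le_sum fun p _ => ?_
  rw [mul_ite, mul_zero]
  split_ifs
  · have := hg q p
    linarith
  · exact le_refl _

theorem EL_nonneg {g : ℕ → ZMod Q → ZMod Q → ℝ} (hg : ∀ N q p, 0 ≤ g N q p)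
    (X X' : ZMod Q → ZMod Q → Matrix β α ℝ) (N : ℕ) : 0 ≤ EL g X X' N := by
  unfold EL
  refine Finset.sum_nonneg fun q _ => Finset.sum_nonneg fun p _ => ?_
  split_ifs
  · exact hg _ _ _
  · exact le_refl _

theorem VL_nonneg {gA gB gC : ℕ → ZMod Q → ZMod Q → ℝ} (hA : ∀ N q p, 0 ≤ gA N q p)
    (hB : ∀ N q p, 0 ≤ gB N q p) (hC : ∀ N q p, 0 ≤ gC N q p)
    (A A' : ZMod Q → ZMod Q → Matrix κ0 κ1 ℝ) (B B' : ZMod Q → ZMod Q → Matrix κ1 κ2 ℝ)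
    (C C' : ZMod Q → ZMod Q → Matrix κ2 κ0 ℝ) (N : ℕ) : 0 ≤ VL gA gB gC A A' B B' C C' N := by
  unfold VL
  refine bl_nonneg (fun n => ?_) _ _
  refine Finset.sum_nonneg fun p0 _ => Finset.sum_nonneg fun p1 _ => ?_
  split_ifs
  · exact add_nonneg (add_nonneg (hA _ _ _) (hB _ _ _)) (hC _ _ _)
  · exact le_refl _

open Classical in
/-- general form: path, scalar budgets, budgets `g` which dominate them -/
theorem LS_le (A : ℕ → ZMod Q → ZMod Q → Matrix κ0 κ1 ℝ)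
    (B : ℕ → ZMod Q → ZMod Q → Matrix κ1 κ2 ℝ) (C : ℕ → ZMod Q → ZMod Q → Matrix κ2 κ0 ℝ)
    (m0 M : ℕ) (l : ℤ) (hl : |l| ≤ 7) {x y z : ℤ → ℝ} (hp : PathSeq x y z)
    {SA SB SC : ℝ → ℝ → ℝ}
    (hA : Bud (fun j => (√(x j) * √(y j) * √(z j))⁻¹) x SA)
    (hB : Bud (fun j => (√(x j) * √(y j) * √(z j))⁻¹) y SB)
    (hC : Bud (fun j => (√(x j) * √(y j) * √(z j))⁻¹) z SC)
    (gA : (ZMod Q → ZMod Q → Matrix κ0 κ1 ℝ) → ℕ → ZMod Q → ZMod Q → ℝ)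
    (gB : (ZMod Q → ZMod Q → Matrix κ1 κ2 ℝ) → ℕ → ZMod Q → ZMod Q → ℝ)
    (gC : (ZMod Q → ZMod Q → Matrix κ2 κ0 ℝ) → ℕ → ZMod Q → ZMod Q → ℝ) {L : ℝ} (hL : 0 ≤ L)
    (hgA0 : ∀ X N q p, 0 ≤ gA X N q p) (hgB0 : ∀ X N q p, 0 ≤ gB X N q p)
    (hgC0 : ∀ X N q p, 0 ≤ gC X N q p)
    (hgA : ∀ X N q p, SA (bxL X N q p) (q4L X N q p) ≤ L * gA X N q p)
    (hgB : ∀ X N q p, SB (bxL X N q p) (q4L X N q p) ≤ L * gB X N q p)
    (hgC : ∀ X N q p, SC (bxL X N q p) (q4L X N q p) ≤ L * gC X N q p) :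
    LS A B C m0 M l ≤ 76800 * 832 * L * RS gA gB gC A B C m0 M := by
  have hκ : 2 * |l| + 20 ≤ 2 ^ 6 := by omega
  have h := tri_bud A B C 6 m0 M l (by exact_mod_cast hκ) hp hA hB hC
  unfold LS
  refine h.trans ?_
  -- the joint potentials
  have hVL : ∀ m : ℕ, bl (fun n => ∑ p0 : ZMod Q, ∑ p1 : ZMod Q,
      if Any3 (A (m + 1)) (A m) (B (m + 1)) (B m) (C (m + 1)) (C m) (2 ^ (m0 + m)) p0 p1
        (n - p0 - p1)
      then 4 * (SA (bxL (A (m + 1)) (2 ^ (m0 + m)) p0 p1) (q4L (A (m + 1)) (2 ^ (m0 + m)) p0 p1) +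
        SB (bxL (B (m + 1)) (2 ^ (m0 + m)) p1 (n - p0 - p1))
          (q4L (B (m + 1)) (2 ^ (m0 + m)) p1 (n - p0 - p1)) +
        SC (bxL (C (m + 1)) (2 ^ (m0 + m)) (n - p0 - p1) p0)
          (q4L (C (m + 1)) (2 ^ (m0 + m)) (n - p0 - p1) p0))
      else 0) (2 ^ (m0 + m)) (-2) ≤
      4 * L * VL (gA (A (m + 1))) (gB (B (m + 1))) (gC (C (m + 1))) (A (m + 1)) (A m) (B (m + 1))
        (B m) (C (m + 1)) (C m) (2 ^ (m0 + m)) := by
    intro m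
    unfold VL
    rw [← bl_const_mul]
    refine bl_mono (fun n => ?_) _ _
    rw [Finset.mul_sum]
    refine Finset.sum_le_sum fun p0 _ => ?_
    rw [Finset.mul_sum]
    refine Finset.sum_le_sum fun p1 _ => ?_
    rw [mul_ite, mul_zero]
    split_ifs
    · have a1 := hgA (A (m + 1)) (2 ^ (m0 + m)) p0 p1
      have a2 := hgB (B (m + 1)) (2 ^ (m0 + m)) p1 (n - p0 - p1)
      have a3 := hgC (C (m + 1)) (2 ^ (m0 + m)) (n - p0 - p1) p0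
      linarith
    · exact le_refl _
  have hV := Finset.sum_le_sum fun m (_ : m ∈ range M) => hVL m
  rw [← Finset.mul_sum] at hV
  -- the own potentials
  have hE : ∑ k ∈ range 6, ∑ m ∈ range M,
      ((∑ q : ZMod Q, ∑ p : ZMod Q, if Sees (A (m + 1)) (A m) (2 ^ (m0 + m + k)) q p then
        8 * SA (bxL (A (m + 1)) (2 ^ (m0 + m + k)) q p) (q4L (A (m + 1)) (2 ^ (m0 + m + k)) q p)
        else 0) +
      (∑ q : ZMod Q, ∑ p : ZMod Q, if Sees (B (m + 1)) (B m) (2 ^ (m0 + m + k)) q p then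
        8 * SB (bxL (B (m + 1)) (2 ^ (m0 + m + k)) q p) (q4L (B (m + 1)) (2 ^ (m0 + m + k)) q p)
        else 0) +
      (∑ q : ZMod Q, ∑ p : ZMod Q, if Sees (C (m + 1)) (C m) (2 ^ (m0 + m + k)) q p then
        8 * SC (bxL (C (m + 1)) (2 ^ (m0 + m + k)) q p) (q4L (C (m + 1)) (2 ^ (m0 + m + k)) q p)
        else 0)) ≤
      8 * L * ∑ m ∈ range M, ∑ k ∈ range 6,
        (EL (gA (A (m + 1))) (A (m + 1)) (A m) (2 ^ (m0 + m + k)) +
      EL (gB (B (m + 1))) (B (m + 1)) (B m) (2 ^ (m0 + m + k)) +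
      EL (gC (C (m + 1))) (C (m + 1)) (C m) (2 ^ (m0 + m + k))) := by
    rw [Finset.sum_comm, Finset.mul_sum]
    refine Finset.sum_le_sum fun m _ => ?_
    rw [Finset.mul_sum]
    refine Finset.sum_le_sum fun k _ => ?_
    rw [mul_add, mul_add]
    exact add_le_add (add_le_add
      (EL_bound hL (fun q p => hgA (A (m + 1)) (2 ^ (m0 + m + k)) q p))
      (EL_bound hL (fun q p => hgB (B (m + 1)) (2 ^ (m0 + m + k)) q p)))
      (EL_bound hL (fun q p => hgC (C (m + 1)) (2 ^ (m0 + m + k)) q p))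
  -- the leaf
  have hLf : (∑ q : ZMod Q, ∑ p : ZMod Q, 8 * SA (bxL (A 0) (2 ^ m0) q p) (q4L (A 0) (2 ^ m0) q p)) +
      (∑ q : ZMod Q, ∑ p : ZMod Q, 8 * SB (bxL (B 0) (2 ^ m0) q p) (q4L (B 0) (2 ^ m0) q p)) +
      (∑ q : ZMod Q, ∑ p : ZMod Q, 8 * SC (bxL (C 0) (2 ^ m0) q p) (q4L (C 0) (2 ^ m0) q p)) ≤
      8 * L * ∑ q : ZMod Q, ∑ p : ZMod Q,
        (gA (A 0) (2 ^ m0) q p + gB (B 0) (2 ^ m0) q p + gC (C 0) (2 ^ m0) q p) := by
    rw [← Finset.sum_add_distrib, ← Finset.sum_add_distrib, Finset.mul_sum]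
    refine Finset.sum_le_sum fun q _ => ?_
    rw [← Finset.sum_add_distrib, ← Finset.sum_add_distrib, Finset.mul_sum]
    refine Finset.sum_le_sum fun p _ => ?_
    have a1 := hgA (A 0) (2 ^ m0) q p
    have a2 := hgB (B 0) (2 ^ m0) q p
    have a3 := hgC (C 0) (2 ^ m0) q p
    linarith
  have v0 : 0 ≤ ∑ m ∈ range M, VL (gA (A (m + 1))) (gB (B (m + 1))) (gC (C (m + 1)))
      (A (m + 1)) (A m) (B (m + 1)) (B m) (C (m + 1)) (C m) (2 ^ (m0 + m)) :=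
    Finset.sum_nonneg fun m _ => VL_nonneg (hgA0 _) (hgB0 _) (hgC0 _) _ _ _ _ _ _ _
  have e0 : 0 ≤ ∑ m ∈ range M, ∑ k ∈ range 6,
        (EL (gA (A (m + 1))) (A (m + 1)) (A m) (2 ^ (m0 + m + k)) +
      EL (gB (B (m + 1))) (B (m + 1)) (B m) (2 ^ (m0 + m + k)) +
      EL (gC (C (m + 1))) (C (m + 1)) (C m) (2 ^ (m0 + m + k))) :=
    Finset.sum_nonneg fun m _ => Finset.sum_nonneg fun k _ => add_nonneg (add_nonneg
      (EL_nonneg (hgA0 _) _ _ _) (EL_nonneg (hgB0 _) _ _ _)) (EL_nonneg (hgC0 _) _ _ _)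
  have l0 : 0 ≤ ∑ q : ZMod Q, ∑ p : ZMod Q,
        (gA (A 0) (2 ^ m0) q p + gB (B 0) (2 ^ m0) q p + gC (C 0) (2 ^ m0) q p) :=
    Finset.sum_nonneg fun q _ => Finset.sum_nonneg fun p _ => add_nonneg (add_nonneg
      (hgA0 _ _ _ _) (hgB0 _ _ _ _)) (hgC0 _ _ _ _)
  have hRS : RS gA gB gC A B C m0 M =
      ∑ m ∈ range M, VL (gA (A (m + 1))) (gB (B (m + 1))) (gC (C (m + 1)))
      (A (m + 1)) (A m) (B (m + 1)) (B m) (C (m + 1)) (C m) (2 ^ (m0 + m)) +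
      ∑ m ∈ range M, ∑ k ∈ range 6,
        (EL (gA (A (m + 1))) (A (m + 1)) (A m) (2 ^ (m0 + m + k)) +
      EL (gB (B (m + 1))) (B (m + 1)) (B m) (2 ^ (m0 + m + k)) +
      EL (gC (C (m + 1))) (C (m + 1)) (C m) (2 ^ (m0 + m + k))) +
      ∑ q : ZMod Q, ∑ p : ZMod Q,
        (gA (A 0) (2 ^ m0) q p + gB (B 0) (2 ^ m0) q p + gC (C 0) (2 ^ m0) q p) := by
    unfold RS
    rw [Finset.sum_add_distrib]
  rw [hRS]
  set V := ∑ m ∈ range M, VL (gA (A (m + 1))) (gB (B (m + 1))) (gC (C (m + 1)))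
      (A (m + 1)) (A m) (B (m + 1)) (B m) (C (m + 1)) (C m) (2 ^ (m0 + m)) with hVd
  set E := ∑ m ∈ range M, ∑ k ∈ range 6,
        (EL (gA (A (m + 1))) (A (m + 1)) (A m) (2 ^ (m0 + m + k)) +
      EL (gB (B (m + 1))) (B (m + 1)) (B m) (2 ^ (m0 + m + k)) +
      EL (gC (C (m + 1))) (C (m + 1)) (C m) (2 ^ (m0 + m + k))) with hEd
  set F := ∑ q : ZMod Q, ∑ p : ZMod Q,
        (gA (A 0) (2 ^ m0) q p + gB (B 0) (2 ^ m0) q p + gC (C 0) (2 ^ m0) q p) with hFd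
  have g1 : 0 ≤ L * V := mul_nonneg hL v0
  have g2 : 0 ≤ L * E := mul_nonneg hL e0
  have g3 : 0 ≤ L * F := mul_nonneg hL l0
  have e6 : ((6 : ℕ) : ℝ) = 6 := by norm_num
  rw [e6]
  nlinarith [hV, hE, hLf, g1, g2, g3]

/-- **labelled Tri24, the `S₂` letter is `A` (exponents (2,4,4))** -/
theorem tri24A {s : ℝ} (hs : 0 < s) (hs1 : s ≤ 1) {H : ℝ} (hH : 1 ≤ H)
    (A : ℕ → ZMod Q → ZMod Q → Matrix κ0 κ1 ℝ)
    (B : ℕ → ZMod Q → ZMod Q → Matrix κ1 κ2 ℝ) (C : ℕ → ZMod Q → ZMod Q → Matrix κ2 κ0 ℝ)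
    (m0 M : ℕ) (l : ℤ) (hl : |l| ≤ 7) :
    LS A B C m0 M l ≤ 511180800 * (1 + Real.log (H / s)) *
      RS (g2L s (H ^ 2)⁻¹) (g4L s) (g4L s) A B C m0 M := by
  obtain ⟨n, a, h1, h2, h3, h4⟩ := dyadic_params hs hs1 hH
  have hlog : 0 ≤ Real.log (H / s) := Real.log_nonneg (by rw [le_div_iff₀ hs]; linarith)
  refine (LS_le A B C m0 M l hl (path244 n a) (bud244 n a).1 (bud244 n a).2 (bud244 n a).2
    (g2L s (H ^ 2)⁻¹) (g4L s) (g4L s) (L := 8 * (1 + Real.log (H / s))) (by positivity)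
    (fun X N q p => g2L_nonneg hs.le (by positivity) X N q p)
    (fun X N q p => g4L_nonneg hs.le X N q p) (fun X N q p => g4L_nonneg hs.le X N q p)
    (fun X N q p => sA_le hs hs1 hH h1 h3 h4 X N q p)
    (fun X N q p => sB_le hs hs1 hH h1 h2 h4 X N q p)
    (fun X N q p => sB_le hs hs1 hH h1 h2 h4 X N q p)).trans (le_of_eq ?_)
  ring

/-- **labelled Tri24, the `S₂` letter is `B` (exponents (4,2,4))** -/
theorem tri24B {s : ℝ} (hs : 0 < s) (hs1 : s ≤ 1) {H : ℝ} (hH : 1 ≤ H)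
    (A : ℕ → ZMod Q → ZMod Q → Matrix κ0 κ1 ℝ)
    (B : ℕ → ZMod Q → ZMod Q → Matrix κ1 κ2 ℝ) (C : ℕ → ZMod Q → ZMod Q → Matrix κ2 κ0 ℝ)
    (m0 M : ℕ) (l : ℤ) (hl : |l| ≤ 7) :
    LS A B C m0 M l ≤ 511180800 * (1 + Real.log (H / s)) *
      RS (g4L s) (g2L s (H ^ 2)⁻¹) (g4L s) A B C m0 M := by
  obtain ⟨n, a, h1, h2, h3, h4⟩ := dyadic_params hs hs1 hH
  have hlog : 0 ≤ Real.log (H / s) := Real.log_nonneg (by rw [le_div_iff₀ hs]; linarith)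
  refine (LS_le A B C m0 M l hl (path424 n a) (bud424 n a).2 (bud424 n a).1 (bud424 n a).2
    (g4L s) (g2L s (H ^ 2)⁻¹) (g4L s) (L := 8 * (1 + Real.log (H / s))) (by positivity)
    (fun X N q p => g4L_nonneg hs.le X N q p)
    (fun X N q p => g2L_nonneg hs.le (by positivity) X N q p)
    (fun X N q p => g4L_nonneg hs.le X N q p)
    (fun X N q p => sB_le hs hs1 hH h1 h2 h4 X N q p)
    (fun X N q p => sA_le hs hs1 hH h1 h3 h4 X N q p)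
    (fun X N q p => sB_le hs hs1 hH h1 h2 h4 X N q p)).trans (le_of_eq ?_)
  ring

/-- **labelled Tri24, the `S₂` letter is `C` (exponents (4,4,2))** -/
theorem tri24C {s : ℝ} (hs : 0 < s) (hs1 : s ≤ 1) {H : ℝ} (hH : 1 ≤ H)
    (A : ℕ → ZMod Q → ZMod Q → Matrix κ0 κ1 ℝ)
    (B : ℕ → ZMod Q → ZMod Q → Matrix κ1 κ2 ℝ) (C : ℕ → ZMod Q → ZMod Q → Matrix κ2 κ0 ℝ)
    (m0 M : ℕ) (l : ℤ) (hl : |l| ≤ 7) :
    LS A B C m0 M l ≤ 511180800 * (1 + Real.log (H / s)) *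
      RS (g4L s) (g4L s) (g2L s (H ^ 2)⁻¹) A B C m0 M := by
  obtain ⟨n, a, h1, h2, h3, h4⟩ := dyadic_params hs hs1 hH
  have hlog : 0 ≤ Real.log (H / s) := Real.log_nonneg (by rw [le_div_iff₀ hs]; linarith)
  refine (LS_le A B C m0 M l hl (path442 n a) (bud442 n a).2 (bud442 n a).2 (bud442 n a).1
    (g4L s) (g4L s) (g2L s (H ^ 2)⁻¹) (L := 8 * (1 + Real.log (H / s))) (by positivity)
    (fun X N q p => g4L_nonneg hs.le X N q p) (fun X N q p => g4L_nonneg hs.le X N q p)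
    (fun X N q p => g2L_nonneg hs.le (by positivity) X N q p)
    (fun X N q p => sB_le hs hs1 hH h1 h2 h4 X N q p)
    (fun X N q p => sB_le hs hs1 hH h1 h2 h4 X N q p)
    (fun X N q p => sA_le hs hs1 hH h1 h3 h4 X N q p)).trans (le_of_eq ?_)
  ring

/-- the right hand side for static letters: only the leaf -/
theorem RS_static (gA : (ZMod Q → ZMod Q → Matrix κ0 κ1 ℝ) → ℕ → ZMod Q → ZMod Q → ℝ)
    (gB : (ZMod Q → ZMod Q → Matrix κ1 κ2 ℝ) → ℕ → ZMod Q → ZMod Q → ℝ)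
    (gC : (ZMod Q → ZMod Q → Matrix κ2 κ0 ℝ) → ℕ → ZMod Q → ZMod Q → ℝ)
    (A : ZMod Q → ZMod Q → Matrix κ0 κ1 ℝ)
    (B : ZMod Q → ZMod Q → Matrix κ1 κ2 ℝ) (C : ZMod Q → ZMod Q → Matrix κ2 κ0 ℝ)
    (m0 M : ℕ) : RS gA gB gC (fun _ => A) (fun _ => B) (fun _ => C) m0 M =
      ∑ q : ZMod Q, ∑ p : ZMod Q,
        (gA A (2 ^ m0) q p + gB B (2 ^ m0) q p + gC C (2 ^ m0) q p) := by
  classical
  have hs0 := fun a q p => not_sees_self A a q p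
  have hs1 := fun a q p => not_sees_self B a q p
  have hs2' := fun a q p => not_sees_self C a q p
  have hn : ∀ (N : ℕ) (p0 p1 p2 : ZMod Q), ¬ Any3 A A B B C C N p0 p1 p2 := by
    intro N p0 p1 p2 h
    rcases h with h | h | h
    · exact hs0 _ _ _ h
    · exact hs1 _ _ _ h
    · exact hs2' _ _ _ h
  unfold RS VL EL bl
  simp [hn, hs0, hs1, hs2']

end tri

end Crest.Agent.R079.PotL
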