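import Crest.Agent.R079.PLS1_242
import Crest.Agent.R079.F24f_118
import Crest.Agent.R079.GlueK_914

/-! R079 (helper242): **`labelled24`** = region version of the labelled (2,4,4) word, from 118's
`frozenMix24` by random signs.  Labels at the vertex `z0` (edges `a(z0,z1)`, `c(z2,z0)`). -/

set_option autoImplicit false
set_option linter.unusedSectionVars false

namespace Crest.Agent.R079.Sgn

open Finset Crest.Agent.R079.Grid Crest.Agent.R079.Pot Crest.Agent.R079.Glue Crest.Agent.R079.R244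
  Crest.Agent.R079.F24 Crest.Agent.R079.GlueK

section defs

variable {κ : Type} [Fintype κ] [DecidableEq κ]

/-- labelled box average of `‖X‖²` -/
noncomputable def e2K (X : ℤ → ℤ → κ → ℂ) (N : ℕ) (q p : ℤ) : ℝ :=
  (1 / (N : ℝ) ^ 2) * ∑ i ∈ range N, ∑ j ∈ range N, ∑ k, ‖X (q + (i : ℤ)) (p + (j : ℤ)) k‖ ^ 2

/-- labelled `S₄` fourth power (labels at the FIRST variable) -/
noncomputable def e4K (X : ℤ → ℤ → κ → ℂ) (N : ℕ) (q p : ℤ) : ℝ :=
  (1 / (N : ℝ) ^ 4) * ∑ j ∈ range N, ∑ j' ∈ range N,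
    ‖∑ i ∈ range N, ∑ k, X (q + (i : ℤ)) (p + (j : ℤ)) k *
      (starRingEnd ℂ) (X (q + (i : ℤ)) (p + (j' : ℤ)) k)‖ ^ 2

/-- diagonal error -/
noncomputable def dgK (X : ℤ → ℤ → κ → ℂ) (N : ℕ) (q p : ℤ) : ℝ :=
  (1 / (N : ℝ) ^ 4) * ∑ j ∈ range N, ∑ j' ∈ range N, ∑ i ∈ range N,
    (∑ k, ‖X (q + (i : ℤ)) (p + (j : ℤ)) k‖ ^ 2) * ∑ k, ‖X (q + (i : ℤ)) (p + (j' : ℤ)) k‖ ^ 2

/-- random combination of the labels, first variable -/
noncomputable def sg (T0 : Finset ℤ) (ω : T0 × κ → Bool) (X : ℤ → ℤ → κ → ℂ) (z z' : ℤ) : ℂ :=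
  if h : z ∈ T0 then ∑ k, (sb (ω (⟨z, h⟩, k)) : ℂ) * X z z' k else 0

/-- labelled frozen kernel -/
noncomputable def frK (j k e f : Fin 4) (T T' : Finset ℤ) (U : ℤ → ℤ → κ → ℂ) (F : ℤ → ℂ) (w : ℤ)
    (z z' : ℤ) (l : κ) : ℂ :=
  if z ∈ T ∧ z' ∈ T' then
    U z z' l * F ((sl j - sl k) * w + (sl e - sl k) * z + (sl f - sl k) * z') else 0

theorem frz_sg (j k e f : Fin 4) (T T' : Finset ℤ) (ω : T × κ → Bool) (U : ℤ → ℤ → κ → ℂ)
    (F : ℤ → ℂ) (w z z' : ℤ) :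
    frz j k e f T T' (sg T ω U) F w z z' = sg T ω (frK j k e f T T' U F w) z z' := by
  unfold frz sg frK
  by_cases hz : z ∈ T
  · by_cases hz' : z' ∈ T'
    · simp only [hz, hz', and_self, if_true, dif_pos]
      rw [Finset.sum_mul]
      exact Finset.sum_congr rfl fun l _ => by ring
    · simp [hz']
  · simp [hz]

theorem frz_sg' (j k e f : Fin 4) (T T' : Finset ℤ) (ω : T' × κ → Bool) (U : ℤ → ℤ → κ → ℂ)
    (F : ℤ → ℂ) (w z z' : ℤ) :
    frz j k e f T T' (fun x y => sg T' ω (fun b a l => U a b l) y x) F w z z' =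
      sg T' ω (fun b a l => frK j k e f T T' U F w a b l) z' z := by
  unfold frz sg frK
  by_cases hz' : z' ∈ T'
  · by_cases hz : z ∈ T
    · simp only [hz, hz', and_self, if_true, dif_pos]
      rw [Finset.sum_mul]
      exact Finset.sum_congr rfl fun l _ => by ring
    · simp [hz]
  · simp [hz']

theorem box_reindex {M : Type*} [AddCommMonoid M] (T0 : Finset ℤ) (F : ℤ → M)
    (hF : ∀ z, z ∉ T0 → F z = 0) (N : ℕ) (q : ℤ) :
    ∑ i ∈ range N, F (q + (i : ℤ)) = ∑ z : T0, if (z : ℤ) ∈ Ico q (q + N) then F z else 0 := by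
  rw [Finset.sum_coe_sort T0 (fun z => if z ∈ Ico q (q + N) then F z else 0)]
  have h1 : ∑ i ∈ range N, F (q + (i : ℤ)) = ∑ z ∈ Ico q (q + N), F z := by
    refine Finset.sum_bij (fun i _ => q + (i : ℤ)) ?_ ?_ ?_ ?_
    · intro i hi
      rw [Finset.mem_range] at hi
      rw [Finset.mem_Ico]
      omega
    · intro i _ i' _ h
      have : (i : ℤ) = i' := by linarith
      exact_mod_cast this
    · intro z hz
      rw [Finset.mem_Ico] at hz
      refine ⟨(z - q).toNat, ?_, ?_⟩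
      · rw [Finset.mem_range]; omega
      · omega
    · intro i _; rfl
  rw [h1, ← Finset.sum_filter]
  have h2 : T0.filter (fun z => z ∈ Ico q (q + N)) = (Ico q (q + N)).filter (fun z => z ∈ T0) := by
    ext z; simp only [Finset.mem_filter]; tauto
  rw [h2, Finset.sum_filter]
  refine Finset.sum_congr rfl fun z _ => ?_
  split_ifs with h
  · rfl
  · exact hF z h

/-- **average of `e4` over the signs** -/
theorem avg_e4 (T0 : Finset ℤ) (X : ℤ → ℤ → κ → ℂ) (hX : ∀ z, z ∉ T0 → ∀ z' k, X z z' k = 0)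
    (N : ℕ) (q p : ℤ) :
    ∑ ω : T0 × κ → Bool, e4 (sg T0 ω X) N q p ≤
      Cn (T0 × κ) * (e4K X N q p + 2 * dgK X N q p) := by
  unfold e4 e4K dgK
  rw [← Finset.mul_sum]
  have hc : (0 : ℝ) ≤ 1 / (N : ℝ) ^ 4 := by positivity
  have e : Cn (T0 × κ) * (1 / (N : ℝ) ^ 4 * ∑ j ∈ range N, ∑ j' ∈ range N,
      ‖∑ i ∈ range N, ∑ k, X (q + (i : ℤ)) (p + (j : ℤ)) k *
        (starRingEnd ℂ) (X (q + (i : ℤ)) (p + (j' : ℤ)) k)‖ ^ 2 +
      2 * (1 / (N : ℝ) ^ 4 * ∑ j ∈ range N, ∑ j' ∈ range N, ∑ i ∈ range N,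
        (∑ k, ‖X (q + (i : ℤ)) (p + (j : ℤ)) k‖ ^ 2) *
          ∑ k, ‖X (q + (i : ℤ)) (p + (j' : ℤ)) k‖ ^ 2)) =
      1 / (N : ℝ) ^ 4 * ∑ j ∈ range N, ∑ j' ∈ range N, Cn (T0 × κ) *
        (‖∑ i ∈ range N, ∑ k, X (q + (i : ℤ)) (p + (j : ℤ)) k *
          (starRingEnd ℂ) (X (q + (i : ℤ)) (p + (j' : ℤ)) k)‖ ^ 2 +
        2 * ∑ i ∈ range N, (∑ k, ‖X (q + (i : ℤ)) (p + (j : ℤ)) k‖ ^ 2) *
          ∑ k, ‖X (q + (i : ℤ)) (p + (j' : ℤ)) k‖ ^ 2) := by
    simp only [mul_add, Finset.sum_add_distrib, ← Finset.mul_sum]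
    ring
  rw [e]
  refine mul_le_mul_of_nonneg_left ?_ hc
  rw [Finset.sum_comm]
  refine Finset.sum_le_sum fun j _ => ?_
  rw [Finset.sum_comm]
  refine Finset.sum_le_sum fun j' _ => ?_
  set I : Finset ℤ := Ico q (q + N) with hI
  set x : T0 → κ → ℂ := fun z k => if (z : ℤ) ∈ I then X z (p + (j : ℤ)) k else 0 with hx
  set x' : T0 → κ → ℂ := fun z k => if (z : ℤ) ∈ I then X z (p + (j' : ℤ)) k else 0 with hx'
  have h1 : ∀ ω : T0 × κ → Bool, ∑ i ∈ range N, sg T0 ω X (q + (i : ℤ)) (p + (j : ℤ)) *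
      (starRingEnd ℂ) (sg T0 ω X (q + (i : ℤ)) (p + (j' : ℤ))) =
      ∑ z, (∑ k, (sb (ω (z, k)) : ℂ) * x z k) *
        (starRingEnd ℂ) (∑ k, (sb (ω (z, k)) : ℂ) * x' z k) := by
    intro ω
    rw [box_reindex T0 (fun z => sg T0 ω X z (p + (j : ℤ)) *
      (starRingEnd ℂ) (sg T0 ω X z (p + (j' : ℤ)))) (by
        intro z hz
        simp [sg, hz]) N q]
    refine Finset.sum_congr rfl fun z _ => ?_
    simp only [hx, hx']
    by_cases hz : (z : ℤ) ∈ Ico q (q + N)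
    · rw [if_pos hz]
      simp only [hI, hz, if_true]
      unfold sg
      rw [dif_pos z.2, dif_pos z.2]
    · rw [if_neg hz]
      simp [hI, hz]
  have h2 : ∑ z, ∑ k, x z k * (starRingEnd ℂ) (x' z k) =
      ∑ i ∈ range N, ∑ k, X (q + (i : ℤ)) (p + (j : ℤ)) k *
        (starRingEnd ℂ) (X (q + (i : ℤ)) (p + (j' : ℤ)) k) := by
    rw [box_reindex T0 (fun z => ∑ k, X z (p + (j : ℤ)) k *
      (starRingEnd ℂ) (X z (p + (j' : ℤ)) k)) (by
        intro z hz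
        simp [hX z hz]) N q]
    refine Finset.sum_congr rfl fun z _ => ?_
    simp only [hx, hx']
    by_cases hz : (z : ℤ) ∈ Ico q (q + N)
    · simp only [hI, hz, if_true]
    · simp [hI, hz]
  have h3 : ∑ z, (∑ k, ‖x z k‖ ^ 2) * ∑ k, ‖x' z k‖ ^ 2 =
      ∑ i ∈ range N, (∑ k, ‖X (q + (i : ℤ)) (p + (j : ℤ)) k‖ ^ 2) *
          ∑ k, ‖X (q + (i : ℤ)) (p + (j' : ℤ)) k‖ ^ 2 := by
    rw [box_reindex T0 (fun z => (∑ k, ‖X z (p + (j : ℤ)) k‖ ^ 2) *
          ∑ k, ‖X z (p + (j' : ℤ)) k‖ ^ 2) (by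
        intro z hz
        simp [hX z hz]) N q]
    refine Finset.sum_congr rfl fun z _ => ?_
    simp only [hx, hx']
    by_cases hz : (z : ℤ) ∈ Ico q (q + N)
    · simp only [hI, hz, if_true]
    · simp [hI, hz]
  have h := chaos x x'
  rw [h2, h3] at h
  refine le_trans (le_of_eq ?_) h
  exact Finset.sum_congr rfl fun ω _ => by rw [h1 ω]

/-- **average of `e2` over the signs** -/
theorem avg_e2 (T0 : Finset ℤ) (X : ℤ → ℤ → κ → ℂ) (hX : ∀ z, z ∉ T0 → ∀ z' k, X z z' k = 0)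
    (N : ℕ) (q p : ℤ) :
    ∑ ω : T0 × κ → Bool, e2 (sg T0 ω X) N q p = Cn (T0 × κ) * e2K X N q p := by
  unfold e2 e2K
  rw [← Finset.mul_sum]
  rw [mul_left_comm (Cn (T0 × κ))]
  congr 1
  rw [Finset.sum_comm, Finset.mul_sum]
  refine Finset.sum_congr rfl fun i _ => ?_
  rw [Finset.sum_comm, Finset.mul_sum]
  refine Finset.sum_congr rfl fun j _ => ?_
  by_cases hz : q + (i : ℤ) ∈ T0
  · have h := lin (τ := T0) (κ := κ) (fun k => X (q + (i : ℤ)) (p + (j : ℤ)) k) ⟨_, hz⟩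
    rw [← h]
    refine Finset.sum_congr rfl fun ω _ => ?_
    unfold sg
    rw [dif_pos hz]
  · have : ∀ ω : T0 × κ → Bool, ‖sg T0 ω X (q + (i : ℤ)) (p + (j : ℤ))‖ ^ 2 = 0 := by
      intro ω
      simp [sg, hz]
    rw [Finset.sum_congr rfl fun ω _ => this ω]
    simp [hX _ hz]

end defs

/-- transposition of `e4` -/
theorem e4_tr (X : ℤ → ℤ → ℂ) (N : ℕ) (q p : ℤ) :
    e4 X N q p = e4 (fun x y => X y x) N p q := by
  unfold e4
  congr 1
  have h : ∀ (s : Finset ℕ) (A : ℕ → ℕ → ℂ),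
      ((∑ j ∈ s, ∑ j' ∈ s, ‖∑ i ∈ s, A i j * (starRingEnd ℂ) (A i j')‖ ^ 2 : ℝ) : ℂ) =
      ∑ j ∈ s, ∑ j' ∈ s, ∑ i ∈ s, ∑ i' ∈ s,
        A i j * (starRingEnd ℂ) (A i j') * ((starRingEnd ℂ) (A i' j) * A i' j') := by
    intro s A
    push_cast
    refine Finset.sum_congr rfl fun j _ => Finset.sum_congr rfl fun j' _ => ?_
    rw [← Complex.ofReal_pow, ← Complex.normSq_eq_norm_sq, ← Complex.mul_conj, map_sum,
      Finset.sum_mul_sum]
    refine Finset.sum_congr rfl fun i _ => Finset.sum_congr rfl fun i' _ => ?_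
    rw [map_mul, Complex.conj_conj]
  have h1 := h (range N) (fun i j => X (q + (i : ℤ)) (p + (j : ℤ)))
  have h2 := h (range N) (fun i j => X (q + (j : ℤ)) (p + (i : ℤ)))
  have h3 : ∑ j ∈ range N, ∑ j' ∈ range N, ∑ i ∈ range N, ∑ i' ∈ range N,
        X (q + (i : ℤ)) (p + (j : ℤ)) * (starRingEnd ℂ) (X (q + (i : ℤ)) (p + (j' : ℤ))) *
          ((starRingEnd ℂ) (X (q + (i' : ℤ)) (p + (j : ℤ))) * X (q + (i' : ℤ)) (p + (j' : ℤ))) =
      ∑ j ∈ range N, ∑ j' ∈ range N, ∑ i ∈ range N, ∑ i' ∈ range N,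
        X (q + (j : ℤ)) (p + (i : ℤ)) * (starRingEnd ℂ) (X (q + (j' : ℤ)) (p + (i : ℤ))) *
          ((starRingEnd ℂ) (X (q + (j : ℤ)) (p + (i' : ℤ))) * X (q + (j' : ℤ)) (p + (i' : ℤ))) := by
    rw [Finset.sum_comm' (s := range N) (t := fun _ => range N) (t' := range N)
      (s' := fun _ => range N) (by simp)]
    calc ∑ j' ∈ range N, ∑ j ∈ range N, ∑ i ∈ range N, ∑ i' ∈ range N,
        X (q + (i : ℤ)) (p + (j : ℤ)) * (starRingEnd ℂ) (X (q + (i : ℤ)) (p + (j' : ℤ))) *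
          ((starRingEnd ℂ) (X (q + (i' : ℤ)) (p + (j : ℤ))) * X (q + (i' : ℤ)) (p + (j' : ℤ)))
        = ∑ j' ∈ range N, ∑ i ∈ range N, ∑ i' ∈ range N, ∑ j ∈ range N,
        X (q + (i : ℤ)) (p + (j : ℤ)) * (starRingEnd ℂ) (X (q + (i : ℤ)) (p + (j' : ℤ))) *
          ((starRingEnd ℂ) (X (q + (i' : ℤ)) (p + (j : ℤ))) * X (q + (i' : ℤ)) (p + (j' : ℤ))) := by
          refine Finset.sum_congr rfl fun j' _ => ?_
          rw [Finset.sum_comm]
          refine Finset.sum_congr rfl fun i _ => ?_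
          rw [Finset.sum_comm]
      _ = ∑ i ∈ range N, ∑ i' ∈ range N, ∑ j ∈ range N, ∑ j' ∈ range N,
        X (q + (i : ℤ)) (p + (j : ℤ)) * (starRingEnd ℂ) (X (q + (i : ℤ)) (p + (j' : ℤ))) *
          ((starRingEnd ℂ) (X (q + (i' : ℤ)) (p + (j : ℤ))) * X (q + (i' : ℤ)) (p + (j' : ℤ))) := by
          rw [Finset.sum_comm]
          refine Finset.sum_congr rfl fun i _ => ?_
          rw [Finset.sum_comm]
          refine Finset.sum_congr rfl fun i' _ => ?_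
          rw [Finset.sum_comm]
      _ = _ := by
          refine Finset.sum_congr rfl fun i _ => Finset.sum_congr rfl fun i' _ =>
            Finset.sum_congr rfl fun j _ => Finset.sum_congr rfl fun j' _ => ?_
          ring
  rw [h3, ← h2] at h1
  exact_mod_cast h1

end Crest.Agent.R079.Sgn
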