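import Crest.Agent.R079.PLS2_242

/-! R079 (helper242): `labelled24_0/1/2` = region version of the labelled (2,4,4) word (mixtures), from
118's `frozenMix24` by random signs. -/

set_option autoImplicit false
set_option linter.unusedSectionVars false

namespace Crest.Agent.R079.Sgn

open Finset Crest.Agent.R079.Grid Crest.Agent.R079.Pot Crest.Agent.R079.Glue Crest.Agent.R079.R244
  Crest.Agent.R079.F24 Crest.Agent.R079.GlueK

theorem mix_finsum {ι τ : Type*} (S : Finset ι) (lam : ι → ℝ) (f : ι → τ → ℝ)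
    (hfin : ∀ n ∈ S, (Function.support (f n)).Finite) (B : ℝ)
    (h : ∀ Λ : Finset τ, ∑ n ∈ S, lam n * ∑ t ∈ Λ, f n t ≤ B) :
    ∑ n ∈ S, lam n * ∑ᶠ t, f n t ≤ B := by
  classical
  set Λ : Finset τ := S.attach.biUnion (fun n => (hfin n.1 n.2).toFinset) with hΛ
  refine le_trans (le_of_eq ?_) (h Λ)
  refine Finset.sum_congr rfl fun n hn => ?_
  congr 1
  refine finsum_eq_sum_of_support_subset _ ?_
  intro t ht
  rw [Finset.mem_coe, hΛ, Finset.mem_biUnion]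
  exact ⟨⟨n, hn⟩, Finset.mem_attach _ _, by rw [Set.Finite.mem_toFinset]; exact ht⟩

theorem e2_tr (X : ℤ → ℤ → ℂ) (N : ℕ) (q p : ℤ) :
    e2 X N q p = e2 (fun x y => X y x) N p q := by
  unfold e2
  rw [Finset.sum_comm]

section defs

variable {κ : Type} [Fintype κ] [DecidableEq κ] {ι : Type}

/-- labelled `S₂` hypothesis of a mixture -/
def S2K (S : Finset ι) (lam : ι → ℝ) (R : Finset (ℕ × ℤ)) (κ0 : ℕ) (V : ℝ)
    (X : ι → (ℤ → ℂ) → ℤ → ℤ → ℤ → κ → ℂ) (F : ℤ → ℂ) : Prop :=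
  ∀ p ∈ R, ∀ k : ℕ, k ≤ κ0 → ∀ Λ : Finset (ℤ × ℤ × ℤ),
    ∑ n ∈ S, lam n * ∑ t ∈ Λ, e2K (X n (res p F) t.1) (2 ^ (p.1 + k)) t.2.1 t.2.2 ≤
      2 ^ (p.1 + 7) * V

/-- labelled `S₄` hypothesis of a mixture (with the diagonal error of the random signs) -/
def S4K (S : Finset ι) (lam : ι → ℝ) (R : Finset (ℕ × ℤ)) (κ0 : ℕ) (V σ : ℝ)
    (X : ι → (ℤ → ℂ) → ℤ → ℤ → ℤ → κ → ℂ) (F : ℤ → ℂ) : Prop :=
  ∀ p ∈ R, ∀ k : ℕ, k ≤ κ0 → ∀ Λ : Finset (ℤ × ℤ × ℤ),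
    ∑ n ∈ S, lam n * ∑ t ∈ Λ, (e4K (X n (res p F) t.1) (2 ^ (p.1 + k)) t.2.1 t.2.2 +
      2 * dgK (X n (res p F) t.1) (2 ^ (p.1 + k)) t.2.1 t.2.2) ≤ σ * (2 ^ (p.1 + 7) * V)

/-- support of the node boxes of a `frz` kernel -/
theorem supp_frz {j k e f : Fin 4} (hα : sl j - sl k ≠ 0) (T T' : Finset ℤ) (a : ℤ → ℤ → ℂ)
    (p : ℕ × ℤ) (F : ℤ → ℂ) (N : ℕ) (E : (ℤ → ℤ → ℂ) → ℕ → ℤ → ℤ → ℝ)
    (hE : ∀ X Y N q p, (∀ i j : ℕ, i < N → j < N →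
      X (q + (i : ℤ)) (p + (j : ℤ)) = Y (q + (i : ℤ)) (p + (j : ℤ))) → E X N q p = E Y N q p)
    (hE0 : ∀ N q p, E (fun _ _ => 0) N q p = 0) :
    (Function.support fun t : ℤ × ℤ × ℤ =>
      E (frz j k e f T T' a (res p F) t.1) N t.2.1 t.2.2).Finite :=
  support_finite (α := sl j - sl k) (γ := sl e - sl k) (δ := sl f - sl k) hα T T' a p F N E hE hE0

theorem frK_zero {j k e f : Fin 4} {T T' : Finset ℤ} {U : ℤ → ℤ → κ → ℂ} {F : ℤ → ℂ} {w z : ℤ}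
    (hz : z ∉ T) (z' : ℤ) (l : κ) : frK j k e f T T' U F w z z' l = 0 := by
  unfold frK
  rw [if_neg (fun h => hz h.1)]

theorem frK_zero' {j k e f : Fin 4} {T T' : Finset ℤ} {U : ℤ → ℤ → κ → ℂ} {F : ℤ → ℂ} {w z' : ℤ}
    (hz : z' ∉ T') (z : ℤ) (l : κ) : frK j k e f T T' U F w z z' l = 0 := by
  unfold frK
  rw [if_neg (fun h => hz h.2)]

theorem sum_prod_avg {τ : Type} [Fintype τ] [DecidableEq τ] (S : Finset ι) (lam : ι → ℝ)
    (Λ : Finset (ℤ × ℤ × ℤ)) (g : ι → (τ × κ → Bool) → (ℤ × ℤ × ℤ) → ℝ)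
    (G : ι → (ℤ × ℤ × ℤ) → ℝ) (hlam : ∀ n ∈ S, 0 ≤ lam n)
    (h : ∀ n ∈ S, ∀ t, ∑ ω, g n ω t ≤ Cn (τ × κ) * G n t) :
    ∑ n' ∈ S ×ˢ (univ : Finset (τ × κ → Bool)), lam n'.1 / Cn (τ × κ) *
      ∑ t ∈ Λ, g n'.1 n'.2 t ≤ ∑ n ∈ S, lam n * ∑ t ∈ Λ, G n t := by
  rw [Finset.sum_product]
  refine Finset.sum_le_sum fun n hn => ?_
  have hC := Cn_pos (α := τ × κ)
  have e : ∑ ω : τ × κ → Bool, lam n / Cn (τ × κ) * ∑ t ∈ Λ, g n ω t =
      lam n / Cn (τ × κ) * ∑ t ∈ Λ, ∑ ω, g n ω t := by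
    rw [← Finset.mul_sum, Finset.sum_comm]
  rw [e]
  have h1 : ∑ t ∈ Λ, ∑ ω, g n ω t ≤ Cn (τ × κ) * ∑ t ∈ Λ, G n t := by
    rw [Finset.mul_sum]
    exact Finset.sum_le_sum fun t _ => h n hn t
  have h2 := mul_le_mul_of_nonneg_left h1 (div_nonneg (hlam n hn) hC.le)
  refine h2.trans (le_of_eq ?_)
  field_simp

/-- labelled edge, labels at the first variable: `S₂` -/
theorem edge1_2 (S : Finset ι) (lam : ι → ℝ) (hlam : ∀ n ∈ S, 0 ≤ lam n) (R : Finset (ℕ × ℤ))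
    (κ0 : ℕ) (V : ℝ) {j k e f : Fin 4} (hα : sl j - sl k ≠ 0) (T T' : Finset ℤ)
    (U : ι → ℤ → ℤ → κ → ℂ) (F : ℤ → ℂ)
    (h : S2K S lam R κ0 V (fun n G w => frK j k e f T T' (U n) G w) F) :
    S2Mix (S ×ˢ (univ : Finset (T × κ → Bool))) (fun n' => lam n'.1 / Cn (T × κ)) R κ0 V
      (fun n' G w => frz j k e f T T' (sg T n'.2 (U n'.1)) G w) F := by
  intro p hp kk hkk
  refine mix_finsum _ _ _ (fun n' _ => supp_frz hα T T' _ p F _ e2 e2_congr e2_zero) _ ?_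
  intro Λ
  refine (sum_prod_avg S lam Λ
    (fun n ω t => e2 (frz j k e f T T' (sg T ω (U n)) (res p F) t.1) (2 ^ (p.1 + kk)) t.2.1 t.2.2)
    (fun n t => e2K (frK j k e f T T' (U n) (res p F) t.1) (2 ^ (p.1 + kk)) t.2.1 t.2.2)
    hlam ?_).trans (h p hp kk hkk Λ)
  intro n _ t
  refine le_of_eq ?_
  rw [← avg_e2 T _ (fun z hz z' l => frK_zero hz z' l)]
  refine Finset.sum_congr rfl fun ω _ => ?_
  congr 1
  funext z z'
  exact frz_sg j k e f T T' ω (U n) (res p F) t.1 z z'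

/-- labelled edge, labels at the first variable: `S₄` -/
theorem edge1_4 (S : Finset ι) (lam : ι → ℝ) (hlam : ∀ n ∈ S, 0 ≤ lam n) (R : Finset (ℕ × ℤ))
    (κ0 : ℕ) (V σ : ℝ) {j k e f : Fin 4} (hα : sl j - sl k ≠ 0) (T T' : Finset ℤ)
    (U : ι → ℤ → ℤ → κ → ℂ) (F : ℤ → ℂ)
    (h : S4K S lam R κ0 V σ (fun n G w => frK j k e f T T' (U n) G w) F) :
    S4Mix (S ×ˢ (univ : Finset (T × κ → Bool))) (fun n' => lam n'.1 / Cn (T × κ)) R κ0 V σ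
      (fun n' G w => frz j k e f T T' (sg T n'.2 (U n'.1)) G w) F := by
  intro p hp kk hkk
  refine mix_finsum _ _ _ (fun n' _ => supp_frz hα T T' _ p F _ e4 e4_congr e4_zero) _ ?_
  intro Λ
  refine (sum_prod_avg S lam Λ
    (fun n ω t => e4 (frz j k e f T T' (sg T ω (U n)) (res p F) t.1) (2 ^ (p.1 + kk)) t.2.1 t.2.2)
    (fun n t => e4K (frK j k e f T T' (U n) (res p F) t.1) (2 ^ (p.1 + kk)) t.2.1 t.2.2 +
      2 * dgK (frK j k e f T T' (U n) (res p F) t.1) (2 ^ (p.1 + kk)) t.2.1 t.2.2)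
    hlam ?_).trans (h p hp kk hkk Λ)
  intro n _ t
  refine le_trans (le_of_eq ?_) (avg_e4 T _ (fun z hz z' l => frK_zero hz z' l) _ _ _)
  refine Finset.sum_congr rfl fun ω _ => ?_
  congr 1
  funext z z'
  exact frz_sg j k e f T T' ω (U n) (res p F) t.1 z z'

/-- labelled edge, labels at the second variable: `S₂` -/
theorem edge2_2 (S : Finset ι) (lam : ι → ℝ) (hlam : ∀ n ∈ S, 0 ≤ lam n) (R : Finset (ℕ × ℤ))
    (κ0 : ℕ) (V : ℝ) {j k e f : Fin 4} (hα : sl j - sl k ≠ 0) (T T' : Finset ℤ)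
    (U : ι → ℤ → ℤ → κ → ℂ) (F : ℤ → ℂ)
    (h : S2K S lam R κ0 V (fun n G w b a l => frK j k e f T T' (U n) G w a b l) F) :
    S2Mix (S ×ˢ (univ : Finset (T' × κ → Bool))) (fun n' => lam n'.1 / Cn (T' × κ)) R κ0 V
      (fun n' G w => frz j k e f T T' (fun x y => sg T' n'.2 (fun b a l => U n'.1 a b l) y x) G w)
      F := by
  intro p hp kk hkk
  refine mix_finsum _ _ _ (fun n' _ => supp_frz hα T T' _ p F _ e2 e2_congr e2_zero) _ ?_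
  intro Λ
  set swp : ℤ × ℤ × ℤ ↪ ℤ × ℤ × ℤ := ⟨fun t => (t.1, t.2.2, t.2.1), by
    rintro ⟨a, b, c⟩ ⟨a', b', c'⟩ h
    simp only [Prod.mk.injEq] at h ⊢
    tauto⟩ with hswp
  refine (sum_prod_avg S lam Λ
    (fun n ω t => e2 (frz j k e f T T' (fun x y => sg T' ω (fun b a l => U n a b l) y x)
      (res p F) t.1) (2 ^ (p.1 + kk)) t.2.1 t.2.2)
    (fun n t => e2K (fun b a l => frK j k e f T T' (U n) (res p F) t.1 a b l)
      (2 ^ (p.1 + kk)) t.2.2 t.2.1) hlam ?_).trans ?_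
  · intro n _ t
    refine le_of_eq ?_
    rw [← avg_e2 T' _ (fun z hz z' l => frK_zero' hz z' l)]
    refine Finset.sum_congr rfl fun ω _ => ?_
    rw [e2_tr]
    congr 1
    funext z z'
    exact frz_sg' j k e f T T' ω (U n) (res p F) t.1 z' z
  · refine le_trans (le_of_eq ?_) (h p hp kk hkk (Λ.map swp))
    refine Finset.sum_congr rfl fun n _ => ?_
    rw [Finset.sum_map]
    rfl

/-- labelled edge, labels at the second variable: `S₄` -/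
theorem edge2_4 (S : Finset ι) (lam : ι → ℝ) (hlam : ∀ n ∈ S, 0 ≤ lam n) (R : Finset (ℕ × ℤ))
    (κ0 : ℕ) (V σ : ℝ) {j k e f : Fin 4} (hα : sl j - sl k ≠ 0) (T T' : Finset ℤ)
    (U : ι → ℤ → ℤ → κ → ℂ) (F : ℤ → ℂ)
    (h : S4K S lam R κ0 V σ (fun n G w b a l => frK j k e f T T' (U n) G w a b l) F) :
    S4Mix (S ×ˢ (univ : Finset (T' × κ → Bool))) (fun n' => lam n'.1 / Cn (T' × κ)) R κ0 V σ
      (fun n' G w => frz j k e f T T' (fun x y => sg T' n'.2 (fun b a l => U n'.1 a b l) y x) G w)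
      F := by
  intro p hp kk hkk
  refine mix_finsum _ _ _ (fun n' _ => supp_frz hα T T' _ p F _ e4 e4_congr e4_zero) _ ?_
  intro Λ
  set swp : ℤ × ℤ × ℤ ↪ ℤ × ℤ × ℤ := ⟨fun t => (t.1, t.2.2, t.2.1), by
    rintro ⟨a, b, c⟩ ⟨a', b', c'⟩ h
    simp only [Prod.mk.injEq] at h ⊢
    tauto⟩ with hswp
  refine (sum_prod_avg S lam Λ
    (fun n ω t => e4 (frz j k e f T T' (fun x y => sg T' ω (fun b a l => U n a b l) y x)
      (res p F) t.1) (2 ^ (p.1 + kk)) t.2.1 t.2.2)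
    (fun n t => e4K (fun b a l => frK j k e f T T' (U n) (res p F) t.1 a b l)
      (2 ^ (p.1 + kk)) t.2.2 t.2.1 +
      2 * dgK (fun b a l => frK j k e f T T' (U n) (res p F) t.1 a b l)
      (2 ^ (p.1 + kk)) t.2.2 t.2.1) hlam ?_).trans ?_
  · intro n _ t
    refine le_trans (le_of_eq ?_) (avg_e4 T' _ (fun z hz z' l => frK_zero' hz z' l) _ _ _)
    refine Finset.sum_congr rfl fun ω _ => ?_
    rw [e4_tr]
    congr 1
    funext z z'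
    exact frz_sg' j k e f T T' ω (U n) (res p F) t.1 z' z
  · refine le_trans (le_of_eq ?_) (h p hp kk hkk (Λ.map swp))
    refine Finset.sum_congr rfl fun n _ => ?_
    rw [Finset.sum_map]
    rfl

theorem sum_triv {τ : Type} [Fintype τ] [DecidableEq τ] (S : Finset ι) (lam : ι → ℝ)
    (g : ι → ℝ) :
    ∑ n' ∈ S ×ˢ (univ : Finset (τ × κ → Bool)), lam n'.1 / Cn (τ × κ) * g n'.1 =
      ∑ n ∈ S, lam n * g n := by
  rw [Finset.sum_product]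
  refine Finset.sum_congr rfl fun n _ => ?_
  have hC := Cn_pos (α := τ × κ)
  show ∑ _y : τ × κ → Bool, lam n / Cn (τ × κ) * g n = lam n * g n
  rw [Finset.sum_const, Finset.card_univ, nsmul_eq_mul]
  have : (Fintype.card (τ × κ → Bool) : ℝ) = Cn (τ × κ) := rfl
  rw [this]
  field_simp

theorem edge0_2 {τ : Type} [Fintype τ] [DecidableEq τ] (S : Finset ι) (lam : ι → ℝ)
    (R : Finset (ℕ × ℤ)) (κ0 : ℕ) (V : ℝ) (fr : ι → (ℤ → ℂ) → ℤ → ℤ → ℤ → ℂ) (F : ℤ → ℂ)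
    (h : S2Mix S lam R κ0 V fr F) :
    S2Mix (S ×ˢ (univ : Finset (τ × κ → Bool))) (fun n' => lam n'.1 / Cn (τ × κ)) R κ0 V
      (fun n' => fr n'.1) F := by
  intro p hp kk hkk
  have := h p hp kk hkk
  rwa [← sum_triv (τ := τ) (κ := κ)] at this

/-- sign average of one labelled vertex -/
theorem avg_vertex (T0 : Finset ℤ) (x y : κ → ℂ) (z : ℤ) (hz : z ∈ T0) (U W : ℤ → ℤ → κ → ℂ)
    (z1 z2 : ℤ) (B : ℂ) (hx : x = U z z1) (hy : y = W z z2) :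
    ∑ ω : T0 × κ → Bool, sg T0 ω U z z1 * B * sg T0 ω W z z2 =
      (Cn (T0 × κ) : ℂ) * ((∑ k, x k * y k) * B) := by
  have h := prod_avg (τ := T0) (κ := κ) x y ⟨z, hz⟩
  rw [← mul_assoc, ← h, Finset.sum_mul]
  refine Finset.sum_congr rfl fun ω _ => ?_
  unfold sg
  rw [dif_pos hz, dif_pos hz, hx, hy]
  ring

theorem cn_ne {τ : Type} [Fintype τ] [DecidableEq τ] : (Cn (τ × κ) : ℂ) ≠ 0 := by
  exact_mod_cast (Cn_pos (α := τ × κ)).ne'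

/-- general bookkeeping of the kernel identity -/
theorem ker_id {τ : Type} [Fintype τ] [DecidableEq τ] (S : Finset ι) (lam : ι → ℝ) (j : Fin 4)
    (T : Fin 3 → Finset ℤ) (a b c : ι × (τ × κ → Bool) → ℤ → ℤ → ℂ) (Φ : ι → ℤ → ℤ → ℤ → ℂ)
    (h : ∀ n ∈ S, ∀ z0 ∈ T 0, ∀ z1 ∈ T 1, ∀ z2 ∈ T 2,
      ∑ ω : τ × κ → Bool, a (n, ω) z0 z1 * b (n, ω) z1 z2 * c (n, ω) z2 z0 =
        (Cn (τ × κ) : ℂ) * Φ n z0 z1 z2) (y : ℤ) :
    ∑ n ∈ S, (lam n : ℂ) * kerF j 1 T (Φ n) y =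
      ∑ n' ∈ S ×ˢ (univ : Finset (τ × κ → Bool)), ((lam n'.1 / Cn (τ × κ) : ℝ) : ℂ) *
        atom j 1 T (a n') (b n') (c n') y := by
  rw [Finset.sum_product]
  refine Finset.sum_congr rfl fun n hn => ?_
  have hC := cn_ne (κ := κ) (τ := τ)
  show (lam n : ℂ) * kerF j 1 T (Φ n) y = ∑ ω : τ × κ → Bool,
    ((lam n / Cn (τ × κ) : ℝ) : ℂ) * atom j 1 T (a (n, ω)) (b (n, ω)) (c (n, ω)) y
  rw [← Finset.mul_sum]
  unfold kerF atom
  simp only [Complex.ofReal_one, one_mul]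
  have e : ∑ ω : τ × κ → Bool, ∑ z0 ∈ T 0, ∑ z1 ∈ T 1, ∑ z2 ∈ T 2,
      (if cf j 0 * z0 + cf j 1 * z1 + cf j 2 * z2 = y then
        a (n, ω) z0 z1 * b (n, ω) z1 z2 * c (n, ω) z2 z0 else 0) =
      (Cn (τ × κ) : ℂ) * ∑ z0 ∈ T 0, ∑ z1 ∈ T 1, ∑ z2 ∈ T 2,
        if cf j 0 * z0 + cf j 1 * z1 + cf j 2 * z2 = y then Φ n z0 z1 z2 else 0 := by
    simp only [Finset.mul_sum]
    rw [Finset.sum_comm]
    refine Finset.sum_congr rfl fun z0 hz0 => ?_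
    rw [Finset.sum_comm]
    refine Finset.sum_congr rfl fun z1 hz1 => ?_
    rw [Finset.sum_comm]
    refine Finset.sum_congr rfl fun z2 hz2 => ?_
    split_ifs
    · exact h n hn z0 hz0 z1 hz1 z2 hz2
    · simp
  rw [e, Complex.ofReal_div]
  field_simp

end defs

end Crest.Agent.R079.Sgn
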