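import Crest.Agent.R079.PLS3_242

/-! R079 (helper242): **`labelled24_0 / _1 / _2`** = region version of the labelled (4,2,4) word
(mixtures `n ∈ S` with weights `lam`), labels at the vertex `0 / 1 / 2`, the `S₂` letter on the
opposite (unlabelled) edge. -/

set_option autoImplicit false
set_option linter.unusedSectionVars false

namespace Crest.Agent.R079.Sgn

open Finset Crest.Agent.R079.Grid Crest.Agent.R079.Pot Crest.Agent.R079.Glue Crest.Agent.R079.R244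
  Crest.Agent.R079.F24 Crest.Agent.R079.GlueK

theorem sl_ne {a b : Fin 4} (h : a ≠ b) : sl a - sl b ≠ 0 := by
  fin_cases a <;> fin_cases b <;> simp_all [sl]

theorem sl_sA (j : Fin 4) (i : Fin 3) : sl j - sl (j.succAbove i) ≠ 0 :=
  sl_ne (Fin.succAbove_ne j i).symm

/-- labels at the vertex `0`: edges `a` (first variable) and `c` (second variable); the `S₂` edge is
`b(z1,z2)` -/
theorem labelled24_0 : ∃ K : ℝ, 0 ≤ K ∧ ∃ κ0 : ℕ, ∀ (bb : ℤ), bb = -1 ∨ bb = -7 →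
    ∀ (R : Finset (ℕ × ℤ)) (J : ℕ × ℤ), IsRegion R J →
    ∀ (j : Fin 4) (s H : ℝ), 0 < s → s ≤ 1 → 1 ≤ H → ∀ (V : ℝ), 0 ≤ V →
    ∀ {κ : Type} [Fintype κ] [DecidableEq κ] {ι : Type} (S : Finset ι) (lam : ι → ℝ),
      (∀ n ∈ S, 0 ≤ lam n) →
    ∀ (T : Fin 3 → Finset ℤ) (U W : ι → ℤ → ℤ → κ → ℂ) (b : ι → ℤ → ℤ → ℂ) (F : Fin 4 → ℤ → ℂ),
      S2K S lam R κ0 V (fun n G w => frK j (j.succAbove 2) (j.succAbove 0) (j.succAbove 1)
        (T 0) (T 1) (U n) G w) (F (j.succAbove 2)) →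
      S4K S lam R κ0 V (s ^ 2) (fun n G w => frK j (j.succAbove 2) (j.succAbove 0) (j.succAbove 1)
        (T 0) (T 1) (U n) G w) (F (j.succAbove 2)) →
      S2Mix S lam R κ0 V (fun n => frBk j T (b n)) (F (j.succAbove 0)) →
      (∀ n ∈ S, ∀ w z z', ‖frBk j T (b n) (F (j.succAbove 0)) w z z'‖ ≤ H) →
      S2K S lam R κ0 V (fun n G w x y l => frK j (j.succAbove 1) (j.succAbove 2) (j.succAbove 0)
        (T 2) (T 0) (W n) G w y x l) (F (j.succAbove 1)) →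
      S4K S lam R κ0 V (s ^ 2) (fun n G w x y l => frK j (j.succAbove 1) (j.succAbove 2)
        (j.succAbove 0) (T 2) (T 0) (W n) G w y x l) (F (j.succAbove 1)) →
      (∀ y, F j y = ∑ n ∈ S, (lam n : ℂ) *
        kerF j 1 T (fun z0 z1 z2 => (∑ l, U n z0 z1 l * W n z2 z0 l) * b n z1 z2) y) →
      ∑ p ∈ R, ∑ x ∈ adm p.1 p.2, ‖Lbox (2 ^ p.1) bb F x‖ ≤
        K * (s * (1 + Real.log (H / s)) * 2 ^ (J.1 + 7) * V) := by
  obtain ⟨K, hK, κ0, hL⟩ := frozenMix24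
  refine ⟨K, hK, κ0, ?_⟩
  intro bb hbb R J hR j s H hs hs1 hH V hV κ _ _ ι S lam hlam T U W b F hU2 hU4 hb2 hbH hW2 hW4 hFj
  set S' : Finset (ι × (T 0 × κ → Bool)) := S ×ˢ univ with hS'
  set lam' : ι × (T 0 × κ → Bool) → ℝ := fun n' => lam n'.1 / Cn (T 0 × κ) with hlam'
  have hl' : ∀ n' ∈ S', 0 ≤ lam' n' := by
    intro n' hn'
    rw [hS', Finset.mem_product] at hn'
    exact div_nonneg (hlam _ hn'.1) Cn_pos.le
  have e1 := edge1_2 S lam hlam R κ0 V (sl_sA j 2) (T 0) (T 1) U _ hU2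
  have e2 := edge0_2 (κ := κ) (τ := T 0) S lam R κ0 V _ _ hb2
  have e3 := edge2_2 S lam hlam R κ0 V (sl_sA j 1) (T 2) (T 0) W _ hW2
  have e4 := edge1_4 S lam hlam R κ0 V _ (sl_sA j 2) (T 0) (T 1) U _ hU4
  have e5 := edge2_4 S lam hlam R κ0 V _ (sl_sA j 1) (T 2) (T 0) W _ hW4
  have hk : ∀ y, F j y = ∑ n' ∈ S', (lam' n' : ℂ) * atom j 1 T (sg (T 0) n'.2 (U n'.1)) (b n'.1)
      (fun x y => sg (T 0) n'.2 (fun b a l => W n'.1 a b l) y x) y := by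
    intro y
    rw [hFj y]
    refine ker_id (κ := κ) (τ := T 0) S lam j T (fun n' => sg (T 0) n'.2 (U n'.1))
      (fun n' => b n'.1) (fun n' x y => sg (T 0) n'.2 (fun b a l => W n'.1 a b l) y x)
      (fun n z0 z1 z2 => (∑ l, U n z0 z1 l * W n z2 z0 l) * b n z1 z2) ?_ y
    intro n _ z0 hz0 z1 _ z2 _
    exact avg_vertex (T 0) _ _ z0 hz0 (U n) (fun b a l => W n a b l) z1 z2 (b n z1 z2) rfl rfl
  have h := hL bb hbb R J hR j 1 s H hs hs1 hH V hV S' lam' hl' (fun _ => T)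
    (fun n' => sg (T 0) n'.2 (U n'.1)) (fun n' => b n'.1)
    (fun n' x y => sg (T 0) n'.2 (fun b a l => W n'.1 a b l) y x) F e1 e2 e3 (fun _ => e4)
    (fun h => absurd rfl h) (fun _ => e5) (fun h => absurd h (by decide))
    (fun _ n' hn' => hbH n'.1 (Finset.mem_product.1 hn').1) (fun h => absurd h (by decide)) hk
  exact h

/-- labels at the vertex `1`: edges `a` (second variable) and `b` (first variable); the `S₂` edge is
`c(z2,z0)` -/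
theorem labelled24_1 : ∃ K : ℝ, 0 ≤ K ∧ ∃ κ0 : ℕ, ∀ (bb : ℤ), bb = -1 ∨ bb = -7 →
    ∀ (R : Finset (ℕ × ℤ)) (J : ℕ × ℤ), IsRegion R J →
    ∀ (j : Fin 4) (s H : ℝ), 0 < s → s ≤ 1 → 1 ≤ H → ∀ (V : ℝ), 0 ≤ V →
    ∀ {κ : Type} [Fintype κ] [DecidableEq κ] {ι : Type} (S : Finset ι) (lam : ι → ℝ),
      (∀ n ∈ S, 0 ≤ lam n) →
    ∀ (T : Fin 3 → Finset ℤ) (U W : ι → ℤ → ℤ → κ → ℂ) (c : ι → ℤ → ℤ → ℂ) (F : Fin 4 → ℤ → ℂ),
      S2K S lam R κ0 V (fun n G w => frK j (j.succAbove 0) (j.succAbove 1) (j.succAbove 2)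
        (T 1) (T 2) (U n) G w) (F (j.succAbove 0)) →
      S4K S lam R κ0 V (s ^ 2) (fun n G w => frK j (j.succAbove 0) (j.succAbove 1) (j.succAbove 2)
        (T 1) (T 2) (U n) G w) (F (j.succAbove 0)) →
      S2Mix S lam R κ0 V (fun n => frCk j T (c n)) (F (j.succAbove 1)) →
      (∀ n ∈ S, ∀ w z z', ‖frCk j T (c n) (F (j.succAbove 1)) w z z'‖ ≤ H) →
      S2K S lam R κ0 V (fun n G w x y l => frK j (j.succAbove 2) (j.succAbove 0) (j.succAbove 1)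
        (T 0) (T 1) (W n) G w y x l) (F (j.succAbove 2)) →
      S4K S lam R κ0 V (s ^ 2) (fun n G w x y l => frK j (j.succAbove 2) (j.succAbove 0)
        (j.succAbove 1) (T 0) (T 1) (W n) G w y x l) (F (j.succAbove 2)) →
      (∀ y, F j y = ∑ n ∈ S, (lam n : ℂ) *
        kerF j 1 T (fun z0 z1 z2 => (∑ l, U n z1 z2 l * W n z0 z1 l) * c n z2 z0) y) →
      ∑ p ∈ R, ∑ x ∈ adm p.1 p.2, ‖Lbox (2 ^ p.1) bb F x‖ ≤
        K * (s * (1 + Real.log (H / s)) * 2 ^ (J.1 + 7) * V) := by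
  obtain ⟨K, hK, κ0, hL⟩ := frozenMix24
  refine ⟨K, hK, κ0, ?_⟩
  intro bb hbb R J hR j s H hs hs1 hH V hV κ _ _ ι S lam hlam T U W c F hU2 hU4 hb2 hbH hW2 hW4 hFj
  set S' : Finset (ι × (T 1 × κ → Bool)) := S ×ˢ univ with hS'
  set lam' : ι × (T 1 × κ → Bool) → ℝ := fun n' => lam n'.1 / Cn (T 1 × κ) with hlam'
  have hl' : ∀ n' ∈ S', 0 ≤ lam' n' := by
    intro n' hn'
    rw [hS', Finset.mem_product] at hn'
    exact div_nonneg (hlam _ hn'.1) Cn_pos.le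
  have e1 := edge1_2 S lam hlam R κ0 V (sl_sA j 0) (T 1) (T 2) U _ hU2
  have e2 := edge0_2 (κ := κ) (τ := T 1) S lam R κ0 V _ _ hb2
  have e3 := edge2_2 S lam hlam R κ0 V (sl_sA j 2) (T 0) (T 1) W _ hW2
  have e4 := edge1_4 S lam hlam R κ0 V _ (sl_sA j 0) (T 1) (T 2) U _ hU4
  have e5 := edge2_4 S lam hlam R κ0 V _ (sl_sA j 2) (T 0) (T 1) W _ hW4
  have hk : ∀ y, F j y = ∑ n' ∈ S', (lam' n' : ℂ) * atom j 1 T
      (fun x y => sg (T 1) n'.2 (fun b a l => W n'.1 a b l) y x) (sg (T 1) n'.2 (U n'.1))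
      (c n'.1) y := by
    intro y
    rw [hFj y]
    refine ker_id (κ := κ) (τ := T 1) S lam j T
      (fun n' x y => sg (T 1) n'.2 (fun b a l => W n'.1 a b l) y x)
      (fun n' => sg (T 1) n'.2 (U n'.1)) (fun n' => c n'.1)
      (fun n z0 z1 z2 => (∑ l, U n z1 z2 l * W n z0 z1 l) * c n z2 z0) ?_ y
    intro n _ z0 _ z1 hz1 z2 _
    refine Eq.trans ?_ (avg_vertex (T 1) _ _ z1 hz1 (U n) (fun b a l => W n a b l) z2 z0
      (c n z2 z0) rfl rfl)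
    refine Finset.sum_congr rfl fun ω _ => ?_
    ring
  have h := hL bb hbb R J hR j 2 s H hs hs1 hH V hV S' lam' hl' (fun _ => T)
    (fun n' x y => sg (T 1) n'.2 (fun b a l => W n'.1 a b l) y x)
    (fun n' => sg (T 1) n'.2 (U n'.1)) (fun n' => c n'.1) F e3 e1 e2 (fun _ => e5) (fun _ => e4)
    (fun h => absurd rfl h) (fun h => absurd h (by decide)) (fun h => absurd h (by decide))
    (fun _ n' hn' => hbH n'.1 (Finset.mem_product.1 hn').1) hk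
  exact h

/-- labels at the vertex `2`: edges `b` (second variable) and `c` (first variable); the `S₂` edge is
`a(z0,z1)` -/
theorem labelled24_2 : ∃ K : ℝ, 0 ≤ K ∧ ∃ κ0 : ℕ, ∀ (bb : ℤ), bb = -1 ∨ bb = -7 →
    ∀ (R : Finset (ℕ × ℤ)) (J : ℕ × ℤ), IsRegion R J →
    ∀ (j : Fin 4) (s H : ℝ), 0 < s → s ≤ 1 → 1 ≤ H → ∀ (V : ℝ), 0 ≤ V →
    ∀ {κ : Type} [Fintype κ] [DecidableEq κ] {ι : Type} (S : Finset ι) (lam : ι → ℝ),
      (∀ n ∈ S, 0 ≤ lam n) →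
    ∀ (T : Fin 3 → Finset ℤ) (U W : ι → ℤ → ℤ → κ → ℂ) (a : ι → ℤ → ℤ → ℂ) (F : Fin 4 → ℤ → ℂ),
      S2K S lam R κ0 V (fun n G w => frK j (j.succAbove 1) (j.succAbove 2) (j.succAbove 0)
        (T 2) (T 0) (U n) G w) (F (j.succAbove 1)) →
      S4K S lam R κ0 V (s ^ 2) (fun n G w => frK j (j.succAbove 1) (j.succAbove 2) (j.succAbove 0)
        (T 2) (T 0) (U n) G w) (F (j.succAbove 1)) →
      S2Mix S lam R κ0 V (fun n => frAk j T (a n)) (F (j.succAbove 2)) →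
      (∀ n ∈ S, ∀ w z z', ‖frAk j T (a n) (F (j.succAbove 2)) w z z'‖ ≤ H) →
      S2K S lam R κ0 V (fun n G w x y l => frK j (j.succAbove 0) (j.succAbove 1) (j.succAbove 2)
        (T 1) (T 2) (W n) G w y x l) (F (j.succAbove 0)) →
      S4K S lam R κ0 V (s ^ 2) (fun n G w x y l => frK j (j.succAbove 0) (j.succAbove 1)
        (j.succAbove 2) (T 1) (T 2) (W n) G w y x l) (F (j.succAbove 0)) →
      (∀ y, F j y = ∑ n ∈ S, (lam n : ℂ) *
        kerF j 1 T (fun z0 z1 z2 => (∑ l, U n z2 z0 l * W n z1 z2 l) * a n z0 z1) y) →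
      ∑ p ∈ R, ∑ x ∈ adm p.1 p.2, ‖Lbox (2 ^ p.1) bb F x‖ ≤
        K * (s * (1 + Real.log (H / s)) * 2 ^ (J.1 + 7) * V) := by
  obtain ⟨K, hK, κ0, hL⟩ := frozenMix24
  refine ⟨K, hK, κ0, ?_⟩
  intro bb hbb R J hR j s H hs hs1 hH V hV κ _ _ ι S lam hlam T U W a F hU2 hU4 hb2 hbH hW2 hW4 hFj
  set S' : Finset (ι × (T 2 × κ → Bool)) := S ×ˢ univ with hS'
  set lam' : ι × (T 2 × κ → Bool) → ℝ := fun n' => lam n'.1 / Cn (T 2 × κ) with hlam'
  have hl' : ∀ n' ∈ S', 0 ≤ lam' n' := by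
    intro n' hn'
    rw [hS', Finset.mem_product] at hn'
    exact div_nonneg (hlam _ hn'.1) Cn_pos.le
  have e1 := edge1_2 S lam hlam R κ0 V (sl_sA j 1) (T 2) (T 0) U _ hU2
  have e2 := edge0_2 (κ := κ) (τ := T 2) S lam R κ0 V _ _ hb2
  have e3 := edge2_2 S lam hlam R κ0 V (sl_sA j 0) (T 1) (T 2) W _ hW2
  have e4 := edge1_4 S lam hlam R κ0 V _ (sl_sA j 1) (T 2) (T 0) U _ hU4
  have e5 := edge2_4 S lam hlam R κ0 V _ (sl_sA j 0) (T 1) (T 2) W _ hW4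
  have hk : ∀ y, F j y = ∑ n' ∈ S', (lam' n' : ℂ) * atom j 1 T (a n'.1)
      (fun x y => sg (T 2) n'.2 (fun b a l => W n'.1 a b l) y x) (sg (T 2) n'.2 (U n'.1)) y := by
    intro y
    rw [hFj y]
    refine ker_id (κ := κ) (τ := T 2) S lam j T (fun n' => a n'.1)
      (fun n' x y => sg (T 2) n'.2 (fun b a l => W n'.1 a b l) y x)
      (fun n' => sg (T 2) n'.2 (U n'.1))
      (fun n z0 z1 z2 => (∑ l, U n z2 z0 l * W n z1 z2 l) * a n z0 z1) ?_ y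
    intro n _ z0 _ z1 _ z2 hz2
    refine Eq.trans ?_ (avg_vertex (T 2) _ _ z2 hz2 (U n) (fun b a l => W n a b l) z0 z1
      (a n z0 z1) rfl rfl)
    refine Finset.sum_congr rfl fun ω _ => ?_
    ring
  have h := hL bb hbb R J hR j 0 s H hs hs1 hH V hV S' lam' hl' (fun _ => T)
    (fun n' => a n'.1) (fun n' x y => sg (T 2) n'.2 (fun b a l => W n'.1 a b l) y x)
    (fun n' => sg (T 2) n'.2 (U n'.1)) F e2 e3 e1 (fun h => absurd rfl h) (fun _ => e5)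
    (fun _ => e4) (fun _ n' hn' => hbH n'.1 (Finset.mem_product.1 hn').1)
    (fun h => absurd h (by decide)) (fun h => absurd h (by decide)) hk
  exact h

end Crest.Agent.R079.Sgn
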