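import Crest.Agent.R079.CelA_159
import Crest.Agent.R079.ClX_59

/-! R079, S1 (c): bridge between the bilinear operator bound `OpC` of CelA_159, the operator bound
`OpS` of ClW_59 and the nearest point of the operator ball on a cell = `cl` (SVD clip) (helper881). -/

set_option autoImplicit false

namespace Crest.Agent.R079.PjC881

open Finset Crest.Agent.R079.Grid Crest.Agent.R079.Growth Crest.Agent.R079.QRed
  Crest.Agent.R079.Qh249 Crest.Agent.R079.TWin Crest.Agent.R079.Whit Crest.Agent.R079.HiF881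
  Crest.Agent.R079.ClW59 Crest.Agent.R079.Cel159

open scoped ComplexConjugate

/-- bilinear bound ⟹ operator bound -/
theorem opS_of_bil {S S' : Finset ℤ} {K : ℤ → ℤ → ℂ} {s : ℝ} (_hs : 0 ≤ s)
    (h : ∀ ξ ζ : ℤ → ℂ, ‖∑ u ∈ S, ∑ v ∈ S', K u v * (ξ u * ζ v)‖ ≤
      s * (Real.sqrt (∑ u ∈ S, ‖ξ u‖ ^ 2) * Real.sqrt (∑ v ∈ S', ‖ζ v‖ ^ 2))) :
    OpS S S' K s := by
  intro f
  set w : ℤ → ℂ := fun u => ∑ v ∈ S', K u v * f v with hw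
  have h1 := h (fun u => conj (w u)) f
  have e1 : ∑ u ∈ S, ∑ v ∈ S', K u v * (conj (w u) * f v)
      = ((∑ u ∈ S, ‖w u‖ ^ 2 : ℝ) : ℂ) := by
    push_cast
    refine Finset.sum_congr rfl fun u _ => ?_
    have e2 : ∑ v ∈ S', K u v * (conj (w u) * f v) = conj (w u) * w u := by
      rw [hw]; simp only [Finset.mul_sum]
      exact Finset.sum_congr rfl fun v _ => by ring
    rw [e2, conj_mul_self]
    push_cast
    rfl
  have e3 : ∑ u ∈ S, ‖conj (w u)‖ ^ 2 = ∑ u ∈ S, ‖w u‖ ^ 2 :=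
    Finset.sum_congr rfl fun u _ => by rw [RCLike.norm_conj]
  rw [e1, e3] at h1
  set T : ℝ := ∑ u ∈ S, ‖w u‖ ^ 2 with hT
  set F : ℝ := ∑ v ∈ S', ‖f v‖ ^ 2 with hF
  have hT0 : 0 ≤ T := Finset.sum_nonneg fun _ _ => sq_nonneg _
  have hF0 : 0 ≤ F := Finset.sum_nonneg fun _ _ => sq_nonneg _
  rw [Complex.norm_real, Real.norm_of_nonneg hT0] at h1
  have hsT := Real.sq_sqrt hT0
  have hsF := Real.sq_sqrt hF0
  have n1 := Real.sqrt_nonneg T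
  have n2 := Real.sqrt_nonneg F
  show T ≤ s ^ 2 * F
  rcases n1.eq_or_lt with h0 | h0
  · have : T = 0 := by rw [← hsT, ← h0]; ring
    rw [this]; positivity
  · have h2 : Real.sqrt T ≤ s * Real.sqrt F := by
      have h3 : Real.sqrt T * Real.sqrt T ≤ (s * Real.sqrt F) * Real.sqrt T := by
        nlinarith
      exact le_of_mul_le_mul_right h3 h0
    have h4 : Real.sqrt T ^ 2 ≤ (s * Real.sqrt F) ^ 2 := pow_le_pow_left₀ n1 h2 2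
    rw [hsT, mul_pow, hsF] at h4
    exact h4

/-- operator bound ⟹ bilinear bound -/
theorem bil_of_opS {S S' : Finset ℤ} {K : ℤ → ℤ → ℂ} {s : ℝ} (hs : 0 ≤ s) (h : OpS S S' K s)
    (ξ ζ : ℤ → ℂ) : ‖∑ u ∈ S, ∑ v ∈ S', K u v * (ξ u * ζ v)‖ ≤
      s * (Real.sqrt (∑ u ∈ S, ‖ξ u‖ ^ 2) * Real.sqrt (∑ v ∈ S', ‖ζ v‖ ^ 2)) := by
  have e1 : ∀ u, ∑ v ∈ S', K u v * (ξ u * ζ v) = ξ u * ∑ v ∈ S', K u v * ζ v := by
    intro u
    rw [Finset.mul_sum]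
    exact Finset.sum_congr rfl fun v _ => by ring
  have h1 : ‖∑ u ∈ S, ∑ v ∈ S', K u v * (ξ u * ζ v)‖
      ≤ ∑ u ∈ S, ‖ξ u‖ * ‖∑ v ∈ S', K u v * ζ v‖ := by
    refine (norm_sum_le _ _).trans (le_of_eq ?_)
    exact Finset.sum_congr rfl fun u _ => by rw [e1, norm_mul]
  refine h1.trans ((Real.sum_mul_le_sqrt_mul_sqrt _ _ _).trans ?_)
  have h2 := h ζ
  have h3 : Real.sqrt (∑ u ∈ S, ‖∑ v ∈ S', K u v * ζ v‖ ^ 2)
      ≤ s * Real.sqrt (∑ v ∈ S', ‖ζ v‖ ^ 2) := by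
    refine (Real.sqrt_le_sqrt h2).trans (le_of_eq ?_)
    rw [Real.sqrt_mul (sq_nonneg s), Real.sqrt_sq hs]
  calc Real.sqrt (∑ u ∈ S, ‖ξ u‖ ^ 2) * Real.sqrt (∑ u ∈ S, ‖∑ v ∈ S', K u v * ζ v‖ ^ 2)
      ≤ Real.sqrt (∑ u ∈ S, ‖ξ u‖ ^ 2) * (s * Real.sqrt (∑ v ∈ S', ‖ζ v‖ ^ 2)) :=
        mul_le_mul_of_nonneg_left h3 (Real.sqrt_nonneg _)
    _ = _ := by ring

/-- cells: `OpC K n a b s ↔ OpS (dI n a) (dI n b) K (s * 2 ^ n)` -/
theorem opC_iff {K : ℤ → ℤ → ℂ} {n : ℕ} {a b : ℤ} {s : ℝ} (hs : 0 ≤ s) :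
    OpC K n a b s ↔ OpS (dI n a) (dI n b) K (s * 2 ^ n) :=
  ⟨fun h => opS_of_bil (by positivity) h, fun h => bil_of_opS (by positivity) h⟩

/-- **nearest point = clip**: a kernel in the ball of a rectangle at minimal distance is `cl A` -/
theorem near_eq_cl {A B : ℤ → ℤ → ℂ} {S S' : Finset ℤ} {s : ℝ} (hs : 0 ≤ s) (hB : OpS S S' B s)
    (hmin : ∀ C, OpS S S' C s → ∑ x ∈ S, ∑ y ∈ S', ‖A x y - B x y‖ ^ 2
      ≤ ∑ x ∈ S, ∑ y ∈ S', ‖A x y - C x y‖ ^ 2) :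
    ∀ x ∈ S, ∀ y ∈ S', B x y = cl A S S' s x y := by
  have h1 := hmin _ (cl_op A S S' hs)
  rw [cl_dist] at h1
  have h2 := DQ_gap A hs hB
  unfold nq at h2
  have h3 : ∑ x ∈ S, ∑ y ∈ S', ‖cl A S S' s x y - B x y‖ ^ 2 ≤ 0 := by linarith
  have h4 : ∑ x ∈ S, ∑ y ∈ S', ‖cl A S S' s x y - B x y‖ ^ 2 = 0 :=
    le_antisymm h3 (Finset.sum_nonneg fun _ _ => Finset.sum_nonneg fun _ _ => sq_nonneg _)
  intro x hx y hy
  have h5 := (Finset.sum_eq_zero_iff_of_nonneg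
    (fun _ _ => Finset.sum_nonneg fun _ _ => sq_nonneg _)).1 h4 x hx
  have h6 := (Finset.sum_eq_zero_iff_of_nonneg (fun _ _ => sq_nonneg _)).1 h5 y hy
  have h7 : cl A S S' s x y - B x y = 0 := by simpa using h6
  exact (sub_eq_zero.1 h7).symm

/-- variational form: `Re ⟨A - B, C - B⟩ ≤ 0` for all `C` in the ball gives minimal distance -/
theorem near_eq_cl_var {A B : ℤ → ℤ → ℂ} {S S' : Finset ℤ} {s : ℝ} (hs : 0 ≤ s)
    (hB : OpS S S' B s)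
    (hvar : ∀ C, OpS S S' C s → ∑ x ∈ S, ∑ y ∈ S',
      ((A x y - B x y) * conj (C x y - B x y)).re ≤ 0) :
    ∀ x ∈ S, ∀ y ∈ S', B x y = cl A S S' s x y := by
  refine near_eq_cl hs hB fun C hC => ?_
  have h1 := hvar C hC
  have h2 : ∀ x y, ‖A x y - C x y‖ ^ 2 = ‖A x y - B x y‖ ^ 2
      - 2 * ((A x y - B x y) * conj (C x y - B x y)).re + ‖C x y - B x y‖ ^ 2 := by
    intro x y
    have e : A x y - C x y = (A x y - B x y) - (C x y - B x y) := by ring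
    rw [e]
    simp only [← Complex.normSq_eq_norm_sq]
    rw [Complex.normSq_sub]
    ring
  have h3 : ∑ x ∈ S, ∑ y ∈ S', ‖A x y - C x y‖ ^ 2
      = ∑ x ∈ S, ∑ y ∈ S', ‖A x y - B x y‖ ^ 2
        - 2 * ∑ x ∈ S, ∑ y ∈ S', ((A x y - B x y) * conj (C x y - B x y)).re
        + ∑ x ∈ S, ∑ y ∈ S', ‖C x y - B x y‖ ^ 2 := by
    simp only [h2, Finset.sum_add_distrib, Finset.sum_sub_distrib, Finset.mul_sum]
  have h4 : 0 ≤ ∑ x ∈ S, ∑ y ∈ S', ‖C x y - B x y‖ ^ 2 :=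
    Finset.sum_nonneg fun _ _ => Finset.sum_nonneg fun _ _ => sq_nonneg _
  rw [h3]
  linarith

end Crest.Agent.R079.PjC881
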