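import Crest.Agent.R079.PjE_881

/-! R079, S1 (helper881): the Whitney-cell system `bnd_cell` (product mask) is a `Split` at every node. -/

set_option autoImplicit false

namespace Crest.Agent.R079.PjC881

open Finset Crest.Agent.R079.Grid Crest.Agent.R079.Growth Crest.Agent.R079.QRed
  Crest.Agent.R079.Qh249 Crest.Agent.R079.TWin Crest.Agent.R079.HiF881
  Crest.Agent.R079.ClW59 Crest.Agent.R079.ThA159 Crest.Agent.R079.Cel159
open Crest.Agent.R079.Whit (Ins)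

variable {Y : ℤ → ℤ → ℤ → ℤ} {k : ℕ} {T₀ T₁ T₂ : Finset ℤ}

/-- **Split instance** -/
theorem split_cells (p : Nd) : ∃ cells : Finset (ℤ × ℕ × ℤ × ℤ),
    Split (fun p => (T₀ ×ˢ (T₁ ×ˢ T₂)).filter (fun ω => Y ω.1 ω.2.1 ω.2.2 ∈ iv p))
      (NmP (T₀ ×ˢ (T₁ ×ˢ T₂)) cf (okc Y k)) p cells (fun c => c.1)
      (fun c => dI c.2.1 c.2.2.1 ∩ T₁) (fun c => dI c.2.1 c.2.2.2 ∩ T₂)
      (fun c => (2 : ℝ) ^ c.2.1) := by
  classical
  have hex : ∀ ω : ℤ × ℤ × ℤ, Y ω.1 ω.2.1 ω.2.2 ∈ iv p → ∃ t : ℕ × ℤ × ℤ,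
      Mx (Y ω.1) k p t.1 t.2.1 t.2.2 ∧ ω.2.1 ∈ dI t.1 t.2.1 ∧ ω.2.2 ∈ dI t.1 t.2.2 := by
    intro ω h
    obtain ⟨n, a, b, h1, h2, h3⟩ := exists_Mx (k := k) (Z := Y ω.1) (p := p) h
    exact ⟨(n, a, b), h1, h2, h3⟩
  set t : ℤ × ℤ × ℤ → ℕ × ℤ × ℤ := fun ω =>
    if h : Y ω.1 ω.2.1 ω.2.2 ∈ iv p then (hex ω h).choose else (0, 0, 0) with ht
  have hts : ∀ ω : ℤ × ℤ × ℤ, Y ω.1 ω.2.1 ω.2.2 ∈ iv p →
      Mx (Y ω.1) k p (t ω).1 (t ω).2.1 (t ω).2.2 ∧ ω.2.1 ∈ dI (t ω).1 (t ω).2.1 ∧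
        ω.2.2 ∈ dI (t ω).1 (t ω).2.2 := by
    intro ω h
    simp only [ht, dif_pos h]
    exact (hex ω h).choose_spec
  set Bd : Finset (ℤ × ℤ × ℤ) :=
    (T₀ ×ˢ (T₁ ×ˢ T₂)).filter (fun ω => Y ω.1 ω.2.1 ω.2.2 ∈ iv p) with hBd
  have hcell : ∀ c ∈ Bd.image (fun ω => (ω.1, t ω)), c.1 ∈ T₀ ∧
      Mx (Y c.1) k p c.2.1 c.2.2.1 c.2.2.2 := by
    intro c hc
    obtain ⟨ω, hω, rfl⟩ := Finset.mem_image.1 hc
    rw [hBd, Finset.mem_filter, Finset.mem_product] at hω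
    exact ⟨hω.1.1, (hts ω hω.2).1⟩
  refine ⟨Bd.image (fun ω => (ω.1, t ω)), ?_, ?_, ?_, ?_⟩
  · intro ω
    constructor
    · intro hω
      have hω' := hω
      rw [Finset.mem_filter, Finset.mem_product, Finset.mem_product] at hω'
      obtain ⟨⟨h1, h2, h3⟩, h4⟩ := hω'
      obtain ⟨_, h5, h6⟩ := hts ω h4
      refine ⟨(ω.1, t ω), Finset.mem_image.2 ⟨ω, hω, rfl⟩, ?_⟩
      simp only [Finset.mem_product, Finset.mem_singleton, Finset.mem_inter]
      exact ⟨trivial, ⟨h5, h2⟩, h6, h3⟩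
    · rintro ⟨c, hc, hm⟩
      obtain ⟨h1, h2⟩ := hcell c hc
      simp only [Finset.mem_product, Finset.mem_singleton, Finset.mem_inter] at hm
      obtain ⟨e, ⟨h3, h4⟩, h5, h6⟩ := hm
      rw [Finset.mem_filter, Finset.mem_product, Finset.mem_product]
      refine ⟨⟨e ▸ h1, h4, h6⟩, ?_⟩
      rw [e]
      exact h2.2.1 _ h3 _ h5
  · intro c hc c' hc' hne ω hω hω'
    obtain ⟨_, h2⟩ := hcell c hc
    obtain ⟨_, h2'⟩ := hcell c' hc'
    simp only [Finset.mem_product, Finset.mem_singleton, Finset.mem_inter] at hω hω'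
    obtain ⟨e, ⟨h3, _⟩, h5, _⟩ := hω
    obtain ⟨e', ⟨h3', _⟩, h5', _⟩ := hω'
    have ez : c.1 = c'.1 := e.symm.trans e'
    rw [← ez] at h2'
    obtain ⟨e1, e2, e3⟩ := Mx_eq h2 h2' h3 h3' h5 h5'
    exact hne (Prod.ext ez (Prod.ext e1 (Prod.ext e2 e3)))
  · intro c _
    positivity
  · intro r hr B hB
    rw [N_iff hr]
    constructor
    · intro h c hc
      obtain ⟨h1, h2⟩ := hcell c hc
      have h3 := (opC_iff hr).1 (h c.1 _ _ _ h2)
      have h4 := (opS_mask (T₁ := T₁) (T₂ := T₂) (fun u v huv => by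
        unfold msk
        rw [if_neg (fun h' => huv (by
          rw [Finset.mem_product, Finset.mem_product] at h'
          exact h'.2))])).1 h3
      refine opS_congr h4 fun u hu v hv => ?_
      rw [Finset.mem_inter] at hu hv
      unfold msk
      rw [if_pos (by
        rw [Finset.mem_product, Finset.mem_product]
        exact ⟨h1, hu.2, hv.2⟩)]
    · intro h z n a b hM
      by_cases hp : ∃ u v, u ∈ dI n a ∧ v ∈ dI n b ∧ (z, u, v) ∈ T₀ ×ˢ (T₁ ×ˢ T₂)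
      · obtain ⟨u, v, hu, hv, hS⟩ := hp
        have hY : Y z u v ∈ iv p := hM.2.1 u hu v hv
        have hω : (z, u, v) ∈ Bd := by rw [hBd, Finset.mem_filter]; exact ⟨hS, hY⟩
        obtain ⟨h2, h3, h4⟩ := hts (z, u, v) hY
        obtain ⟨e1, e2, e3⟩ := Mx_eq hM h2 hu h3 hv h4
        have hc := h (z, t (z, u, v)) (Finset.mem_image.2 ⟨(z, u, v), hω, rfl⟩)
        simp only [← e1, ← e2, ← e3] at hc
        rw [Finset.mem_product, Finset.mem_product] at hS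
        refine (opC_iff hr).2 ((opS_mask (T₁ := T₁) (T₂ := T₂) (fun u v huv => by
          unfold msk
          rw [if_neg (fun h' => huv (by
            rw [Finset.mem_product, Finset.mem_product] at h'
            exact h'.2))])).2 ?_)
        refine opS_congr hc fun u hu v hv => ?_
        rw [Finset.mem_inter] at hu hv
        unfold msk
        rw [if_pos (by
          rw [Finset.mem_product, Finset.mem_product]
          exact ⟨hS.1, hu.2, hv.2⟩)]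
      · intro ξ ζ
        have h0 : ∑ u ∈ dI n a, ∑ v ∈ dI n b,
            msk (T₀ ×ˢ (T₁ ×ˢ T₂)) B z u v * (ξ u * ζ v) = 0 := by
          refine Finset.sum_eq_zero fun u hu => Finset.sum_eq_zero fun v hv => ?_
          unfold msk
          rw [if_neg (fun h' => hp ⟨u, v, hu, hv, h'⟩), zero_mul]
        rw [h0, norm_zero]
        positivity

end Crest.Agent.R079.PjC881
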