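import Crest.Agent.R079.R244Defs_491
import Mathlib.NumberTheory.LegendreSymbol.AddCharacter

/-! R079, Step II (II.1), X word (helper988): a family of bounded kernels `X a x y` living in strips
`c a ≤ γ x + δ y < c a + L` whose pairing with all products `u a x * v a y` of functions of modulus
`≤ 1` is `≤ Λ` has small Schatten-4 box energies: the sum of `e4` over ALL box positions of side `N`
is `≤ κ H³ Λ` if `L ≤ κ N`. -/

set_option autoImplicit false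
set_option linter.unusedVariables false

namespace Crest.Agent.R079.XDual988

open Finset Crest.Agent.R079.R244

/-- squares of sums -/
lemma normSq_sum {s : Finset ℕ} (f : ℕ → ℂ) :
    ((‖∑ i ∈ s, f i‖ ^ 2 : ℝ) : ℂ) = ∑ i ∈ s, ∑ i' ∈ s, f i * (starRingEnd ℂ) (f i') := by
  have h : ((‖∑ i ∈ s, f i‖ ^ 2 : ℝ) : ℂ) =
      (∑ i ∈ s, f i) * (starRingEnd ℂ) (∑ i ∈ s, f i) := by
    rw [Complex.mul_conj, Complex.normSq_eq_norm_sq]
  rw [h, map_sum, Finset.sum_mul_sum]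

/-- orthogonality of characters: indicator of `n = 0` for `|n| < M` -/
lemma ind_char (M : ℕ) [NeZero M] (n : ℤ) (hn : n.natAbs < M) :
    (if n = 0 then (1 : ℂ) else 0) =
      (1 / (M : ℂ)) * ∑ r : ZMod M, ZMod.stdAddChar (r * (n : ZMod M)) := by
  rw [AddChar.sum_mulShift _ (ZMod.isPrimitive_stdAddChar M)]
  have hM : (M : ℂ) ≠ 0 := by exact_mod_cast NeZero.ne M
  by_cases h : n = 0
  · subst h
    simp [hM, ZMod.card]
  · rw [if_neg h, if_neg]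
    · simp
    intro h0
    rw [ZMod.intCast_zmod_eq_zero_iff_dvd] at h0
    have h1 := Int.natAbs_dvd_natAbs.2 h0
    rw [Int.natAbs_natCast] at h1
    have h2 := Nat.le_of_dvd (Int.natAbs_pos.2 h) h1
    omega

/-- tiles -/
lemma sum_tile {E : Type*} [AddCommMonoid E] (N : ℕ) (hN : 0 < N) (B o : ℤ) (g : ℤ → ℤ → E) :
    ∑ k ∈ Ico (-B) B, ∑ i ∈ range N, g k (o + k * N + (i : ℤ)) =
      ∑ x ∈ Ico (o - B * N) (o + B * N), g ((x - o) / N) x := by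
  have hNz : (0 : ℤ) < N := by exact_mod_cast hN
  rw [← Finset.sum_product']
  refine Finset.sum_nbij' (fun t => o + t.1 * N + (t.2 : ℤ))
    (fun x => ((x - o) / N, ((x - o) % N).toNat)) ?_ ?_ ?_ ?_ ?_
  · rintro ⟨k, i⟩ ht
    simp only [Finset.mem_product, Finset.mem_Ico, Finset.mem_range] at ht ⊢
    obtain ⟨⟨h1, h2⟩, h3⟩ := ht
    have h3' : (i : ℤ) < N := by exact_mod_cast h3
    constructor <;> nlinarith
  · intro x hx
    simp only [Finset.mem_product, Finset.mem_Ico, Finset.mem_range] at hx ⊢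
    have h1 := Int.emod_nonneg (x - o) hNz.ne'
    have h2 := Int.emod_lt_of_pos (x - o) hNz
    have h3 := Int.emod_add_mul_ediv (x - o) N
    refine ⟨⟨?_, ?_⟩, ?_⟩
    · by_contra hc
      push Not at hc
      nlinarith
    · by_contra hc
      push Not at hc
      nlinarith
    · omega
  · rintro ⟨k, i⟩ ht
    simp only [Finset.mem_product, Finset.mem_Ico, Finset.mem_range] at ht
    have h3' : (i : ℤ) < N := by exact_mod_cast ht.2
    have e : o + k * N + (i : ℤ) - o = (i : ℤ) + N * k := by ring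
    simp only [e, Int.add_mul_ediv_left _ _ hNz.ne', Int.add_mul_emod_self_left]
    rw [Int.ediv_eq_zero_of_lt (by positivity) h3', Int.emod_eq_of_lt (by positivity) h3']
    simp
  · intro x hx
    have h1 := Int.emod_nonneg (x - o) hNz.ne'
    have h3 := Int.emod_add_mul_ediv (x - o) N
    simp only [Int.toNat_of_nonneg h1]
    linarith [mul_comm (N : ℤ) ((x - o) / N)]
  · rintro ⟨k, i⟩ ht
    simp only [Finset.mem_product, Finset.mem_Ico, Finset.mem_range] at ht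
    have h3' : (i : ℤ) < N := by exact_mod_cast ht.2
    have e : o + k * N + (i : ℤ) - o = (i : ℤ) + N * k := by ring
    simp only [e, Int.add_mul_ediv_left _ _ hNz.ne']
    rw [Int.ediv_eq_zero_of_lt (by positivity) h3', zero_add]

/-- the fourth order term at tile offsets `o1, o2` and reference points `i', j'` -/
noncomputable def Q4 (X : ℤ → ℤ → ℂ) (N : ℕ) (B o1 o2 : ℤ) (i' j' : ℕ) : ℂ :=
  ∑ x ∈ Ico (o1 - B * N) (o1 + B * N), ∑ y ∈ Ico (o2 - B * N) (o2 + B * N),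
    X x y * (starRingEnd ℂ) (X x (o2 + ((y - o2) / N) * N + (j' : ℤ))) *
      (starRingEnd ℂ) (X (o1 + ((x - o1) / N) * N + (i' : ℤ)) y) *
      X (o1 + ((x - o1) / N) * N + (i' : ℤ)) (o2 + ((y - o2) / N) * N + (j' : ℤ))

lemma Q4_eq (X : ℤ → ℤ → ℂ) (N : ℕ) (hN : 0 < N) (B o1 o2 : ℤ) (i' j' : ℕ) :
    Q4 X N B o1 o2 i' j' = ∑ k1 ∈ Ico (-B) B, ∑ i ∈ range N, ∑ k2 ∈ Ico (-B) B, ∑ j ∈ range N,
      X (o1 + k1 * N + (i : ℤ)) (o2 + k2 * N + (j : ℤ)) *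
      (starRingEnd ℂ) (X (o1 + k1 * N + (i : ℤ)) (o2 + k2 * N + (j' : ℤ))) *
      (starRingEnd ℂ) (X (o1 + k1 * N + (i' : ℤ)) (o2 + k2 * N + (j : ℤ))) *
      X (o1 + k1 * N + (i' : ℤ)) (o2 + k2 * N + (j' : ℤ)) := by
  unfold Q4
  rw [sum_tile N hN B o1 fun k1 x => ∑ k2 ∈ Ico (-B) B, ∑ j ∈ range N,
      X x (o2 + k2 * N + (j : ℤ)) *
      (starRingEnd ℂ) (X x (o2 + k2 * N + (j' : ℤ))) *
      (starRingEnd ℂ) (X (o1 + k1 * N + (i' : ℤ)) (o2 + k2 * N + (j : ℤ))) *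
      X (o1 + k1 * N + (i' : ℤ)) (o2 + k2 * N + (j' : ℤ))]
  refine Finset.sum_congr rfl fun x _ => ?_
  rw [sum_tile N hN B o2 fun k2 y => X x y *
      (starRingEnd ℂ) (X x (o2 + k2 * N + (j' : ℤ))) *
      (starRingEnd ℂ) (X (o1 + ((x - o1) / N) * N + (i' : ℤ)) y) *
      X (o1 + ((x - o1) / N) * N + (i' : ℤ)) (o2 + k2 * N + (j' : ℤ))]

/-- sum of `e4` over all positions of a big square = fourth order terms -/
lemma sum_e4 (X : ℤ → ℤ → ℂ) (N : ℕ) (hN : 0 < N) (B : ℤ) :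
    ((∑ q ∈ Ico (-(B * N)) (B * N), ∑ p ∈ Ico (-(B * N)) (B * N), e4 X N q p : ℝ) : ℂ) =
      (1 / (N : ℂ) ^ 4) * ∑ o1 ∈ range N, ∑ o2 ∈ range N, ∑ i' ∈ range N, ∑ j' ∈ range N,
        Q4 X N B (o1 : ℤ) (o2 : ℤ) i' j' := by
  have h0 : ∀ f : ℤ → ℝ, ∑ q ∈ Ico (-(B * N)) (B * N), f q =
      ∑ k ∈ Ico (-B) B, ∑ o ∈ range N, f (k * N + (o : ℤ)) := by
    intro f
    have := sum_tile N hN B 0 fun _ x => f x
    simp only [zero_add, zero_sub] at this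
    rw [this]
  rw [h0]
  simp only [h0]
  push_cast
  obtain ⟨S, hS⟩ : ∃ S : ℤ → ℤ → ℂ, ∀ q p, S q p = ∑ j ∈ range N,
      ∑ j' ∈ range N, ∑ i ∈ range N, ∑ i' ∈ range N,
        (X (q + (i : ℤ)) (p + (j : ℤ)) * (starRingEnd ℂ) (X (q + (i : ℤ)) (p + (j' : ℤ)))) *
        (starRingEnd ℂ) (X (q + (i' : ℤ)) (p + (j : ℤ)) *
          (starRingEnd ℂ) (X (q + (i' : ℤ)) (p + (j' : ℤ)))) := ⟨_, fun _ _ => rfl⟩
  have h1 : ∀ q p : ℤ, ((e4 X N q p : ℝ) : ℂ) = (1 / (N : ℂ) ^ 4) * S q p := by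
    intro q p
    rw [hS]
    unfold e4
    push_cast
    congr 1
    refine Finset.sum_congr rfl fun j _ => Finset.sum_congr rfl fun j' _ => ?_
    rw [← normSq_sum fun i : ℕ =>
      X (q + (i : ℤ)) (p + (j : ℤ)) * (starRingEnd ℂ) (X (q + (i : ℤ)) (p + (j' : ℤ)))]
    push_cast
    rfl
  simp only [h1, Q4_eq X N hN, ← Finset.mul_sum]
  congr 1
  simp only [hS]
  simp only [← Finset.sum_product']
  refine Finset.sum_nbij'
    (fun t => (t.2.1, t.2.2.2.1, t.2.2.2.2.2.2.2, t.2.2.2.2.2.1, t.1, t.2.2.2.2.2.2.1, t.2.2.1,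
      t.2.2.2.2.1))
    (fun s => (s.2.2.2.2.1, s.1, s.2.2.2.2.2.2.1, s.2.1, s.2.2.2.2.2.2.2, s.2.2.2.1,
      s.2.2.2.2.2.1, s.2.2.1)) ?_ ?_ ?_ ?_ ?_
  · rintro ⟨k1, o1, k2, o2, j, j', i, i'⟩ ht
    simp only [Finset.mem_product] at ht ⊢
    tauto
  · rintro ⟨o1, o2, i', j', k1, i, k2, j⟩ ht
    simp only [Finset.mem_product] at ht ⊢
    tauto
  · rintro ⟨k1, o1, k2, o2, j, j', i, i'⟩ ht
    rfl
  · rintro ⟨o1, o2, i', j', k1, i, k2, j⟩ ht
    rfl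
  · rintro ⟨k1, o1, k2, o2, j, j', i, i'⟩ ht
    simp only [map_mul, Complex.conj_conj]
    have e1 : ∀ i : ℕ, (k1 * (N : ℤ) + (o1 : ℤ) + (i : ℤ)) = ((o1 : ℤ) + k1 * N + (i : ℤ)) := by
      intro i; ring
    have e2 : ∀ i : ℕ, (k2 * (N : ℤ) + (o2 : ℤ) + (i : ℤ)) = ((o2 : ℤ) + k2 * N + (i : ℤ)) := by
      intro i; ring
    simp only [e1, e2]
    ring

lemma swap3 {α β τ : Type*} (s : Finset α) (t : Finset β) (u : Finset τ) (g : α → β → τ → ℂ) :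
    ∑ x ∈ s, ∑ y ∈ t, ∑ r ∈ u, g x y r = ∑ r ∈ u, ∑ x ∈ s, ∑ y ∈ t, g x y r := by
  rw [Finset.sum_congr rfl fun x _ => Finset.sum_comm]
  exact Finset.sum_comm

section main

variable {ι : Type*} {A : Finset ι} {ω : ι → ℝ} {X : ι → ℤ → ℤ → ℂ} {H Λ : ℝ} {Tx Ty : Finset ℤ}

/-- level of the family `X` against all products of functions of modulus `≤ 1` -/
def LevP (A : Finset ι) (ω : ι → ℝ) (X : ι → ℤ → ℤ → ℂ) (Tx Ty : Finset ℤ) (Λ : ℝ) : Prop :=
  ∀ u v : ι → ℤ → ℂ, (∀ a x, ‖u a x‖ ≤ 1) → (∀ a y, ‖v a y‖ ≤ 1) →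
    ‖∑ a ∈ A, (ω a : ℂ) * ∑ x ∈ Tx, ∑ y ∈ Ty, X a x y * u a x * v a y‖ ≤ Λ

lemma LevP.scaled (h : LevP A ω X Tx Ty Λ) {hu hv : ℝ} (hu0 : 0 < hu) (hv0 : 0 < hv)
    (u v : ι → ℤ → ℂ) (hu1 : ∀ a x, ‖u a x‖ ≤ hu) (hv1 : ∀ a y, ‖v a y‖ ≤ hv) :
    ‖∑ a ∈ A, (ω a : ℂ) * ∑ x ∈ Tx, ∑ y ∈ Ty, X a x y * u a x * v a y‖ ≤ hu * hv * Λ := by
  have h1 := h (fun a x => (hu : ℂ)⁻¹ * u a x) (fun a y => (hv : ℂ)⁻¹ * v a y)
    (fun a x => by
      rw [norm_mul, norm_inv, Complex.norm_real, Real.norm_of_nonneg hu0.le, inv_mul_le_iff₀ hu0,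
        mul_one]
      exact hu1 a x)
    (fun a y => by
      rw [norm_mul, norm_inv, Complex.norm_real, Real.norm_of_nonneg hv0.le, inv_mul_le_iff₀ hv0,
        mul_one]
      exact hv1 a y)
  have hu2 : (hu : ℂ) ≠ 0 := by exact_mod_cast hu0.ne'
  have hv2 : (hv : ℂ) ≠ 0 := by exact_mod_cast hv0.ne'
  have e : ∑ a ∈ A, (ω a : ℂ) * ∑ x ∈ Tx, ∑ y ∈ Ty, X a x y * u a x * v a y =
      ((hu * hv : ℝ) : ℂ) * ∑ a ∈ A, (ω a : ℂ) * ∑ x ∈ Tx, ∑ y ∈ Ty,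
        X a x y * ((hu : ℂ)⁻¹ * u a x) * ((hv : ℂ)⁻¹ * v a y) := by
    simp only [Finset.mul_sum]
    refine Finset.sum_congr rfl fun a _ => Finset.sum_congr rfl fun x _ =>
      Finset.sum_congr rfl fun y _ => ?_
    push_cast
    field_simp
  rw [e, norm_mul, Complex.norm_real, Real.norm_of_nonneg (by positivity)]
  exact mul_le_mul_of_nonneg_left h1 (by positivity)

lemma ceil_facts {N : ℕ} (hN : 0 < N) (D : ℤ) :
    D ≤ N * (-((-D) / N)) ∧ N * (-((-D) / N)) < D + N := by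
  have hNz : (0 : ℤ) < N := by exact_mod_cast hN
  have h1 := Int.emod_nonneg (-D) hNz.ne'
  have h2 := Int.emod_lt_of_pos (-D) hNz
  have h3 := Int.emod_add_mul_ediv (-D) N
  constructor <;> nlinarith

lemma Q_bound {N : ℕ} (hN : 0 < N) (hH : 0 < H) (hX : ∀ a x y, ‖X a x y‖ ≤ H) {γ δ : ℤ}
    (hγ : γ ≠ 0) (hδ : δ ≠ 0) (c : ι → ℤ) (κ : ℕ)
    (hstr : ∀ a ∈ A, ∀ x y, X a x y ≠ 0 → c a ≤ γ * x + δ * y ∧ γ * x + δ * y < c a + κ * N)
    (hsup : ∀ a ∈ A, ∀ x y, X a x y ≠ 0 → x ∈ Tx ∧ y ∈ Ty)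
    (B o1 o2 : ℤ) (hB : Tx ⊆ Ico (o1 - B * N) (o1 + B * N))
    (hB' : Ty ⊆ Ico (o2 - B * N) (o2 + B * N)) (h : LevP A ω X Tx Ty Λ) (i' j' : ℕ) :
    ‖∑ a ∈ A, (ω a : ℂ) * Q4 (X a) N B o1 o2 i' j'‖ ≤ κ * (H ^ 3 * Λ) := by
  classical
  have hNz : (0 : ℤ) < N := by exact_mod_cast hN
  set k1 : ℤ → ℤ := fun x => (x - o1) / N with hk1
  set k2 : ℤ → ℤ := fun y => (y - o2) / N with hk2
  set ax : ℤ → ℤ := fun x => o1 + k1 x * N + (i' : ℤ) with hax
  set bY : ℤ → ℤ := fun y => o2 + k2 y * N + (j' : ℤ) with hbY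
  set F : ι → ℤ → ℤ → ℂ := fun a x y => X a x y * (starRingEnd ℂ) (X a x (bY y)) *
    (starRingEnd ℂ) (X a (ax x) y) * X a (ax x) (bY y) with hF
  set e : ℤ := γ * (o1 + i') + δ * (o2 + j') with he
  set n0 : ι → ℤ := fun a => -((-(c a - e)) / N) with hn0
  -- restriction of the sums
  have hQ : ∀ a ∈ A, Q4 (X a) N B o1 o2 i' j' = ∑ x ∈ Tx, ∑ y ∈ Ty, F a x y := by
    intro a ha
    have z : ∀ x y, ¬ (x ∈ Tx ∧ y ∈ Ty) → X a x y = 0 := by
      intro x y hxy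
      by_contra hc
      exact hxy (hsup a ha x y hc)
    unfold Q4
    rw [← Finset.sum_subset hB]
    · refine Finset.sum_congr rfl fun x _ => ?_
      rw [← Finset.sum_subset hB']
      intro y _ hy
      rw [z x y fun hc => hy hc.2]
      simp
    · intro x _ hx
      refine Finset.sum_eq_zero fun y _ => ?_
      rw [z x y fun hc => hx hc.1]
      simp
  -- selection of the colour
  have hsel : ∀ a ∈ A, ∀ x y, F a x y =
      ∑ t ∈ range κ, if γ * k1 x + δ * k2 y = n0 a + (t : ℤ) then F a x y else 0 := by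
    intro a ha x y
    by_cases hFz : F a x y = 0
    · rw [hFz]
      simp
    have h4 : X a (ax x) (bY y) ≠ 0 := by
      intro hc
      exact hFz (by simp only [hF, hc, mul_zero])
    obtain ⟨s1, s2⟩ := hstr a ha _ _ h4
    have em : γ * ax x + δ * bY y = e + N * (γ * k1 x + δ * k2 y) := by
      simp only [hax, hbY, he]; ring
    rw [em] at s1 s2
    obtain ⟨c1, c2⟩ := ceil_facts hN (c a - e)
    set m := γ * k1 x + δ * k2 y with hm
    have m1 : n0 a ≤ m := by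
      by_contra hc
      push Not at hc
      have : (N : ℤ) * m ≤ N * (n0 a - 1) := mul_le_mul_of_nonneg_left (by omega) hNz.le
      simp only [hn0] at this
      linarith
    have m2 : m < n0 a + κ := by
      by_contra hc
      push Not at hc
      have : (N : ℤ) * (n0 a + κ) ≤ N * m := mul_le_mul_of_nonneg_left hc hNz.le
      simp only [hn0] at this
      linarith
    rw [Finset.sum_eq_single (m - n0 a).toNat]
    · rw [if_pos]
      rw [Int.toNat_of_nonneg (by omega)]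
      ring
    · intro t _ ht
      rw [if_neg]
      intro hc
      apply ht
      omega
    · intro hc
      exfalso
      apply hc
      rw [Finset.mem_range]
      omega
  -- range of the characters
  obtain ⟨M, hM⟩ := Finset.exists_nat_subset_range
    ((A ×ˢ Tx ×ˢ Ty ×ˢ range κ).image fun t =>
      (γ * k1 t.2.1 + δ * k2 t.2.2.1 - (n0 t.1 + (t.2.2.2 : ℤ))).natAbs)
  have hMlt : ∀ a ∈ A, ∀ x ∈ Tx, ∀ y ∈ Ty, ∀ t ∈ range κ,
      (γ * k1 x + δ * k2 y - (n0 a + (t : ℤ))).natAbs < M + 1 := by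
    intro a ha x hx y hy t ht
    have : (γ * k1 x + δ * k2 y - (n0 a + (t : ℤ))).natAbs ∈ range M := by
      apply hM
      rw [Finset.mem_image]
      exact ⟨(a, x, y, t), by simp only [Finset.mem_product]; exact ⟨ha, hx, hy, ht⟩, rfl⟩
    have := Finset.mem_range.1 this
    omega
  have hMc : ((M + 1 : ℕ) : ℂ) ≠ 0 := by exact_mod_cast Nat.succ_ne_zero M
  -- one colour
  have hcol : ∀ t ∈ range κ, ‖∑ a ∈ A, (ω a : ℂ) * ∑ x ∈ Tx, ∑ y ∈ Ty,
      (if γ * k1 x + δ * k2 y = n0 a + (t : ℤ) then F a x y else 0)‖ ≤ H ^ 3 * Λ := by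
    intro t ht
    set U : ZMod (M + 1) → ι → ℤ → ℂ := fun r a x =>
      ZMod.stdAddChar (r * ((γ * k1 x - (n0 a + (t : ℤ)) : ℤ) : ZMod (M + 1))) *
        ((starRingEnd ℂ) (X a x (o2 + ((n0 a + t - γ * k1 x) / δ) * N + (j' : ℤ))) *
          X a (ax x) (o2 + ((n0 a + t - γ * k1 x) / δ) * N + (j' : ℤ))) with hU
    set V : ZMod (M + 1) → ι → ℤ → ℂ := fun r a y =>
      ZMod.stdAddChar (r * ((δ * k2 y : ℤ) : ZMod (M + 1))) *
        (starRingEnd ℂ) (X a (o1 + ((n0 a + t - δ * k2 y) / γ) * N + (i' : ℤ)) y) with hV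
    have hUb : ∀ r a x, ‖U r a x‖ ≤ H ^ 2 := by
      intro r a x
      simp only [hU, norm_mul, AddChar.norm_apply, one_mul, RCLike.norm_conj]
      nlinarith [hX a x (o2 + ((n0 a + t - γ * k1 x) / δ) * N + (j' : ℤ)),
        hX a (ax x) (o2 + ((n0 a + t - γ * k1 x) / δ) * N + (j' : ℤ)),
        norm_nonneg (X a x (o2 + ((n0 a + t - γ * k1 x) / δ) * N + (j' : ℤ))),
        norm_nonneg (X a (ax x) (o2 + ((n0 a + t - γ * k1 x) / δ) * N + (j' : ℤ)))]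
    have hVb : ∀ r a y, ‖V r a y‖ ≤ H := by
      intro r a y
      simp only [hV, norm_mul, AddChar.norm_apply, one_mul, RCLike.norm_conj]
      exact hX _ _ _
    have hpt : ∀ a ∈ A, ∀ x ∈ Tx, ∀ y ∈ Ty,
        (if γ * k1 x + δ * k2 y = n0 a + (t : ℤ) then F a x y else 0) =
        (1 / ((M + 1 : ℕ) : ℂ)) * ∑ r : ZMod (M + 1), X a x y * U r a x * V r a y := by
      intro a ha x hx y hy
      have hi := ind_char (M + 1) _ (hMlt a ha x hx y hy t ht)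
      have e1 : ∀ r : ZMod (M + 1), X a x y * U r a x * V r a y =
          (X a x y * ((starRingEnd ℂ) (X a x (o2 + ((n0 a + t - γ * k1 x) / δ) * N + (j' : ℤ))) *
          X a (ax x) (o2 + ((n0 a + t - γ * k1 x) / δ) * N + (j' : ℤ))) *
          (starRingEnd ℂ) (X a (o1 + ((n0 a + t - δ * k2 y) / γ) * N + (i' : ℤ)) y)) *
          ZMod.stdAddChar (r * ((γ * k1 x + δ * k2 y - (n0 a + (t : ℤ)) : ℤ) : ZMod (M + 1))) := by
        intro r
        have e2 : r * ((γ * k1 x + δ * k2 y - (n0 a + (t : ℤ)) : ℤ) : ZMod (M + 1)) =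
            r * ((γ * k1 x - (n0 a + (t : ℤ)) : ℤ) : ZMod (M + 1)) +
              r * ((δ * k2 y : ℤ) : ZMod (M + 1)) := by
          push_cast; ring
        rw [e2, AddChar.map_add_eq_mul]
        simp only [hU, hV]
        ring
      simp only [e1]
      rw [← Finset.mul_sum, mul_left_comm, ← hi]
      by_cases hm : γ * k1 x + δ * k2 y = n0 a + (t : ℤ)
      · rw [if_pos hm, if_pos (by omega), mul_one]
        have d1 : (n0 a + t - γ * k1 x) / δ = k2 y := by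
          rw [← hm]
          rw [show γ * k1 x + δ * k2 y - γ * k1 x = δ * k2 y by ring]
          exact Int.mul_ediv_cancel_left _ hδ
        have d2 : (n0 a + t - δ * k2 y) / γ = k1 x := by
          rw [← hm]
          rw [show γ * k1 x + δ * k2 y - δ * k2 y = γ * k1 x by ring]
          exact Int.mul_ediv_cancel_left _ hγ
        rw [d1, d2]
        simp only [hF, hax, hbY]
        ring
      · rw [if_neg hm, if_neg (by omega), mul_zero]
    have e3 : ∑ a ∈ A, (ω a : ℂ) * ∑ x ∈ Tx, ∑ y ∈ Ty,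
        (if γ * k1 x + δ * k2 y = n0 a + (t : ℤ) then F a x y else 0) =
        (1 / ((M + 1 : ℕ) : ℂ)) * ∑ r : ZMod (M + 1), ∑ a ∈ A, (ω a : ℂ) * ∑ x ∈ Tx, ∑ y ∈ Ty,
          X a x y * U r a x * V r a y := by
      rw [Finset.sum_comm, Finset.mul_sum]
      refine Finset.sum_congr rfl fun a ha => ?_
      rw [← Finset.mul_sum, mul_left_comm, ← swap3]
      congr 1
      rw [Finset.mul_sum]
      refine Finset.sum_congr rfl fun x hx => ?_
      rw [Finset.mul_sum]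
      exact Finset.sum_congr rfl fun y hy => hpt a ha x hx y hy
    rw [e3, norm_mul, norm_div, norm_one, Complex.norm_natCast]
    have h5 : ‖∑ r : ZMod (M + 1), ∑ a ∈ A, (ω a : ℂ) * ∑ x ∈ Tx, ∑ y ∈ Ty,
          X a x y * U r a x * V r a y‖ ≤ ((M + 1 : ℕ) : ℝ) * (H ^ 2 * H * Λ) := by
      refine (norm_sum_le _ _).trans ?_
      calc ∑ r : ZMod (M + 1), ‖∑ a ∈ A, (ω a : ℂ) * ∑ x ∈ Tx, ∑ y ∈ Ty,
            X a x y * U r a x * V r a y‖ ≤ ∑ _r : ZMod (M + 1), H ^ 2 * H * Λ :=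
            Finset.sum_le_sum fun r _ =>
              h.scaled (by positivity) hH (U r) (V r) (hUb r) (hVb r)
        _ = ((M + 1 : ℕ) : ℝ) * (H ^ 2 * H * Λ) := by
            rw [Finset.sum_const, Finset.card_univ, ZMod.card, nsmul_eq_mul]
    have h6 : (0 : ℝ) < ((M + 1 : ℕ) : ℝ) := by positivity
    calc 1 / ((M + 1 : ℕ) : ℝ) * _ ≤ 1 / ((M + 1 : ℕ) : ℝ) * (((M + 1 : ℕ) : ℝ) * (H ^ 2 * H * Λ)) :=
          mul_le_mul_of_nonneg_left h5 (by positivity)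
      _ = H ^ 3 * Λ := by field_simp
  -- all colours
  have e4' : ∑ a ∈ A, (ω a : ℂ) * Q4 (X a) N B o1 o2 i' j' =
      ∑ t ∈ range κ, ∑ a ∈ A, (ω a : ℂ) * ∑ x ∈ Tx, ∑ y ∈ Ty,
        (if γ * k1 x + δ * k2 y = n0 a + (t : ℤ) then F a x y else 0) := by
    rw [Finset.sum_comm]
    refine Finset.sum_congr rfl fun a ha => ?_
    rw [hQ a ha, ← Finset.mul_sum]
    congr 1
    rw [← swap3]
    exact Finset.sum_congr rfl fun x hx => Finset.sum_congr rfl fun y hy => hsel a ha x y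
  rw [e4']
  refine (norm_sum_le _ _).trans ?_
  calc ∑ t ∈ range κ, ‖∑ a ∈ A, (ω a : ℂ) * ∑ x ∈ Tx, ∑ y ∈ Ty,
        (if γ * k1 x + δ * k2 y = n0 a + (t : ℤ) then F a x y else 0)‖
      ≤ ∑ _t ∈ range κ, H ^ 3 * Λ := Finset.sum_le_sum hcol
    _ = κ * (H ^ 3 * Λ) := by rw [Finset.sum_const, Finset.card_range, nsmul_eq_mul]

end main

/-- **X WORD, BOX FORM**: the sum of the Schatten-4 energies `e4` over ANY finite set of boxes of side
`N` is `≤ κ H³ Λ` (no dependence on the number of boxes). -/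
theorem sum_e4_le {ι : Type*} [DecidableEq ι] {A : Finset ι} {ω : ι → ℝ} (hω : ∀ a ∈ A, 0 ≤ ω a)
    {X : ι → ℤ → ℤ → ℂ} {H Λ : ℝ} {Tx Ty : Finset ℤ} {N : ℕ} (hN : 0 < N) (hH : 0 < H)
    (hX : ∀ a x y, ‖X a x y‖ ≤ H) {γ δ : ℤ} (hγ : γ ≠ 0) (hδ : δ ≠ 0) (c : ι → ℤ) (κ : ℕ)
    (hstr : ∀ a ∈ A, ∀ x y, X a x y ≠ 0 → c a ≤ γ * x + δ * y ∧ γ * x + δ * y < c a + κ * N)
    (hsup : ∀ a ∈ A, ∀ x y, X a x y ≠ 0 → x ∈ Tx ∧ y ∈ Ty) (h : LevP A ω X Tx Ty Λ)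
    (P : Finset (ι × ℤ × ℤ)) (hP : ∀ t ∈ P, t.1 ∈ A) :
    ∑ t ∈ P, ω t.1 * e4 (X t.1) N t.2.1 t.2.2 ≤ κ * (H ^ 3 * Λ) := by
  classical
  have he4 : ∀ a q p, 0 ≤ e4 (X a) N q p := by
    intro a q p
    unfold e4
    positivity
  have hNz : (0 : ℤ) < N := by exact_mod_cast hN
  -- a big square
  obtain ⟨B0, hB0⟩ := Finset.exists_nat_subset_range
    (((P.image fun t => t.2.1) ∪ (P.image fun t => t.2.2) ∪ Tx ∪ Ty).image Int.natAbs)
  have hb : ∀ z ∈ ((P.image fun t => t.2.1) ∪ (P.image fun t => t.2.2) ∪ Tx ∪ Ty),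
      z.natAbs < B0 := fun z hz => Finset.mem_range.1 (hB0 (Finset.mem_image_of_mem _ hz))
  set B : ℤ := (B0 : ℤ) + 1 with hB
  have hBN : (B0 : ℤ) + N ≤ B * N := by
    have : (0 : ℤ) ≤ B0 := by positivity
    nlinarith
  -- enlarge the family
  have h1 : ∑ t ∈ P, ω t.1 * e4 (X t.1) N t.2.1 t.2.2 ≤
      ∑ a ∈ A, ω a * ∑ q ∈ Ico (-(B * N)) (B * N), ∑ p ∈ Ico (-(B * N)) (B * N),
        e4 (X a) N q p := by
    have e1 : ∑ a ∈ A, ω a * ∑ q ∈ Ico (-(B * N)) (B * N), ∑ p ∈ Ico (-(B * N)) (B * N),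
        e4 (X a) N q p = ∑ t ∈ A ×ˢ (Ico (-(B * N)) (B * N) ×ˢ Ico (-(B * N)) (B * N)),
          ω t.1 * e4 (X t.1) N t.2.1 t.2.2 := by
      rw [Finset.sum_product]
      refine Finset.sum_congr rfl fun a _ => ?_
      rw [Finset.sum_product, Finset.mul_sum]
      refine Finset.sum_congr rfl fun q _ => ?_
      rw [Finset.mul_sum]
    rw [e1]
    refine Finset.sum_le_sum_of_subset_of_nonneg ?_ ?_
    · intro t ht
      have b1 := hb t.2.1 (by
        simp only [Finset.mem_union]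
        exact Or.inl (Or.inl (Or.inl (Finset.mem_image_of_mem _ ht))))
      have b2 := hb t.2.2 (by
        simp only [Finset.mem_union]
        exact Or.inl (Or.inl (Or.inr (Finset.mem_image_of_mem (fun t => t.2.2) ht))))
      simp only [Finset.mem_product, Finset.mem_Ico]
      refine ⟨hP t ht, ⟨?_, ?_⟩, ⟨?_, ?_⟩⟩ <;> omega
    · intro t ht _
      exact mul_nonneg (hω _ (Finset.mem_product.1 ht).1) (he4 _ _ _)
  refine h1.trans ?_
  -- complex form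
  set E : ℝ := ∑ a ∈ A, ω a * ∑ q ∈ Ico (-(B * N)) (B * N), ∑ p ∈ Ico (-(B * N)) (B * N),
        e4 (X a) N q p with hE
  have hE0 : 0 ≤ E := Finset.sum_nonneg fun a ha => mul_nonneg (hω a ha)
    (Finset.sum_nonneg fun q _ => Finset.sum_nonneg fun p _ => he4 _ _ _)
  have hEc : (E : ℂ) = (1 / (N : ℂ) ^ 4) * ∑ o1 ∈ range N, ∑ o2 ∈ range N, ∑ i' ∈ range N,
      ∑ j' ∈ range N, ∑ a ∈ A, (ω a : ℂ) * Q4 (X a) N B (o1 : ℤ) (o2 : ℤ) i' j' := by
    rw [hE, Complex.ofReal_sum]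
    have e2 : ∀ a ∈ A, ((ω a * ∑ q ∈ Ico (-(B * N)) (B * N), ∑ p ∈ Ico (-(B * N)) (B * N),
        e4 (X a) N q p : ℝ) : ℂ) = (1 / (N : ℂ) ^ 4) * ∑ o1 ∈ range N, ∑ o2 ∈ range N,
          ∑ i' ∈ range N, ∑ j' ∈ range N, (ω a : ℂ) * Q4 (X a) N B (o1 : ℤ) (o2 : ℤ) i' j' := by
      intro a _
      rw [Complex.ofReal_mul, sum_e4 (X a) N hN B]
      simp only [← Finset.mul_sum]
      ring
    rw [Finset.sum_congr rfl e2, ← Finset.mul_sum]
    congr 1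
    rw [Finset.sum_comm]
    refine Finset.sum_congr rfl fun o1 _ => ?_
    rw [Finset.sum_comm]
    refine Finset.sum_congr rfl fun o2 _ => ?_
    rw [Finset.sum_comm]
    refine Finset.sum_congr rfl fun i' _ => ?_
    rw [Finset.sum_comm]
  have hTx : ∀ o : ℕ, o ∈ range N → Tx ⊆ Ico ((o : ℤ) - B * N) (o + B * N) := by
    intro o ho x hx
    have b1 := hb x (by
      simp only [Finset.mem_union]
      exact Or.inl (Or.inr hx))
    have ho' := Finset.mem_range.1 ho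
    rw [Finset.mem_Ico]
    constructor <;> omega
  have hTy : ∀ o : ℕ, o ∈ range N → Ty ⊆ Ico ((o : ℤ) - B * N) (o + B * N) := by
    intro o ho x hx
    have b1 := hb x (by
      simp only [Finset.mem_union]
      exact Or.inr hx)
    have ho' := Finset.mem_range.1 ho
    rw [Finset.mem_Ico]
    constructor <;> omega
  have hbd : ‖(E : ℂ)‖ ≤ κ * (H ^ 3 * Λ) := by
    rw [hEc, norm_mul, norm_div, norm_one, norm_pow, Complex.norm_natCast]
    have hN' : (0 : ℝ) < N := by exact_mod_cast hN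
    have h2 : ‖∑ o1 ∈ range N, ∑ o2 ∈ range N, ∑ i' ∈ range N, ∑ j' ∈ range N,
        ∑ a ∈ A, (ω a : ℂ) * Q4 (X a) N B (o1 : ℤ) (o2 : ℤ) i' j'‖ ≤
        (N : ℝ) ^ 4 * (κ * (H ^ 3 * Λ)) := by
      have hk : ∀ (f : ℕ → ℂ) (b : ℝ), (∀ i ∈ range N, ‖f i‖ ≤ b) →
          ‖∑ i ∈ range N, f i‖ ≤ N * b := by
        intro f b hf
        refine (norm_sum_le _ _).trans ((Finset.sum_le_sum hf).trans (le_of_eq ?_))
        rw [Finset.sum_const, Finset.card_range, nsmul_eq_mul]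
      refine (hk _ _ fun o1 ho1 => hk _ _ fun o2 ho2 => hk _ _ fun i' _ => hk _ _ fun j' _ =>
        Q_bound hN hH hX hγ hδ c κ hstr hsup B o1 o2 (hTx o1 ho1) (hTy o2 ho2) h i' j').trans
        (le_of_eq (by ring))
    calc 1 / (N : ℝ) ^ 4 * _ ≤ 1 / (N : ℝ) ^ 4 * ((N : ℝ) ^ 4 * (κ * (H ^ 3 * Λ))) :=
          mul_le_mul_of_nonneg_left h2 (by positivity)
      _ = κ * (H ^ 3 * Λ) := by field_simp
  rwa [Complex.norm_real, Real.norm_of_nonneg hE0] at hbd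

end Crest.Agent.R079.XDual988
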