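import Crest.Agent.R079.LiftW_429
import Crest.Agent.R079.XDual_988
import Crest.Agent.R079.EW3_990

/-! R079, Step II glue (g2) (helper429): static windows of the frozen kernel `c z z' * F (α w + γ z + δ z')`,
main part = mixture of products `u w z * v w z'`, `S₂`-small error `E`, `S₄`-small error `X`. -/

set_option autoImplicit false
set_option linter.unusedVariables false

namespace Crest.Agent.R079.Plug429

open Finset Crest.Agent.R079.Grid Crest.Agent.R079.Growth Crest.Agent.R079.QRed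
  Crest.Agent.R079.TWin Crest.Agent.R079.R244 Crest.Agent.R079.F24

open Classical in
/-- a function of `(w, z, z')` on the lifted line: `y` = shadow, `k` = code of `(z, z')` -/
noncomputable def Lf (P : Finset (ℤ × ℤ)) (enc : ℤ × ℤ → ℕ) (α γ δ : ℤ)
    (G : ℤ → ℤ → ℤ → ℂ) (y : ℤ) (k : ℕ) : ℂ :=
  ∑ q ∈ P, if enc q = k ∧ α ∣ y - γ * q.1 - δ * q.2 then
    G ((y - γ * q.1 - δ * q.2) / α) q.1 q.2 else 0

variable {P : Finset (ℤ × ℤ)} {enc : ℤ × ℤ → ℕ} {α γ δ : ℤ} {G : ℤ → ℤ → ℤ → ℂ}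

lemma Lf_enc (hinj : Set.InjOn enc P) (hα : α ≠ 0) {q : ℤ × ℤ} (hq : q ∈ P) (w : ℤ) :
    Lf P enc α γ δ G (α * w + γ * q.1 + δ * q.2) (enc q) = G w q.1 q.2 := by
  unfold Lf
  rw [Finset.sum_eq_single q]
  · have e : α * w + γ * q.1 + δ * q.2 - γ * q.1 - δ * q.2 = α * w := by ring
    rw [e, if_pos ⟨rfl, Dvd.intro _ rfl⟩, Int.mul_ediv_cancel_left _ hα]
  · intro b hb hne
    rw [if_neg]
    rintro ⟨h, _⟩
    exact hne (hinj hb hq h)
  · intro h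
    exact absurd hq h

/-- at most one term -/
lemma Lf_code (hinj : Set.InjOn enc P) (y : ℤ) {q : ℤ × ℤ} (hq : q ∈ P) :
    Lf P enc α γ δ G y (enc q) = if α ∣ y - γ * q.1 - δ * q.2 then
      G ((y - γ * q.1 - δ * q.2) / α) q.1 q.2 else 0 := by
  unfold Lf
  rw [Finset.sum_eq_single q]
  · by_cases h : α ∣ y - γ * q.1 - δ * q.2
    · rw [if_pos ⟨rfl, h⟩, if_pos h]
    · rw [if_neg (fun h' => h h'.2), if_neg h]
  · intro b hb hne
    rw [if_neg]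
    rintro ⟨h, _⟩
    exact hne (hinj hb hq h)
  · intro h
    exact absurd hq h

lemma Lf_zero (y : ℤ) (k : ℕ) (h : ∀ q ∈ P, enc q ≠ k) : Lf P enc α γ δ G y k = 0 := by
  unfold Lf
  refine Finset.sum_eq_zero fun q hq => ?_
  rw [if_neg]
  rintro ⟨h', _⟩
  exact h q hq h'

lemma Lf_norm_le (hinj : Set.InjOn enc P) {B : ℝ} (hB : 0 ≤ B) (hG : ∀ w z z', ‖G w z z'‖ ≤ B)
    (y : ℤ) (k : ℕ) : ‖Lf P enc α γ δ G y k‖ ≤ B := by
  by_cases h : ∃ q ∈ P, enc q = k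
  · obtain ⟨q, hq, rfl⟩ := h
    rw [Lf_code hinj y hq]
    split_ifs
    · exact hG _ _ _
    · simpa using hB
  · rw [Lf_zero y k (fun q hq hk => h ⟨q, hq, hk⟩)]
    simpa using hB

/-- sums over the codes -/
lemma sum_codes (hinj : Set.InjOn enc P) (r : ℕ) (henc : ∀ q ∈ P, enc q < 2 ^ r)
    {β : Type} [AddCommMonoid β] (f : ℕ → β) (hf : ∀ k, (∀ q ∈ P, enc q ≠ k) → f k = 0) :
    ∑ k ∈ range (2 ^ r), f k = ∑ q ∈ P, f (enc q) := by
  classical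
  rw [← Finset.sum_image (f := f) hinj]
  symm
  refine Finset.sum_subset ?_ ?_
  · intro k hk
    obtain ⟨q, hq, rfl⟩ := Finset.mem_image.1 hk
    exact Finset.mem_range.2 (henc q hq)
  · intro k _ hk
    refine hf k fun q hq h => hk ?_
    rw [← h]
    exact Finset.mem_image_of_mem _ hq

/-- one fibre -/
lemma sum_fibre (hα : α ≠ 0) (I A : Finset ℤ) (b : ℤ) (h : ℤ → ℂ) (g : ℤ → ℂ)
    (hA : ∀ w, w ∉ A → g w = 0) :
    (∑ y ∈ I, if α ∣ y - b then h y * g ((y - b) / α) else 0) =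
      ∑ w ∈ A, if α * w + b ∈ I then h (α * w + b) * g w else 0 := by
  classical
  have e1 : (∑ y ∈ I, if α ∣ y - b then h y * g ((y - b) / α) else 0) =
      ∑ y ∈ I.filter (fun y => α ∣ y - b ∧ (y - b) / α ∈ A), h y * g ((y - b) / α) := by
    rw [Finset.sum_filter]
    refine Finset.sum_congr rfl fun y _ => ?_
    by_cases h1 : α ∣ y - b
    · by_cases h2 : (y - b) / α ∈ A
      · rw [if_pos h1, if_pos ⟨h1, h2⟩]
      · rw [if_pos h1, if_neg (fun h' => h2 h'.2), hA _ h2, mul_zero]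
    · rw [if_neg h1, if_neg (fun h' => h1 h'.1)]
  have e2 : (∑ w ∈ A, if α * w + b ∈ I then h (α * w + b) * g w else 0) =
      ∑ w ∈ A.filter (fun w => α * w + b ∈ I), h (α * w + b) * g w := by
    rw [Finset.sum_filter]
  rw [e1, e2]
  refine Finset.sum_nbij' (fun y => (y - b) / α) (fun w => α * w + b) ?_ ?_ ?_ ?_ ?_
  · intro y hy
    rw [Finset.mem_filter] at hy ⊢
    refine ⟨hy.2.2, ?_⟩
    rw [Int.mul_ediv_cancel' hy.2.1]
    simpa using hy.1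
  · intro w hw
    rw [Finset.mem_filter] at hw ⊢
    have e : α * w + b - b = α * w := by ring
    rw [e, Int.mul_ediv_cancel_left _ hα]
    exact ⟨hw.2, Dvd.intro _ rfl, hw.1⟩
  · intro y hy
    rw [Finset.mem_filter] at hy
    rw [Int.mul_ediv_cancel' hy.2.1]
    ring
  · intro w hw
    have e : α * w + b - b = α * w := by ring
    rw [e, Int.mul_ediv_cancel_left _ hα]
  · intro y hy
    rw [Finset.mem_filter] at hy
    rw [Int.mul_ediv_cancel' hy.2.1]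
    congr 2
    ring

lemma sum_Lf (hinj : Set.InjOn enc P) (hα : α ≠ 0) (r : ℕ) (henc : ∀ q ∈ P, enc q < 2 ^ r)
    (I A : Finset ℤ) (hA : ∀ w z z', w ∉ A → G w z z' = 0) (H : ℤ → ℕ → ℂ) :
    ∑ y ∈ I, ∑ k ∈ range (2 ^ r), H y k * Lf P enc α γ δ G y k =
      ∑ q ∈ P, ∑ w ∈ A, if α * w + γ * q.1 + δ * q.2 ∈ I then
        H (α * w + γ * q.1 + δ * q.2) (enc q) * G w q.1 q.2 else 0 := by
  have h1 : ∀ y, ∑ k ∈ range (2 ^ r), H y k * Lf P enc α γ δ G y k =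
      ∑ q ∈ P, H y (enc q) * Lf P enc α γ δ G y (enc q) := by
    intro y
    refine sum_codes hinj r henc (fun k => H y k * Lf P enc α γ δ G y k) fun k hk => ?_
    rw [Lf_zero y k hk, mul_zero]
  rw [Finset.sum_congr rfl fun y _ => h1 y, Finset.sum_comm]
  refine Finset.sum_congr rfl fun q hq => ?_
  have h2 := sum_fibre (α := α) hα I A (γ * q.1 + δ * q.2) (fun y => H y (enc q))
    (fun w => G w q.1 q.2) (fun w hw => hA w _ _ hw)
  have e3 : ∀ w : ℤ, α * w + (γ * q.1 + δ * q.2) = α * w + γ * q.1 + δ * q.2 := fun w => by ring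
  simp only [e3] at h2
  rw [← h2]
  refine Finset.sum_congr rfl fun y _ => ?_
  rw [Lf_code hinj y hq]
  have e4 : y - (γ * q.1 + δ * q.2) = y - γ * q.1 - δ * q.2 := by ring
  rw [e4]
  split_ifs <;> simp

/-- energy of the lifted kernel -/
lemma energy_Lf (hinj : Set.InjOn enc P) (r : ℕ) (henc : ∀ q ∈ P, enc q < 2 ^ r)
    (c : ℤ → ℤ → ℂ) (F : ℤ → ℂ) (y : ℤ) :
    ∑ k ∈ range (2 ^ r), ‖Lf P enc α γ δ (fun w z z' => c z z' * F (α * w + γ * z + δ * z')) y k‖ ^ 2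
      ≤ (∑ q ∈ P, ‖c q.1 q.2‖ ^ 2) * ‖F y‖ ^ 2 := by
  rw [sum_codes hinj r henc (fun k => ‖Lf P enc α γ δ
    (fun w z z' => c z z' * F (α * w + γ * z + δ * z')) y k‖ ^ 2) (fun k hk => by
      rw [Lf_zero y k hk]; simp), Finset.sum_mul]
  refine Finset.sum_le_sum fun q hq => ?_
  rw [Lf_code hinj y hq]
  split_ifs with h
  · rw [Int.mul_ediv_cancel' h, norm_mul, mul_pow]
    have e : y - γ * q.1 - δ * q.2 + γ * q.1 + δ * q.2 = y := by ring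
    rw [e]
  · rw [norm_zero, zero_pow two_ne_zero]
    positivity

open Classical in
/-- back from the lifted line -/
noncomputable def Bk (P : Finset (ℤ × ℤ)) (enc : ℤ × ℤ → ℕ) (α γ δ : ℤ) (lam : ℝ)
    (E : ℤ → ℕ → ℂ) (w z z' : ℤ) : ℂ :=
  (lam : ℂ)⁻¹ * E (α * w + γ * z + δ * z') (enc (z, z'))

/-- `S₂` of a letter that comes back from the lifted line -/
lemma s2_Bk {T T' : Finset ℤ} (hinj : Set.InjOn enc (T ×ˢ T' : Finset (ℤ × ℤ))) (hα : α ≠ 0)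
    (r : ℕ) (henc : ∀ q ∈ T ×ˢ T', enc q < 2 ^ r) {lam : ℝ} (hlam : 0 < lam)
    {W : Finset Nd} {κ : ℕ} {V : ℝ} (E : ℤ → ℕ → ℂ)
    (hE : ∀ p ∈ W, ∑ y ∈ iv p, ∑ k ∈ range (2 ^ r), ‖E y k‖ ^ 2 ≤ lam ^ 2 * (V * len p)) :
    EW49.S2W W κ V α γ δ T T' (Bk (T ×ˢ T') enc α γ δ lam E) (fun _ => 1) := by
  classical
  refine EW990.s2w_of_total fun p hp S => ?_
  set Y : ℤ × ℤ × ℤ → ℤ × ℕ := fun t => (α * t.1 + γ * t.2.1 + δ * t.2.2, enc (t.2.1, t.2.2)) with hY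
  set S' := S.filter (fun t => (t.2.1 ∈ T ∧ t.2.2 ∈ T') ∧ α * t.1 + γ * t.2.1 + δ * t.2.2 ∈ iv p)
    with hS'
  have h1 : ∑ t ∈ S, ‖cK α γ δ T T' (Bk (T ×ˢ T') enc α γ δ lam E t.1) (res p fun _ => 1)
      t.1 t.2.1 t.2.2‖ ^ 2 = ∑ t ∈ S', lam⁻¹ ^ 2 * ‖E (Y t).1 (Y t).2‖ ^ 2 := by
    rw [hS', Finset.sum_filter]
    refine Finset.sum_congr rfl fun t _ => ?_
    unfold cK res
    by_cases h2 : t.2.1 ∈ T ∧ t.2.2 ∈ T'
    · rw [if_pos h2]
      by_cases h3 : α * t.1 + γ * t.2.1 + δ * t.2.2 ∈ iv p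
      · have h3' : α * t.1 + γ * t.2.1 + δ * t.2.2 ∈ dI (p.1 + 7) p.2 := h3
        rw [if_pos h3', if_pos ⟨h2, h3⟩, mul_one]
        unfold Bk
        rw [norm_mul, norm_inv, Complex.norm_real, Real.norm_of_nonneg hlam.le, mul_pow]
      · have h3' : ¬ α * t.1 + γ * t.2.1 + δ * t.2.2 ∈ dI (p.1 + 7) p.2 := h3
        rw [if_neg h3', if_neg (fun h => h3 h.2)]
        simp
    · rw [if_neg h2, if_neg (fun h => h2 h.1)]
      simp
  have hYinj : Set.InjOn Y S' := by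
    rintro ⟨w, z, z'⟩ ht ⟨w₁, z₁, z₁'⟩ ht₁ h
    rw [Finset.mem_coe, hS', Finset.mem_filter] at ht ht₁
    simp only [hY, Prod.mk.injEq] at h
    have h2 : ((z, z') : ℤ × ℤ) = (z₁, z₁') := by
      refine hinj ?_ ?_ h.2
      · exact Finset.mem_coe.2 (Finset.mem_product.2 ht.2.1)
      · exact Finset.mem_coe.2 (Finset.mem_product.2 ht₁.2.1)
    simp only [Prod.mk.injEq] at h2
    obtain ⟨rfl, rfl⟩ := h2
    have h4 : α * w = α * w₁ := by linarith [h.1]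
    have h5 := mul_left_cancel₀ hα h4
    subst h5
    rfl
  have h2 : ∑ t ∈ S', lam⁻¹ ^ 2 * ‖E (Y t).1 (Y t).2‖ ^ 2 ≤
      ∑ x ∈ iv p ×ˢ range (2 ^ r), lam⁻¹ ^ 2 * ‖E x.1 x.2‖ ^ 2 := by
    have e := Finset.sum_image (f := fun x : ℤ × ℕ => lam⁻¹ ^ 2 * ‖E x.1 x.2‖ ^ 2) hYinj
    rw [← e]
    refine Finset.sum_le_sum_of_subset_of_nonneg ?_ (fun _ _ _ => by positivity)
    intro x hx
    obtain ⟨t, ht, rfl⟩ := Finset.mem_image.1 hx
    rw [hS', Finset.mem_filter] at ht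
    refine Finset.mem_product.2 ⟨ht.2.2, Finset.mem_range.2 (henc _ ?_)⟩
    exact Finset.mem_product.2 ht.2.1
  rw [h1]
  refine h2.trans ?_
  rw [Finset.sum_product]
  have e3 : ∑ y ∈ iv p, ∑ k ∈ range (2 ^ r), lam⁻¹ ^ 2 * ‖E y k‖ ^ 2 =
      lam⁻¹ ^ 2 * ∑ y ∈ iv p, ∑ k ∈ range (2 ^ r), ‖E y k‖ ^ 2 := by
    rw [Finset.mul_sum]
    exact Finset.sum_congr rfl fun y _ => (Finset.mul_sum _ _ _).symm
  rw [e3]
  refine (mul_le_mul_of_nonneg_left (hE p hp) (by positivity)).trans (le_of_eq ?_)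
  have e4 : len p = 2 ^ (p.1 + 7) := rfl
  rw [e4]
  field_simp

/-- the class of tests -/
def Tst (P : Finset (ℤ × ℤ)) (enc : ℤ × ℤ → ℕ) (α γ δ : ℤ) (ψ : ℤ → ℕ → ℂ) : Prop :=
  ∃ u v : ℤ → ℤ → ℂ, (∀ w z, ‖u w z‖ ≤ 1) ∧ (∀ w z, ‖v w z‖ ≤ 1) ∧
    ψ = Lf P enc α γ δ (fun w z z' => u w z * v w z')

/-- level of a letter that comes back from the lifted line -/
lemma lev_Bk {T T' : Finset ℤ} (hinj : Set.InjOn enc (T ×ˢ T' : Finset (ℤ × ℤ))) (hα : α ≠ 0)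
    (r : ℕ) (henc : ∀ q ∈ T ×ˢ T', enc q < 2 ^ r) {lam Λ : ℝ} (hlam : 0 < lam)
    (X : ℤ → ℕ → ℂ) (p : Nd)
    (hX : ∀ φ, Tst (T ×ˢ T') enc α γ δ φ →
      ‖∑ y ∈ iv p, ∑ k ∈ range (2 ^ r), X y k * φ y k‖ ≤ lam * Λ) (A : Finset ℤ) :
    XDual988.LevP A (fun _ => (1 : ℝ)) (fun w z z' =>
      cK α γ δ T T' (Bk (T ×ˢ T') enc α γ δ lam X w) (res p fun _ => 1) w z z') T T' Λ := by
  classical
  intro u v hu hv
  set G : ℤ → ℤ → ℤ → ℂ := fun w z z' => (if w ∈ A then u w z else 0) * v w z' with hG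
  have hA0 : ∀ w z z', w ∉ A → G w z z' = 0 := by
    intro w z z' hw
    simp only [hG]
    rw [if_neg hw, zero_mul]
  have h1 := sum_Lf (α := α) (γ := γ) (δ := δ) (G := G) hinj hα r henc (iv p) A hA0 X
  have h2 := hX (Lf (T ×ˢ T') enc α γ δ G) ⟨fun w z => if w ∈ A then u w z else 0, v,
    (fun w z => by
      show ‖(if w ∈ A then u w z else 0)‖ ≤ 1
      by_cases hw : w ∈ A
      · rw [if_pos hw]; exact hu w z
      · rw [if_neg hw]; simp), hv, rfl⟩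
  rw [h1] at h2
  have e : (∑ a ∈ A, ((1 : ℝ) : ℂ) * ∑ x ∈ T, ∑ y ∈ T',
      cK α γ δ T T' (Bk (T ×ˢ T') enc α γ δ lam X a) (res p fun _ => 1) a x y * u a x * v a y) =
      (lam : ℂ)⁻¹ * ∑ q ∈ T ×ˢ T', ∑ w ∈ A, (if α * w + γ * q.1 + δ * q.2 ∈ iv p then
        X (α * w + γ * q.1 + δ * q.2) (enc q) * G w q.1 q.2 else 0) := by
    rw [Finset.sum_comm (s := T ×ˢ T'), Finset.mul_sum]
    refine Finset.sum_congr rfl fun w hw => ?_
    rw [Finset.sum_product, Complex.ofReal_one, one_mul, Finset.mul_sum]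
    refine Finset.sum_congr rfl fun x hx => ?_
    rw [Finset.mul_sum]
    refine Finset.sum_congr rfl fun y hy => ?_
    unfold cK res Bk
    rw [if_pos ⟨hx, hy⟩]
    by_cases h3 : α * w + γ * x + δ * y ∈ iv p
    · have h3' : α * w + γ * x + δ * y ∈ dI (p.1 + 7) p.2 := h3
      rw [if_pos h3', if_pos h3]
      simp only [hG]
      rw [if_pos hw]
      ring
    · have h3' : ¬ α * w + γ * x + δ * y ∈ dI (p.1 + 7) p.2 := h3
      rw [if_neg h3', if_neg h3]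
      ring
  rw [e, norm_mul, norm_inv, Complex.norm_real, Real.norm_of_nonneg hlam.le]
  calc lam⁻¹ * _ ≤ lam⁻¹ * (lam * Λ) := mul_le_mul_of_nonneg_left h2 (by positivity)
    _ = Λ := by field_simp

/-- `S₄` of a letter that comes back from the lifted line -/
lemma s4_Bk {T T' : Finset ℤ} (hinj : Set.InjOn enc (T ×ˢ T' : Finset (ℤ × ℤ))) (hα : α ≠ 0)
    (hγ : γ ≠ 0) (hδ : δ ≠ 0)
    (r : ℕ) (henc : ∀ q ∈ T ×ˢ T', enc q < 2 ^ r) {lam Λ H V s4 : ℝ} (hlam : 0 < lam)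
    (hH : 0 < H) {W : Finset Nd} {κ : ℕ} (X : ℤ → ℕ → ℂ)
    (hX : ∀ p ∈ W, ∀ φ, Tst (T ×ˢ T') enc α γ δ φ →
      ‖∑ y ∈ iv p, ∑ k ∈ range (2 ^ r), X y k * φ y k‖ ≤ lam * (Λ * len p))
    (hb : ∀ p ∈ W, ∀ y ∈ iv p, ∀ k, k < 2 ^ r → ‖X y k‖ ≤ lam * H)
    (hs : 128 * (H ^ 3 * Λ) ≤ s4 * V) :
    EW49.S4W W κ V s4 α γ δ T T' (Bk (T ×ˢ T') enc α γ δ lam X) (fun _ => 1) := by
  classical
  intro p hp k _ S
  have hdI : ∀ y, y ∈ dI (p.1 + 7) p.2 ↔ p.2 * 2 ^ (p.1 + 7) ≤ y ∧ y < (p.2 + 1) * 2 ^ (p.1 + 7) := by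
    intro y
    unfold dI
    exact Finset.mem_Ico
  have key := XDual988.sum_e4_le (A := S.image Prod.fst) (ω := fun _ => (1 : ℝ))
    (fun _ _ => zero_le_one)
    (X := fun w z z' => cK α γ δ T T' (Bk (T ×ˢ T') enc α γ δ lam X w) (res p fun _ => 1) w z z')
    (H := H) (Λ := Λ * len p) (Tx := T) (Ty := T') (N := 2 ^ (p.1 + k)) (by positivity) hH ?_ hγ hδ
    (fun w => p.2 * 2 ^ (p.1 + 7) - α * w) 128 ?_ ?_
    (lev_Bk hinj hα r henc hlam X p (hX p hp) _) S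
    (fun t ht => Finset.mem_image_of_mem _ ht)
  · simp only [one_mul] at key
    refine key.trans ?_
    have e : len p = 2 ^ (p.1 + 7) := rfl
    have hl : (0 : ℝ) < 2 ^ (p.1 + 7) := by positivity
    rw [e]
    push_cast
    calc (128 : ℝ) * (H ^ 3 * (Λ * 2 ^ (p.1 + 7))) = (128 * (H ^ 3 * Λ)) * 2 ^ (p.1 + 7) := by ring
      _ ≤ (s4 * V) * 2 ^ (p.1 + 7) := mul_le_mul_of_nonneg_right hs hl.le
      _ = s4 * (2 ^ (p.1 + 7) * V) := by ring
  · intro w z z'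
    unfold cK res Bk
    split_ifs with h1 h2
    · rw [mul_one, norm_mul, norm_inv, Complex.norm_real, Real.norm_of_nonneg hlam.le,
        inv_mul_le_iff₀ hlam]
      exact hb p hp _ h2 _ (henc _ (Finset.mem_product.2 h1))
    · simpa using hH.le
    · simpa using hH.le
  · intro w _ x y h
    have h2 : α * w + γ * x + δ * y ∈ dI (p.1 + 7) p.2 := by
      by_contra h3
      apply h
      unfold cK res
      split_ifs <;> simp
    rw [hdI] at h2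
    have e1 : (2 : ℤ) ^ (p.1 + 7) ≤ 128 * 2 ^ (p.1 + k) := by
      have e2 : (2 : ℤ) ^ (p.1 + 7) = 128 * 2 ^ p.1 := by rw [pow_add]; ring
      rw [e2]
      have : (2 : ℤ) ^ p.1 ≤ 2 ^ (p.1 + k) := pow_le_pow_right₀ (by norm_num) (by omega)
      linarith
    push_cast
    constructor
    · linarith [h2.1]
    · have h4 := h2.2
      have e3 : (p.2 + 1) * (2 : ℤ) ^ (p.1 + 7) = p.2 * 2 ^ (p.1 + 7) + 2 ^ (p.1 + 7) := by ring
      rw [e3] at h4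
      linarith
  · intro w _ x y h
    by_contra h3
    apply h
    unfold cK
    rw [if_neg h3]

lemma Lf_conj (y : ℤ) (k : ℕ) : (starRingEnd ℂ) (Lf P enc α γ δ G y k) =
    Lf P enc α γ δ (fun w z z' => (starRingEnd ℂ) (G w z z')) y k := by
  unfold Lf
  rw [map_sum]
  refine Finset.sum_congr rfl fun q _ => ?_
  split_ifs
  · rfl
  · simp

lemma exists_enc (P : Finset (ℤ × ℤ)) (r : ℕ) (hr : P.card ≤ 2 ^ r) :
    ∃ enc : ℤ × ℤ → ℕ, Set.InjOn enc P ∧ ∀ q ∈ P, enc q < 2 ^ r := by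
  classical
  refine ⟨fun q => if h : q ∈ P then (P.equivFin ⟨q, h⟩ : ℕ) else 0, ?_, ?_⟩
  · intro q hq q' hq' h
    simp only at h
    rw [dif_pos (Finset.mem_coe.1 hq), dif_pos (Finset.mem_coe.1 hq')] at h
    have h2 := P.equivFin.injective (Fin.ext h)
    exact congrArg Subtype.val h2
  · intro q hq
    simp only
    rw [dif_pos hq]
    exact lt_of_lt_of_le (P.equivFin ⟨q, hq⟩).2 hr

/-- **(g2) PLUG**: static windows of the frozen kernel `c z z' * F (α w + γ z + δ z')` -/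
theorem plug {R : Finset Nd} {J : Nd} (hR : Full R J) {α γ δ : ℤ} (hα : α ≠ 0) (hγ : γ ≠ 0)
    (hδ : δ ≠ 0) (T T' : Finset ℤ) (r : ℕ) (hr : T.card * T'.card ≤ 2 ^ r)
    (c : ℤ → ℤ → ℂ) (F : ℤ → ℂ) {M A Hc lam : ℝ} (hM : 0 ≤ M)
    (hc : ∑ q ∈ T ×ˢ T', ‖c q.1 q.2‖ ^ 2 ≤ M)
    (hF : ∀ p ∈ R, ∑ y ∈ iv p, ‖F y‖ ^ 2 ≤ A * len p) (hHc : 0 ≤ Hc)
    (hcb : ∀ z ∈ T, ∀ z' ∈ T', ∀ y ∈ iv J, ‖c z z'‖ * ‖F y‖ ≤ Hc)
    (hlam : 0 < lam) (hl : lam ^ 2 * (M * A) ≤ 2 ^ r)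
    {σ θ : ℝ} (hσ : 0 < σ) (hθ : 0 < θ) :
    ∃ (S : Finset Nd) (W : Nd → Finset Nd), Part R S W (2 + 16 / θ) ∧
      ∀ K ∈ S, ∃ (n : ℕ) (u v : Fin n → ℤ → ℤ → ℂ) (d : Fin n → ℂ) (E X : ℤ → ℤ → ℤ → ℂ),
        (∀ j w z, ‖u j w z‖ ≤ 1) ∧ (∀ j w z, ‖v j w z‖ ≤ 1) ∧ ∑ j, ‖d j‖ ≤ 1 / (σ * lam) ∧
        (∀ w, ∀ z ∈ T, ∀ z' ∈ T', α * w + γ * z + δ * z' ∈ iv K →
          c z z' * F (α * w + γ * z + δ * z') =
            ∑ j, d j * (u j w z * v j w z') + E w z z' + X w z z') ∧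
        (∀ κ, EW49.S2W (W K) κ (9 * θ * 2 ^ r / lam ^ 2) α γ δ T T' E (fun _ => 1)) ∧
        (∀ κ s4 V, 128 * ((Hc + 3 / (σ * lam)) ^ 3 * (2 * σ * 2 ^ r / lam)) ≤ s4 * V →
          EW49.S4W (W K) κ V s4 α γ δ T T' X (fun _ => 1)) ∧
        (∀ w, ∀ z ∈ T, ∀ z' ∈ T', α * w + γ * z + δ * z' ∈ iv K →
          ‖E w z z'‖ ≤ 2 / (σ * lam) ∧ ‖X w z z'‖ ≤ Hc + 3 / (σ * lam)) := by
  classical
  obtain ⟨enc, hinj, henc⟩ := exists_enc (T ×ˢ T') r (by rw [Finset.card_product]; exact hr)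
  set P : Finset (ℤ × ℤ) := T ×ˢ T' with hP
  set C : ℤ → ℕ → ℂ := Lf P enc α γ δ
    (fun w z z' => ((lam : ℂ) * c z z') * F (α * w + γ * z + δ * z')) with hCdef
  have hsc : ∑ q ∈ P, ‖(lam : ℂ) * c q.1 q.2‖ ^ 2 ≤ lam ^ 2 * M := by
    have e : ∑ q ∈ P, ‖(lam : ℂ) * c q.1 q.2‖ ^ 2 = lam ^ 2 * ∑ q ∈ P, ‖c q.1 q.2‖ ^ 2 := by
      rw [Finset.mul_sum]
      refine Finset.sum_congr rfl fun q _ => ?_
      rw [norm_mul, mul_pow, Complex.norm_real, Real.norm_of_nonneg hlam.le]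
    rw [e]
    exact mul_le_mul_of_nonneg_left hc (by positivity)
  have hC : ∀ p ∈ R, ∑ y ∈ iv p, ∑ k ∈ range (2 ^ r), ‖C y k‖ ^ 2 ≤ 2 ^ r * len p := by
    intro p hp
    have hlen : 0 < len p := by unfold len; positivity
    calc ∑ y ∈ iv p, ∑ k ∈ range (2 ^ r), ‖C y k‖ ^ 2
        ≤ ∑ y ∈ iv p, (lam ^ 2 * M) * ‖F y‖ ^ 2 := by
          refine Finset.sum_le_sum fun y _ => ?_
          refine (energy_Lf (α := α) (γ := γ) (δ := δ) hinj r henc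
            (fun z z' => (lam : ℂ) * c z z') F y).trans ?_
          exact mul_le_mul_of_nonneg_right hsc (by positivity)
      _ = (lam ^ 2 * M) * ∑ y ∈ iv p, ‖F y‖ ^ 2 := by rw [Finset.mul_sum]
      _ ≤ (lam ^ 2 * M) * (A * len p) := mul_le_mul_of_nonneg_left (hF p hp) (by positivity)
      _ = (lam ^ 2 * (M * A)) * len p := by ring
      _ ≤ 2 ^ r * len p := mul_le_mul_of_nonneg_right hl hlen.le
  obtain ⟨S, W, hpart, hdec⟩ := LiftW.lift_windows hR r C hC (Tst P enc α γ δ)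
    (by
      rintro ψ ⟨u, v, hu, hv, rfl⟩
      refine ⟨fun w z => (starRingEnd ℂ) (u w z), fun w z => (starRingEnd ℂ) (v w z),
        fun w z => by rw [RCLike.norm_conj]; exact hu w z,
        fun w z => by rw [RCLike.norm_conj]; exact hv w z, ?_⟩
      funext y k
      rw [Lf_conj]
      simp only [map_mul])
    (by
      rintro ψ ⟨u, v, hu, hv, rfl⟩ y k _
      refine Lf_norm_le hinj zero_le_one (fun w z z' => ?_) y k
      rw [norm_mul]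
      exact mul_le_one₀ (hu w z) (norm_nonneg _) (hv w z')) hσ hθ
  refine ⟨S, W, hpart, fun K hK => ?_⟩
  obtain ⟨n, ψ, d, E, X, hψ, hd, hform, hE, hX, hEh⟩ := hdec K hK
  choose u v hu hv huv using hψ
  have hKJ : iv K ⊆ iv J := hR.reg.1 K (hpart.sub hK)
  have hsl : 0 < σ * lam := by positivity
  -- heights on the lifted line
  have hCh : ∀ y ∈ iv K, ∀ k, ‖C y k‖ ≤ lam * Hc := by
    intro y hy k
    by_cases h : ∃ q ∈ P, enc q = k
    · obtain ⟨q, hq, rfl⟩ := h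
      rw [hCdef, Lf_code hinj y hq]
      split_ifs with h2
      · rw [Int.mul_ediv_cancel' h2, norm_mul, norm_mul, Complex.norm_real,
          Real.norm_of_nonneg hlam.le, mul_assoc]
        have e : y - γ * q.1 - δ * q.2 + γ * q.1 + δ * q.2 = y := by ring
        rw [e]
        rw [hP, Finset.mem_product] at hq
        exact mul_le_mul_of_nonneg_left (hcb _ hq.1 _ hq.2 y (hKJ hy)) hlam.le
      · rw [norm_zero]; positivity
    · rw [hCdef, Lf_zero y k (fun q hq hk => h ⟨q, hq, hk⟩), norm_zero]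
      positivity
  have hψb : ∀ j y k, ‖ψ j y k‖ ≤ 1 := by
    intro j y k
    rw [huv j]
    refine Lf_norm_le hinj zero_le_one (fun w z z' => ?_) y k
    rw [norm_mul]
    exact mul_le_one₀ (hu j w z) (norm_nonneg _) (hv j w z')
  have hXh : ∀ y ∈ iv K, ∀ k, k < 2 ^ r → ‖X y k‖ ≤ lam * (Hc + 3 / (σ * lam)) := by
    intro y hy k hk
    have e : X y k = C y k - ∑ j, d j * ψ j y k - E y k := by
      rw [hform y hy k hk]; ring
    have h1 : ‖∑ j, d j * ψ j y k‖ ≤ 1 / σ := by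
      refine (norm_sum_le _ _).trans (le_trans (Finset.sum_le_sum fun j _ => ?_) hd)
      rw [norm_mul]
      exact mul_le_of_le_one_right (norm_nonneg _) (hψb j y k)
    have h2 := hEh y hy k hk
    have h3 := hCh y hy k
    have h4 : ‖X y k‖ ≤ ‖C y k‖ + ‖∑ j, d j * ψ j y k‖ + ‖E y k‖ := by
      rw [e]
      exact (norm_sub_le _ _).trans (add_le_add (norm_sub_le _ _) le_rfl)
    have e5 : lam * (Hc + 3 / (σ * lam)) = lam * Hc + 3 / σ := by field_simp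
    have e6 : (3 : ℝ) / σ = 1 / σ + 2 / σ := by ring
    rw [e5, e6]
    linarith
  refine ⟨n, u, v, fun j => (lam : ℂ)⁻¹ * d j, Bk P enc α γ δ lam E, Bk P enc α γ δ lam X,
    hu, hv, ?_, ?_, ?_, ?_, ?_⟩
  · have e : ∑ j, ‖(lam : ℂ)⁻¹ * d j‖ = lam⁻¹ * ∑ j, ‖d j‖ := by
      rw [Finset.mul_sum]
      refine Finset.sum_congr rfl fun j _ => ?_
      rw [norm_mul, norm_inv, Complex.norm_real, Real.norm_of_nonneg hlam.le]
    rw [e]
    calc lam⁻¹ * ∑ j, ‖d j‖ ≤ lam⁻¹ * (1 / σ) := mul_le_mul_of_nonneg_left hd (by positivity)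
      _ = 1 / (σ * lam) := by field_simp
  · intro w z hz z' hz' hy
    have hq : ((z, z') : ℤ × ℤ) ∈ P := Finset.mem_product.2 ⟨hz, hz'⟩
    have h1 := hform _ hy (enc (z, z')) (henc _ hq)
    have h2 := Lf_enc (α := α) (γ := γ) (δ := δ)
      (G := fun w z z' => ((lam : ℂ) * c z z') * F (α * w + γ * z + δ * z')) hinj hα hq w
    have h3 : ∀ j, ψ j (α * w + γ * z + δ * z') (enc (z, z')) = u j w z * v j w z' := by
      intro j
      rw [huv j]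
      exact Lf_enc (α := α) (γ := γ) (δ := δ) (G := fun w z z' => u j w z * v j w z') hinj hα hq w
    simp only at h2
    rw [hCdef, h2] at h1
    simp only [h3] at h1
    have hl0 : (lam : ℂ) ≠ 0 := by exact_mod_cast hlam.ne'
    unfold Bk
    have e : c z z' * F (α * w + γ * z + δ * z') = (lam : ℂ)⁻¹ *
        ((lam : ℂ) * c z z' * F (α * w + γ * z + δ * z')) := by
      field_simp
    rw [e, h1, mul_add, mul_add, Finset.mul_sum]
    congr 2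
    exact Finset.sum_congr rfl fun j _ => by ring
  · intro κ
    refine s2_Bk hinj hα r henc hlam E fun p hp => ?_
    refine (hE p hp).trans (le_of_eq ?_)
    field_simp
  · intro κ s4 V hs
    refine s4_Bk (Λ := 2 * σ * 2 ^ r / lam) (H := Hc + 3 / (σ * lam)) hinj hα hγ hδ r henc hlam
      (by positivity) X (fun p hp φ hφ => ?_) (fun p hp y hy k hk => ?_) hs
    · refine (hX p hp φ hφ).trans (le_of_eq ?_)
      field_simp
    · exact hXh y ((hpart.full K hK).reg.1 p hp hy) k hk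
  · intro w z hz z' hz' hy
    have hq : ((z, z') : ℤ × ℤ) ∈ P := Finset.mem_product.2 ⟨hz, hz'⟩
    unfold Bk
    rw [norm_mul, norm_mul, norm_inv, Complex.norm_real, Real.norm_of_nonneg hlam.le,
      inv_mul_le_iff₀ hlam, inv_mul_le_iff₀ hlam]
    refine ⟨(hEh _ hy _ (henc _ hq)).trans (le_of_eq ?_), hXh _ hy _ (henc _ hq)⟩
    field_simp

end Crest.Agent.R079.Plug429
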