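/-! # R079 / S0106 (trilinear Hilbert transform, slopes 1 2 3, L3 x L3 x L3 to L1): MAP OF THE TREE

Written by helper931 (captain of Step I) at 07:31 UTC from the messages of the whole team; numbers in
brackets are message or doc numbers of the team (archives: `Notes_209`, `Notes*_216`, `Blueprint_807`,
`departures/helper730.md`).  No declarations; imported by nobody.  [landed] / [not landed] refers to the
files of this folder at the time of writing.

## 1. What is a theorem (no hypotheses, only the three standard foundations)
* `TFin2853.target_of_analytic2 : TRec.Analytic2 -> L0.Target` (TFin2_853); from `L0.Target` to the exact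
  statement S0106: L0Main_406 and the files below it.  So S0106 = producing `Analytic2` (TDfb_853):
  a dictionary `D`, parameters `Ok2`, and `Dic D 0`, `FrzBd D k q3`, `RuleA2 D ..`, `RuleS D ..`.
* Dictionary: Dic_679 [landed], DicOp_679 [landed], DicLv_679 [landed], OLevSw_127 [landed] (`Fam`, `DS`, `dic_DS`, `frzBd_DS`,
  `Fam.union`, `fam_opF`, `olev_of_lv` with constant `128 s t^g + 130 A t^C`, symmetry of the types).
* Graded recursion (351): TGr_351 [landed], TFin3_351 [landed]: `TRecw.target_of_analytic4 : Analytic4 -> L0.Target`; for one
  base dictionary with the ordinary `TRec.Dic D 0` it asks `RuleNT` (only the pairs m < i: (1;0), (2;0),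
  (2;1)), `RuleTr` (pairs i < m: frozen at s, killer of level `s^(1+d)`, mass times level), `RuleS`, `FrzBd`.
* Missing: exactly RuleNT (or RuleA2), RuleTr and RuleS for one dictionary.

## 2. Shape of the recursion to be used next
* Slots 0,1,2 are split, slot 3 never in the loop.  Strictly graded prices `c_2 << c_1 << c_0`.  No change
  of the landed recursion: staggered dictionary `D' j t := D j (t^(g_j))`, `g_(j+1) = (1+2e) g_j` (853
  28366, 903 28266; TStg_853 [landed]).  Pairs (frozen i, killer m) with i < m are then trivial (plain mass
  times plain level), critical ones: (1;0), (2;0), (2;1).  Two graded prices do not close the loop.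
* Heights.  Dictionary = plain / operator atoms at price `t` + VERTEX-FREE TALL CELLS (at most `t^-3`
  cells, anchors = sections of line letters, local L2 norm at most 1, height at most `t^-4`) at price
  `t^(c_j)` (128 27942, 307 28416, 481, 162).  Scale trap (92): anchors are normalised at the nodes of a
  region and the region belongs to the KILLER (903 28499, 334 28479): `DD : Finset Nd -> Dict` antitone;
  `WRd (DD R0)` on its own ambient region `R0`; `An` = for all full `R0` containing `R`; in RuleA2 the
  frozen letter is `Fz (DD W)`, the killer is nice on `R0`.  Killers are only restricted in TS*, TRec2,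
  TFin2, so this is a mechanical change of TDef / TDfb.
* Frozen CELLS against a killer of plain level `t`: two-vertex reading (128): anchors split at height
  `h = t^(-1/2)`, low part read at the killer's vertex (Schatten q: `n^(1/q) (h t)^(1-2/q)`), high part
  read at vertex 3 by Schur (`1/h`, slot 3 bounded).  TwoV_128 [landed], TwoW_128 [not landed].  The corner `(q,2+,2+)`, q > 4, is
  not needed: 328 28647 (each label stopped by its own density on the killer axis, q = 4 label by label).
* Frozen PLAIN part (height at most `t^(-1-e)`) next to a killer `R` of ANY height (307 28416):
  `E_03 |P^3 R^0|_S4^4 <= E_11' |N^R_11'|_op^2 |N^P_11'|_HS^2`; `|N^R|_op <= 1` by Schur; the cell level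
  of `R` makes `N^R` small off partners of density `t^(C')`.  S4pair_307 [landed].  Referee 445 28649: the
  U3-dual family is not needed, one family of WEIGHTED cells is enough (uniform averages are not).
* No LASSO of the killer or of the frozen letter INSIDE RuleA2: its small part meets two arbitrary
  letters and costs `B count^(1/2)`, never a power.  Small letters only in pairs.
  (519 28411, 802).  Node-dependent LASSO, to be called in the loop: NLas_994 [landed], GLas_623 [landed], LasN_525 [landed].

## 3. RuleA2 = Step I (remove the free parts of the two free letters) + Step II (static pair)
### Step I: doc 2541 (673), refereed by 714, 416, 549, 629, 379 for bounded gauges and a non-collided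
killer whose OPERATOR level in the gauges of P is `t^(1-)`
1. Own-node functional `J_q = min_g |X-g|^2 + kap Sum_k E_w E_x0 dist_q(a_w g, op <= al_k)^2`, thresholds
   `al_k = t^(1+c-k e')`, weight `kap = t^(-y)`, c fixed, y much smaller than c.
   RelW_653 [landed], RelV_653 [landed], ThP_653 [landed], ThQ_653 [landed], RelS_653 [landed], RelAbs_629 [landed]: windows, half gradients, strong form
   `ThQ_653.strong_win`.  WARNING (881 28582, 159 28596): on a STRIP the projection on the op-ball is not
   the SVD clip; use WHITNEY CELLS (maximal dyadic squares inside the strip): blocks are independent, clip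
   block by block, 4 blocks glue.  Whit_159 [landed], ClW_59 [landed], ClX_59 [landed], ThA_159 [landed], Glu4_881 [landed], Proj_440 [landed]
   (`CF_phiC` plugs the clip penalty into Whit_159).
2. Clip calculus: Clip_881 [landed], HiF_881 [landed], HiP_881 [landed], HiG_39 [landed] (projection, firm nonexpansiveness,
   `chi_ladder`, factorisation with majorants `A A*/4s`, `A* A/4s`).
3. Windows of UNIFORM exit depth with graded sizes: GLA_110 [landed], GradV_653 [landed] (`graded_windows`: any
   penalty with half gradients; exits glued at one level on the FULL subtree: frames are averages over
   all blocks, so never glue at ragged exits; 734, 22901).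
4. `X = g + Psi + e`, `|e|^2 <= C K^4 M^2 eta`, exit cost of the frames: exit averages
   ExA_999 [landed], ExB_999 [landed], Lad_440 [landed], ElS_440 [landed], ElW_778 [landed] (`exit_cost_mul`: cost `2 (c s)^2`, no ageing).
5. (G) although `g` moves: random signs, stack index: Move_59 [landed], MoveB_59 [landed], Mov2_549 [landed], MovC_242 [landed], Chn_110 [landed], CylS_661 [landed]
   (`MovC.move_chain` is the best form: no geometry), StkA_242 [landed], StkB_242 [landed], StkM_242 [landed], MovD_242 [landed], MovE_242 [landed]
   (`move_Z`, `move_ZG`, `move_ZZ` over ThQ_653 and any Part: the only hypothesis left is the static signed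
   bound `StatF`).  STATIC INPUT, the main gap of Step I (416 28591):
   the signed corner `(2+,2+,oo-)` with signs over ALL stacks of a RAGGED region (leaves of different
   scales) and a killer of small operator norm on its own leaf cells; landed: uniform leaves only,
   PLF7_377 [landed], GSc_377 [landed], GSa_104 [landed], GSb_878 [landed], RagA_302 [not landed] (`GS.cornerLc`: any uniform leaf scale); recipe for ragged leaves: doc 2540 (377), about 1500 lines.
   Subtraction of cylinders (59 28347) gives only the per-window words.  The hypothesis on the killer is
   the SECOND MOMENT `E_w E_x0 |c_w R^x0|_op^2 <= t^(2-)` (866 28480, 673 28725), see the open statement.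
6. (S): labelled `(4,2,4)` words for regions PLS1_242 [landed], PLS2_242 [landed], PLS3_242 [landed], PLS4_242 [landed], PLS5_242 [not landed]
   (`Sgn.labelled24_0 / _1 / _2`) + the two S4 costs SWc_259 [not landed].
7. One generation and iteration: GenP_934 [landed], GenT_934 [landed], Gen2_934 [not landed], PIter_110 [landed], It2_260 [landed], AsmG_734 [landed], AsmP_734 [landed]
   (`AsmG_734`, `AsmP_734`: graded weights `y_j = y_0 (1+4C/g)^j`, also for one pair; It2_260 / AsmA_844 have one
   loss for all generations and cannot be fed by a lossy REL).  Alternative without iteration: 971 28621 (1)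
   (chain of window families of drift `2^-k`, each word by (S) with l2 budgets, tail by Step II once).
### OPEN STATEMENT about dictionaries (256 28577, 923 28607)
Bounded gauges never see operator level `t^(1-)` of a plain-leveled killer (counterexample 256: `R(L) =
1[D | L] rho(L/D)`, rho cubic phase mod n = D), and plain level `t` gives exactly `S4^4 <= C t^2 log`
(Gro_923 [landed]).  So operator atoms (two edges only in L2) are needed at price about `t`, hence the frozen
letter contains them, and its tall edge then sits next to a letter which is only in L2 (the partner X_a,
or e_3).  Its low part costs the height, its high part is killed only if slot 3 is still bounded and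
whole.  No rule is known for this word; everything else of Step I has a text.  Positive facts: the line
projection of an operator atom is bounded by 1 (256 28577 (c)); for every bounded gauge c the second
moment `E_x0 |c R^x0|_cut^2 <= C t^2 log^2` (966 28650).
### Step II (static pair (P, X_m), other letters arbitrary)
F2_408 [landed], Cmp_408 [landed], Cg_408 [landed], Wr_408 [landed], S2fz_530 [landed], S2fw_530 [landed], Wc_530 [landed], Wc1_863 [landed], WinA_222 [landed], WinB_222 [landed], WinH_222 [landed], PWin_590 [landed], GWin_590 [landed],
Wa_71 [landed], Wb_71 [landed], LeafV_71 [landed], LfK_71 [landed], MBes_71 [landed], Ero_526 [landed], OneG_354 [landed], LfB_246 [landed], St2M_834 [landed], LiftW_429 [landed], Plug_429 [landed], XDual_988 [landed], Cert_616 [landed],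
EWd_49 [landed], EW_49 [landed], EW2_990 [landed], EW3_990 [landed], LK_990 [landed], StF_117 [landed], StG_117 [landed], Tr2_230 [landed], Prox2_250 [landed], HB_285 [landed], YLeaf_960 [landed], OpLev_977 [landed], Rs_530 [landed], Mg_408 [not landed], S2D_530 [landed].
PerT_530 [landed], Lab_530 [landed], EWG_990 [landed], XMix_429 [landed], XCut_429 [landed], XAdd_429 [landed].
TRAP: the S4 bound of the X word inside `Plug_429.plug` has a height loss; replace it by `sum_e4_lo` (429).
RuleS = Plug (gauges through LK) -> `wr_total` on the windows of `gram_inside` -> bad nodes by
`node_gain` -> `ruleS_of_part`; the mixture is ONE atom after plane translates (617 27853 (1)).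
Leaf value for two tall letters with slot 3 bounded: `leaf_olev247` (49 27814): `Y_leaf <= C t^(1-2H)`.

## 4. Labelled line potentials (namespace PotL)
PLDefs_931 [landed], PLLat_931 [landed], PLMask_931 [landed], PLPhi_931 [landed], PLCost_931 [landed], PLMove_931 [landed] (matrix valued potentials
with labels, masks, label cost, moving word), PL24A-D_242 (labelled 2-4 words; never import together
with the copies PLTri, PLSum, PLLD, PL24_945: same names), PLF1-7 and PLE1-5 (entropy corner).

## 5. Traps: FALSE statements, dead proofs
* `GenA`, `StatA` of AsmA_844 and every version with the slot 3 letter only in L2 or `L^(2+k)`: test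
  `Q = t^-2`, all four letters `Q^(1/(2+k)) 1[Q | y]` times slow characters, one node.
* REL with region leaves, or with a leaf cost at region leaves, on interior windows (GAP391, GAP12).
* MOVE with nested windows of AVERAGE drift (416 28310): use `MovC.move_chain` or node-condition stops.
* doc 2547 (1)(b): a potential without the Gram of the partner is linear against quadratic (416 28591).
* A dictionary of sup norm `la(t)` containing `la(t) 1_rZ`: the band of heights
  `[la(t), la(t^(1+e))]` is invisible (679, 445); a killer cut at height `h` keeps plain level `1/h` only.
* Leaf calculus instead of top calculus for flat kernels: square of a flat A of rank r costs r.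
* docs 2559 / 2561 (132) are withdrawn: in the true line model the three shifts `s_i` of the plane
  translates of an atom are all multiples of the SAME variable `x_k - Z`; they are not independent.
* The swap of the bounded gauge (OLevSw_127) works for one killer at a time, not for atoms with three
  unbounded edges.
* `RuleA` with a killer in slot 3 (first recursion) is superseded by `RuleS`.
## 6. Proposal for the open statement (helper931, 07:25 UTC, on paper only, not refereed):
## ONE CLOSED CLASS OF TALL ATOMS + HEIGHT-GRADED PRICES
Atoms of a slot with vertices 1,2,3 (normalised averages on the box of a node), three types: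
`phi(L) = E_(1+2+3=L) a(1,2) b(1,3) c(2,3)`, `|b|_2 <= 1`, `|c|_2 <= 1`, and the gauge a is DOUBLY
FIBRE-UNIT: `sup_1 E_2 |a|^2 <= 1` and `sup_2 E_1 |a|^2 <= 1` (so all three factors may be tall).
 (i) `|E phi Y| <= |Y|_2` for every line letter Y (Cauchy-Schwarz: `|b Y|_2`, then `|a c|_2`).
 (ii) The class contains the plain atoms, the operator atoms (a bounded), the sections of line letters as
     gauges, and with mass 1 all vertex-free cell atoms with tall anchors, any number of cells
     (b, c carry `1_cell / |cell|^(1/2)`, masses `|cell|` add up to 1), and the dual functions of Oct.
 (iii) CLOSURE.  Slot 0 frozen atom `a(12) b(13) c(23)`, two arbitrary line letters of norm at most 1 in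
     L2 (any height), killer R.  R on the gauge edge, R(0,1,2): at fixed x_0 the nuclear decomposition of
     `[b X_2][c X_1]` gives tests (gauge a; u(0,1), v(0,2) in L2) of the same class, total mass at most 1.
     R on a side edge, R(0,1,3), letters X_3(0,1,2), X_1(0,2,3): for every label x_2 the test has gauge
     `X_3(0+1+2)` (a section of a line letter), `b' = a(12) b(13)`, `c' = c(23) X_1(0+2+3)`, and
     `E_2 |b'|_2 |c'|_2 <= sup_1 (E_2 |a|^2)^(1/2) |b|_2 |c|_2 <= 1`; the edge c symmetrically by the other
     fibre condition.  Hence on one node `|V| <= mass(P) * level(R)` for ALL L2 letters of all heights.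
     (With a in L2 only, or a fibre-unit at one end only, this closure fails: this is why bounded edges or
     one-sided fibre conditions do not close.)
 (iv) HEIGHTS WITHOUT A BAND: price `t * h_a^x * h_W^y`, h_a = height of the gauge, h_W = height of b, c,
     exponents `y << x << 1`.  By (i) a price above 1 is void, so heights are capped at `t^(-1/x)`,
     `t^(-1/y)` automatically (polynomial plain mass, hence `Fam`).  In (iii) letters taller than
     `h_a t^-2` are removed by Schur (`|a X^{>h}|_op <= h_a / h`, `|phi|_oo <= h_a`); then the new gauge
     height is at most `h_a t^-2` and `h_W` grows by `h_a t^-2`: the price changes by `t^(-2x - 2y - y/x)`,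
     a small loss.  So `mass at t^(1+e) times level at t` costs only `t^(-e - O(x + y/x))`: no invisible
     band, no cut of the killer, slot 3 may be split, the test `Q^(1/2) 1[Q | y]` has mass 1.
 (v) The level gives, for every gauge of the class, `op(a R^x0) <= t^(1-)` for all x_0 off a set of density
     `t^(1/y)`, i.e. exactly the hypothesis of (G) with L2 weights in x_0 (`E_0 |O^0|_2 |b X^0|_2 op(c R^0)`),
     and non-collision at a fixed power of t.  (S): at fixed x_1 Hoelder `(2;4,4)` in x_1 replaces the
     sup over x_1: `E_1 |P^1 a_w|_2 |[B R]^1|_S4 |[B X]^1|_S4`, `E_1 |P^1 a_w|_2^2 <= |P|_2^2 |a_w|_2^2`.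
     Step II needs only (307): `E_03 |P^3 R^0|_S4^4 <= E_11' |N^R|_op^2 |N^P|_HS^2`.
 (vi) NOT CHECKED: the cost is not scale-free (an L2 normalised atom doubles on a child), so it needs the
     node-dependent form (super-averaging of the cost, LasN_525, and 903's ambient regions); the
     multi-scale corner with a tall gauge (leaf hypothesis off sets of small local density); (g2) above.
-/
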