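import Crest.Agent.R079.TDw_351
import Crest.Agent.R079.TS4c_351

/-! R079, REC v3: copy of `TS4a_351`, `TS4b_351`, `TS4c_351` over `TRecw.Dic` (helper351). -/

set_option autoImplicit false

namespace Crest.Agent.R079.TRecw

namespace S351

open Finset Crest.Agent.R079.Grid Crest.Agent.R079.Growth Crest.Agent.R079.QRed
open Crest.Agent.R079.TRec Crest.Agent.R079.TRec.S351

/-- frozen at parameter `t` ⟹ frozen at parameter `s ≤ t` -/
lemma Fz_mono {D : Dict} {sg : ℝ} (hD : Dic D sg) {j : Fin 4} {s t M : ℝ} (hs : 0 < s)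
    (hst : s ≤ t) (ht : t ≤ 1) {p : Nd} {f : Fn} (h : Fz D j t M p f) : Fz D j s M p f := by
  obtain ⟨n, φ, d, h1, h2, h3⟩ := h
  choose φ' hφ' c hc0 hc1 he using fun i => hD.mono j s t hs hst ht (φ i) (h1 i)
  refine ⟨n, φ', fun i => d i * (c i : ℂ), hφ', fun y hy => ?_, ?_⟩
  · rw [h2 y hy]
    refine Finset.sum_congr rfl fun i _ => ?_
    rw [he i]
    ring
  · refine (Finset.sum_le_sum fun i _ => ?_).trans h3
    rw [norm_mul, Complex.norm_real, Real.norm_eq_abs, abs_of_nonneg (hc0 i)]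
    exact mul_le_of_le_one_right (norm_nonneg _) (hc1 i)

/-- level at parameter `s` ⟹ level at parameter `t ≥ s` -/
lemma Lv_mono {D : Dict} {sg : ℝ} (hD : Dic D sg) {j : Fin 4} {s t M : ℝ} (hs : 0 < s)
    (hst : s ≤ t) (ht : t ≤ 1) (hM : 0 ≤ M) {p : Nd} {g : Fn} (h : Lv D j s M p g) :
    Lv D j t M p g := by
  intro φ hφ
  obtain ⟨φ', hφ', c, hc0, hc1, he⟩ := hD.mono j s t hs hst ht φ hφ
  have e : ∑ y ∈ iv p, g y * φ y = (c : ℂ) * ∑ y ∈ iv p, g y * φ' y := by
    rw [he, Finset.mul_sum]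
    exact Finset.sum_congr rfl fun y _ => by ring
  rw [e, norm_mul, Complex.norm_real, Real.norm_eq_abs, abs_of_nonneg hc0]
  have h1 := h φ' hφ'
  have h2 : 0 ≤ M * len p := mul_nonneg hM (lpos p).le
  calc c * ‖∑ y ∈ iv p, g y * φ' y‖ ≤ 1 * (M * len p) :=
        mul_le_mul hc1 h1 (norm_nonneg _) zero_le_one
    _ = M * len p := one_mul _

/-- body of `WinLem` -/
def WinAt (C : ℝ) : Prop :=
  ∀ (D : Dict) (k q3 sg c1 : ℝ), Dic D sg → 0 < k → k < 1 → 2 < q3 → 0 ≤ sg →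
    sg ≤ 1 → 0 < c1 → c1 ≤ 1 → ∀ R J, Full R J → ∀ G : Fin 4 → Fn, nrm k q3 R G →
    ∀ t, 0 < t → t ≤ 1 → ∃ (T : Finset Nd) (H E : Fin 4 → Nd → Fn),
      ∀ j, WRd D k q3 sg c1 C j t R J T (G j) (H j) (E j)
        (fun p y => G j y - H j p y - E j p y)

set_option maxHeartbeats 1000000 in
/-- **ONE GENERATION** -/
theorem gen_step (hV : ConvLem) (hT : TwoLem2) {Cw : ℝ} (hCw : 1 ≤ Cw) (hWin : WinAt Cw)
    {D : Dict} {k q3 c0 cS CS s1 e c1 bt κ t0 K C : ℝ} {K0 : ℕ}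
    (ok : Ok2 k q3 c0 cS CS s1 e c1 bt κ K0) (ht0 : 0 < t0) (ht01 : t0 ≤ 1) (hK : 0 ≤ K)
    (hCC : Cw ≤ C) (hD : Dic D 0) (hA : RuleA2 D k q3 c0 e t0 K) :
    ∃ K1 : ℝ, 0 ≤ K1 ∧ ∀ N B t A, 0 ≤ B → BN k q3 N B → 0 < t → t ≤ t0 → 0 ≤ A →
      An D k q3 0 c1 C N (t ^ (1 + e)) A → ∀ bb ε, Adm bb ε → ∀ R J, Full R J → J.1 ≤ N →
      ∀ a b m, Sl a b m → ∀ T G H E X, WRd D k q3 0 c1 C m t R J T G H E X → ∀ Fa Fb F3 : Fn,
      (∀ p ∈ R, aq (2 + k) p Fa ≤ 1) → (∀ p ∈ R, aq (2 + k) p Fb ≤ 1) →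
      (∀ p ∈ R, aq q3 p F3 ≤ 1) → ∃ T' Ea Eb, Gn k c1 C e t bb ε R J a b m X Fa Fb F3
        (K1 * t ^ (-(16 * k)) * A + K1 * (1 + B) * t ^ (bt + κ)) T' Ea Eb := by
  classical
  have hC1 : 1 ≤ C := hCw.trans hCC
  have hC0 : 0 < C := by linarith
  have hk := ok.k0
  have hk80 := ok.k1
  have hq3 := ok.hq3
  have he := ok.e0
  have he1 := ok.e1
  have hc1 := ok.c10
  have hc11 := ok.c11
  have hbt := ok.bt0
  have hq0 : 0 < q3 := by linarith
  have hkκ : 40 * k ≤ κ := by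
    have h1 := ok.kκ
    have h2 : (0 : ℝ) ≤ K0 := Nat.cast_nonneg _
    nlinarith [mul_nonneg h2 hk.le]
  have f3 := ok.hA
  have hek : e * k ≤ k := by nlinarith
  have hek0 : 0 ≤ e * k := by positivity
  have hec : 0 ≤ e * c1 := by positivity
  have hk4 : k ≤ 1 / 4 := by linarith
  have x2 : bt + κ ≤ (1 + e) * (-k) + 0 + (-k) + 0 + c0 - (1 + e) * c1 := by linarith
  have x4 : bt + κ ≤ (1 + e) * (c1 / 2 - k) + (1 + e) * (-k) + (-k) + 0 + c0 - (1 + e) * c1 := by
    linarith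
  have x3 : -(10 * k) ≤ (1 + e) * (-(5 * k)) := by linarith
  have y1 : -((1 + e) * c1) ≤ 0 := by linarith
  have y2 : (1 + e) * (-k) ≤ -k := by linarith
  obtain ⟨K2, hK2, hTwo⟩ := hT D k q3 c0 cS CS s1 e c1 bt κ t0 K C K0 ok ht0 ht01 hK hC1 hD hA
  obtain ⟨C', hC', hConv⟩ := hV k hk hk4 C hC1
  obtain ⟨K', hK'⟩ : ∃ K', K' = K2 + C' * K2 + K * (9 * C ^ 3 + 9 * C ^ 4) := ⟨_, rfl⟩
  have hK'0 : 0 ≤ K' := by rw [hK']; positivity
  refine ⟨K', hK'0, ?_⟩
  intro N B t A hB0 hB ht htt hA0 hAn bb ε hε R J hR hJ a b m h T G H E X hX Fa Fb F3 hFa hFb hF3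
  have hm := h.m3
  have ht1 : t ≤ 1 := htt.trans ht01
  -- the fine parameter
  obtain ⟨τ, hτdef⟩ : ∃ τ, τ = t ^ (1 + e) := ⟨_, rfl⟩
  have hτ : 0 < τ := by rw [hτdef]; exact Real.rpow_pos_of_pos ht _
  have hτt : τ ≤ t := by
    have := rp_le ht ht1 (by linarith : (1 : ℝ) ≤ 1 + e)
    rwa [Real.rpow_one, ← hτdef] at this
  have hτ1 : τ ≤ 1 := hτt.trans ht1
  have hpow : ∀ x : ℝ, τ ^ x = t ^ ((1 + e) * x) := fun x => by
    rw [hτdef, ← Real.rpow_mul ht.le]
  -- static tuple and windows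
  obtain ⟨G4, hG4⟩ : ∃ G4 : Fin 4 → Fn, G4 = fun j => if j = a then Fa else if j = b then Fb else
      if j = m then G else F3 := ⟨_, rfl⟩
  have hGa : G4 a = Fa := by rw [hG4]; exact if_pos rfl
  have hGb : G4 b = Fb := by rw [hG4]; exact (if_neg h.ab.symm).trans (if_pos rfl)
  have hGm : G4 m = G := by
    rw [hG4]; exact (if_neg h.am.symm).trans ((if_neg h.bm.symm).trans (if_pos rfl))
  have hG3 : G4 3 = F3 := by
    rw [hG4]; exact (if_neg h.a3.symm).trans ((if_neg h.b3.symm).trans (if_neg h.m3.symm))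
  have hnrm : nrm k q3 R G4 := by
    intro j p hp
    rcases h.all j with hj | hj | hj | hj
    · rw [hj, hGa, show qx k q3 a = 2 + k from if_neg h.a3]; exact hFa p hp
    · rw [hj, hGb, show qx k q3 b = 2 + k from if_neg h.b3]; exact hFb p hp
    · rw [hj, hGm]; exact hX.nrm p hp
    · rw [hj, hG3, show qx k q3 3 = q3 from if_pos rfl]; exact hF3 p hp
  rw [← hGa, ← hGb, ← hG3]
  obtain ⟨T', H', E', w0⟩ := hWin D k q3 0 c1 hD hk (by linarith) hq3 le_rfl zero_le_one hc1 hc11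
    R J hR G4 hnrm τ hτ hτ1
  obtain ⟨r, hr⟩ : ∃ r : Fin 4 → Nd → Fn, r = fun j p y => G4 j y - H' j p y - E' j p y := ⟨_, rfl⟩
  have w : ∀ j, WRd D k q3 0 c1 C j τ R J T' (G4 j) (H' j) (E' j) (r j) := fun j => by
    rw [hr]
    exact WRd_mono hCC hτ (w0 j)
  have prt : Pr k q3 0 c1 C t := ⟨hk, hq3, le_rfl, hc1, hc11, hC1, ht, ht1⟩
  have prτ : Pr k q3 0 c1 C τ := ⟨hk, hq3, le_rfl, hc1, hc11, hC1, hτ, hτ1⟩
  -- common refinement
  have hT1 : Tops R J T := hX.tops
  have hT2 : Tops R J T' := (w a).tops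
  have hTT : Tops R J (T ∪ T') := hT1.union hT2
  have ad1 : ∀ {Z : Nd → Fn}, Adp R T Z → Adp R (T ∪ T') Z := fun hZ =>
    Adp.finer hR hT1 hTT Finset.subset_union_left hZ
  have ad2 : ∀ {Z : Nd → Fn}, Adp R T' Z → Adp R (T ∪ T') Z := fun hZ =>
    Adp.finer hR hT2 hTT Finset.subset_union_right hZ
  have hL := lpos J
  have hnum : ∑ I ∈ T ∪ T', len I ≤ 3 * C * t ^ (-((1 + e) * c1)) * len J := by
    have h1 := sum_len_tops hR hTT (Cnt.union hX.cnt (w a).cnt)
    refine h1.trans (mul_le_mul_of_nonneg_right ?_ hL.le)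
    have h2 : t ^ (-c1) ≤ t ^ (-((1 + e) * c1)) := rp_le ht ht1 (by linarith)
    have h3 : τ ^ (-c1) = t ^ (-((1 + e) * c1)) := by rw [hpow]; congr 1; ring
    have h4 : 1 ≤ t ^ (-((1 + e) * c1)) := one_le_rp ht ht1 y1
    rw [h3]
    nlinarith only [h2, h4, hC1]
  have hnum2 : ∑ I ∈ T', len I ≤ 2 * C * τ ^ (-c1) * len J := by
    have h1 := sum_len_tops hR hT2 (w a).cnt
    refine h1.trans (mul_le_mul_of_nonneg_right ?_ hL.le)
    have h4 : 1 ≤ τ ^ (-c1) := one_le_rp hτ hτ1 (by linarith)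
    nlinarith only [h4, hC1]
  have wd : Wd k q3 N B t ((1 + e) * c1) (3 * C) bb ε R J (T ∪ T') :=
    ⟨hk, hq3, hB0, hB, ht, ht1, hε, hR, hJ, hTT, by positivity, hnum⟩
  -- letters
  have LE : ∀ j, j ≠ 3 → Lt k q3 t R (T ∪ T') j (E' j) C ((1 + e) * (c1 / 2 - k)) := fun j hj =>
    ⟨ad2 (w j).adE, fun p hp => by rw [← hpow]; exact size_E prτ (w j) hj hp⟩
  have LH : ∀ j, j ≠ 3 → Lt k q3 t R (T ∪ T') j (H' j) C ((1 + e) * (-k)) := fun j hj =>
    ⟨ad2 (w j).adH, fun p hp => by rw [← hpow]; exact size_H prτ (w j) hj hp⟩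
  have LF : ∀ j, Lt k q3 t R (T ∪ T') j (fun _ => G4 j) 1 0 := fun j =>
    ⟨Adp.const _, fun p hp => by rw [Real.rpow_zero, mul_one]; exact hnrm j p hp⟩
  have LX : Lt k q3 t R (T ∪ T') m X (3 * C) (-k) :=
    ⟨ad1 hX.adX, fun p hp => size_X prt hX hm hp⟩
  have htk : t ^ (-k) ≤ t ^ ((1 + e) * (-k)) := rp_le ht ht1 y2
  have hone : 1 ≤ t ^ (-k) := one_le_rp ht ht1 (by linarith)
  have hone' : 1 ≤ t ^ ((1 + e) * (-k)) := hone.trans htk
  have m1 : C ≤ C * t ^ ((1 + e) * (-k)) := le_mul_of_one_le_right hC0.le hone'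
  have m2 : C ≤ 3 * C * t ^ (-k) := by
    have := le_mul_of_one_le_right hC0.le hone
    nlinarith only [this, hC0]
  have frzj : ∀ j, ∀ p ∈ R, Fz D j (t ^ (1 + e)) C p (H' j p) := fun j p hp => by
    rw [← hτdef]; exact (w j).frz p hp
  -- the words
  obtain ⟨A2, hA2⟩ : ∃ A2, A2 = K2 * t ^ (-(6 * k)) * A + K2 * (1 + B) * t ^ (bt + 10 * κ) :=
    ⟨_, rfl⟩
  have hB1 : 0 ≤ 1 + B := by linarith
  have hA20 : 0 ≤ A2 := by
    rw [hA2]
    have := Real.rpow_nonneg ht.le (-(6 * k))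
    have := Real.rpow_nonneg ht.le (bt + 10 * κ)
    positivity
  have hBn : Bn D k q3 0 c1 C N τ t A2 := by
    rw [hA2, hτdef]
    exact hTwo N B t A hB0 hB ht htt hA0 hAn
  -- (w1)
  have b1 : ‖TP bb ε R (q4 a b m (r a) (fun _ => G4 b) X (fun _ => G4 3))‖ ≤ A2 * len J := by
    have h1 := hBn bb ε hε R J hR hJ a m h.a3 h.m3 h.am T' (G4 a) (H' a) (E' a) (r a) (w a)
      T G H E X hX G4 (fun j _ _ p hp => hnrm j p hp)
    rw [q4_ext h (r a) (fun _ => G4 b) X (fun _ => G4 3)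
      (Y := Function.update (Function.update (fun j _ => G4 j) a (r a)) m X)
      (by rw [Function.update_of_ne h.am, Function.update_self])
      (by rw [Function.update_of_ne h.bm, Function.update_of_ne h.ab.symm])
      (by rw [Function.update_self])
      (by rw [Function.update_of_ne h.m3.symm, Function.update_of_ne h.a3.symm])]
    exact h1
  -- (w3)
  have b3 : ‖TP bb ε R (q4 a b m (E' a) (r b) X (fun _ => G4 3))‖ ≤
      C' * τ ^ (-(5 * k)) * A2 * len J := by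
    have h1 := hConv bb a τ A2 hτ hτ1 hA20 R J hR (q4 a b m (fun _ => G4 a) (r b) X (fun _ => G4 3))
      T' (E' a) hT2 (w a).adE
      (fun p hp => ((w a).eav p hp).trans (mul_le_of_le_one_right hC0.le
        (Real.rpow_le_one hτ.le hτ1 (by linarith))))
      (fun p hp y hy => by
        have h2 := (w a).esup p hp y hy
        have e2 : sx 0 a = 1 := if_neg h.a3
        rwa [e2, Real.rpow_neg_one] at h2)
      ((w a).cnt.mono (mul_le_mul_of_nonneg_left (by
        rw [← Real.rpow_neg_one]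
        exact rp_le hτ hτ1 (by linarith)) hC0.le))
      (w a).sq
      (fun ε' hε' R' J' hR' hs z hz => by
        rw [upd_a h]
        have hJ' : J'.1 ≤ N := (le_of_mem hR (hs hR'.top)).trans hJ
        have h2 := hBn bb ε' hε' R' J' hR' hJ' b m h.b3 h.m3 h.bm (rT T' R' J') (G4 b) (H' b)
          (E' b) (r b) (WRd.restrict hR (w b) hR' hs) (rT T R' J') G H E X
          (WRd.restrict hR hX hR' hs) (Function.update G4 a z) (fun j _ _ p hp => by
            by_cases hj : j = a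
            · subst hj
              rw [Function.update_self, show qx k q3 j = 2 + k from if_neg h.a3]
              exact hz p hp
            · rw [Function.update_of_ne hj]
              exact hnrm j p (hs hp))
        rw [q4_ext h (fun _ => z) (r b) X (fun _ => G4 3)
          (Y := Function.update (Function.update (fun j _ => Function.update G4 a z j) b (r b)) m X)
          (by rw [Function.update_of_ne h.am, Function.update_of_ne h.ab, Function.update_self])
          (by rw [Function.update_of_ne h.bm, Function.update_self])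
          (by rw [Function.update_self])
          (by rw [Function.update_of_ne h.m3.symm, Function.update_of_ne h.b3.symm,
            Function.update_of_ne h.a3.symm])]
        exact h2)
      ε hε
    rwa [upd_a h] at h1
  -- (w2)
  have b2 := wordA2 wd hA hK htt h (LH a h.a3) (LF b) LX (LF 3) hC0 one_pos (by positivity)
    one_pos (i := a) (n := m) h.am h.a3 h.m3
    (fun p hp => by
      rw [q4_a h, r4_a h]
      exact Fz_mass m1 (frzj a p hp))
    (fun p hp => by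
      rw [q4_m h, r4_m h]
      exact Lv_le m2 (hX.lev p hp)) (bt := bt + κ) x2
  -- (w4)
  have b4 := wordA2 wd hA hK htt h (LE a h.a3) (LH b h.b3) LX (LF 3) hC0 hC0 (by positivity)
    one_pos (i := b) (n := m) h.bm h.b3 h.m3
    (fun p hp => by
      rw [q4_b h, r4_b h]
      exact Fz_mass m1 (frzj b p hp))
    (fun p hp => by
      rw [q4_m h, r4_m h]
      exact Lv_le m2 (hX.lev p hp)) (bt := bt + κ) x4
  have hsp : ∀ j, ∀ p ∈ R, ∀ y, G4 j y = r j p y + H' j p y + E' j p y := by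
    intro j p hp y
    rw [(w j).eq p hp y]
    ring
  have s1 := TP_add3 bb ε R (q4 a b m (fun _ => G4 a) (fun _ => G4 b) X (fun _ => G4 3)) a
    (fun _ => G4 a) (r a) (H' a) (E' a) (fun p hp y => hsp a p hp y)
  rw [upd_a h, upd_a h, upd_a h, upd_a h] at s1
  have s2 := TP_add3 bb ε R (q4 a b m (E' a) (fun _ => G4 b) X (fun _ => G4 3)) b
    (fun _ => G4 b) (r b) (H' b) (E' b) (fun p hp y => hsp b p hp y)
  rw [upd_b h, upd_b h, upd_b h, upd_b h] at s2
  -- powers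
  obtain ⟨P, hP⟩ : ∃ P, P = t ^ (-(16 * k)) := ⟨_, rfl⟩
  obtain ⟨Q, hQ⟩ : ∃ Q, Q = t ^ (bt + κ) := ⟨_, rfl⟩
  have p20 : ∀ x : ℝ, -(16 * k) ≤ x → t ^ x ≤ P := fun x hx => by rw [hP]; exact rp_le ht ht1 hx
  have pbt : ∀ x : ℝ, bt + κ ≤ x → t ^ x ≤ Q := fun x hx => by rw [hQ]; exact rp_le ht ht1 hx
  have hP0 : 0 ≤ P := by rw [hP]; exact Real.rpow_nonneg ht.le _
  have hQ0 : 0 ≤ Q := by rw [hQ]; exact Real.rpow_nonneg ht.le _
  have g1 : A2 * len J ≤ (K2 * P * A + K2 * (1 + B) * Q) * len J := by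
    refine mul_le_mul_of_nonneg_right ?_ hL.le
    rw [hA2]
    have h1 := p20 (-(6 * k)) (by linarith)
    have h2 := pbt (bt + 10 * κ) (by linarith)
    have h3 := mul_le_mul_of_nonneg_right (mul_le_mul_of_nonneg_left h1 hK2) hA0
    have h4 := mul_le_mul_of_nonneg_left h2 (mul_nonneg hK2 hB1)
    linarith
  have g3 : C' * τ ^ (-(5 * k)) * A2 * len J ≤
      (C' * K2 * P * A + C' * K2 * (1 + B) * Q) * len J := by
    refine mul_le_mul_of_nonneg_right ?_ hL.le
    have h0 : τ ^ (-(5 * k)) ≤ t ^ (-(10 * k)) := by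
      rw [hpow]
      exact rp_le ht ht1 x3
    have h1 : t ^ (-(10 * k)) * t ^ (-(6 * k)) ≤ P := by
      rw [← Real.rpow_add ht]
      exact p20 _ (by linarith)
    have h2 : t ^ (-(10 * k)) * t ^ (bt + 10 * κ) ≤ Q := by
      rw [← Real.rpow_add ht]
      exact pbt _ (by linarith)
    calc C' * τ ^ (-(5 * k)) * A2 ≤ C' * t ^ (-(10 * k)) * A2 :=
          mul_le_mul_of_nonneg_right (mul_le_mul_of_nonneg_left h0 hC') hA20
      _ = C' * K2 * (t ^ (-(10 * k)) * t ^ (-(6 * k))) * A +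
          C' * K2 * (1 + B) * (t ^ (-(10 * k)) * t ^ (bt + 10 * κ)) := by
          rw [hA2]
          ring
      _ ≤ C' * K2 * P * A + C' * K2 * (1 + B) * Q := by
          have h3 := mul_le_mul_of_nonneg_right
            (mul_le_mul_of_nonneg_left h1 (mul_nonneg hC' hK2)) hA0
          have h4 := mul_le_mul_of_nonneg_left h2 (mul_nonneg (mul_nonneg hC' hK2) hB1)
          linarith
  rw [← hQ] at b2 b4
  refine ⟨T', E' a, E' b, ⟨hT2, (w a).adE, (w b).adE, ?_, ?_, ?_, ?_⟩⟩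
  · intro p hp
    have h1 := size_E prτ (w a) h.a3 hp
    rw [show qx k q3 a = 2 + k from if_neg h.a3] at h1
    rw [← hτdef]
    exact h1
  · intro p hp
    have h1 := size_E prτ (w b) h.b3 hp
    rw [show qx k q3 b = 2 + k from if_neg h.b3] at h1
    rw [← hτdef]
    exact h1
  · rw [← hτdef]
    exact hnum2
  · rw [s1, s2]
    have n1 := norm_add_le (TP bb ε R (q4 a b m (r a) (fun _ => G4 b) X (fun _ => G4 3)) +
      TP bb ε R (q4 a b m (H' a) (fun _ => G4 b) X (fun _ => G4 3)))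
      (TP bb ε R (q4 a b m (E' a) (r b) X (fun _ => G4 3)) +
        TP bb ε R (q4 a b m (E' a) (H' b) X (fun _ => G4 3)) +
        TP bb ε R (q4 a b m (E' a) (E' b) X (fun _ => G4 3)))
    have n2 := norm_add_le (TP bb ε R (q4 a b m (r a) (fun _ => G4 b) X (fun _ => G4 3)))
      (TP bb ε R (q4 a b m (H' a) (fun _ => G4 b) X (fun _ => G4 3)))
    have n3 := norm_add₃_le (a := TP bb ε R (q4 a b m (E' a) (r b) X (fun _ => G4 3)))
      (b := TP bb ε R (q4 a b m (E' a) (H' b) X (fun _ => G4 3)))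
      (c := TP bb ε R (q4 a b m (E' a) (E' b) X (fun _ => G4 3)))
    refine n1.trans ?_
    have fin : (K2 * P * A + K2 * (1 + B) * Q) * len J
        + (C' * K2 * P * A + C' * K2 * (1 + B) * Q) * len J
        + K * (1 + B) * (C * 1 * (3 * C) * 1 * (3 * C)) * Q * len J
        + K * (1 + B) * (C * C * (3 * C) * 1 * (3 * C)) * Q * len J
        ≤ (K' * P * A + K' * (1 + B) * Q) * len J := by
      have e1 : (K' * P * A + K' * (1 + B) * Q) * len J -
          ((K2 * P * A + K2 * (1 + B) * Q) * len J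
        + (C' * K2 * P * A + C' * K2 * (1 + B) * Q) * len J
        + K * (1 + B) * (C * 1 * (3 * C) * 1 * (3 * C)) * Q * len J
        + K * (1 + B) * (C * C * (3 * C) * 1 * (3 * C)) * Q * len J) =
          (K * (9 * C ^ 3 + 9 * C ^ 4) * P * A) * len J := by
        rw [hK']
        ring
      have e2 : 0 ≤ (K * (9 * C ^ 3 + 9 * C ^ 4) * P * A) * len J := by positivity
      linarith
    rw [← hP, ← hQ]
    linarith

set_option maxHeartbeats 1000000 in
/-- **THE BASE OF THE LOOP** -/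
theorem base_step {Cw : ℝ} (hCw : 1 ≤ Cw) (hWin : WinAt Cw)
    {D : Dict} {k q3 c0 cS CS s1 e c1 bt κ t0 K C : ℝ} {K0 : ℕ}
    (ok : Ok2 k q3 c0 cS CS s1 e c1 bt κ K0) (ht01 : t0 ≤ 1) (hK : 0 ≤ K)
    (hCC : Cw ≤ C) (hD : Dic D 0) (hS : RuleS D k q3 cS CS s1 e t0 K) :
    ∃ K1 : ℝ, 0 ≤ K1 ∧ ∀ N B t A, 0 ≤ B → BN k q3 N B → 0 < t → t ≤ t0 → 0 ≤ A →
      An D k q3 0 c1 C N (t ^ (1 + e)) A → ∀ bb ε, Adm bb ε → ∀ R J, Full R J → J.1 ≤ N →
      ∀ a b m, Sl a b m → ∀ T G H E X, WRd D k q3 0 c1 C m t R J T G H E X → ∀ F3 : Fn,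
      (∀ p ∈ R, aq q3 p F3 ≤ 1) → ∃ S, Bs k q3 bb R J a b m X F3
        A (K1 * (1 + B) * t ^ (bt + κ)) (K1 * t ^ (-(CS + 2))) S := by
  classical
  have hC1 : 1 ≤ C := hCw.trans hCC
  have hC0 : 0 < C := by linarith
  have hk := ok.k0
  have hk80 := ok.k1
  have hq3 := ok.hq3
  have he := ok.e0
  have he1 := ok.e1
  have hc1 := ok.c10
  have hc11 := ok.c11
  have hbt := ok.bt0
  have hq0 : 0 < q3 := by linarith
  have hkκ : 40 * k ≤ κ := by
    have h1 := ok.kκ
    have h2 : (0 : ℝ) ≤ K0 := Nat.cast_nonneg _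
    nlinarith [mul_nonneg h2 hk.le]
  have hek : e * k ≤ k := by nlinarith
  have hek0 : 0 ≤ e * k := by positivity
  have hec : 0 ≤ e * c1 := by positivity
  have hec' : e * c1 ≤ 1 := by nlinarith
  have hCS := ok.CS0
  obtain ⟨K', hK'⟩ : ∃ K', K' = 2 * C + 2 * C * K + (1 + K) * (3 * C) := ⟨_, rfl⟩
  have hK'0 : 0 ≤ K' := by rw [hK']; positivity
  refine ⟨K', hK'0, ?_⟩
  intro N B t A hB0 hB ht htt hA0 hAn bb ε0 hε0 R J hR hJ a b m h T G H E X hX F3 hF3
  have hm := h.m3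
  have ht1 : t ≤ 1 := htt.trans ht01
  obtain ⟨τ, hτdef⟩ : ∃ τ, τ = t ^ (1 + e) := ⟨_, rfl⟩
  have hτ : 0 < τ := by rw [hτdef]; exact Real.rpow_pos_of_pos ht _
  have hτt : τ ≤ t := by
    have := rp_le ht ht1 (by linarith : (1 : ℝ) ≤ 1 + e)
    rwa [Real.rpow_one, ← hτdef] at this
  have hτ1 : τ ≤ 1 := hτt.trans ht1
  have hpow : ∀ x : ℝ, τ ^ x = t ^ ((1 + e) * x) := fun x => by
    rw [hτdef, ← Real.rpow_mul ht.le]
  rw [← hτdef] at hAn
  obtain ⟨G4, hG4⟩ : ∃ G4 : Fin 4 → Fn, G4 = fun j => if j = 3 then F3 else G := ⟨_, rfl⟩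
  have hGm : G4 m = G := by rw [hG4]; exact if_neg h.m3
  have hnrm : nrm k q3 R G4 := by
    intro j p hp
    by_cases hj : j = 3
    · have e1 : G4 j = F3 := by rw [hG4]; exact if_pos hj
      rw [e1, show qx k q3 j = q3 from if_pos hj]
      exact hF3 p hp
    · have e1 : G4 j = G := by rw [hG4]; exact if_neg hj
      rw [e1, show qx k q3 j = 2 + k from if_neg hj]
      have h1 := hX.nrm p hp
      rwa [show qx k q3 m = 2 + k from if_neg hm] at h1
  obtain ⟨T', H', E', w0⟩ := hWin D k q3 0 c1 hD hk (by linarith) hq3 le_rfl zero_le_one hc1 hc11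
    R J hR G4 hnrm τ hτ hτ1
  obtain ⟨r, hr⟩ : ∃ r : Fin 4 → Nd → Fn, r = fun j p y => G4 j y - H' j p y - E' j p y := ⟨_, rfl⟩
  have w : ∀ j, WRd D k q3 0 c1 C j τ R J T' (G4 j) (H' j) (E' j) (r j) := fun j => by
    rw [hr]
    exact WRd_mono hCC hτ (w0 j)
  have prt : Pr k q3 0 c1 C t := ⟨hk, hq3, le_rfl, hc1, hc11, hC1, ht, ht1⟩
  have prτ : Pr k q3 0 c1 C τ := ⟨hk, hq3, le_rfl, hc1, hc11, hC1, hτ, hτ1⟩
  have hT1 : Tops R J T := hX.tops
  have hT2 : Tops R J T' := (w m).tops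
  obtain ⟨V, hV⟩ : ∃ V, V = T ∪ T' := ⟨_, rfl⟩
  have hTT : Tops R J V := by rw [hV]; exact hT1.union hT2
  have ad1 : ∀ {Z : Nd → Fn}, Adp R T Z → Adp R V Z := fun hZ => by
    rw [hV] at hTT ⊢
    exact Adp.finer hR hT1 hTT Finset.subset_union_left hZ
  have ad2 : ∀ {Z : Nd → Fn}, Adp R T' Z → Adp R V Z := fun hZ => by
    rw [hV] at hTT ⊢
    exact Adp.finer hR hT2 hTT Finset.subset_union_right hZ
  have hL := lpos J
  have hnum : ∑ I ∈ V, len I ≤ 3 * C * t ^ (-(2 : ℝ)) * len J := by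
    have h1 := sum_len_tops hR hTT (by rw [hV]; exact Cnt.union hX.cnt (w m).cnt)
    refine h1.trans (mul_le_mul_of_nonneg_right ?_ hL.le)
    have h2 : t ^ (-c1) ≤ t ^ (-(2 : ℝ)) := rp_le ht ht1 (by linarith)
    have h3 : τ ^ (-c1) ≤ t ^ (-(2 : ℝ)) := by rw [hpow]; exact rp_le ht ht1 (by linarith)
    have h4 : 1 ≤ t ^ (-(2 : ℝ)) := one_le_rp ht ht1 (by linarith)
    nlinarith only [h2, h3, h4, hC1]
  -- letters
  obtain ⟨H2, hH2⟩ : ∃ H2 : Nd → Fn, H2 = fun p y => H' m p y - H p y := ⟨_, rfl⟩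
  obtain ⟨E2, hE2⟩ : ∃ E2 : Nd → Fn, E2 = fun p y => E' m p y - E p y := ⟨_, rfl⟩
  obtain ⟨X2, hX2⟩ : ∃ X2 : Nd → Fn, X2 = fun p y => X p y - r m p y := ⟨_, rfl⟩
  have hX2eq : ∀ p ∈ R, ∀ y, X2 p y = H2 p y + E2 p y := by
    intro p hp y
    rw [hX2, hH2, hE2]
    simp only
    rw [hX.eq p hp y, (w m).eq p hp y, hGm]
    ring
  have hqm : 1 ≤ 2 + k := by linarith
  have eqm : qx k q3 m = 2 + k := if_neg hm
  have adH2 : Adp R V H2 := by
    rw [hH2]
    exact Adp.map₂ (ad2 (w m).adH) (ad1 hX.adH) (fun x z => fun y => x y - z y)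
  have adE2 : Adp R V E2 := by
    rw [hE2]
    exact Adp.map₂ (ad2 (w m).adE) (ad1 hX.adE) (fun x z => fun y => x y - z y)
  have adX2 : Adp R V X2 := by
    rw [hX2]
    exact Adp.map₂ (ad1 hX.adX) (ad2 (w m).adX) (fun x z => fun y => x y - z y)
  obtain ⟨lam, hlam⟩ : ∃ lam, lam = 2 * C * τ ^ (-k) := ⟨_, rfl⟩
  have hone : 1 ≤ τ ^ (-k) := one_le_rp hτ hτ1 (by linarith)
  have hlam2 : 2 * C ≤ lam := by
    rw [hlam]
    exact le_mul_of_one_le_right (by linarith) hone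
  have hlam0 : 0 < lam := by linarith
  have szH2 : ∀ p ∈ R, aq (2 + k) p (H2 p) ≤ lam := by
    intro p hp
    have h1 := aq_sub hqm p (H' m p) (H p)
    have h2 := size_H prτ (w m) hm hp
    have h3 := size_H prt hX hm hp
    rw [eqm] at h2 h3
    have h4 : t ^ (-k) ≤ τ ^ (-k) := by
      rw [hpow]
      exact rp_le ht ht1 (by linarith)
    have h5 := mul_le_mul_of_nonneg_left h4 hC0.le
    rw [hH2, hlam]
    refine h1.trans ?_
    linarith
  obtain ⟨η, hη⟩ : ∃ η, η = 2 * C * t ^ (c1 / 2 - k) := ⟨_, rfl⟩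
  have hη0 : 0 < η := by rw [hη]; have := Real.rpow_pos_of_pos ht (c1 / 2 - k); positivity
  have szE2 : ∀ p ∈ R, aq (2 + k) p (E2 p) ≤ η := by
    intro p hp
    have h1 := aq_sub hqm p (E' m p) (E p)
    have h2 := size_E prτ (w m) hm hp
    have h3 := size_E prt hX hm hp
    rw [eqm] at h2 h3
    have h4 : τ ^ (c1 / 2 - k) ≤ t ^ (c1 / 2 - k) := by
      refine Real.rpow_le_rpow hτ.le hτt ?_
      have := ok.hC
      linarith
    have h5 := mul_le_mul_of_nonneg_left h4 hC0.le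
    rw [hE2, hη]
    refine h1.trans ?_
    linarith
  have avE2 : ∀ p ∈ R, av p (E2 p) ≤ 2 * C * t ^ (c1 / 2) := by
    intro p hp
    have h1 := aq_sub (q := 2) (by norm_num) p (E' m p) (E p)
    rw [← av_aq, ← av_aq, ← av_aq] at h1
    have h2 := (w m).eav p hp
    have h3 := hX.eav p hp
    have h4 : τ ^ (c1 / 2) ≤ t ^ (c1 / 2) := Real.rpow_le_rpow hτ.le hτt (by linarith)
    have h5 := mul_le_mul_of_nonneg_left h4 hC0.le
    rw [hE2]
    refine h1.trans ?_
    linarith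
  have frzH2 : ∀ p ∈ R, Fz D m (t ^ (1 + e)) lam p (H2 p) := fun p hp => by
    rw [← hτdef, hH2]
    exact Fz_mass (by linarith) (Fz_sub ((w m).frz p hp) (Fz_mono hD hτ hτt ht1 (hX.frz p hp)))
  have levr : ∀ p ∈ R, Lv D m t C p (r m p) := fun p hp =>
    Lv_mono hD hτ hτt ht1 hC0.le ((w m).lev p hp)
  have levX2 : ∀ p ∈ R, Lv D m t lam p (X2 p) := fun p hp => by
    rw [hX2]
    exact Lv_le (by linarith) (Lv_sub (hX.lev p hp) (levr p hp))
  -- static windows
  have hl' : 0 ≤ lam⁻¹ := inv_nonneg.2 hlam0.le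
  have stat : ∀ I ∈ V, ∃ U : Finset Nd, Tops (win R V I) I U ∧ Cnt (win R V I) U (K * t ^ (-CS)) ∧
      ∀ I' ∈ U, ∀ W' J', Full W' J' → W' ⊆ win (win R V I) U I' → ∀ F : Fin 4 → Fn,
        F m = (fun y => ((lam⁻¹ : ℝ) : ℂ) * H2 I y) → F 3 = F3 →
        (∀ j, j ≠ m → j ≠ 3 → ∀ p ∈ W', aq (2 + k) p (F j) ≤ 1) → ∀ ε, Adm bb ε →
        ‖TR bb ε W' F‖ ≤ K * (1 + B) * t ^ cS * len J' := by
    intro I hI
    have hIR := hTT.sub hI
    refine hS N B hB0 hB t ht htt bb (win R V I) I (win_full hR hTT hI)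
      ((le_of_mem hR hIR).trans hJ) m hm _ F3 (fun y => ((lam⁻¹ : ℝ) : ℂ) * X2 I y)
      (fun y => -(((lam⁻¹ : ℝ) : ℂ) * E2 I y)) ?_ ?_ ?_ ?_ ?_ ?_
    · intro p hp
      rw [aq_smul (by linarith) p _ hl', inv_mul_le_iff₀ hlam0, mul_one, ← adH2.eq hp]
      exact szH2 p (win_sub hp)
    · intro p hp
      exact hF3 p (win_sub hp)
    · have := Fz_smul (lam⁻¹) hl' (frzH2 I hIR)
      rwa [inv_mul_cancel₀ hlam0.ne'] at this
    · intro y _
      have := hX2eq I hIR y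
      rw [this]
      ring
    · intro p hp
      have := Lv_smul (lam⁻¹) hl' (levX2 p (win_sub hp))
      rwa [inv_mul_cancel₀ hlam0.ne', adX2.eq hp] at this
    · intro p hp
      have h1 := avE2 p (win_sub hp)
      rw [adE2.eq hp] at h1
      rw [av_aq, aq_neg, aq_smul (by norm_num) p _ hl', ← av_aq, inv_mul_le_iff₀ hlam0]
      have h2 : t ^ (c1 / 2) ≤ t ^ s1 := rp_le ht ht1 (by have := ok.hs; linarith)
      refine h1.trans ?_
      exact mul_le_mul hlam2 h2 (Real.rpow_nonneg ht.le _) hlam0.le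
  choose! U hU1 hU2 hU3 using stat
  obtain ⟨S, hSdef⟩ : ∃ S, S = glue V U := ⟨_, rfl⟩
  have hST : Tops R J S := by rw [hSdef]; exact glue_tops hR hTT hU1
  have hVS : V ⊆ S := by rw [hSdef]; exact sub_glue hU1
  refine ⟨S, ⟨?_, ?_⟩⟩
  · have h1 := bS_le S R
    have h2 : ∑ K' ∈ S, len K' ≤ (1 + K * t ^ (-CS)) * ∑ I ∈ V, len I := by
      rw [hSdef]
      exact sum_glue (fun I hI => (hU1 I hI).sub)
        (fun I hI => sum_len_tops (win_full hR hTT hI) (hU1 I hI) (hU2 I hI))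
    have h3 : 0 ≤ 1 + K * t ^ (-CS) := by
      have := Real.rpow_nonneg ht.le (-CS)
      positivity
    have h4 := mul_le_mul_of_nonneg_left hnum h3
    refine (h1.trans (h2.trans h4)).trans ?_
    have h5 : 1 ≤ t ^ (-CS) := one_le_rp ht ht1 (by linarith)
    have h6 : t ^ (-(CS + 2)) = t ^ (-CS) * t ^ (-(2 : ℝ)) := by
      rw [← Real.rpow_add ht]
      congr 1
      ring
    have h7 : 0 ≤ t ^ (-(2 : ℝ)) := Real.rpow_nonneg ht.le _
    rw [h6]
    have h8 : (1 + K * t ^ (-CS)) * (3 * C * t ^ (-(2 : ℝ)) * len J) ≤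
        ((1 + K) * t ^ (-CS)) * (3 * C * t ^ (-(2 : ℝ)) * len J) := by
      refine mul_le_mul_of_nonneg_right ?_ (by positivity)
      nlinarith
    refine h8.trans ?_
    have h9 : (1 + K) * t ^ (-CS) * (3 * C * t ^ (-(2 : ℝ)) * len J) =
        ((1 + K) * (3 * C)) * (t ^ (-CS) * t ^ (-(2 : ℝ)) * len J) := by ring
    rw [h9, mul_assoc K']
    refine mul_le_mul_of_nonneg_right ?_ (by positivity)
    rw [hK']
    have : 0 ≤ 2 * C + 2 * C * K := by positivity
    linarith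
  · intro ε hε W J' hW hWR Fa Fb hFa hFb
    have hJ' : J'.1 ≤ N := (le_of_mem hR (hWR hW.top)).trans hJ
    have hL' := lpos J'
    have hb := bS_nonneg S W
    have hTW : Tops W J' (rT S W J') := hST.restrict hW hWR
    have hF3W : ∀ p ∈ W, aq q3 p F3 ≤ 1 := fun p hp => hF3 p (hWR hp)
    -- r
    have b1 : ‖TP bb ε W (q4 a b m (fun _ => Fa) (fun _ => Fb) (r m) (fun _ => F3))‖ ≤
        A * len J' := by
      have h1 := hAn bb ε hε W J' hW hJ' m hm (rT T' W J') (G4 m) (H' m) (E' m) (r m)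
        (WRd.restrict hR (w m) hW hWR)
        (fun j => if j = a then Fa else if j = b then Fb else F3) (fun j hj p hp => by
          rcases h.all j with hj' | hj' | hj' | hj'
          · rw [hj', show qx k q3 a = 2 + k from if_neg h.a3]
            simp only [if_pos]
            exact hFa p hp
          · rw [hj', show qx k q3 b = 2 + k from if_neg h.b3]
            simp only [if_pos, if_neg h.ab.symm]
            exact hFb p hp
          · exact absurd hj' hj
          · rw [hj', show qx k q3 3 = q3 from if_pos rfl]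
            simp only [if_neg h.a3.symm, if_neg h.b3.symm]
            exact hF3W p hp)
      rw [q4_ext h (fun _ => Fa) (fun _ => Fb) (r m) (fun _ => F3)
        (Y := Function.update (fun j _ => if j = a then Fa else if j = b then Fb else F3) m (r m))
        (by rw [Function.update_of_ne h.am]; funext p; exact if_pos rfl)
        (by rw [Function.update_of_ne h.bm]; funext p; exact (if_neg h.ab.symm).trans (if_pos rfl))
        (by rw [Function.update_self])
        (by rw [Function.update_of_ne h.m3.symm]; funext p;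
            exact (if_neg h.a3.symm).trans (if_neg h.b3.symm))]
      exact h1
    -- E2
    have aS : ∀ {Z : Nd → Fn}, Adp R V Z → Adp W (rT S W J') Z := fun hZ =>
      Adp.restrict hR hST hW hWR (Adp.finer hR hTT hST hVS hZ)
    have hsum := sum_rT S W J'
    have b2 : ‖TP bb ε W (q4 a b m (fun _ => Fa) (fun _ => Fb) E2 (fun _ => F3))‖ ≤
        (B * η) * (len J' + bS S W) := by
      have had : ∀ j, Adp W (rT S W J') (q4 a b m (fun _ => Fa) (fun _ => Fb) E2 (fun _ => F3) j) := by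
        intro j
        rcases h.all j with hj | hj | hj | hj
        · rw [hj, q4_a h]; exact Adp.const _
        · rw [hj, q4_b h]; exact Adp.const _
        · rw [hj, q4_m h]; exact aS adE2
        · rw [hj, q4_3 h]; exact Adp.const _
      have key := sum_win bb ε hW hTW had (a := B * η) (fun I hI => by
        have hIW := hTW.sub hI
        have h1 := BN_scaled hk hq3 hB hε (win_full hW hTW hI)
          ((le_of_mem hR (hWR hIW)).trans hJ)
          (fun j => q4 a b m (fun _ => Fa) (fun _ => Fb) E2 (fun _ => F3) j I)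
          (r4 a b m 1 1 η 1)
          (by
            intro j
            rcases h.all j with hj | hj | hj | hj
            · rw [hj, r4_a h]; exact one_pos
            · rw [hj, r4_b h]; exact one_pos
            · rw [hj, r4_m h]; exact hη0
            · rw [hj, r4_3 h]; exact one_pos)
          (by
            intro j p hp
            have hpW := win_sub hp
            rcases h.all j with hj | hj | hj | hj
            · rw [hj, r4_a h, q4_a h, show qx k q3 a = 2 + k from if_neg h.a3]; exact hFa p hpW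
            · rw [hj, r4_b h, q4_b h, show qx k q3 b = 2 + k from if_neg h.b3]; exact hFb p hpW
            · rw [hj, r4_m h, q4_m h, eqm, ← (aS adE2).eq hp]; exact szE2 p (hWR hpW)
            · rw [hj, r4_3 h, q4_3 h, show qx k q3 3 = q3 from if_pos rfl]; exact hF3W p hpW)
        rw [prod_r4 h] at h1
        refine h1.trans (le_of_eq ?_)
        ring)
      exact key.trans (mul_le_mul_of_nonneg_left hsum (mul_nonneg hB0 hη0.le))
    -- H2
    have hcS : 0 ≤ lam * (K * (1 + B) * t ^ cS) := by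
      have := Real.rpow_nonneg ht.le cS
      positivity
    have b3 : ‖TP bb ε W (q4 a b m (fun _ => Fa) (fun _ => Fb) H2 (fun _ => F3))‖ ≤
        (lam * (K * (1 + B) * t ^ cS)) * (len J' + bS S W) := by
      have had : ∀ j, Adp W (rT S W J') (q4 a b m (fun _ => Fa) (fun _ => Fb) H2 (fun _ => F3) j) := by
        intro j
        rcases h.all j with hj | hj | hj | hj
        · rw [hj, q4_a h]; exact Adp.const _
        · rw [hj, q4_b h]; exact Adp.const _
        · rw [hj, q4_m h]; exact aS adH2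
        · rw [hj, q4_3 h]; exact Adp.const _
      have key := sum_win bb ε hW hTW had (a := lam * (K * (1 + B) * t ^ cS)) (fun I hI => by
        have hIW := hTW.sub hI
        obtain ⟨Is, hIs⟩ := hST.exists_wn hR (hWR hIW)
        have hwin : win W (rT S W J') I ⊆ win R S Is := win_rT hW hIs hI hWR
        obtain ⟨I0, hI0, hIsU, hsub⟩ := glue_win hU1 (by rw [← hSdef]; exact hIs.1)
        rw [← hSdef] at hsub
        have hwfull := win_full hW hTW hI
        have hH2I : H2 I = H2 I0 :=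
          adH2.eq (win_sub (hsub (hwin hwfull.top)))
        have h1 := hU3 I0 hI0 Is hIsU (win W (rT S W J') I) I hwfull (hwin.trans hsub)
          (fun j => if j = a then Fa else if j = b then Fb else if j = m then
            (fun y => ((lam⁻¹ : ℝ) : ℂ) * H2 I0 y) else F3)
          ((if_neg h.am.symm).trans ((if_neg h.bm.symm).trans (if_pos rfl)))
          ((if_neg h.a3.symm).trans ((if_neg h.b3.symm).trans (if_neg h.m3.symm)))
          (by
            intro j hjm hj3 p hp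
            have hpW := win_sub hp
            rcases h.all j with hj | hj | hj | hj
            · rw [hj]; simp only [if_pos]; exact hFa p hpW
            · rw [hj]; simp only [if_pos, if_neg h.ab.symm]; exact hFb p hpW
            · exact absurd hj hjm
            · exact absurd hj hj3) ε hε
        have e : TR bb ε (win W (rT S W J') I)
            (fun j => q4 a b m (fun _ => Fa) (fun _ => Fb) H2 (fun _ => F3) j I) =
            ((lam : ℝ) : ℂ) * TR bb ε (win W (rT S W J') I)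
              (fun j => if j = a then Fa else if j = b then Fb else if j = m then
            (fun y => ((lam⁻¹ : ℝ) : ℂ) * H2 I0 y) else F3) := by
          have e1 : TR bb ε (win W (rT S W J') I)
              (fun j => q4 a b m (fun _ => Fa) (fun _ => Fb) H2 (fun _ => F3) j I) =
              TP bb ε (win W (rT S W J') I)
                (q4 a b m (fun _ => Fa) (fun _ => Fb) (fun _ => H2 I) (fun _ => F3)) := by
            rw [← TP_static]
            congr 1
            symm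
            exact q4_ext h _ _ _ _ (by rw [q4_a h]) (by rw [q4_b h]) (by rw [q4_m h])
              (by rw [q4_3 h])
          have e2 : TR bb ε (win W (rT S W J') I)
              (fun j => if j = a then Fa else if j = b then Fb else if j = m then
                (fun y => ((lam⁻¹ : ℝ) : ℂ) * H2 I0 y) else F3) =
              TP bb ε (win W (rT S W J') I)
                (q4 a b m (fun _ => Fa) (fun _ => Fb)
                  (fun _ => fun y => ((lam⁻¹ : ℝ) : ℂ) * H2 I0 y) (fun _ => F3)) := by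
            rw [← TP_static]
            congr 1
            symm
            refine q4_ext h _ _ _ _ ?_ ?_ ?_ ?_
            · funext p; exact if_pos rfl
            · funext p; exact (if_neg h.ab.symm).trans (if_pos rfl)
            · funext p
              exact (if_neg h.am.symm).trans ((if_neg h.bm.symm).trans (if_pos rfl))
            · funext p
              exact (if_neg h.a3.symm).trans ((if_neg h.b3.symm).trans (if_neg h.m3.symm))
          have e3 := TP_lin2 bb ε (win W (rT S W J') I)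
            (q4 a b m (fun _ => Fa) (fun _ => Fb) (fun _ => H2 I) (fun _ => F3)) m
            (fun _ => H2 I) (fun _ => fun y => ((lam⁻¹ : ℝ) : ℂ) * H2 I0 y) (fun _ => Fa)
            ((lam : ℝ) : ℂ) 0 (fun p _ y => by
              rw [hH2I, ← mul_assoc, ← Complex.ofReal_mul, mul_inv_cancel₀ hlam0.ne',
                Complex.ofReal_one]
              ring)
          rw [upd_m h, upd_m h, upd_m h, zero_mul, add_zero] at e3
          rw [e1, e2, e3]
        rw [e, norm_mul, Complex.norm_real, Real.norm_eq_abs, abs_of_nonneg hlam0.le]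
        calc lam * ‖_‖ ≤ lam * (K * (1 + B) * t ^ cS * len I) :=
              mul_le_mul_of_nonneg_left h1 hlam0.le
          _ = _ := by ring)
      exact key.trans (mul_le_mul_of_nonneg_left hsum hcS)
    -- sum
    have s1 := TP_add2 bb ε W (q4 a b m (fun _ => Fa) (fun _ => Fb) X (fun _ => F3)) m
      X (r m) X2 (fun p hp y => by rw [hX2]; ring)
    rw [upd_m h, upd_m h, upd_m h] at s1
    have s2 := TP_add2 bb ε W (q4 a b m (fun _ => Fa) (fun _ => Fb) X (fun _ => F3)) m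
      X2 H2 E2 (fun p hp y => hX2eq p (hWR hp) y)
    rw [upd_m h, upd_m h, upd_m h] at s2
    have g1 : B * η ≤ 2 * C * (1 + B) * t ^ (bt + κ) := by
      have e1 : t ^ (c1 / 2 - k) ≤ t ^ (bt + κ) := rp_le ht ht1 (by have := ok.hC; linarith)
      have e2 : B ≤ 1 + B := by linarith
      rw [hη]
      calc B * (2 * C * t ^ (c1 / 2 - k)) = 2 * C * (B * t ^ (c1 / 2 - k)) := by ring
        _ ≤ 2 * C * ((1 + B) * t ^ (bt + κ)) := by
            refine mul_le_mul_of_nonneg_left ?_ (by positivity)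
            exact mul_le_mul e2 e1 (Real.rpow_nonneg ht.le _) (by linarith)
        _ = _ := by ring
    have g2 : lam * (K * (1 + B) * t ^ cS) ≤ 2 * C * K * (1 + B) * t ^ (bt + κ) := by
      have e1 : t ^ ((1 + e) * (-k)) * t ^ cS ≤ t ^ (bt + κ) := by
        rw [← Real.rpow_add ht]
        exact rp_le ht ht1 (by have := ok.hS; linarith)
      rw [hlam, hpow]
      calc 2 * C * t ^ ((1 + e) * (-k)) * (K * (1 + B) * t ^ cS)
          = 2 * C * K * (1 + B) * (t ^ ((1 + e) * (-k)) * t ^ cS) := by ring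
        _ ≤ _ := mul_le_mul_of_nonneg_left e1 (by positivity)
    have hQ0 : 0 ≤ t ^ (bt + κ) := Real.rpow_nonneg ht.le _
    have g3 : 2 * C * (1 + B) * t ^ (bt + κ) + 2 * C * K * (1 + B) * t ^ (bt + κ) ≤
        K' * (1 + B) * t ^ (bt + κ) := by
      rw [hK']
      have : 0 ≤ (1 + K) * (3 * C) * (1 + B) * t ^ (bt + κ) := by positivity
      nlinarith only [this]
    have hX0 : 0 ≤ len J' + bS S W := by linarith
    have g4 := mul_le_mul_of_nonneg_right ((add_le_add g1 g2).trans g3) hX0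
    rw [s1, s2]
    refine (norm_add_le _ _).trans ?_
    have n1 := norm_add_le (TP bb ε W (q4 a b m (fun _ => Fa) (fun _ => Fb) H2 (fun _ => F3)))
      (TP bb ε W (q4 a b m (fun _ => Fa) (fun _ => Fb) E2 (fun _ => F3)))
    linarith

set_option maxHeartbeats 1000000 in
/-- **THE STEP v2** -/
theorem stepLem2 (hW : WinLem) (hV : ConvLem) (hT : TwoLem2) : StepLem2 := by
  classical
  obtain ⟨Cw, hCw, hWin⟩ := hW
  have hWin' : WinAt Cw := hWin
  refine ⟨Cw, hCw, ?_⟩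
  intro D k q3 c0 cS CS s1 e c1 bt κ t0 K C K0 ok ht0 ht01 hK hCC hD hA hS
  have hC1 : 1 ≤ C := hCw.trans hCC
  have hC0 : 0 < C := by linarith
  have hk := ok.k0
  have hk80 := ok.k1
  have hq3 := ok.hq3
  have he := ok.e0
  have he1 := ok.e1
  have hc1 := ok.c10
  have hc11 := ok.c11
  have hbt := ok.bt0
  have hCS := ok.CS0
  have hK0 : (0 : ℝ) ≤ K0 := Nat.cast_nonneg _
  have hkK : 40 * ((K0 : ℝ) * k) + 40 * k ≤ κ := by
    have h1 := ok.kκ
    linarith
  have hKk0 : 0 ≤ (K0 : ℝ) * k := by positivity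
  have hkκ : 40 * k ≤ κ := by linarith
  have hκ0 : 0 < κ := by linarith
  have hC' := ok.hC
  have hc2k : 2 * k ≤ c1 := by linarith
  obtain ⟨K1, hK1, hGen⟩ := gen_step hV hT hCw hWin' ok ht0 ht01 hK hCC hD hA
  obtain ⟨K2, hK2, hBase⟩ := base_step hCw hWin' ok ht01 hK hCC hD hS
  obtain ⟨Q0, hQ0⟩ : ∃ Q0, Q0 = (2 * C ^ 3) ^ K0 := ⟨_, rfl⟩
  obtain ⟨Q1, hQ1⟩ : ∃ Q1, Q1 = (C ^ 2) ^ K0 := ⟨_, rfl⟩
  have hQ00 : 0 ≤ Q0 := by rw [hQ0]; positivity
  have hQ10 : 0 ≤ Q1 := by rw [hQ1]; positivity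
  obtain ⟨K', hK'⟩ : ∃ K', K' = Q0 * (1 + K2 + K0 * K1) + Q1 * K2 * K2 := ⟨_, rfl⟩
  have hK'0 : 0 ≤ K' := by rw [hK']; positivity
  refine ⟨K', hK'0, ?_⟩
  intro N B t A hB0 hB ht htt hA0 hAn bb ε hε R J hR hJ m hm T G H E X hX F hF
  have ht1 : t ≤ 1 := htt.trans ht01
  obtain ⟨a, b, h⟩ := exists_sl m hm
  have hL := lpos J
  have hF3 : ∀ p ∈ R, aq q3 p (F 3) ≤ 1 := fun p hp => by
    have := hF 3 h.m3.symm p hp
    rwa [show qx k q3 3 = q3 from if_pos rfl] at this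
  have hFa : ∀ p ∈ R, aq (2 + k) p (F a) ≤ 1 := fun p hp => by
    have := hF a h.am p hp
    rwa [show qx k q3 a = 2 + k from if_neg h.a3] at this
  have hFb : ∀ p ∈ R, aq (2 + k) p (F b) ≤ 1 := fun p hp => by
    have := hF b h.bm p hp
    rwa [show qx k q3 b = 2 + k from if_neg h.b3] at this
  obtain ⟨S, hSb⟩ := hBase N B t A hB0 hB ht htt hA0 hAn bb ε hε R J hR hJ a b m h T G H E X hX
    (F 3) hF3
  obtain ⟨β, hβ⟩ : ∃ β, β = K2 * (1 + B) * t ^ (bt + κ) := ⟨_, rfl⟩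
  obtain ⟨Err, hErr⟩ : ∃ Err, Err = K1 * t ^ (-(16 * k)) * A + K1 * (1 + B) * t ^ (bt + κ) :=
    ⟨_, rfl⟩
  have hB1 : 0 ≤ 1 + B := by linarith
  have tp : ∀ x : ℝ, 0 ≤ t ^ x := fun x => Real.rpow_nonneg ht.le x
  have hβ0 : 0 ≤ β := by rw [hβ]; have := tp (bt + κ); positivity
  have hErr0 : 0 ≤ Err := by
    rw [hErr]
    have := tp (bt + κ)
    have := tp (-(16 * k))
    positivity
  rw [← hβ] at hSb
  obtain ⟨τ, hτdef⟩ : ∃ τ, τ = t ^ (1 + e) := ⟨_, rfl⟩
  have hτ : 0 < τ := by rw [hτdef]; exact Real.rpow_pos_of_pos ht _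
  have hpow : ∀ x : ℝ, τ ^ x = t ^ ((1 + e) * x) := fun x => by
    rw [hτdef, ← Real.rpow_mul ht.le]
  obtain ⟨s, hs⟩ : ∃ s, s = C * (t ^ (1 + e)) ^ (c1 / 2 - k) := ⟨_, rfl⟩
  obtain ⟨M, hM⟩ : ∃ M, M = 2 * C * (t ^ (1 + e)) ^ (-c1) := ⟨_, rfl⟩
  obtain ⟨L, hLdef⟩ : ∃ L, L = 2 * C ^ 3 * t ^ (-((1 + e) * (2 * k))) := ⟨_, rfl⟩
  have hs2 : s ^ 2 = C ^ 2 * t ^ ((1 + e) * (c1 - 2 * k)) := by
    rw [hs, ← hτdef, hpow, mul_pow, sq (t ^ _), ← Real.rpow_add ht]
    congr 2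
    ring
  have hsM : s ^ 2 * M = L := by
    rw [hs2, hM, ← hτdef, hpow, hLdef]
    have e1 : C ^ 2 * t ^ ((1 + e) * (c1 - 2 * k)) * (2 * C * t ^ ((1 + e) * -c1)) =
        2 * C ^ 3 * (t ^ ((1 + e) * (c1 - 2 * k)) * t ^ ((1 + e) * -c1)) := by ring
    rw [e1, ← Real.rpow_add ht]
    congr 2
    ring
  have hL1 : 1 ≤ L := by
    rw [hLdef]
    have h1 : 1 ≤ t ^ (-((1 + e) * (2 * k))) := one_le_rp ht ht1 (by
      have : 0 ≤ (1 + e) * (2 * k) := by positivity
      linarith)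
    have h2 : 1 ≤ 2 * C ^ 3 := by
      have : 1 ≤ C ^ 3 := one_le_pow₀ hC1
      linarith
    nlinarith
  have key := loop (e := e) hk ht hC1 hR hJ h hX hF3 hErr0
    (fun ε' hε' R' J' hR' hJ' T1 hX1 Fa Fb F3 h1 h2 h3 => by
      rw [hErr]
      exact hGen N B t A hB0 hB ht htt hA0 hAn bb ε' hε' R' J' hR' hJ' a b m h T1 G H E X hX1
        Fa Fb F3 h1 h2 h3) hA0 hβ0 hSb hs hM hsM.le hL1 K0 ε hε R J hR (Finset.Subset.refl R)
    (F a) (F b) hFa hFb
  have s0 : TP bb ε R (Function.update (fun j _ => F j) m X) =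
      TP bb ε R (q4 a b m (fun _ => F a) (fun _ => F b) X (fun _ => F 3)) := by
    congr 1
    symm
    refine q4_ext h _ _ _ _ ?_ ?_ ?_ ?_
    · rw [Function.update_of_ne h.am]
    · rw [Function.update_of_ne h.bm]
    · rw [Function.update_self]
    · rw [Function.update_of_ne h.m3.symm]
  rw [s0]
  refine key.trans ?_
  -- the numbers
  have hnum := hSb.num
  have hLn : L ^ K0 ≤ Q0 * t ^ (-κ) := by
    rw [hLdef, mul_pow, ← hQ0, ← Real.rpow_natCast (t ^ _), ← Real.rpow_mul ht.le]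
    refine mul_le_mul_of_nonneg_left (rp_le ht ht1 ?_) hQ00
    have h1 : (1 + e) * (2 * k) * K0 ≤ 4 * ((K0 : ℝ) * k) := by
      have : e * ((K0 : ℝ) * k) ≤ 1 * ((K0 : ℝ) * k) := mul_le_mul_of_nonneg_right he1 hKk0
      nlinarith
    have h2 : -((1 + e) * (2 * k)) * (K0 : ℝ) = -((1 + e) * (2 * k) * K0) := by ring
    rw [h2]
    linarith
  have hsn : (s ^ 2) ^ K0 ≤ Q1 * t ^ (CS + 2) := by
    rw [hs2, mul_pow, ← hQ1, ← Real.rpow_natCast (t ^ _), ← Real.rpow_mul ht.le]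
    refine mul_le_mul_of_nonneg_left (rp_le ht ht1 ?_) hQ10
    have h1 : 0 ≤ (c1 - 2 * k) * K0 := mul_nonneg (by linarith) hK0
    have h2 : (1 + e) * (c1 - 2 * k) * (K0 : ℝ) = (c1 - 2 * k) * K0 + e * ((c1 - 2 * k) * K0) := by
      ring
    have h3 : 0 ≤ e * ((c1 - 2 * k) * K0) := mul_nonneg he.le h1
    have h4 := ok.hK
    have h5 : κ ≤ 1 := by nlinarith [ok.hk, ok.hC]
    have h6 : (c1 - 2 * k) * (K0 : ℝ) = 2 * (K0 * (c1 / 2)) - 2 * ((K0 : ℝ) * k) := by ring
    rw [h2]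
    linarith
  have hP0 : 0 ≤ t ^ (-(20 * κ)) := tp _
  have hQb0 : 0 ≤ t ^ bt := tp _
  -- first part
  have u1 : t ^ (-κ) * t ^ (-(16 * k)) ≤ t ^ (-(20 * κ)) := by
    rw [← Real.rpow_add ht]
    exact rp_le ht ht1 (by linarith)
  have u2 : t ^ (-κ) ≤ t ^ (-(20 * κ)) := rp_le ht ht1 (by linarith)
  have u3 : t ^ (-κ) * t ^ (bt + κ) = t ^ bt := by
    rw [← Real.rpow_add ht]
    congr 1
    ring
  have u4 : t ^ (CS + 2) * t ^ (-(CS + 2)) = 1 := by
    rw [← Real.rpow_add ht, add_neg_cancel, Real.rpow_zero]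
  have u5 : t ^ (bt + κ) ≤ t ^ bt := rp_le ht ht1 (by linarith)
  have v1 : L ^ K0 * (A + β + K0 * Err) ≤
      Q0 * (1 + K0 * K1) * t ^ (-(20 * κ)) * A + Q0 * (K2 + K0 * K1) * (1 + B) * t ^ bt := by
    have h1 : 0 ≤ A + β + K0 * Err := by positivity
    refine (mul_le_mul_of_nonneg_right hLn h1).trans ?_
    rw [hβ, hErr]
    have e1 : Q0 * t ^ (-κ) * (A + K2 * (1 + B) * t ^ (bt + κ) +
        K0 * (K1 * t ^ (-(16 * k)) * A + K1 * (1 + B) * t ^ (bt + κ))) =
        Q0 * A * t ^ (-κ) + Q0 * K0 * K1 * A * (t ^ (-κ) * t ^ (-(16 * k))) +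
        Q0 * (K2 + K0 * K1) * (1 + B) * (t ^ (-κ) * t ^ (bt + κ)) := by ring
    rw [e1, u3]
    have h2 := mul_le_mul_of_nonneg_left u2 (by positivity : 0 ≤ Q0 * A)
    have h3 := mul_le_mul_of_nonneg_left u1 (by positivity : 0 ≤ Q0 * K0 * K1 * A)
    linarith
  have v2 : (s ^ 2) ^ K0 * β * bS S R ≤ Q1 * K2 * K2 * (1 + B) * t ^ bt * len J := by
    have h1 : 0 ≤ (s ^ 2) ^ K0 * β := by positivity
    have h2 := mul_le_mul_of_nonneg_left hnum h1
    have h3 : (s ^ 2) ^ K0 * β * (K2 * t ^ (-(CS + 2)) * len J) ≤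
        Q1 * t ^ (CS + 2) * β * (K2 * t ^ (-(CS + 2)) * len J) := by
      have h4 : 0 ≤ K2 * t ^ (-(CS + 2)) * len J := by
        have := tp (-(CS + 2))
        positivity
      exact mul_le_mul_of_nonneg_right (mul_le_mul_of_nonneg_right hsn hβ0) h4
    refine h2.trans (h3.trans ?_)
    have e1 : Q1 * t ^ (CS + 2) * β * (K2 * t ^ (-(CS + 2)) * len J) =
        Q1 * K2 * β * len J * (t ^ (CS + 2) * t ^ (-(CS + 2))) := by ring
    rw [e1, u4, mul_one, hβ]
    have h5 := mul_le_mul_of_nonneg_left u5 (by positivity : 0 ≤ Q1 * K2 * (K2 * (1 + B)) * len J)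
    linarith
  have v3 := mul_le_mul_of_nonneg_right v1 hL.le
  refine (add_le_add v3 v2).trans ?_
  have e2 : (K' * t ^ (-(20 * κ)) * A + K' * (1 + B) * t ^ bt) * len J -
      ((Q0 * (1 + K0 * K1) * t ^ (-(20 * κ)) * A + Q0 * (K2 + K0 * K1) * (1 + B) * t ^ bt) * len J +
        Q1 * K2 * K2 * (1 + B) * t ^ bt * len J) =
      ((Q0 * K2 + Q1 * K2 * K2) * t ^ (-(20 * κ)) * A + Q0 * (1 + B) * t ^ bt) * len J := by
    rw [hK']
    ring
  have e3 : 0 ≤ ((Q0 * K2 + Q1 * K2 * K2) * t ^ (-(20 * κ)) * A + Q0 * (1 + B) * t ^ bt) *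
      len J := by positivity
  linarith

end S351

end Crest.Agent.R079.TRecw
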