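import Crest.Agent.R079.OpLev_977

/-! R079, TWO-VERTEX READING of a tall cell atom, LEAVES (helper128, msg 27942).

A tall line section `psi` (local `L2` norm `<= 1`, any height) is cut at height `h`:
* (a) the LOW part is `h` times a bounded gauge: it is read on the edge of the killer (op-level);
* (b) the HIGH part is read on an edge of a BOUNDED letter: Schur gives the operator norm `B S / h`;
* (c) even moments `tr (K K*)^(m+1) <= sigma^(2m) |K|_HS^2` and their sum over labels;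
* (d) the numbers: `n <= t^(-C)`, `q = 4 C + 8`, `h = t^(-1/2)` give the gain `t^(1/4)`. -/

set_option autoImplicit false

namespace Crest.Agent.R079.TwoV128

open Finset Crest.Agent.R079.OpLev Crest.Agent.R079.Grid Crest.Agent.R079.Glue
  Crest.Agent.R079.R244

section mat

variable {ι κ : Type*}

/-- part of height `≤ h` -/
noncomputable def lo (h : ℝ) (ψ : ι → κ → ℂ) : ι → κ → ℂ :=
  fun i j => if ‖ψ i j‖ ≤ h then ψ i j else 0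

/-- part of height `> h` -/
noncomputable def hi (h : ℝ) (ψ : ι → κ → ℂ) : ι → κ → ℂ :=
  fun i j => if ‖ψ i j‖ ≤ h then 0 else ψ i j

theorem lo_add_hi (h : ℝ) (ψ : ι → κ → ℂ) (i : ι) (j : κ) : lo h ψ i j + hi h ψ i j = ψ i j := by
  unfold lo hi
  split_ifs <;> simp

theorem lo_le {h : ℝ} (hh : 0 ≤ h) (ψ : ι → κ → ℂ) (i : ι) (j : κ) : ‖lo h ψ i j‖ ≤ h := by
  unfold lo
  split_ifs with h1
  · exact h1
  · simpa using hh

theorem lo_le_self (h : ℝ) (ψ : ι → κ → ℂ) (i : ι) (j : κ) : ‖lo h ψ i j‖ ≤ ‖ψ i j‖ := by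
  unfold lo
  split_ifs with h1
  · exact le_rfl
  · simp

theorem hi_le_self (h : ℝ) (ψ : ι → κ → ℂ) (i : ι) (j : κ) : ‖hi h ψ i j‖ ≤ ‖ψ i j‖ := by
  unfold hi
  split_ifs with h1
  · simp
  · exact le_rfl

/-- the high part is small in `L1` -/
theorem hi_le_sq {h : ℝ} (hh : 0 < h) (ψ : ι → κ → ℂ) (i : ι) (j : κ) :
    ‖hi h ψ i j‖ ≤ ‖ψ i j‖ ^ 2 / h := by
  unfold hi
  split_ifs with h1
  · simp only [norm_zero]
    positivity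
  · rw [le_div_iff₀ hh]
    have h2 : h ≤ ‖ψ i j‖ := (not_le.1 h1).le
    nlinarith [norm_nonneg (ψ i j)]

variable [Fintype ι] [Fintype κ]

/-- **Schur test** -/
theorem opB_schur {M : ι → κ → ℂ} {R C : ℝ} (hR : 0 ≤ R) (hr : ∀ i, ∑ j, ‖M i j‖ ≤ R)
    (hc : ∀ j, ∑ i, ‖M i j‖ ≤ C) (σ : ℝ) (hσ : R * C ≤ σ ^ 2) : OpB M σ := by
  intro x
  have h1 : ∀ i, ‖∑ j, M i j * x j‖ ^ 2 ≤ R * ∑ j, ‖M i j‖ * ‖x j‖ ^ 2 := by
    intro i
    have a1 : ‖∑ j, M i j * x j‖ ≤ ∑ j, √‖M i j‖ * (√‖M i j‖ * ‖x j‖) := by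
      refine (norm_sum_le _ _).trans (le_of_eq (Finset.sum_congr rfl fun j _ => ?_))
      rw [norm_mul, ← mul_assoc, Real.mul_self_sqrt (norm_nonneg _)]
    have a2 : ‖∑ j, M i j * x j‖ ^ 2 ≤
        (∑ j, √‖M i j‖ ^ 2) * ∑ j, (√‖M i j‖ * ‖x j‖) ^ 2 :=
      (pow_le_pow_left₀ (norm_nonneg _) a1 2).trans (Finset.sum_mul_sq_le_sq_mul_sq _ _ _)
    have a3 : ∑ j, √‖M i j‖ ^ 2 = ∑ j, ‖M i j‖ :=
      Finset.sum_congr rfl fun j _ => Real.sq_sqrt (norm_nonneg _)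
    have a4 : ∑ j, (√‖M i j‖ * ‖x j‖) ^ 2 = ∑ j, ‖M i j‖ * ‖x j‖ ^ 2 :=
      Finset.sum_congr rfl fun j _ => by rw [mul_pow, Real.sq_sqrt (norm_nonneg _)]
    rw [a3, a4] at a2
    exact a2.trans (mul_le_mul_of_nonneg_right (hr i)
      (Finset.sum_nonneg fun j _ => by positivity))
  calc ∑ i, ‖∑ j, M i j * x j‖ ^ 2 ≤ ∑ i, R * ∑ j, ‖M i j‖ * ‖x j‖ ^ 2 :=
        Finset.sum_le_sum fun i _ => h1 i
    _ = R * ∑ j, (∑ i, ‖M i j‖) * ‖x j‖ ^ 2 := by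
        rw [← Finset.mul_sum, Finset.sum_comm]
        congr 1
        exact Finset.sum_congr rfl fun j _ => by rw [Finset.sum_mul]
    _ ≤ R * ∑ j, C * ‖x j‖ ^ 2 := by
        refine mul_le_mul_of_nonneg_left (Finset.sum_le_sum fun j _ => ?_) hR
        exact mul_le_mul_of_nonneg_right (hc j) (by positivity)
    _ = R * C * ∑ j, ‖x j‖ ^ 2 := by rw [← Finset.mul_sum, mul_assoc]
    _ ≤ σ ^ 2 * ∑ j, ‖x j‖ ^ 2 :=
        mul_le_mul_of_nonneg_right hσ (Finset.sum_nonneg fun j _ => by positivity)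

/-- **(b) THE HIGH PART ON A BOUNDED EDGE**: `|b . psi^{>h}|_op <= B S / h` -/
theorem opB_hi {b ψ : ι → κ → ℂ} {B S h : ℝ} (hB : 0 ≤ B) (hS : 0 ≤ S) (hh : 0 < h)
    (hb : ∀ i j, ‖b i j‖ ≤ B) (hr : ∀ i, ∑ j, ‖ψ i j‖ ^ 2 ≤ S)
    (hc : ∀ j, ∑ i, ‖ψ i j‖ ^ 2 ≤ S) :
    OpB (fun i j => b i j * hi h ψ i j) (B * S / h) := by
  have e : ∀ i j, ‖b i j * hi h ψ i j‖ ≤ B / h * ‖ψ i j‖ ^ 2 := by
    intro i j
    rw [norm_mul]
    calc ‖b i j‖ * ‖hi h ψ i j‖ ≤ B * (‖ψ i j‖ ^ 2 / h) :=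
          mul_le_mul (hb i j) (hi_le_sq hh ψ i j) (norm_nonneg _) hB
      _ = B / h * ‖ψ i j‖ ^ 2 := by ring
  have hBh : 0 ≤ B / h := by positivity
  refine opB_schur (R := B * S / h) (C := B * S / h) (by positivity) (fun i => ?_) (fun j => ?_)
    _ (le_of_eq (by ring))
  · refine (Finset.sum_le_sum fun j _ => e i j).trans ?_
    rw [← Finset.mul_sum]
    refine (mul_le_mul_of_nonneg_left (hr i) hBh).trans (le_of_eq (by ring))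
  · refine (Finset.sum_le_sum fun i _ => e i j).trans ?_
    rw [← Finset.mul_sum]
    refine (mul_le_mul_of_nonneg_left (hc j) hBh).trans (le_of_eq (by ring))

/-- HS norm of a tall section against a bounded letter (whole, low or high part) -/
theorem hs_le {b ψ φ : ι → κ → ℂ} {B : ℝ} (hb : ∀ i j, ‖b i j‖ ≤ B)
    (hφ : ∀ i j, ‖φ i j‖ ≤ ‖ψ i j‖) :
    ∑ j, ∑ i, ‖b i j * φ i j‖ ^ 2 ≤ B ^ 2 * ∑ j, ∑ i, ‖ψ i j‖ ^ 2 := by
  rw [Finset.mul_sum]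
  refine Finset.sum_le_sum fun j _ => ?_
  rw [Finset.mul_sum]
  refine Finset.sum_le_sum fun i _ => ?_
  rw [norm_mul, mul_pow]
  exact mul_le_mul (pow_le_pow_left₀ (norm_nonneg _) (hb i j) 2)
    (pow_le_pow_left₀ (norm_nonneg _) (hφ i j) 2) (by positivity) (by positivity)

/-! ### (c) even moments -/

/-- `K x` -/
def up (M : ι → κ → ℂ) (x : κ → ℂ) : ι → ℂ := fun i => ∑ j, M i j * x j

/-- `K* y` -/
def dn (M : ι → κ → ℂ) (y : ι → ℂ) : κ → ℂ := fun j => ∑ i, y i * (starRingEnd ℂ) (M i j)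

/-- `(K K*)^r` applied to the `j`-th column -/
def wv (M : ι → κ → ℂ) (r : ℕ) (j : κ) : ι → ℂ := (fun y => up M (dn M y))^[r] (fun i => M i j)

/-- `tr (K K*)^(m+1)`, `m = 2 r` -/
noncomputable def me (M : ι → κ → ℂ) (r : ℕ) : ℝ := ∑ j, ∑ i, ‖wv M r j i‖ ^ 2

/-- `tr (K K*)^(m+1)`, `m = 2 r + 1` -/
noncomputable def mo (M : ι → κ → ℂ) (r : ℕ) : ℝ := ∑ j, ∑ j', ‖dn M (wv M r j) j'‖ ^ 2

theorem wv_le {M : ι → κ → ℂ} {σ : ℝ} (h : OpB M σ) (hσ : 0 ≤ σ) (r : ℕ) (j : κ) :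
    ∑ i, ‖wv M r j i‖ ^ 2 ≤ (σ ^ 4) ^ r * ∑ i, ‖M i j‖ ^ 2 := by
  induction r with
  | zero => simp [wv]
  | succ r ih =>
    have e : wv M (r + 1) j = up M (dn M (wv M r j)) := by
      unfold wv
      rw [Function.iterate_succ_apply']
    rw [e]
    calc ∑ i, ‖up M (dn M (wv M r j)) i‖ ^ 2 ≤ σ ^ 2 * ∑ j', ‖dn M (wv M r j) j'‖ ^ 2 :=
          h (dn M (wv M r j))
      _ ≤ σ ^ 2 * (σ ^ 2 * ∑ i, ‖wv M r j i‖ ^ 2) :=
          mul_le_mul_of_nonneg_left (h.adj hσ _) (sq_nonneg _)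
      _ ≤ σ ^ 2 * (σ ^ 2 * ((σ ^ 4) ^ r * ∑ i, ‖M i j‖ ^ 2)) := by
          refine mul_le_mul_of_nonneg_left (mul_le_mul_of_nonneg_left ih (sq_nonneg _))
            (sq_nonneg _)
      _ = (σ ^ 4) ^ (r + 1) * ∑ i, ‖M i j‖ ^ 2 := by ring

/-- `tr (K K*)^(2 r + 1) ≤ σ^(4 r) |K|²` -/
theorem me_le {M : ι → κ → ℂ} {σ : ℝ} (h : OpB M σ) (hσ : 0 ≤ σ) (r : ℕ) :
    me M r ≤ (σ ^ 4) ^ r * ∑ j, ∑ i, ‖M i j‖ ^ 2 := by
  unfold me
  rw [Finset.mul_sum]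
  exact Finset.sum_le_sum fun j _ => wv_le h hσ r j

/-- `tr (K K*)^(2 r + 2) ≤ σ^(4 r + 2) |K|²` -/
theorem mo_le {M : ι → κ → ℂ} {σ : ℝ} (h : OpB M σ) (hσ : 0 ≤ σ) (r : ℕ) :
    mo M r ≤ σ ^ 2 * (σ ^ 4) ^ r * ∑ j, ∑ i, ‖M i j‖ ^ 2 := by
  unfold mo
  rw [Finset.mul_sum]
  refine Finset.sum_le_sum fun j _ => ?_
  refine (h.adj hσ (wv M r j)).trans ?_
  rw [mul_assoc]
  exact mul_le_mul_of_nonneg_left (wv_le h hσ r j) (sq_nonneg _)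

/-- **labels**: `n` blocks, each with operator norm `≤ σ` and HS norm² `≤ E` -/
theorem mo_labels {L : Type*} [Fintype L] {M : L → ι → κ → ℂ} {σ E : ℝ}
    (h : ∀ y, OpB (M y) σ) (hσ : 0 ≤ σ) (hE : ∀ y, ∑ j, ∑ i, ‖M y i j‖ ^ 2 ≤ E) (r : ℕ) :
    ∑ y, mo (M y) r ≤ Fintype.card L * (σ ^ 2 * (σ ^ 4) ^ r * E) := by
  calc ∑ y, mo (M y) r ≤ ∑ _y : L, σ ^ 2 * (σ ^ 4) ^ r * E := by
        refine Finset.sum_le_sum fun y _ => (mo_le (h y) hσ r).trans ?_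
        exact mul_le_mul_of_nonneg_left (hE y) (by positivity)
    _ = Fintype.card L * (σ ^ 2 * (σ ^ 4) ^ r * E) := by
        rw [Finset.sum_const, Finset.card_univ, nsmul_eq_mul]

/-- **(b) with labels**: high parts of `n` tall sections against one bounded letter:
`sum over labels of tr (K K*)^(2 r + 2) ≤ n (B S / h)^(4 r + 2) B² T` -/
theorem hi_labels {L : Type*} [Fintype L] {b : ι → κ → ℂ} {ψ : L → ι → κ → ℂ} {B S T h : ℝ}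
    (hB : 0 ≤ B) (hS : 0 ≤ S) (hh : 0 < h) (hb : ∀ i j, ‖b i j‖ ≤ B)
    (hr : ∀ y i, ∑ j, ‖ψ y i j‖ ^ 2 ≤ S) (hc : ∀ y j, ∑ i, ‖ψ y i j‖ ^ 2 ≤ S)
    (hT : ∀ y, ∑ j, ∑ i, ‖ψ y i j‖ ^ 2 ≤ T) (r : ℕ) :
    ∑ y, mo (fun i j => b i j * hi h (ψ y) i j) r ≤
      Fintype.card L * ((B * S / h) ^ 2 * ((B * S / h) ^ 4) ^ r * (B ^ 2 * T)) := by
  refine mo_labels (fun y => opB_hi hB hS hh hb (hr y) (hc y)) (by positivity) (fun y => ?_) r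
  refine (hs_le hb fun i j => hi_le_self h (ψ y) i j).trans ?_
  exact mul_le_mul_of_nonneg_left (hT y) (by positivity)

end mat

/-! ### (a) the low part on the edge of the killer -/

/-- **(a)** the op-level of `f` sees the low part of ANY gauge: loss `h` -/
theorem olev_lo {κ : ℕ} {k : Fin 4} {p : ℕ × ℤ} {f : ℤ → ℂ} {s : ℝ} (hO : OLev κ k p f s)
    {h : ℝ} (hh : 0 < h) (ψ : ℤ → ℤ → ℂ) {j e e' : Fin 4} (h1 : j ≠ k) (h2 : j ≠ e)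
    (h3 : j ≠ e') (h4 : k ≠ e) (h5 : k ≠ e') (h6 : e ≠ e') {r : ℕ} (hr : r ≤ κ) {n : ℕ}
    (hn : n = 2 ^ (p.1 + r)) (w q u : ℤ) (U V : Fin n → Fin n → ℂ) (α : Fin n → ℝ)
    (hα : ∀ c, 0 ≤ α c) (hU : ∀ c, ∑ i, ‖U c i‖ ^ 2 ≤ n * α c)
    (hV : ∀ c, ∑ i, ‖V c i‖ ^ 2 ≤ n * α c) (hα2 : ∑ c, α c ^ 2 ≤ n) :
    ‖∑ c : Fin n, ∑ i : Fin n, ∑ i' : Fin n,
        lo h ψ (q + ((i : ℕ) : ℤ)) (u + ((i' : ℕ) : ℤ)) *
          res p f ((sl j - sl k) * (w + ((c : ℕ) : ℤ)) + (sl e - sl k) * (q + ((i : ℕ) : ℤ)) +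
            (sl e' - sl k) * (u + ((i' : ℕ) : ℤ))) * U c i * V c i'‖ ≤ h * s * n ^ 3 := by
  have hc : (h : ℂ) ≠ 0 := by exact_mod_cast hh.ne'
  have key := hO j e e' h1 h2 h3 h4 h5 h6 r hr n hn w q u (fun z z' => (h : ℂ)⁻¹ * lo h ψ z z')
    (fun z z' => by
      rw [norm_mul, norm_inv, Complex.norm_real, Real.norm_eq_abs, abs_of_pos hh]
      calc h⁻¹ * ‖lo h ψ z z'‖ ≤ h⁻¹ * h :=
            mul_le_mul_of_nonneg_left (lo_le hh.le ψ z z') (by positivity)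
        _ = 1 := inv_mul_cancel₀ hh.ne') U V α hα hU hV hα2
  have e : (∑ c : Fin n, ∑ i : Fin n, ∑ i' : Fin n,
        lo h ψ (q + ((i : ℕ) : ℤ)) (u + ((i' : ℕ) : ℤ)) *
          res p f ((sl j - sl k) * (w + ((c : ℕ) : ℤ)) + (sl e - sl k) * (q + ((i : ℕ) : ℤ)) +
            (sl e' - sl k) * (u + ((i' : ℕ) : ℤ))) * U c i * V c i') =
      (h : ℂ) * ∑ c : Fin n, ∑ i : Fin n, ∑ i' : Fin n,
        (h : ℂ)⁻¹ * lo h ψ (q + ((i : ℕ) : ℤ)) (u + ((i' : ℕ) : ℤ)) *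
          res p f ((sl j - sl k) * (w + ((c : ℕ) : ℤ)) + (sl e - sl k) * (q + ((i : ℕ) : ℤ)) +
            (sl e' - sl k) * (u + ((i' : ℕ) : ℤ))) * U c i * V c i' := by
    simp only [Finset.mul_sum]
    refine Finset.sum_congr rfl fun c _ => Finset.sum_congr rfl fun i _ =>
      Finset.sum_congr rfl fun i' _ => ?_
    field_simp
  rw [e, norm_mul, Complex.norm_real, Real.norm_eq_abs, abs_of_pos hh, mul_assoc]
  exact mul_le_mul_of_nonneg_left key hh.le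

/-! ### (d) the numbers -/

/-- **(d)** `n ≤ t^(-C)` labels, exponent `q = 4 C + 8`, weight `t^(1/2)`: the gain is `t^(1/4)` -/
theorem gain {t n C : ℝ} (ht : 0 < t) (ht1 : t ≤ 1) (hC : 0 ≤ C) (hn0 : 0 ≤ n)
    (hn : n ≤ t ^ (-C)) :
    n ^ (1 / (4 * C + 8)) * (t ^ ((1 : ℝ) / 2)) ^ (1 - 2 / (4 * C + 8)) ≤ t ^ ((1 : ℝ) / 4) := by
  have hq : 0 < 4 * C + 8 := by linarith
  have h1 : n ^ (1 / (4 * C + 8)) ≤ (t ^ (-C)) ^ (1 / (4 * C + 8)) :=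
    Real.rpow_le_rpow hn0 hn (by positivity)
  refine (mul_le_mul_of_nonneg_right h1 (by positivity)).trans ?_
  rw [← Real.rpow_mul ht.le, ← Real.rpow_mul ht.le, ← Real.rpow_add ht]
  refine Real.rpow_le_rpow_of_exponent_ge ht ht1 ?_
  rw [show -C * (1 / (4 * C + 8)) + 1 / 2 * (1 - 2 / (4 * C + 8)) =
    1 / 2 - (C + 1) / (4 * C + 8) by field_simp; ring]
  have : (C + 1) / (4 * C + 8) ≤ 1 / 4 := by
    rw [div_le_iff₀ hq]
    linarith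
  linarith

end Crest.Agent.R079.TwoV128
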