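import Crest.Agent.R079.XCut_429

/-! R079, Step II (II.1), X word (helper429): quasi-triangle inequality of the fourth order box energy:
`e4_add_le : e4 (Y + Z) ≤ 8 (e4 Y + e4 Z)`, so `Σ ω e4 X ≤ 8 (4 κ h³ Λ + 2 (ρ / (h N))² E)` (`sum_e4_rows`). -/

set_option autoImplicit false
set_option linter.unusedVariables false

namespace Crest.Agent.R079.XAdd429

open Finset Crest.Agent.R079.R244 Crest.Agent.R079.XDual988 Crest.Agent.R079.XMix429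
  Crest.Agent.R079.XCut429

lemma cross_le (s : Finset ℕ) (f g : ℕ → ℕ → ℂ) :
    ∑ j ∈ s, ∑ j' ∈ s, ‖∑ i ∈ s, f i j * (starRingEnd ℂ) (g i j')‖ ^ 2 ≤
      (1 / 2) * (∑ j ∈ s, ∑ j' ∈ s, ‖∑ i ∈ s, f i j * (starRingEnd ℂ) (f i j')‖ ^ 2) +
      (1 / 2) * ∑ j ∈ s, ∑ j' ∈ s, ‖∑ i ∈ s, g i j * (starRingEnd ℂ) (g i j')‖ ^ 2 := by
  have h2 : ∑ j ∈ s, ∑ j' ∈ s, ‖∑ i ∈ s, f i j * (starRingEnd ℂ) (g i j')‖ ^ 2 ≤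
      ∑ i ∈ s, ∑ i' ∈ s, ((1 / 2) * ‖∑ j ∈ s, f i j * (starRingEnd ℂ) (f i' j)‖ ^ 2 +
        (1 / 2) * ‖∑ j ∈ s, g i j * (starRingEnd ℂ) (g i' j)‖ ^ 2) := by
    have e := sq_sum_eq s f g
    have h3 : ‖((∑ j ∈ s, ∑ j' ∈ s, ‖∑ i ∈ s, f i j * (starRingEnd ℂ) (g i j')‖ ^ 2 : ℝ) : ℂ)‖ =
        ∑ j ∈ s, ∑ j' ∈ s, ‖∑ i ∈ s, f i j * (starRingEnd ℂ) (g i j')‖ ^ 2 := by
      rw [Complex.norm_real, Real.norm_of_nonneg]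
      positivity
    rw [← h3, e]
    refine (norm_sum_le _ _).trans (Finset.sum_le_sum fun i _ => ?_)
    refine (norm_sum_le _ _).trans (Finset.sum_le_sum fun i' _ => ?_)
    rw [norm_mul, RCLike.norm_conj]
    nlinarith [sq_nonneg (‖∑ j ∈ s, f i j * (starRingEnd ℂ) (f i' j)‖ -
      ‖∑ j ∈ s, g i j * (starRingEnd ℂ) (g i' j)‖)]
  have e1 := sq_transpose s f
  have e2 := sq_transpose s g
  simp only [Finset.sum_add_distrib, ← Finset.mul_sum] at h2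
  rw [e1, e2] at h2
  exact h2

lemma norm_add4_sq (a b c d : ℂ) :
    ‖a + b + c + d‖ ^ 2 ≤ 4 * (‖a‖ ^ 2 + ‖b‖ ^ 2 + ‖c‖ ^ 2 + ‖d‖ ^ 2) := by
  have h1 := norm_add_le (a + b + c) d
  have h2 := norm_add_le (a + b) c
  have h3 := norm_add_le a b
  have h4 : ‖a + b + c + d‖ ≤ ‖a‖ + ‖b‖ + ‖c‖ + ‖d‖ := by linarith
  have h5 := pow_le_pow_left₀ (norm_nonneg _) h4 2
  nlinarith [sq_nonneg (‖a‖ - ‖b‖), sq_nonneg (‖a‖ - ‖c‖), sq_nonneg (‖a‖ - ‖d‖),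
    sq_nonneg (‖b‖ - ‖c‖), sq_nonneg (‖b‖ - ‖d‖), sq_nonneg (‖c‖ - ‖d‖)]

lemma quasi (s : Finset ℕ) (f g : ℕ → ℕ → ℂ) :
    ∑ j ∈ s, ∑ j' ∈ s, ‖∑ i ∈ s, (f i j + g i j) * (starRingEnd ℂ) (f i j' + g i j')‖ ^ 2 ≤
      8 * (∑ j ∈ s, ∑ j' ∈ s, ‖∑ i ∈ s, f i j * (starRingEnd ℂ) (f i j')‖ ^ 2 +
      ∑ j ∈ s, ∑ j' ∈ s, ‖∑ i ∈ s, g i j * (starRingEnd ℂ) (g i j')‖ ^ 2) := by
  have h1 : ∑ j ∈ s, ∑ j' ∈ s,
      ‖∑ i ∈ s, (f i j + g i j) * (starRingEnd ℂ) (f i j' + g i j')‖ ^ 2 ≤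
      ∑ j ∈ s, ∑ j' ∈ s, 4 * (‖∑ i ∈ s, f i j * (starRingEnd ℂ) (f i j')‖ ^ 2 +
        ‖∑ i ∈ s, f i j * (starRingEnd ℂ) (g i j')‖ ^ 2 +
        ‖∑ i ∈ s, g i j * (starRingEnd ℂ) (f i j')‖ ^ 2 +
        ‖∑ i ∈ s, g i j * (starRingEnd ℂ) (g i j')‖ ^ 2) := by
    refine Finset.sum_le_sum fun j _ => Finset.sum_le_sum fun j' _ => ?_
    refine le_trans (le_of_eq ?_) (norm_add4_sq _ _ _ _)
    congr 2
    rw [← Finset.sum_add_distrib, ← Finset.sum_add_distrib, ← Finset.sum_add_distrib]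
    refine Finset.sum_congr rfl fun i _ => ?_
    rw [map_add]
    ring
  have h2 := cross_le s f g
  have h3 := cross_le s g f
  simp only [← Finset.mul_sum, Finset.sum_add_distrib] at h1
  linarith

/-- quasi-triangle inequality of the fourth order box energy -/
lemma e4_add_le (Y Z : ℤ → ℤ → ℂ) (N : ℕ) (q p : ℤ) :
    e4 (fun x y => Y x y + Z x y) N q p ≤ 8 * (e4 Y N q p + e4 Z N q p) := by
  have h := quasi (range N) (fun i j => Y (q + (i : ℤ)) (p + (j : ℤ)))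
    (fun i j => Z (q + (i : ℤ)) (p + (j : ℤ)))
  unfold e4
  refine (mul_le_mul_of_nonneg_left h (by positivity)).trans (le_of_eq ?_)
  ring

/-- **X WORD, ROW FORM, total**: no height bound on `X`. -/
theorem sum_e4_rows {ι : Type*} [DecidableEq ι] {A : Finset ι} {ω : ι → ℝ}
    (hω : ∀ a ∈ A, 0 ≤ ω a)
    {X : ι → ℤ → ℤ → ℂ} {h ρ Λ E : ℝ} {Tx Ty : Finset ℤ} {N : ℕ} (hN : 0 < N) (hh : 0 < h)
    {γ δ : ℤ} (hγ : γ ≠ 0) (hδ : δ ≠ 0) (c : ι → ℤ) (κ : ℕ)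
    (hstr : ∀ a ∈ A, ∀ x y, X a x y ≠ 0 → c a ≤ γ * x + δ * y ∧ γ * x + δ * y < c a + κ * N)
    (hsup : ∀ a ∈ A, ∀ x y, X a x y ≠ 0 → x ∈ Tx ∧ y ∈ Ty) (hL : LevP A ω X Tx Ty Λ)
    (hr : ∀ a ∈ A, ∀ x p : ℤ, ∑ j ∈ range N, ‖X a x (p + (j : ℤ))‖ ^ 2 ≤ ρ)
    (hc : ∀ a ∈ A, ∀ q y : ℤ, ∑ i ∈ range N, ‖X a (q + (i : ℤ)) y‖ ^ 2 ≤ ρ)
    (hE : ∀ P : Finset (ι × ℤ × ℤ), (∀ t ∈ P, t.1 ∈ A) →
      ∑ t ∈ P, ω t.1 * e2 (X t.1) N t.2.1 t.2.2 ≤ E)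
    (P : Finset (ι × ℤ × ℤ)) (hP : ∀ t ∈ P, t.1 ∈ A) :
    ∑ t ∈ P, ω t.1 * e4 (X t.1) N t.2.1 t.2.2 ≤
      8 * (4 * (κ * (h ^ 3 * Λ)) + 2 * ((ρ / (h * N)) ^ 2 * E)) := by
  obtain ⟨h1, h2⟩ := sum_e4_lo hω hN hh hγ hδ c κ hstr hsup hL hr hc hE P hP
  have h3 : ∑ t ∈ P, ω t.1 * e4 (X t.1) N t.2.1 t.2.2 ≤
      ∑ t ∈ P, 8 * (ω t.1 * e4 (lo h (X t.1)) N t.2.1 t.2.2 +
        ω t.1 * e4 (hi h (X t.1)) N t.2.1 t.2.2) := by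
    refine Finset.sum_le_sum fun t ht => ?_
    have e : X t.1 = fun x y => lo h (X t.1) x y + hi h (X t.1) x y := by
      funext x y
      exact lo_add_hi h (X t.1) x y
    have h4 := e4_add_le (lo h (X t.1)) (hi h (X t.1)) N t.2.1 t.2.2
    rw [← e] at h4
    have h5 := mul_le_mul_of_nonneg_left h4 (hω t.1 (hP t ht))
    linarith
  rw [← Finset.mul_sum, Finset.sum_add_distrib] at h3
  linarith

end Crest.Agent.R079.XAdd429
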