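import Crest.Agent.R079.XMix_429

/-! R079, Step II (II.1), X word without height loss (helper429, text of helper988 28605), second half.
`lo h X`, `hi h X` = `X` cut at height `h`.
`e4_hi` : rows and columns of energy `≤ ρ` on the box give `e4 (hi h X) ≤ (ρ / (h N))² e2 X`.
`sum_e4_lo` : total energies of both parts, no height bound on `X`.
`comp_rows`, `rows_near_min` : rows of a near-minimiser of `|C - f|² + mass f` (class closed under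
`f -> f 1_{S^c}`, `S` any set of rows): the rows of energy `> 2ρ` have total energy `≤ 2η`. -/

set_option autoImplicit false
set_option linter.unusedVariables false

namespace Crest.Agent.R079.XCut429

open Finset Crest.Agent.R079.R244 Crest.Agent.R079.XDual988 Crest.Agent.R079.XMix429

/-- low part of a kernel -/
noncomputable def lo (h : ℝ) (X : ℤ → ℤ → ℂ) (x y : ℤ) : ℂ := if ‖X x y‖ ≤ h then X x y else 0

/-- tall part of a kernel -/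
noncomputable def hi (h : ℝ) (X : ℤ → ℤ → ℂ) (x y : ℤ) : ℂ := if ‖X x y‖ ≤ h then 0 else X x y

lemma lo_add_hi (h : ℝ) (X : ℤ → ℤ → ℂ) (x y : ℤ) : X x y = lo h X x y + hi h X x y := by
  unfold lo hi
  split_ifs <;> simp

lemma norm_lo_le {h : ℝ} (hh : 0 ≤ h) (X : ℤ → ℤ → ℂ) (x y : ℤ) : ‖lo h X x y‖ ≤ h := by
  unfold lo
  split_ifs with hc
  · exact hc
  · simpa using hh

lemma norm_hi_le {h : ℝ} (hh : 0 < h) (X : ℤ → ℤ → ℂ) (x y : ℤ) :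
    ‖hi h X x y‖ ≤ ‖X x y‖ ^ 2 / h := by
  unfold hi
  split_ifs with hc
  · rw [norm_zero]
    positivity
  · rw [le_div_iff₀ hh]
    push Not at hc
    nlinarith [norm_nonneg (X x y)]

lemma norm_hi_le' (h : ℝ) (X : ℤ → ℤ → ℂ) (x y : ℤ) : ‖hi h X x y‖ ≤ ‖X x y‖ := by
  unfold hi
  split_ifs
  · simp
  · exact le_rfl

/-- energy of the tall part of a kernel with bounded rows and columns -/
lemma e4_hi (X : ℤ → ℤ → ℂ) (N : ℕ) (q p : ℤ) {h ρ : ℝ} (hh : 0 < h)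
    (hr : ∀ i : ℤ, ∑ j ∈ range N, ‖X (q + i) (p + (j : ℤ))‖ ^ 2 ≤ ρ)
    (hc : ∀ j : ℤ, ∑ i ∈ range N, ‖X (q + (i : ℤ)) (p + j)‖ ^ 2 ≤ ρ) :
    e4 (hi h X) N q p ≤ (ρ / (h * N)) ^ 2 * e2 X N q p := by
  have h1 := e4_schur (hi h X) N q p (R := ρ / h)
    (fun i => (Finset.sum_le_sum fun j _ => norm_hi_le hh X _ _).trans (by
      rw [← Finset.sum_div]
      exact div_le_div_of_nonneg_right (hr i) hh.le))
    (fun j => (Finset.sum_le_sum fun i _ => norm_hi_le hh X _ _).trans (by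
      rw [← Finset.sum_div]
      exact div_le_div_of_nonneg_right (hc j) hh.le))
  have h2 : e2 (hi h X) N q p ≤ e2 X N q p := by
    unfold e2
    refine mul_le_mul_of_nonneg_left ?_ (by positivity)
    exact Finset.sum_le_sum fun i _ => Finset.sum_le_sum fun j _ =>
      pow_le_pow_left₀ (norm_nonneg _) (norm_hi_le' _ _ _ _) 2
  rw [div_div] at h1
  exact h1.trans (mul_le_mul_of_nonneg_left h2 (sq_nonneg _))

/-- **X WORD WITH A CUT, ROW FORM**: `X` in the strips, of level `Λ` against products, rows and columns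
of energy `≤ ρ`, total energy `≤ E`; no height bound. -/
theorem sum_e4_lo {ι : Type*} [DecidableEq ι] {A : Finset ι} {ω : ι → ℝ}
    (hω : ∀ a ∈ A, 0 ≤ ω a)
    {X : ι → ℤ → ℤ → ℂ} {h ρ Λ E : ℝ} {Tx Ty : Finset ℤ} {N : ℕ} (hN : 0 < N) (hh : 0 < h)
    {γ δ : ℤ} (hγ : γ ≠ 0) (hδ : δ ≠ 0) (c : ι → ℤ) (κ : ℕ)
    (hstr : ∀ a ∈ A, ∀ x y, X a x y ≠ 0 → c a ≤ γ * x + δ * y ∧ γ * x + δ * y < c a + κ * N)
    (hsup : ∀ a ∈ A, ∀ x y, X a x y ≠ 0 → x ∈ Tx ∧ y ∈ Ty) (hL : LevP A ω X Tx Ty Λ)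
    (hr : ∀ a ∈ A, ∀ x p : ℤ, ∑ j ∈ range N, ‖X a x (p + (j : ℤ))‖ ^ 2 ≤ ρ)
    (hc : ∀ a ∈ A, ∀ q y : ℤ, ∑ i ∈ range N, ‖X a (q + (i : ℤ)) y‖ ^ 2 ≤ ρ)
    (hE : ∀ P : Finset (ι × ℤ × ℤ), (∀ t ∈ P, t.1 ∈ A) →
      ∑ t ∈ P, ω t.1 * e2 (X t.1) N t.2.1 t.2.2 ≤ E)
    (P : Finset (ι × ℤ × ℤ)) (hP : ∀ t ∈ P, t.1 ∈ A) :
    ∑ t ∈ P, ω t.1 * e4 (lo h (X t.1)) N t.2.1 t.2.2 ≤
        4 * (κ * (h ^ 3 * Λ)) + (ρ / (h * N)) ^ 2 * E ∧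
      ∑ t ∈ P, ω t.1 * e4 (hi h (X t.1)) N t.2.1 t.2.2 ≤ (ρ / (h * N)) ^ 2 * E := by
  have hZ : ∀ P : Finset (ι × ℤ × ℤ), (∀ t ∈ P, t.1 ∈ A) →
      ∑ t ∈ P, ω t.1 * e4 (hi h (X t.1)) N t.2.1 t.2.2 ≤ (ρ / (h * N)) ^ 2 * E := by
    intro P hP
    calc ∑ t ∈ P, ω t.1 * e4 (hi h (X t.1)) N t.2.1 t.2.2
        ≤ ∑ t ∈ P, (ρ / (h * N)) ^ 2 * (ω t.1 * e2 (X t.1) N t.2.1 t.2.2) := by
          refine Finset.sum_le_sum fun t ht => ?_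
          have h1 := mul_le_mul_of_nonneg_left (e4_hi (X t.1) N t.2.1 t.2.2 hh
            (fun i => hr t.1 (hP t ht) _ _) (fun j => hc t.1 (hP t ht) _ _)) (hω t.1 (hP t ht))
          linarith
      _ = (ρ / (h * N)) ^ 2 * ∑ t ∈ P, ω t.1 * e2 (X t.1) N t.2.1 t.2.2 := by
          rw [Finset.mul_sum]
      _ ≤ (ρ / (h * N)) ^ 2 * E := mul_le_mul_of_nonneg_left (hE P hP) (sq_nonneg _)
  refine ⟨?_, hZ P hP⟩
  refine sum_e4_cut hω (X := X) (Y := fun a => lo h (X a)) (Z := fun a => hi h (X a)) hN hh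
    (fun a x y => lo_add_hi h (X a) x y) (fun a x y => norm_lo_le hh.le (X a) x y) hγ hδ c κ
    (fun a ha x y hne => hstr a ha x y ?_) hsup hL hZ P hP
  intro h0
  apply hne
  show lo h (X a) x y = 0
  unfold lo
  split_ifs
  · exact h0
  · rfl

/-- the competitor `f 1_{S^c}` -/
lemma comp_rows {α β : Type*} [DecidableEq α] (R : Finset α) (T : Finset β) (C f : α → β → ℂ)
    (mass : (α → β → ℂ) → ℝ) {η : ℝ}
    (hmin : ∀ g : α → β → ℂ, ∑ r ∈ R, ∑ y ∈ T, ‖C r y - f r y‖ ^ 2 + mass f ≤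
      ∑ r ∈ R, ∑ y ∈ T, ‖C r y - g r y‖ ^ 2 + mass g + η)
    (hmass : ∀ S ⊆ R, mass (fun r y => if r ∈ S then 0 else f r y) ≤ mass f) :
    ∀ S ⊆ R, ∑ r ∈ S, ∑ y ∈ T, ‖C r y - f r y‖ ^ 2 ≤ ∑ r ∈ S, ∑ y ∈ T, ‖C r y‖ ^ 2 + η := by
  intro S hS
  have h1 := hmin (fun r y => if r ∈ S then 0 else f r y)
  have h2 := hmass S hS
  have h3 : ∑ r ∈ R, ∑ y ∈ T, ‖C r y - f r y‖ ^ 2 =
      ∑ r ∈ R \ S, ∑ y ∈ T, ‖C r y - f r y‖ ^ 2 + ∑ r ∈ S, ∑ y ∈ T, ‖C r y - f r y‖ ^ 2 :=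
    (Finset.sum_sdiff hS).symm
  have h4 : ∑ r ∈ R, ∑ y ∈ T, ‖C r y - (if r ∈ S then 0 else f r y)‖ ^ 2 =
      ∑ r ∈ R \ S, ∑ y ∈ T, ‖C r y - f r y‖ ^ 2 + ∑ r ∈ S, ∑ y ∈ T, ‖C r y‖ ^ 2 := by
    rw [← Finset.sum_sdiff hS]
    congr 1
    · refine Finset.sum_congr rfl fun r hr => ?_
      rw [Finset.mem_sdiff] at hr
      simp only [if_neg hr.2]
    · refine Finset.sum_congr rfl fun r hr => ?_
      simp only [if_pos hr, sub_zero]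
  rw [h4] at h1
  linarith

/-- **rows of a near-minimiser** -/
lemma rows_near_min {α β : Type*} (R : Finset α) (T : Finset β) (C Y : α → β → ℂ) {η ρ : ℝ}
    (hcomp : ∀ S ⊆ R, ∑ r ∈ S, ∑ y ∈ T, ‖Y r y‖ ^ 2 ≤ ∑ r ∈ S, ∑ y ∈ T, ‖C r y‖ ^ 2 + η)
    (hC : ∀ r ∈ R, ∑ y ∈ T, ‖C r y‖ ^ 2 ≤ ρ) :
    ∑ r ∈ R.filter (fun r => 2 * ρ < ∑ y ∈ T, ‖Y r y‖ ^ 2), ∑ y ∈ T, ‖Y r y‖ ^ 2 ≤ 2 * η := by
  have h1 := hcomp _ (Finset.filter_subset (fun r => 2 * ρ < ∑ y ∈ T, ‖Y r y‖ ^ 2) R)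
  have h2 : ∑ r ∈ R.filter (fun r => 2 * ρ < ∑ y ∈ T, ‖Y r y‖ ^ 2), ∑ y ∈ T, ‖C r y‖ ^ 2 ≤
      ∑ r ∈ R.filter (fun r => 2 * ρ < ∑ y ∈ T, ‖Y r y‖ ^ 2),
        (1 / 2) * ∑ y ∈ T, ‖Y r y‖ ^ 2 := by
    refine Finset.sum_le_sum fun r hr => ?_
    rw [Finset.mem_filter] at hr
    have := hC r hr.1
    linarith [hr.2]
  rw [← Finset.mul_sum] at h2
  linarith

end Crest.Agent.R079.XCut429
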