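import Crest.Agent.R079.XDual_988

/-! R079, Step II (II.1), X word WITHOUT HEIGHT LOSS, analytic half (helper429, after helper988's XDual_988
and helper988's message 28605).

`m4 X Y` = mixed fourth order form (one corner `X`, three corners `Y`).  If `X` has level `Λ` against all
products of functions of modulus `≤ 1` and `Y` is bounded by `h` (same strips), the sum of `m4 X Y` over all
positions is `≤ κ h³ Λ`.  With `Y = X 1_{|X| ≤ h}`, `B = X 1_{|X| > h}`: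
`Σ e4 Y ≤ 4 κ h³ Λ + Σ e4 B`, and `e4 B ≤ (ρ / (h N))² e2 B` when rows and columns of `X` have energy `≤ ρ`.

HOW THIS IS TO BE USED (text of helper988, 28605): X = C - g with mass(g) ≤ 1/σ, level 2σ, height up to 3/σ:
`XDual988.sum_e4_le` gives H³Λ = 54 σ⁻², NOT small.  CURE: (1) row / column bound of a near-minimiser (own
node p): the dictionary is closed under u -> u 1_S (any set S of rows (w,z)), so g 1_{S^c} is a competitor with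
the same mass: |C - g|²_{S,p} ≤ |C|²_{S,p} + η len p for EVERY row set S, same for columns; hence off rows /
columns of total energy ≤ 2η the rows and columns of Y_p := C - f_p are ≤ 2ρ.  (2) the good part has level
≤ 2σ (products) and is cut at height h by this file.  (3) at every node p of the window X = C - gl f =
Y_p + (f_p - gl f), |f_p - gl f|_2(p) ≤ C sqrt δ (drift), height ≤ 2/σ: take δ = σ³.  (4) h = σ^(-1/4). -/

set_option autoImplicit false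
set_option linter.unusedVariables false

namespace Crest.Agent.R079.XMix429

open Finset Crest.Agent.R079.R244 Crest.Agent.R079.XDual988

lemma sum4_comm {β : Type*} [AddCommMonoid β] (s t u v : Finset ℕ) (F : ℕ → ℕ → ℕ → ℕ → β) :
    ∑ j ∈ s, ∑ j' ∈ t, ∑ i ∈ u, ∑ i' ∈ v, F j j' i i' =
      ∑ i ∈ u, ∑ i' ∈ v, ∑ j ∈ s, ∑ j' ∈ t, F j j' i i' := by
  have h1 : ∑ j ∈ s, ∑ j' ∈ t, ∑ i ∈ u, ∑ i' ∈ v, F j j' i i' =
      ∑ i ∈ u, ∑ j ∈ s, ∑ j' ∈ t, ∑ i' ∈ v, F j j' i i' := by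
    rw [Finset.sum_congr rfl fun j _ => Finset.sum_comm]
    exact Finset.sum_comm
  rw [h1]
  refine Finset.sum_congr rfl fun i _ => ?_
  rw [Finset.sum_congr rfl fun j _ => Finset.sum_comm]
  exact Finset.sum_comm

/-- transposition of the fourth order term -/
lemma sq_sum_eq (s : Finset ℕ) (f g : ℕ → ℕ → ℂ) :
    ((∑ j ∈ s, ∑ j' ∈ s, ‖∑ i ∈ s, f i j * (starRingEnd ℂ) (g i j')‖ ^ 2 : ℝ) : ℂ) =
      ∑ i ∈ s, ∑ i' ∈ s, (∑ j ∈ s, f i j * (starRingEnd ℂ) (f i' j)) *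
        (starRingEnd ℂ) (∑ j' ∈ s, g i j' * (starRingEnd ℂ) (g i' j')) := by
  have h1 : ((∑ j ∈ s, ∑ j' ∈ s, ‖∑ i ∈ s, f i j * (starRingEnd ℂ) (g i j')‖ ^ 2 : ℝ) : ℂ) =
      ∑ j ∈ s, ∑ j' ∈ s, ∑ i ∈ s, ∑ i' ∈ s, (f i j * (starRingEnd ℂ) (g i j')) *
        (starRingEnd ℂ) (f i' j * (starRingEnd ℂ) (g i' j')) := by
    rw [Complex.ofReal_sum]
    refine Finset.sum_congr rfl fun j _ => ?_
    rw [Complex.ofReal_sum]
    refine Finset.sum_congr rfl fun j' _ => ?_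
    exact normSq_sum fun i => f i j * (starRingEnd ℂ) (g i j')
  rw [h1, sum4_comm]
  refine Finset.sum_congr rfl fun i _ => Finset.sum_congr rfl fun i' _ => ?_
  rw [map_sum, Finset.sum_mul_sum]
  refine Finset.sum_congr rfl fun j _ => Finset.sum_congr rfl fun j' _ => ?_
  simp only [map_mul, Complex.conj_conj]
  ring

lemma sq_transpose (s : Finset ℕ) (f : ℕ → ℕ → ℂ) :
    ∑ i ∈ s, ∑ i' ∈ s, ‖∑ j ∈ s, f i j * (starRingEnd ℂ) (f i' j)‖ ^ 2 =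
      ∑ j ∈ s, ∑ j' ∈ s, ‖∑ i ∈ s, f i j * (starRingEnd ℂ) (f i j')‖ ^ 2 := by
  have h1 := sq_sum_eq s f f
  have h2 : (∑ i ∈ s, ∑ i' ∈ s, (∑ j ∈ s, f i j * (starRingEnd ℂ) (f i' j)) *
        (starRingEnd ℂ) (∑ j' ∈ s, f i j' * (starRingEnd ℂ) (f i' j'))) =
      ((∑ i ∈ s, ∑ i' ∈ s, ‖∑ j ∈ s, f i j * (starRingEnd ℂ) (f i' j)‖ ^ 2 : ℝ) : ℂ) := by
    rw [Complex.ofReal_sum]
    refine Finset.sum_congr rfl fun i _ => ?_
    rw [Complex.ofReal_sum]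
    refine Finset.sum_congr rfl fun i' _ => ?_
    rw [Complex.mul_conj, Complex.normSq_eq_norm_sq]
  rw [h2] at h1
  exact_mod_cast h1.symm

/-- mixed fourth order bound by AM-GM -/
lemma mixed_le (s : Finset ℕ) (f g : ℕ → ℕ → ℂ) :
    ‖∑ j ∈ s, ∑ j' ∈ s, (∑ i ∈ s, f i j * (starRingEnd ℂ) (g i j')) *
      (starRingEnd ℂ) (∑ i ∈ s, g i j * (starRingEnd ℂ) (g i j'))‖ ≤
      (1 / 4) * (∑ j ∈ s, ∑ j' ∈ s, ‖∑ i ∈ s, f i j * (starRingEnd ℂ) (f i j')‖ ^ 2) +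
      (3 / 4) * ∑ j ∈ s, ∑ j' ∈ s, ‖∑ i ∈ s, g i j * (starRingEnd ℂ) (g i j')‖ ^ 2 := by
  have h1 : ‖∑ j ∈ s, ∑ j' ∈ s, (∑ i ∈ s, f i j * (starRingEnd ℂ) (g i j')) *
      (starRingEnd ℂ) (∑ i ∈ s, g i j * (starRingEnd ℂ) (g i j'))‖ ≤
      ∑ j ∈ s, ∑ j' ∈ s, ((1 / 2) * ‖∑ i ∈ s, f i j * (starRingEnd ℂ) (g i j')‖ ^ 2 +
        (1 / 2) * ‖∑ i ∈ s, g i j * (starRingEnd ℂ) (g i j')‖ ^ 2) := by
    refine (norm_sum_le _ _).trans (Finset.sum_le_sum fun j _ => ?_)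
    refine (norm_sum_le _ _).trans (Finset.sum_le_sum fun j' _ => ?_)
    rw [norm_mul, RCLike.norm_conj]
    nlinarith [sq_nonneg (‖∑ i ∈ s, f i j * (starRingEnd ℂ) (g i j')‖ -
      ‖∑ i ∈ s, g i j * (starRingEnd ℂ) (g i j')‖)]
  have h2 : ∑ j ∈ s, ∑ j' ∈ s, ‖∑ i ∈ s, f i j * (starRingEnd ℂ) (g i j')‖ ^ 2 ≤
      ∑ i ∈ s, ∑ i' ∈ s, ((1 / 2) * ‖∑ j ∈ s, f i j * (starRingEnd ℂ) (f i' j)‖ ^ 2 +
        (1 / 2) * ‖∑ j ∈ s, g i j * (starRingEnd ℂ) (g i' j)‖ ^ 2) := by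
    have e := sq_sum_eq s f g
    have h3 : ‖((∑ j ∈ s, ∑ j' ∈ s, ‖∑ i ∈ s, f i j * (starRingEnd ℂ) (g i j')‖ ^ 2 : ℝ) : ℂ)‖ =
        ∑ j ∈ s, ∑ j' ∈ s, ‖∑ i ∈ s, f i j * (starRingEnd ℂ) (g i j')‖ ^ 2 := by
      rw [Complex.norm_real, Real.norm_of_nonneg]
      positivity
    rw [← h3, e]
    refine (norm_sum_le _ _).trans (Finset.sum_le_sum fun i _ => ?_)
    refine (norm_sum_le _ _).trans (Finset.sum_le_sum fun i' _ => ?_)
    rw [norm_mul, RCLike.norm_conj]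
    nlinarith [sq_nonneg (‖∑ j ∈ s, f i j * (starRingEnd ℂ) (f i' j)‖ -
      ‖∑ j ∈ s, g i j * (starRingEnd ℂ) (g i' j)‖)]
  have e1 := sq_transpose s f
  have e2 := sq_transpose s g
  simp only [Finset.sum_add_distrib, ← Finset.mul_sum] at h1 h2
  rw [e1, e2] at h2
  linarith

/-- mixed fourth order form: one corner `X`, three corners `Y` -/
noncomputable def m4 (X Y : ℤ → ℤ → ℂ) (N : ℕ) (q p : ℤ) : ℂ :=
  (1 / (N : ℂ) ^ 4) * ∑ j ∈ range N, ∑ j' ∈ range N, ∑ i ∈ range N, ∑ i' ∈ range N,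
    (X (q + (i : ℤ)) (p + (j : ℤ)) * (starRingEnd ℂ) (Y (q + (i : ℤ)) (p + (j' : ℤ)))) *
      (starRingEnd ℂ) (Y (q + (i' : ℤ)) (p + (j : ℤ)) *
        (starRingEnd ℂ) (Y (q + (i' : ℤ)) (p + (j' : ℤ))))

lemma m4_eq (X Y : ℤ → ℤ → ℂ) (N : ℕ) (q p : ℤ) : m4 X Y N q p =
    (1 / (N : ℂ) ^ 4) * ∑ j ∈ range N, ∑ j' ∈ range N,
      (∑ i ∈ range N, X (q + (i : ℤ)) (p + (j : ℤ)) * (starRingEnd ℂ) (Y (q + (i : ℤ)) (p + (j' : ℤ)))) *
      (starRingEnd ℂ) (∑ i ∈ range N, Y (q + (i : ℤ)) (p + (j : ℤ)) *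
        (starRingEnd ℂ) (Y (q + (i : ℤ)) (p + (j' : ℤ)))) := by
  unfold m4
  congr 1
  refine Finset.sum_congr rfl fun j _ => Finset.sum_congr rfl fun j' _ => ?_
  rw [map_sum, Finset.sum_mul_sum]

lemma e4_eq_m4 (X : ℤ → ℤ → ℂ) (N : ℕ) (q p : ℤ) : ((e4 X N q p : ℝ) : ℂ) = m4 X X N q p := by
  rw [m4_eq]
  unfold e4
  push_cast
  congr 1
  refine Finset.sum_congr rfl fun j _ => Finset.sum_congr rfl fun j' _ => ?_
  rw [Complex.mul_conj, Complex.normSq_eq_norm_sq]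
  push_cast
  rfl

lemma m4_add (X X' Y : ℤ → ℤ → ℂ) (N : ℕ) (q p : ℤ) :
    m4 (fun x y => X x y + X' x y) Y N q p = m4 X Y N q p + m4 X' Y N q p := by
  unfold m4
  rw [← mul_add]
  congr 1
  simp only [add_mul, Finset.sum_add_distrib]

lemma norm_m4_le (X Y : ℤ → ℤ → ℂ) (N : ℕ) (q p : ℤ) :
    ‖m4 X Y N q p‖ ≤ (1 / 4) * e4 X N q p + (3 / 4) * e4 Y N q p := by
  rw [m4_eq, norm_mul, norm_div, norm_one, norm_pow, Complex.norm_natCast]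
  have h := mixed_le (range N) (fun i j => X (q + (i : ℤ)) (p + (j : ℤ)))
    (fun i j => Y (q + (i : ℤ)) (p + (j : ℤ)))
  unfold e4
  refine (mul_le_mul_of_nonneg_left h (by positivity)).trans (le_of_eq ?_)
  ring

/-- tall part: `e4` from row and column sums -/
lemma e4_schur (X : ℤ → ℤ → ℂ) (N : ℕ) (q p : ℤ) {R : ℝ}
    (hr : ∀ i, ∑ j ∈ range N, ‖X (q + (i : ℤ)) (p + (j : ℤ))‖ ≤ R)
    (hc : ∀ j, ∑ i ∈ range N, ‖X (q + (i : ℤ)) (p + (j : ℤ))‖ ≤ R) :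
    e4 X N q p ≤ (R / N) ^ 2 * e2 X N q p := by
  have hR : 0 ≤ R := (Finset.sum_nonneg fun j _ => norm_nonneg _).trans (hr 0)
  set b : ℕ → ℕ → ℝ := fun i j => ‖X (q + (i : ℤ)) (p + (j : ℤ))‖ with hb
  have hb0 : ∀ i j, 0 ≤ b i j := fun i j => norm_nonneg _
  have h1 : ∑ j ∈ range N, ∑ j' ∈ range N, ‖∑ i ∈ range N, X (q + (i : ℤ)) (p + (j : ℤ)) *
      (starRingEnd ℂ) (X (q + (i : ℤ)) (p + (j' : ℤ)))‖ ^ 2 ≤
      ∑ j ∈ range N, ∑ j' ∈ range N, (∑ i ∈ range N, b i j * b i j') ^ 2 := by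
    refine Finset.sum_le_sum fun j _ => Finset.sum_le_sum fun j' _ => ?_
    refine pow_le_pow_left₀ (norm_nonneg _) ((norm_sum_le _ _).trans (Finset.sum_le_sum fun i _ => ?_)) 2
    rw [norm_mul, RCLike.norm_conj]
  have h2 : ∑ j ∈ range N, ∑ j' ∈ range N, (∑ i ∈ range N, b i j * b i j') ^ 2 =
      ∑ j ∈ range N, ∑ j' ∈ range N, ∑ i ∈ range N, ∑ i' ∈ range N,
        (b i j * b i' j') * (b i j' * b i' j) := by
    refine Finset.sum_congr rfl fun j _ => Finset.sum_congr rfl fun j' _ => ?_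
    rw [sq, Finset.sum_mul_sum]
    refine Finset.sum_congr rfl fun i _ => Finset.sum_congr rfl fun i' _ => ?_
    ring
  have h3 : ∑ j ∈ range N, ∑ j' ∈ range N, ∑ i ∈ range N, ∑ i' ∈ range N,
        (b i j * b i' j') * (b i j' * b i' j) ≤
      (1 / 2) * (∑ j ∈ range N, ∑ j' ∈ range N, ∑ i ∈ range N, ∑ i' ∈ range N,
        b i j ^ 2 * (b i j' * b i' j)) +
      (1 / 2) * (∑ j ∈ range N, ∑ j' ∈ range N, ∑ i ∈ range N, ∑ i' ∈ range N,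
        b i' j' ^ 2 * (b i j' * b i' j)) := by
    simp only [Finset.mul_sum, ← Finset.sum_add_distrib]
    refine Finset.sum_le_sum fun j _ => Finset.sum_le_sum fun j' _ => Finset.sum_le_sum fun i _ =>
      Finset.sum_le_sum fun i' _ => ?_
    have h4 : 0 ≤ b i j' * b i' j := mul_nonneg (hb0 _ _) (hb0 _ _)
    nlinarith [mul_nonneg h4 (sq_nonneg (b i j - b i' j'))]
  have h5 : ∑ j ∈ range N, ∑ j' ∈ range N, ∑ i ∈ range N, ∑ i' ∈ range N,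
        b i j ^ 2 * (b i j' * b i' j) ≤ R ^ 2 * ∑ j ∈ range N, ∑ i ∈ range N, b i j ^ 2 := by
    rw [Finset.mul_sum]
    refine Finset.sum_le_sum fun j _ => ?_
    rw [Finset.sum_comm, Finset.mul_sum]
    refine Finset.sum_le_sum fun i _ => ?_
    calc ∑ j' ∈ range N, ∑ i' ∈ range N, b i j ^ 2 * (b i j' * b i' j)
        = b i j ^ 2 * ((∑ j' ∈ range N, b i j') * ∑ i' ∈ range N, b i' j) := by
          rw [Finset.sum_mul_sum, Finset.mul_sum]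
          exact Finset.sum_congr rfl fun j' _ => by rw [Finset.mul_sum]
      _ ≤ b i j ^ 2 * (R * R) := by
          refine mul_le_mul_of_nonneg_left ?_ (sq_nonneg _)
          exact mul_le_mul (hr i) (hc j) (Finset.sum_nonneg fun _ _ => hb0 _ _) hR
      _ = R ^ 2 * b i j ^ 2 := by ring
  have h6 : ∑ j ∈ range N, ∑ j' ∈ range N, ∑ i ∈ range N, ∑ i' ∈ range N,
        b i' j' ^ 2 * (b i j' * b i' j) ≤ R ^ 2 * ∑ j ∈ range N, ∑ i ∈ range N, b i j ^ 2 := by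
    rw [Finset.sum_comm, Finset.mul_sum]
    refine Finset.sum_le_sum fun j' _ => ?_
    have e : ∑ j ∈ range N, ∑ i ∈ range N, ∑ i' ∈ range N, b i' j' ^ 2 * (b i j' * b i' j) =
        ∑ i' ∈ range N, b i' j' ^ 2 * ((∑ j ∈ range N, b i' j) * ∑ i ∈ range N, b i j') := by
      have e1 : ∀ j, ∑ i ∈ range N, ∑ i' ∈ range N, b i' j' ^ 2 * (b i j' * b i' j) =
          ∑ i' ∈ range N, ∑ i ∈ range N, b i' j' ^ 2 * (b i j' * b i' j) := fun j => Finset.sum_comm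
      rw [Finset.sum_congr rfl fun j _ => e1 j, Finset.sum_comm]
      refine Finset.sum_congr rfl fun i' _ => ?_
      rw [Finset.sum_mul_sum, Finset.mul_sum]
      refine Finset.sum_congr rfl fun j _ => ?_
      rw [Finset.mul_sum]
      exact Finset.sum_congr rfl fun i _ => by ring
    rw [e, Finset.mul_sum]
    refine Finset.sum_le_sum fun i' _ => ?_
    calc b i' j' ^ 2 * ((∑ j ∈ range N, b i' j) * ∑ i ∈ range N, b i j')
        ≤ b i' j' ^ 2 * (R * R) := by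
          refine mul_le_mul_of_nonneg_left ?_ (sq_nonneg _)
          exact mul_le_mul (hr i') (hc j') (Finset.sum_nonneg fun _ _ => hb0 _ _) hR
      _ = R ^ 2 * b i' j' ^ 2 := by ring
  have h7 : ∑ j ∈ range N, ∑ j' ∈ range N, ‖∑ i ∈ range N, X (q + (i : ℤ)) (p + (j : ℤ)) *
      (starRingEnd ℂ) (X (q + (i : ℤ)) (p + (j' : ℤ)))‖ ^ 2 ≤
      R ^ 2 * ∑ i ∈ range N, ∑ j ∈ range N, b i j ^ 2 := by
    rw [Finset.sum_comm (s := range N) (t := range N) (f := fun i j => b i j ^ 2)]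
    rw [h2] at h1
    linarith
  unfold e4 e2
  calc (1 / (N : ℝ) ^ 4) * _ ≤ (1 / (N : ℝ) ^ 4) * (R ^ 2 * ∑ i ∈ range N, ∑ j ∈ range N, b i j ^ 2) :=
        mul_le_mul_of_nonneg_left h7 (by positivity)
    _ = (R / N) ^ 2 * ((1 / (N : ℝ) ^ 2) * ∑ i ∈ range N, ∑ j ∈ range N, b i j ^ 2) := by
        rw [div_pow]; ring

/-- the mixed fourth order term at tile offsets `o1, o2` and reference points `i', j'` -/
noncomputable def Q4m (X Y : ℤ → ℤ → ℂ) (N : ℕ) (B o1 o2 : ℤ) (i' j' : ℕ) : ℂ :=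
  ∑ x ∈ Ico (o1 - B * N) (o1 + B * N), ∑ y ∈ Ico (o2 - B * N) (o2 + B * N),
    X x y * (starRingEnd ℂ) (Y x (o2 + ((y - o2) / N) * N + (j' : ℤ))) *
      (starRingEnd ℂ) (Y (o1 + ((x - o1) / N) * N + (i' : ℤ)) y) *
      Y (o1 + ((x - o1) / N) * N + (i' : ℤ)) (o2 + ((y - o2) / N) * N + (j' : ℤ))

lemma Q4m_eq (X Y : ℤ → ℤ → ℂ) (N : ℕ) (hN : 0 < N) (B o1 o2 : ℤ) (i' j' : ℕ) :
    Q4m X Y N B o1 o2 i' j' = ∑ k1 ∈ Ico (-B) B, ∑ i ∈ range N, ∑ k2 ∈ Ico (-B) B, ∑ j ∈ range N,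
      X (o1 + k1 * N + (i : ℤ)) (o2 + k2 * N + (j : ℤ)) *
      (starRingEnd ℂ) (Y (o1 + k1 * N + (i : ℤ)) (o2 + k2 * N + (j' : ℤ))) *
      (starRingEnd ℂ) (Y (o1 + k1 * N + (i' : ℤ)) (o2 + k2 * N + (j : ℤ))) *
      Y (o1 + k1 * N + (i' : ℤ)) (o2 + k2 * N + (j' : ℤ)) := by
  unfold Q4m
  rw [sum_tile N hN B o1 fun k1 x => ∑ k2 ∈ Ico (-B) B, ∑ j ∈ range N,
      X x (o2 + k2 * N + (j : ℤ)) *
      (starRingEnd ℂ) (Y x (o2 + k2 * N + (j' : ℤ))) *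
      (starRingEnd ℂ) (Y (o1 + k1 * N + (i' : ℤ)) (o2 + k2 * N + (j : ℤ))) *
      Y (o1 + k1 * N + (i' : ℤ)) (o2 + k2 * N + (j' : ℤ))]
  refine Finset.sum_congr rfl fun x _ => ?_
  rw [sum_tile N hN B o2 fun k2 y => X x y *
      (starRingEnd ℂ) (Y x (o2 + k2 * N + (j' : ℤ))) *
      (starRingEnd ℂ) (Y (o1 + ((x - o1) / N) * N + (i' : ℤ)) y) *
      Y (o1 + ((x - o1) / N) * N + (i' : ℤ)) (o2 + k2 * N + (j' : ℤ))]

/-- sum of `m4` over all positions of a big square = mixed fourth order terms -/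
lemma sum_m4 (X Y : ℤ → ℤ → ℂ) (N : ℕ) (hN : 0 < N) (B : ℤ) :
    (∑ q ∈ Ico (-(B * N)) (B * N), ∑ p ∈ Ico (-(B * N)) (B * N), m4 X Y N q p) =
      (1 / (N : ℂ) ^ 4) * ∑ o1 ∈ range N, ∑ o2 ∈ range N, ∑ i' ∈ range N, ∑ j' ∈ range N,
        Q4m X Y N B (o1 : ℤ) (o2 : ℤ) i' j' := by
  have h0 : ∀ f : ℤ → ℂ, ∑ q ∈ Ico (-(B * N)) (B * N), f q =
      ∑ k ∈ Ico (-B) B, ∑ o ∈ range N, f (k * N + (o : ℤ)) := by
    intro f
    have := sum_tile N hN B 0 fun _ x => f x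
    simp only [zero_add, zero_sub] at this
    rw [this]
  rw [h0]
  simp only [h0]
  obtain ⟨S, hS⟩ : ∃ S : ℤ → ℤ → ℂ, ∀ q p, S q p = ∑ j ∈ range N,
      ∑ j' ∈ range N, ∑ i ∈ range N, ∑ i' ∈ range N,
        (X (q + (i : ℤ)) (p + (j : ℤ)) * (starRingEnd ℂ) (Y (q + (i : ℤ)) (p + (j' : ℤ)))) *
        (starRingEnd ℂ) (Y (q + (i' : ℤ)) (p + (j : ℤ)) *
          (starRingEnd ℂ) (Y (q + (i' : ℤ)) (p + (j' : ℤ)))) := ⟨_, fun _ _ => rfl⟩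
  have h1 : ∀ q p : ℤ, m4 X Y N q p = (1 / (N : ℂ) ^ 4) * S q p := by
    intro q p
    rw [hS]
    rfl
  simp only [h1, Q4m_eq X Y N hN, ← Finset.mul_sum]
  congr 1
  simp only [hS]
  simp only [← Finset.sum_product']
  refine Finset.sum_nbij'
    (fun t => (t.2.1, t.2.2.2.1, t.2.2.2.2.2.2.2, t.2.2.2.2.2.1, t.1, t.2.2.2.2.2.2.1, t.2.2.1,
      t.2.2.2.2.1))
    (fun s => (s.2.2.2.2.1, s.1, s.2.2.2.2.2.2.1, s.2.1, s.2.2.2.2.2.2.2, s.2.2.2.1,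
      s.2.2.2.2.2.1, s.2.2.1)) ?_ ?_ ?_ ?_ ?_
  · rintro ⟨k1, o1, k2, o2, j, j', i, i'⟩ ht
    simp only [Finset.mem_product] at ht ⊢
    tauto
  · rintro ⟨o1, o2, i', j', k1, i, k2, j⟩ ht
    simp only [Finset.mem_product] at ht ⊢
    tauto
  · rintro ⟨k1, o1, k2, o2, j, j', i, i'⟩ ht
    rfl
  · rintro ⟨o1, o2, i', j', k1, i, k2, j⟩ ht
    rfl
  · rintro ⟨k1, o1, k2, o2, j, j', i, i'⟩ ht
    simp only [map_mul, Complex.conj_conj]
    have e1 : ∀ i : ℕ, (k1 * (N : ℤ) + (o1 : ℤ) + (i : ℤ)) = ((o1 : ℤ) + k1 * N + (i : ℤ)) := by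
      intro i; ring
    have e2 : ∀ i : ℕ, (k2 * (N : ℤ) + (o2 : ℤ) + (i : ℤ)) = ((o2 : ℤ) + k2 * N + (i : ℤ)) := by
      intro i; ring
    simp only [e1, e2]
    ring

section main

variable {ι : Type*} {A : Finset ι} {ω : ι → ℝ} {X Y : ι → ℤ → ℤ → ℂ} {H Λ : ℝ} {Tx Ty : Finset ℤ}

lemma Q_boundm {N : ℕ} (hN : 0 < N) (hH : 0 < H) (hX : ∀ a x y, ‖Y a x y‖ ≤ H) {γ δ : ℤ}
    (hγ : γ ≠ 0) (hδ : δ ≠ 0) (c : ι → ℤ) (κ : ℕ)
    (hstr : ∀ a ∈ A, ∀ x y, Y a x y ≠ 0 → c a ≤ γ * x + δ * y ∧ γ * x + δ * y < c a + κ * N)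
    (hsup : ∀ a ∈ A, ∀ x y, X a x y ≠ 0 → x ∈ Tx ∧ y ∈ Ty)
    (B o1 o2 : ℤ) (hB : Tx ⊆ Ico (o1 - B * N) (o1 + B * N))
    (hB' : Ty ⊆ Ico (o2 - B * N) (o2 + B * N)) (h : LevP A ω X Tx Ty Λ) (i' j' : ℕ) :
    ‖∑ a ∈ A, (ω a : ℂ) * Q4m (X a) (Y a) N B o1 o2 i' j'‖ ≤ κ * (H ^ 3 * Λ) := by
  classical
  have hNz : (0 : ℤ) < N := by exact_mod_cast hN
  set k1 : ℤ → ℤ := fun x => (x - o1) / N with hk1
  set k2 : ℤ → ℤ := fun y => (y - o2) / N with hk2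
  set ax : ℤ → ℤ := fun x => o1 + k1 x * N + (i' : ℤ) with hax
  set bY : ℤ → ℤ := fun y => o2 + k2 y * N + (j' : ℤ) with hbY
  set F : ι → ℤ → ℤ → ℂ := fun a x y => X a x y * (starRingEnd ℂ) (Y a x (bY y)) *
    (starRingEnd ℂ) (Y a (ax x) y) * Y a (ax x) (bY y) with hF
  set e : ℤ := γ * (o1 + i') + δ * (o2 + j') with he
  set n0 : ι → ℤ := fun a => -((-(c a - e)) / N) with hn0
  -- restriction of the sums
  have hQ : ∀ a ∈ A, Q4m (X a) (Y a) N B o1 o2 i' j' = ∑ x ∈ Tx, ∑ y ∈ Ty, F a x y := by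
    intro a ha
    have z : ∀ x y, ¬ (x ∈ Tx ∧ y ∈ Ty) → X a x y = 0 := by
      intro x y hxy
      by_contra hc
      exact hxy (hsup a ha x y hc)
    unfold Q4m
    rw [← Finset.sum_subset hB]
    · refine Finset.sum_congr rfl fun x _ => ?_
      rw [← Finset.sum_subset hB']
      intro y _ hy
      rw [z x y fun hc => hy hc.2]
      simp
    · intro x _ hx
      refine Finset.sum_eq_zero fun y _ => ?_
      rw [z x y fun hc => hx hc.1]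
      simp
  -- selection of the colour
  have hsel : ∀ a ∈ A, ∀ x y, F a x y =
      ∑ t ∈ range κ, if γ * k1 x + δ * k2 y = n0 a + (t : ℤ) then F a x y else 0 := by
    intro a ha x y
    by_cases hFz : F a x y = 0
    · rw [hFz]
      simp
    have h4 : Y a (ax x) (bY y) ≠ 0 := by
      intro hc
      exact hFz (by simp only [hF, hc, mul_zero])
    obtain ⟨s1, s2⟩ := hstr a ha _ _ h4
    have em : γ * ax x + δ * bY y = e + N * (γ * k1 x + δ * k2 y) := by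
      simp only [hax, hbY, he]; ring
    rw [em] at s1 s2
    obtain ⟨c1, c2⟩ := ceil_facts hN (c a - e)
    set m := γ * k1 x + δ * k2 y with hm
    have m1 : n0 a ≤ m := by
      by_contra hc
      push Not at hc
      have : (N : ℤ) * m ≤ N * (n0 a - 1) := mul_le_mul_of_nonneg_left (by omega) hNz.le
      simp only [hn0] at this
      linarith
    have m2 : m < n0 a + κ := by
      by_contra hc
      push Not at hc
      have : (N : ℤ) * (n0 a + κ) ≤ N * m := mul_le_mul_of_nonneg_left hc hNz.le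
      simp only [hn0] at this
      linarith
    rw [Finset.sum_eq_single (m - n0 a).toNat]
    · rw [if_pos]
      rw [Int.toNat_of_nonneg (by omega)]
      ring
    · intro t _ ht
      rw [if_neg]
      intro hc
      apply ht
      omega
    · intro hc
      exfalso
      apply hc
      rw [Finset.mem_range]
      omega
  -- range of the characters
  obtain ⟨M, hM⟩ := Finset.exists_nat_subset_range
    ((A ×ˢ Tx ×ˢ Ty ×ˢ range κ).image fun t =>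
      (γ * k1 t.2.1 + δ * k2 t.2.2.1 - (n0 t.1 + (t.2.2.2 : ℤ))).natAbs)
  have hMlt : ∀ a ∈ A, ∀ x ∈ Tx, ∀ y ∈ Ty, ∀ t ∈ range κ,
      (γ * k1 x + δ * k2 y - (n0 a + (t : ℤ))).natAbs < M + 1 := by
    intro a ha x hx y hy t ht
    have : (γ * k1 x + δ * k2 y - (n0 a + (t : ℤ))).natAbs ∈ range M := by
      apply hM
      rw [Finset.mem_image]
      exact ⟨(a, x, y, t), by simp only [Finset.mem_product]; exact ⟨ha, hx, hy, ht⟩, rfl⟩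
    have := Finset.mem_range.1 this
    omega
  have hMc : ((M + 1 : ℕ) : ℂ) ≠ 0 := by exact_mod_cast Nat.succ_ne_zero M
  -- one colour
  have hcol : ∀ t ∈ range κ, ‖∑ a ∈ A, (ω a : ℂ) * ∑ x ∈ Tx, ∑ y ∈ Ty,
      (if γ * k1 x + δ * k2 y = n0 a + (t : ℤ) then F a x y else 0)‖ ≤ H ^ 3 * Λ := by
    intro t ht
    set U : ZMod (M + 1) → ι → ℤ → ℂ := fun r a x =>
      ZMod.stdAddChar (r * ((γ * k1 x - (n0 a + (t : ℤ)) : ℤ) : ZMod (M + 1))) *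
        ((starRingEnd ℂ) (Y a x (o2 + ((n0 a + t - γ * k1 x) / δ) * N + (j' : ℤ))) *
          Y a (ax x) (o2 + ((n0 a + t - γ * k1 x) / δ) * N + (j' : ℤ))) with hU
    set V : ZMod (M + 1) → ι → ℤ → ℂ := fun r a y =>
      ZMod.stdAddChar (r * ((δ * k2 y : ℤ) : ZMod (M + 1))) *
        (starRingEnd ℂ) (Y a (o1 + ((n0 a + t - δ * k2 y) / γ) * N + (i' : ℤ)) y) with hV
    have hUb : ∀ r a x, ‖U r a x‖ ≤ H ^ 2 := by
      intro r a x
      simp only [hU, norm_mul, AddChar.norm_apply, one_mul, RCLike.norm_conj]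
      nlinarith [hX a x (o2 + ((n0 a + t - γ * k1 x) / δ) * N + (j' : ℤ)),
        hX a (ax x) (o2 + ((n0 a + t - γ * k1 x) / δ) * N + (j' : ℤ)),
        norm_nonneg (Y a x (o2 + ((n0 a + t - γ * k1 x) / δ) * N + (j' : ℤ))),
        norm_nonneg (Y a (ax x) (o2 + ((n0 a + t - γ * k1 x) / δ) * N + (j' : ℤ)))]
    have hVb : ∀ r a y, ‖V r a y‖ ≤ H := by
      intro r a y
      simp only [hV, norm_mul, AddChar.norm_apply, one_mul, RCLike.norm_conj]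
      exact hX _ _ _
    have hpt : ∀ a ∈ A, ∀ x ∈ Tx, ∀ y ∈ Ty,
        (if γ * k1 x + δ * k2 y = n0 a + (t : ℤ) then F a x y else 0) =
        (1 / ((M + 1 : ℕ) : ℂ)) * ∑ r : ZMod (M + 1), X a x y * U r a x * V r a y := by
      intro a ha x hx y hy
      have hi := ind_char (M + 1) _ (hMlt a ha x hx y hy t ht)
      have e1 : ∀ r : ZMod (M + 1), X a x y * U r a x * V r a y =
          (X a x y * ((starRingEnd ℂ) (Y a x (o2 + ((n0 a + t - γ * k1 x) / δ) * N + (j' : ℤ))) *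
          Y a (ax x) (o2 + ((n0 a + t - γ * k1 x) / δ) * N + (j' : ℤ))) *
          (starRingEnd ℂ) (Y a (o1 + ((n0 a + t - δ * k2 y) / γ) * N + (i' : ℤ)) y)) *
          ZMod.stdAddChar (r * ((γ * k1 x + δ * k2 y - (n0 a + (t : ℤ)) : ℤ) : ZMod (M + 1))) := by
        intro r
        have e2 : r * ((γ * k1 x + δ * k2 y - (n0 a + (t : ℤ)) : ℤ) : ZMod (M + 1)) =
            r * ((γ * k1 x - (n0 a + (t : ℤ)) : ℤ) : ZMod (M + 1)) +
              r * ((δ * k2 y : ℤ) : ZMod (M + 1)) := by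
          push_cast; ring
        rw [e2, AddChar.map_add_eq_mul]
        simp only [hU, hV]
        ring
      simp only [e1]
      rw [← Finset.mul_sum, mul_left_comm, ← hi]
      by_cases hm : γ * k1 x + δ * k2 y = n0 a + (t : ℤ)
      · rw [if_pos hm, if_pos (by omega), mul_one]
        have d1 : (n0 a + t - γ * k1 x) / δ = k2 y := by
          rw [← hm]
          rw [show γ * k1 x + δ * k2 y - γ * k1 x = δ * k2 y by ring]
          exact Int.mul_ediv_cancel_left _ hδ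
        have d2 : (n0 a + t - δ * k2 y) / γ = k1 x := by
          rw [← hm]
          rw [show γ * k1 x + δ * k2 y - δ * k2 y = γ * k1 x by ring]
          exact Int.mul_ediv_cancel_left _ hγ
        rw [d1, d2]
        simp only [hF, hax, hbY]
        ring
      · rw [if_neg hm, if_neg (by omega), mul_zero]
    have e3 : ∑ a ∈ A, (ω a : ℂ) * ∑ x ∈ Tx, ∑ y ∈ Ty,
        (if γ * k1 x + δ * k2 y = n0 a + (t : ℤ) then F a x y else 0) =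
        (1 / ((M + 1 : ℕ) : ℂ)) * ∑ r : ZMod (M + 1), ∑ a ∈ A, (ω a : ℂ) * ∑ x ∈ Tx, ∑ y ∈ Ty,
          X a x y * U r a x * V r a y := by
      rw [Finset.sum_comm, Finset.mul_sum]
      refine Finset.sum_congr rfl fun a ha => ?_
      rw [← Finset.mul_sum, mul_left_comm, ← swap3]
      congr 1
      rw [Finset.mul_sum]
      refine Finset.sum_congr rfl fun x hx => ?_
      rw [Finset.mul_sum]
      exact Finset.sum_congr rfl fun y hy => hpt a ha x hx y hy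
    rw [e3, norm_mul, norm_div, norm_one, Complex.norm_natCast]
    have h5 : ‖∑ r : ZMod (M + 1), ∑ a ∈ A, (ω a : ℂ) * ∑ x ∈ Tx, ∑ y ∈ Ty,
          X a x y * U r a x * V r a y‖ ≤ ((M + 1 : ℕ) : ℝ) * (H ^ 2 * H * Λ) := by
      refine (norm_sum_le _ _).trans ?_
      calc ∑ r : ZMod (M + 1), ‖∑ a ∈ A, (ω a : ℂ) * ∑ x ∈ Tx, ∑ y ∈ Ty,
            X a x y * U r a x * V r a y‖ ≤ ∑ _r : ZMod (M + 1), H ^ 2 * H * Λ :=
            Finset.sum_le_sum fun r _ =>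
              h.scaled (by positivity) hH (U r) (V r) (hUb r) (hVb r)
        _ = ((M + 1 : ℕ) : ℝ) * (H ^ 2 * H * Λ) := by
            rw [Finset.sum_const, Finset.card_univ, ZMod.card, nsmul_eq_mul]
    have h6 : (0 : ℝ) < ((M + 1 : ℕ) : ℝ) := by positivity
    calc 1 / ((M + 1 : ℕ) : ℝ) * _ ≤ 1 / ((M + 1 : ℕ) : ℝ) * (((M + 1 : ℕ) : ℝ) * (H ^ 2 * H * Λ)) :=
          mul_le_mul_of_nonneg_left h5 (by positivity)
      _ = H ^ 3 * Λ := by field_simp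
  -- all colours
  have e4' : ∑ a ∈ A, (ω a : ℂ) * Q4m (X a) (Y a) N B o1 o2 i' j' =
      ∑ t ∈ range κ, ∑ a ∈ A, (ω a : ℂ) * ∑ x ∈ Tx, ∑ y ∈ Ty,
        (if γ * k1 x + δ * k2 y = n0 a + (t : ℤ) then F a x y else 0) := by
    rw [Finset.sum_comm]
    refine Finset.sum_congr rfl fun a ha => ?_
    rw [hQ a ha, ← Finset.mul_sum]
    congr 1
    rw [← swap3]
    exact Finset.sum_congr rfl fun x hx => Finset.sum_congr rfl fun y hy => hsel a ha x y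
  rw [e4']
  refine (norm_sum_le _ _).trans ?_
  calc ∑ t ∈ range κ, ‖∑ a ∈ A, (ω a : ℂ) * ∑ x ∈ Tx, ∑ y ∈ Ty,
        (if γ * k1 x + δ * k2 y = n0 a + (t : ℤ) then F a x y else 0)‖
      ≤ ∑ _t ∈ range κ, H ^ 3 * Λ := Finset.sum_le_sum hcol
    _ = κ * (H ^ 3 * Λ) := by rw [Finset.sum_const, Finset.card_range, nsmul_eq_mul]

end main

/-- mixed sum over a big square -/
theorem sum_m4_le {ι : Type*} {A : Finset ι} {ω : ι → ℝ}
    {X Y : ι → ℤ → ℤ → ℂ} {H Λ : ℝ} {Tx Ty : Finset ℤ} {N : ℕ} (hN : 0 < N) (hH : 0 < H)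
    (hY : ∀ a x y, ‖Y a x y‖ ≤ H) {γ δ : ℤ} (hγ : γ ≠ 0) (hδ : δ ≠ 0) (c : ι → ℤ) (κ : ℕ)
    (hstr : ∀ a ∈ A, ∀ x y, Y a x y ≠ 0 → c a ≤ γ * x + δ * y ∧ γ * x + δ * y < c a + κ * N)
    (hsup : ∀ a ∈ A, ∀ x y, X a x y ≠ 0 → x ∈ Tx ∧ y ∈ Ty) (h : LevP A ω X Tx Ty Λ)
    (B : ℤ) (hB : ∀ o : ℕ, o ∈ range N → Tx ⊆ Ico ((o : ℤ) - B * N) (o + B * N))
    (hB' : ∀ o : ℕ, o ∈ range N → Ty ⊆ Ico ((o : ℤ) - B * N) (o + B * N)) :
    ‖∑ t ∈ A ×ˢ (Ico (-(B * N)) (B * N) ×ˢ Ico (-(B * N)) (B * N)),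
      (ω t.1 : ℂ) * m4 (X t.1) (Y t.1) N t.2.1 t.2.2‖ ≤ κ * (H ^ 3 * Λ) := by
  classical
  have hEc : ∑ t ∈ A ×ˢ (Ico (-(B * N)) (B * N) ×ˢ Ico (-(B * N)) (B * N)),
      (ω t.1 : ℂ) * m4 (X t.1) (Y t.1) N t.2.1 t.2.2 =
      (1 / (N : ℂ) ^ 4) * ∑ o1 ∈ range N, ∑ o2 ∈ range N, ∑ i' ∈ range N,
      ∑ j' ∈ range N, ∑ a ∈ A, (ω a : ℂ) * Q4m (X a) (Y a) N B (o1 : ℤ) (o2 : ℤ) i' j' := by
    have e1 : ∑ t ∈ A ×ˢ (Ico (-(B * N)) (B * N) ×ˢ Ico (-(B * N)) (B * N)),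
        (ω t.1 : ℂ) * m4 (X t.1) (Y t.1) N t.2.1 t.2.2 = ∑ a ∈ A, (ω a : ℂ) *
        ∑ q ∈ Ico (-(B * N)) (B * N), ∑ p ∈ Ico (-(B * N)) (B * N), m4 (X a) (Y a) N q p := by
      rw [Finset.sum_product]
      refine Finset.sum_congr rfl fun a _ => ?_
      rw [Finset.sum_product, Finset.mul_sum]
      refine Finset.sum_congr rfl fun q _ => ?_
      rw [Finset.mul_sum]
    rw [e1]
    have e2 : ∀ a ∈ A, (ω a : ℂ) * ∑ q ∈ Ico (-(B * N)) (B * N), ∑ p ∈ Ico (-(B * N)) (B * N),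
        m4 (X a) (Y a) N q p = (1 / (N : ℂ) ^ 4) * ∑ o1 ∈ range N, ∑ o2 ∈ range N,
          ∑ i' ∈ range N, ∑ j' ∈ range N,
            (ω a : ℂ) * Q4m (X a) (Y a) N B (o1 : ℤ) (o2 : ℤ) i' j' := by
      intro a _
      rw [sum_m4 (X a) (Y a) N hN B]
      simp only [← Finset.mul_sum]
      ring
    rw [Finset.sum_congr rfl e2, ← Finset.mul_sum]
    congr 1
    rw [Finset.sum_comm]
    refine Finset.sum_congr rfl fun o1 _ => ?_
    rw [Finset.sum_comm]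
    refine Finset.sum_congr rfl fun o2 _ => ?_
    rw [Finset.sum_comm]
    refine Finset.sum_congr rfl fun i' _ => ?_
    rw [Finset.sum_comm]
  rw [hEc, norm_mul, norm_div, norm_one, norm_pow, Complex.norm_natCast]
  have hN' : (0 : ℝ) < N := by exact_mod_cast hN
  have h2 : ‖∑ o1 ∈ range N, ∑ o2 ∈ range N, ∑ i' ∈ range N, ∑ j' ∈ range N,
      ∑ a ∈ A, (ω a : ℂ) * Q4m (X a) (Y a) N B (o1 : ℤ) (o2 : ℤ) i' j'‖ ≤
      (N : ℝ) ^ 4 * (κ * (H ^ 3 * Λ)) := by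
    have hk : ∀ (f : ℕ → ℂ) (b : ℝ), (∀ i ∈ range N, ‖f i‖ ≤ b) →
        ‖∑ i ∈ range N, f i‖ ≤ N * b := by
      intro f b hf
      refine (norm_sum_le _ _).trans ((Finset.sum_le_sum hf).trans (le_of_eq ?_))
      rw [Finset.sum_const, Finset.card_range, nsmul_eq_mul]
    refine (hk _ _ fun o1 ho1 => hk _ _ fun o2 ho2 => hk _ _ fun i' _ => hk _ _ fun j' _ =>
      Q_boundm hN hH hY hγ hδ c κ hstr hsup B o1 o2 (hB o1 ho1) (hB' o2 ho2) h i' j').trans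
      (le_of_eq (by ring))
  calc 1 / (N : ℝ) ^ 4 * _ ≤ 1 / (N : ℝ) ^ 4 * ((N : ℝ) ^ 4 * (κ * (H ^ 3 * Λ))) :=
        mul_le_mul_of_nonneg_left h2 (by positivity)
    _ = κ * (H ^ 3 * Λ) := by field_simp

/-- **X WORD WITH A CUT**: `X = Y + Z`, `Y` of height `≤ H` in the strips, `X` of level `Λ` against
products; the sum of the Schatten-4 energies of `Y` over any finite set of boxes is `≤ 4 κ H³ Λ + E`, `E` any
bound for the energies of `Z`.  `X` itself needs NO height bound. -/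
theorem sum_e4_cut {ι : Type*} [DecidableEq ι] {A : Finset ι} {ω : ι → ℝ}
    (hω : ∀ a ∈ A, 0 ≤ ω a)
    {X Y Z : ι → ℤ → ℤ → ℂ} {H Λ E : ℝ} {Tx Ty : Finset ℤ} {N : ℕ} (hN : 0 < N) (hH : 0 < H)
    (hXYZ : ∀ a x y, X a x y = Y a x y + Z a x y)
    (hY : ∀ a x y, ‖Y a x y‖ ≤ H) {γ δ : ℤ} (hγ : γ ≠ 0) (hδ : δ ≠ 0) (c : ι → ℤ) (κ : ℕ)
    (hstr : ∀ a ∈ A, ∀ x y, Y a x y ≠ 0 → c a ≤ γ * x + δ * y ∧ γ * x + δ * y < c a + κ * N)
    (hsup : ∀ a ∈ A, ∀ x y, X a x y ≠ 0 → x ∈ Tx ∧ y ∈ Ty) (h : LevP A ω X Tx Ty Λ)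
    (hZ : ∀ P : Finset (ι × ℤ × ℤ), (∀ t ∈ P, t.1 ∈ A) →
      ∑ t ∈ P, ω t.1 * e4 (Z t.1) N t.2.1 t.2.2 ≤ E)
    (P : Finset (ι × ℤ × ℤ)) (hP : ∀ t ∈ P, t.1 ∈ A) :
    ∑ t ∈ P, ω t.1 * e4 (Y t.1) N t.2.1 t.2.2 ≤ 4 * (κ * (H ^ 3 * Λ)) + E := by
  classical
  have he4 : ∀ (W : ℤ → ℤ → ℂ) (q p : ℤ), 0 ≤ e4 W N q p := by
    intro W q p
    unfold e4
    positivity
  have hNz : (0 : ℤ) < N := by exact_mod_cast hN
  obtain ⟨B0, hB0⟩ := Finset.exists_nat_subset_range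
    (((P.image fun t => t.2.1) ∪ (P.image fun t => t.2.2) ∪ Tx ∪ Ty).image Int.natAbs)
  have hb : ∀ z ∈ ((P.image fun t => t.2.1) ∪ (P.image fun t => t.2.2) ∪ Tx ∪ Ty),
      z.natAbs < B0 := fun z hz => Finset.mem_range.1 (hB0 (Finset.mem_image_of_mem _ hz))
  set B : ℤ := (B0 : ℤ) + 1 with hB
  have hBN : (B0 : ℤ) + N ≤ B * N := by
    have : (0 : ℤ) ≤ B0 := by positivity
    nlinarith
  have h1 : ∑ t ∈ P, ω t.1 * e4 (Y t.1) N t.2.1 t.2.2 ≤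
      ∑ t ∈ A ×ˢ (Ico (-(B * N)) (B * N) ×ˢ Ico (-(B * N)) (B * N)),
        ω t.1 * e4 (Y t.1) N t.2.1 t.2.2 := by
    refine Finset.sum_le_sum_of_subset_of_nonneg ?_ ?_
    · intro t ht
      have b1 := hb t.2.1 (by
        simp only [Finset.mem_union]
        exact Or.inl (Or.inl (Or.inl (Finset.mem_image_of_mem _ ht))))
      have b2 := hb t.2.2 (by
        simp only [Finset.mem_union]
        exact Or.inl (Or.inl (Or.inr (Finset.mem_image_of_mem (fun t => t.2.2) ht))))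
      simp only [Finset.mem_product, Finset.mem_Ico]
      refine ⟨hP t ht, ⟨?_, ?_⟩, ⟨?_, ?_⟩⟩ <;> omega
    · intro t ht _
      exact mul_nonneg (hω _ (Finset.mem_product.1 ht).1) (he4 _ _ _)
  have hTx : ∀ o : ℕ, o ∈ range N → Tx ⊆ Ico ((o : ℤ) - B * N) (o + B * N) := by
    intro o ho x hx
    have b1 := hb x (by
      simp only [Finset.mem_union]
      exact Or.inl (Or.inr hx))
    have ho' := Finset.mem_range.1 ho
    rw [Finset.mem_Ico]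
    constructor <;> omega
  have hTy : ∀ o : ℕ, o ∈ range N → Ty ⊆ Ico ((o : ℤ) - B * N) (o + B * N) := by
    intro o ho x hx
    have b1 := hb x (by
      simp only [Finset.mem_union]
      exact Or.inr hx)
    have ho' := Finset.mem_range.1 ho
    rw [Finset.mem_Ico]
    constructor <;> omega
  have h2 := sum_m4_le hN hH hY hγ hδ c κ hstr hsup h B hTx hTy
  have hZT := hZ (A ×ˢ (Ico (-(B * N)) (B * N) ×ˢ Ico (-(B * N)) (B * N)))
    fun t ht => (Finset.mem_product.1 ht).1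
  set T : Finset (ι × ℤ × ℤ) := A ×ˢ (Ico (-(B * N)) (B * N) ×ˢ Ico (-(B * N)) (B * N)) with hT
  have hTA : ∀ t ∈ T, t.1 ∈ A := fun t ht => (Finset.mem_product.1 ht).1
  have h3 : ((∑ t ∈ T, ω t.1 * e4 (Y t.1) N t.2.1 t.2.2 : ℝ) : ℂ) =
      ∑ t ∈ T, (ω t.1 : ℂ) * m4 (X t.1) (Y t.1) N t.2.1 t.2.2 -
        ∑ t ∈ T, (ω t.1 : ℂ) * m4 (Z t.1) (Y t.1) N t.2.1 t.2.2 := by
    rw [← Finset.sum_sub_distrib, Complex.ofReal_sum]
    refine Finset.sum_congr rfl fun t _ => ?_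
    have e : X t.1 = fun x y => Y t.1 x y + Z t.1 x y := by
      funext x y
      exact hXYZ _ _ _
    rw [Complex.ofReal_mul, e4_eq_m4, e, m4_add]
    ring
  have h4 : ‖∑ t ∈ T, (ω t.1 : ℂ) * m4 (Z t.1) (Y t.1) N t.2.1 t.2.2‖ ≤
      (1 / 4) * ∑ t ∈ T, ω t.1 * e4 (Z t.1) N t.2.1 t.2.2 +
        (3 / 4) * ∑ t ∈ T, ω t.1 * e4 (Y t.1) N t.2.1 t.2.2 := by
    rw [Finset.mul_sum, Finset.mul_sum, ← Finset.sum_add_distrib]
    refine (norm_sum_le _ _).trans (Finset.sum_le_sum fun t ht => ?_)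
    have hw := hω t.1 (hTA t ht)
    rw [norm_mul, Complex.norm_real, Real.norm_of_nonneg hw]
    have := mul_le_mul_of_nonneg_left (norm_m4_le (Z t.1) (Y t.1) N t.2.1 t.2.2) hw
    linarith
  have h5 : ‖((∑ t ∈ T, ω t.1 * e4 (Y t.1) N t.2.1 t.2.2 : ℝ) : ℂ)‖ =
      ∑ t ∈ T, ω t.1 * e4 (Y t.1) N t.2.1 t.2.2 := by
    rw [Complex.norm_real, Real.norm_of_nonneg]
    exact Finset.sum_nonneg fun t ht => mul_nonneg (hω _ (hTA t ht)) (he4 _ _ _)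
  have h6 := norm_sub_le (∑ t ∈ T, (ω t.1 : ℂ) * m4 (X t.1) (Y t.1) N t.2.1 t.2.2)
    (∑ t ∈ T, (ω t.1 : ℂ) * m4 (Z t.1) (Y t.1) N t.2.1 t.2.2)
  rw [← h3, h5] at h6
  linarith

end Crest.Agent.R079.XMix429
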